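import Mathlib

set_option linter.all false

section

section

attribute [-instance] ProperSMul.toContinuousSMul IsTopologicalTorsor.toContinuousSMul
  IdemSemiring.toCanonicallyOrderedAdd IdemSemiring.toMulLeftMono IdemSemiring.toMulRightMono
  AddQuantale.instAddLeftMono AddQuantale.instAddRightMono Quantale.instMulLeftMono
  Quantale.instMulRightMono FiniteDimensional.rclike_to_real IsScalarTower.complexToReal
  FiniteDimensional.complexToReal

section

/-!
Definitions for the three-dimensional one-species relativistic Vlasov-Maxwell system.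
-/

open MeasureTheory Set Filter Topology

namespace Vale.Agent.P107

/-- Three-dimensional Euclidean space. -/
abbrev E3 : Type := EuclideanSpace ℝ (Fin 3)

/-- The particle energy `q(v) = √(1 + |v|²)`. -/
noncomputable def q (v : E3) : ℝ := Real.sqrt (1 + ‖v‖ ^ 2)

/-- The particle velocity `u(v) = v / q(v)`. -/
noncomputable def u (v : E3) : E3 := (q v)⁻¹ • v

/-- The cross product on `E3`. -/
def cross (a b : E3) : E3 :=
  !₂[a 1 * b 2 - a 2 * b 1, a 2 * b 0 - a 0 * b 2, a 0 * b 1 - a 1 * b 0]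

/-- The partial derivative `∂ᵢ g (x)` of a scalar function. -/
noncomputable def pd (i : Fin 3) (g : E3 → ℝ) (x : E3) : ℝ :=
  fderiv ℝ g x (EuclideanSpace.single i 1)

/-- The divergence of a vector field. -/
noncomputable def div (F : E3 → E3) (x : E3) : ℝ := ∑ i, pd i (fun y => F y i) x

/-- The curl of a vector field. -/
noncomputable def curl (F : E3 → E3) (x : E3) : E3 :=
  !₂[pd 1 (fun y => F y 2) x - pd 2 (fun y => F y 1) x,
     pd 2 (fun y => F y 0) x - pd 0 (fun y => F y 2) x,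
     pd 0 (fun y => F y 1) x - pd 1 (fun y => F y 0) x]

/-- The charge density `ρ_f(t,x) = ∫ f dv`. -/
noncomputable def rho (f : ℝ → E3 → E3 → ℝ) (t : ℝ) (x : E3) : ℝ := ∫ v, f t x v

/-- The current density `j_f(t,x) = ∫ u(v) f dv`. -/
noncomputable def cur (f : ℝ → E3 → E3 → ℝ) (t : ℝ) (x : E3) : E3 := ∫ v, f t x v • u v

/-- `(f, E, B)` is a classical solution on `[0,T)` of the relativistic Vlasov-Maxwell system:
a `C¹` triple with `f ≥ 0`, solving the equations pointwise, with `E, B ∈ C([0,T); L²)`, and such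
that the `(x,v)`-support of `f` stays in a compact set on compact time subintervals. -/
structure IsClassicalSolution (T : ℝ) (f : ℝ → E3 → E3 → ℝ) (E B : ℝ → E3 → E3) : Prop where
  f_nonneg : ∀ t ∈ Ico 0 T, ∀ x v, 0 ≤ f t x v
  f_contDiff : ContDiffOn ℝ 1 (fun z : ℝ × E3 × E3 => f z.1 z.2.1 z.2.2) (Ico 0 T ×ˢ univ)
  E_contDiff : ContDiffOn ℝ 1 (fun z : ℝ × E3 => E z.1 z.2) (Ico 0 T ×ˢ univ)
  B_contDiff : ContDiffOn ℝ 1 (fun z : ℝ × E3 => B z.1 z.2) (Ico 0 T ×ˢ univ)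
  vlasov : ∀ t ∈ Ico 0 T, ∀ x v,
    derivWithin (fun s => f s x v) (Ico 0 T) t
      + fderiv ℝ (fun y => f t y v) x (u v)
      + fderiv ℝ (fun w => f t x w) v (E t x + cross (u v) (B t x)) = 0
  ampere : ∀ t ∈ Ico 0 T, ∀ x,
    derivWithin (fun s => E s x) (Ico 0 T) t - curl (B t) x = - cur f t x
  faraday : ∀ t ∈ Ico 0 T, ∀ x,
    derivWithin (fun s => B s x) (Ico 0 T) t + curl (E t) x = 0
  gauss : ∀ t ∈ Ico 0 T, ∀ x, div (E t) x = rho f t x
  gauss_mag : ∀ t ∈ Ico 0 T, ∀ x, div (B t) x = 0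
  E_memLp : ∀ t ∈ Ico 0 T, MemLp (E t) 2 volume
  B_memLp : ∀ t ∈ Ico 0 T, MemLp (B t) 2 volume
  E_cont : ∀ t ∈ Ico 0 T,
    Tendsto (fun s => eLpNorm (fun x => E s x - E t x) 2 volume) (𝓝[Ico 0 T] t) (𝓝 0)
  B_cont : ∀ t ∈ Ico 0 T,
    Tendsto (fun s => eLpNorm (fun x => B s x - B t x) 2 volume) (𝓝[Ico 0 T] t) (𝓝 0)
  compact_support : ∀ t ∈ Ico 0 T, ∃ R : ℝ, ∀ s ∈ Icc 0 t, ∀ x v,
    f s x v ≠ 0 → ‖x‖ ≤ R ∧ ‖v‖ ≤ R

end Vale.Agent.P107
end
end
end

section

section

attribute [-instance] ProperSMul.toContinuousSMul IsTopologicalTorsor.toContinuousSMul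
  IdemSemiring.toCanonicallyOrderedAdd IdemSemiring.toMulLeftMono IdemSemiring.toMulRightMono
  AddQuantale.instAddLeftMono AddQuantale.instAddRightMono Quantale.instMulLeftMono
  Quantale.instMulRightMono FiniteDimensional.rclike_to_real IsScalarTower.complexToReal
  FiniteDimensional.complexToReal

section

/-!
Elementary facts on the energy `q`, the velocity `u` and the cross product.
-/

open MeasureTheory Set Filter Topology
open scoped RealInnerProductSpace

namespace Vale.Agent.P107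

lemma one_le_q (v : E3) : 1 ≤ q v := by
  unfold q
  rw [Real.one_le_sqrt]
  nlinarith only []

lemma q_pos (v : E3) : 0 < q v := lt_of_lt_of_le one_pos (one_le_q v)

lemma q_sq (v : E3) : q v ^ 2 = 1 + ‖v‖ ^ 2 := by
  unfold q
  rw [Real.sq_sqrt (by positivity)]

lemma norm_lt_q (v : E3) : ‖v‖ < q v := by
  have h1 := q_sq v
  have h2 := q_pos v
  nlinarith only [h1, h2]

lemma q_le_one_add_norm (v : E3) : q v ≤ 1 + ‖v‖ := by
  have h1 := q_sq v
  have h2 := q_pos v
  nlinarith only [h1, norm_nonneg v]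

lemma norm_u (v : E3) : ‖u v‖ = ‖v‖ / q v := by
  unfold u
  rw [norm_smul, norm_inv, Real.norm_of_nonneg (q_pos v).le]
  field_simp

lemma norm_u_lt_one (v : E3) : ‖u v‖ < 1 := by
  rw [norm_u, div_lt_one (q_pos v)]
  exact norm_lt_q v

lemma norm_u_sq (v : E3) : 1 - ‖u v‖ ^ 2 = (q v ^ 2)⁻¹ := by
  rw [norm_u]
  have h1 := q_sq v
  have h2 := q_pos v
  field_simp
  linarith only [h1]

lemma q_smul_u (v : E3) : q v • u v = v := by
  unfold u
  rw [smul_smul, mul_inv_cancel₀ (q_pos v).ne', one_smul]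

lemma inner_u_eq (v w : E3) : ⟪u v, w⟫ = ⟪v, w⟫ / q v := by
  unfold u
  rw [real_inner_smul_left]
  field_simp

lemma abs_inner_le_of_norm_le_one (v w : E3) (hw : ‖w‖ ≤ 1) : |⟪v, w⟫| ≤ ‖v‖ := by
  have := abs_real_inner_le_norm v w
  nlinarith only [hw, this, norm_nonneg v]

lemma q_add_inner_pos (v w : E3) (hw : ‖w‖ ≤ 1) : 0 < q v + ⟪v, w⟫ := by
  have h1 := norm_lt_q v
  have h2 := abs_le.1 (abs_inner_le_of_norm_le_one v w hw)
  linarith only [h1, h2.1]

lemma one_add_inner_u_eq (v w : E3) : 1 + ⟪u v, w⟫ = (q v + ⟪v, w⟫) / q v := by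
  rw [inner_u_eq]
  have := q_pos v
  field_simp

lemma one_add_inner_u_pos (v w : E3) (hw : ‖w‖ ≤ 1) : 0 < 1 + ⟪u v, w⟫ := by
  rw [one_add_inner_u_eq]
  exact div_pos (q_add_inner_pos v w hw) (q_pos v)

/-- `q + v·ω ≥ 1/(2q)`. -/
lemma inv_le_q_add_inner (v w : E3) (hw : ‖w‖ ≤ 1) : (2 * q v)⁻¹ ≤ q v + ⟪v, w⟫ := by
  have h1 := norm_lt_q v
  have h2 := abs_le.1 (abs_inner_le_of_norm_le_one v w hw)
  have h3 := q_sq v
  have h4 := q_pos v
  have h5 : (2 * q v)⁻¹ ≤ q v - ‖v‖ := by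
    rw [inv_le_iff_one_le_mul₀ (by positivity)]
    nlinarith only [h3]
  linarith only [h5, h2.1]

lemma norm_cross_le (a b : E3) : ‖cross a b‖ ≤ ‖a‖ * ‖b‖ := by
  have h : ‖cross a b‖ ^ 2 ≤ (‖a‖ * ‖b‖) ^ 2 := by
    rw [mul_pow, EuclideanSpace.norm_sq_eq, EuclideanSpace.norm_sq_eq, EuclideanSpace.norm_sq_eq]
    simp only [Fin.sum_univ_three, cross, Real.norm_eq_abs, sq_abs]
    simp
    nlinarith only [sq_nonneg (a 0 * b 0 + a 1 * b 1 + a 2 * b 2)]
  exact le_of_sq_le_sq h (by positivity)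

end Vale.Agent.P107
end
end
end

section

section

attribute [-instance] ProperSMul.toContinuousSMul IsTopologicalTorsor.toContinuousSMul
  IdemSemiring.toCanonicallyOrderedAdd IdemSemiring.toMulLeftMono IdemSemiring.toMulRightMono
  AddQuantale.instAddLeftMono AddQuantale.instAddRightMono Quantale.instMulLeftMono
  Quantale.instMulRightMono FiniteDimensional.rclike_to_real IsScalarTower.complexToReal
  FiniteDimensional.complexToReal

section

/-!
General lemmas for the energy bound: integration by parts for compactly supported functions,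
differentiation and continuity of integrals of compactly supported functions.
-/

open MeasureTheory Set Filter Topology
open scoped RealInnerProductSpace ENNReal NNReal

namespace Vale.Agent.P107

section General

variable {G : Type*} [NormedAddCommGroup G] [NormedSpace ℝ G] [FiniteDimensional ℝ G]
  [MeasurableSpace G] [BorelSpace G] {μ : Measure G} [μ.IsAddHaarMeasure]

lemma ibp_compact {w g : G → ℝ} (hw : ContDiff ℝ 1 w) (hg : ContDiff ℝ 1 g)
    (hc : HasCompactSupport g) (d : G) :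
    ∫ x, w x * fderiv ℝ g x d ∂μ = - ∫ x, fderiv ℝ w x d * g x ∂μ := by
  have hw' : Continuous fun x => fderiv ℝ w x d :=
    (hw.continuous_fderiv (by norm_num)).clm_apply continuous_const
  have hg' : Continuous fun x => fderiv ℝ g x d :=
    (hg.continuous_fderiv (by norm_num)).clm_apply continuous_const
  apply integral_mul_fderiv_eq_neg_fderiv_mul_of_integrable
  · exact (hw'.mul hg.continuous).integrable_of_hasCompactSupport (HasCompactSupport.mul_left hc)
  · exact (hw.continuous.mul hg').integrable_of_hasCompactSupport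
      (HasCompactSupport.mul_left (hc.fderiv_apply ℝ d))
  · exact (hw.continuous.mul hg.continuous).integrable_of_hasCompactSupport
      (HasCompactSupport.mul_left hc)
  · intro x _
    exact (hw.differentiable (by norm_num)).differentiableAt
  · intro x _
    exact (hg.differentiable (by norm_num)).differentiableAt

/-- Integration by parts with a weight whose line derivative is known. -/
lemma ibp_line {w w' g : G → ℝ} (hw : ContDiff ℝ 1 w) (hg : ContDiff ℝ 1 g)
    (hc : HasCompactSupport g) (d : G) (hw' : ∀ x, HasDerivAt (fun s : ℝ => w (x + s • d)) (w' x) 0) :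
    ∫ x, w x * fderiv ℝ g x d ∂μ = - ∫ x, w' x * g x ∂μ := by
  rw [ibp_compact hw hg hc d]
  congr 1
  refine integral_congr_ae (ae_of_all _ fun x => ?_)
  have h1 : DifferentiableAt ℝ w x := (hw.differentiable (by norm_num)).differentiableAt
  have h2 : HasLineDerivAt ℝ w (fderiv ℝ w x d) x d := h1.hasFDerivAt.hasLineDerivAt d
  have h3 : HasDerivAt (fun s : ℝ => w (x + s • d)) (fderiv ℝ w x d) 0 := h2
  show fderiv ℝ w x d * g x = w' x * g x
  rw [h3.unique (hw' x)]

omit [NormedSpace ℝ G] [FiniteDimensional ℝ G] in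
lemma hasDerivAt_integral_of_compact {a b : ℝ} {F F' : ℝ → G → ℝ} {K : Set G} (hK : IsCompact K)
    (hF0 : ∀ t ∈ Ioo a b, ∀ x ∉ K, F t x = 0)
    (hd : ∀ t ∈ Ioo a b, ∀ x, HasDerivAt (fun s => F s x) (F' t x) t)
    (hF : ∀ t ∈ Ioo a b, Continuous (F t))
    (hF' : ContinuousOn (fun z : ℝ × G => F' z.1 z.2) (Ioo a b ×ˢ univ)) {t : ℝ}
    (ht : t ∈ Ioo a b) :
    HasDerivAt (fun s => ∫ x, F s x ∂μ) (∫ x, F' t x ∂μ) t := by
  obtain ⟨c, hac, hct⟩ := exists_between ht.1
  obtain ⟨d, htd, hdb⟩ := exists_between ht.2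
  have hsub : Icc c d ⊆ Ioo a b := fun s hs => ⟨hac.trans_le hs.1, hs.2.trans_lt hdb⟩
  have hF'0 : ∀ s ∈ Ioo a b, ∀ x ∉ K, F' s x = 0 := by
    intro s hs x hx
    have h1 : HasDerivAt (fun r => F r x) 0 s := by
      refine (hasDerivAt_const s (0 : ℝ)).congr_of_eventuallyEq ?_
      filter_upwards [Ioo_mem_nhds hs.1 hs.2] with r hr
      exact hF0 r hr x hx
    exact (hd s hs x).unique h1
  obtain ⟨C, hC⟩ := (isCompact_Icc.prod hK).exists_bound_of_continuousOn
    (hF'.mono (prod_mono hsub (subset_univ K)))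
  have hcont' : ∀ s ∈ Ioo a b, Continuous (F' s) := by
    intro s hs
    have : ContinuousOn (fun x : G => F' s x) univ :=
      hF'.comp (f := fun x : G => (s, x)) (by fun_prop) (fun x _ => ⟨hs, mem_univ _⟩)
    exact continuousOn_univ.1 this
  refine (hasDerivAt_integral_of_dominated_loc_of_deriv_le (μ := μ) (s := Ioo c d)
    (bound := K.indicator fun _ => C) (F := F) (F' := F') (Ioo_mem_nhds hct htd) ?_ ?_ ?_ ?_ ?_
    ?_).2
  · filter_upwards [Ioo_mem_nhds ht.1 ht.2] with s hs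
    exact (hF s hs).aestronglyMeasurable
  · exact (hF t ht).integrable_of_hasCompactSupport (HasCompactSupport.intro hK (hF0 t ht))
  · exact (hcont' t ht).aestronglyMeasurable
  · refine ae_of_all _ fun x s hs => ?_
    have hs' : s ∈ Icc c d := Ioo_subset_Icc_self hs
    by_cases hx : x ∈ K
    · rw [indicator_of_mem hx]
      exact hC (s, x) ⟨hs', hx⟩
    · rw [indicator_of_notMem hx, hF'0 s (hsub hs') x hx]
      simp
  · rw [integrable_indicator_iff hK.measurableSet]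
    exact integrableOn_const hK.measure_ne_top
  · exact ae_of_all _ fun x s hs => hd s (hsub (Ioo_subset_Icc_self hs)) x

end General

end Vale.Agent.P107
end
end
end

section

section

attribute [-instance] ProperSMul.toContinuousSMul IsTopologicalTorsor.toContinuousSMul
  IdemSemiring.toCanonicallyOrderedAdd IdemSemiring.toMulLeftMono IdemSemiring.toMulRightMono
  AddQuantale.instAddLeftMono AddQuantale.instAddRightMono Quantale.instMulLeftMono
  Quantale.instMulRightMono FiniteDimensional.rclike_to_real IsScalarTower.complexToReal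
  FiniteDimensional.complexToReal

section

/-!
Space and momentum integrations by parts for the energy identity.
-/

open MeasureTheory Set Filter Topology
open scoped RealInnerProductSpace ENNReal NNReal

namespace Vale.Agent.P107

lemma q_contDiff : ContDiff ℝ 1 q := by
  unfold q
  refine ContDiff.sqrt (contDiff_const.add (contDiff_norm_sq ℝ)) ?_
  intro v
  positivity

lemma u_contDiff : ContDiff ℝ 1 u := by
  unfold u
  refine ContDiff.smul (ContDiff.inv q_contDiff fun v => (q_pos v).ne') contDiff_id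

lemma continuous_q : Continuous q := q_contDiff.continuous

lemma continuous_u : Continuous u := u_contDiff.continuous

lemma hasFDerivAt_q (v : E3) : HasFDerivAt q ((q v)⁻¹ • innerSL ℝ v) v := by
  have h1 : HasFDerivAt (fun v : E3 => 1 + ‖v‖ ^ 2) (2 • (innerSL ℝ v)) v :=
    (hasStrictFDerivAt_norm_sq v).hasFDerivAt.const_add 1
  have h2 := h1.sqrt (by positivity)
  refine HasFDerivAt.congr_fderiv h2 ?_
  ext w
  simp [q]
  ring

lemma vec_eq_sum (a : E3) : a = ∑ i, a i • (EuclideanSpace.single i (1 : ℝ) : E3) := by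
  ext j
  simp [Pi.single_apply]

lemma hasDerivAt_q_line (v : E3) (i : Fin 3) :
    HasDerivAt (fun s : ℝ => q (v + s • (EuclideanSpace.single i (1 : ℝ) : E3))) (u v i) 0 := by
  have h : HasDerivAt (fun s : ℝ => q (v + s • (EuclideanSpace.single i (1 : ℝ) : E3)))
      (((q v)⁻¹ • innerSL ℝ v) (EuclideanSpace.single i (1 : ℝ))) 0 :=
    (hasFDerivAt_q v).hasLineDerivAt _
  convert h using 1
  simp [u, EuclideanSpace.inner_single_right]

lemma cross_line (v a : E3) (i : Fin 3) (s : ℝ) :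
    cross (v + s • (EuclideanSpace.single i (1 : ℝ) : E3)) a i = cross v a i := by
  fin_cases i <;> simp [cross]

lemma q_mul_cross (v a : E3) (i : Fin 3) : q v * cross (u v) a i = cross v a i := by
  have h := (q_pos v).ne'
  fin_cases i <;> simp [cross, u] <;> field_simp

lemma contDiff_cross {X : Type*} [NormedAddCommGroup X] [NormedSpace ℝ X] {a b : X → E3}
    (ha : ContDiff ℝ 1 a) (hb : ContDiff ℝ 1 b) : ContDiff ℝ 1 fun x => cross (a x) (b x) := by
  rw [contDiff_euclidean] at ha hb ⊢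
  intro i
  have h0 := ha 0
  have h1 := ha 1
  have h2 := ha 2
  have k0 := hb 0
  have k1 := hb 1
  have k2 := hb 2
  fin_cases i
  · exact (h1.mul k2).sub (h2.mul k1)
  · exact (h2.mul k0).sub (h0.mul k2)
  · exact (h0.mul k1).sub (h1.mul k0)

lemma isAddHaar_prod : (volume : Measure (E3 × E3)).IsAddHaarMeasure :=
  Measure.prod.instIsAddHaarMeasure volume volume

/-- The Vlasov part: integration by parts against `q`. -/
lemma vlasov_ibp {g : E3 × E3 → ℝ} (hg : ContDiff ℝ 1 g) (hc : HasCompactSupport g)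
    {F H : E3 → E3} (hF : ContDiff ℝ 1 F) (hH : ContDiff ℝ 1 H) :
    ∫ z : E3 × E3, q z.2 * fderiv ℝ g z (u z.2, F z.1 + cross (u z.2) (H z.1))
      = - ∫ z : E3 × E3, g z * ⟪u z.2, F z.1⟫ := by
  have := isAddHaar_prod
  set e : Fin 3 → E3 := fun i => EuclideanSpace.single i (1 : ℝ) with he
  have hsnd : ∀ i, ContDiff ℝ 1 fun z : E3 × E3 => z.2 i := by
    intro i
    have := (contDiff_euclidean.1 (contDiff_snd (𝕜 := ℝ) (n := 1) (E := E3) (F := E3))) i
    exact this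
  have hFi : ∀ i, ContDiff ℝ 1 fun z : E3 × E3 => F z.1 i := fun i =>
    (contDiff_euclidean.1 (hF.comp contDiff_fst)) i
  have hw1 : ∀ i, ContDiff ℝ 1 fun z : E3 × E3 => q z.2 * F z.1 i + cross z.2 (H z.1) i := by
    intro i
    refine ((q_contDiff.comp contDiff_snd).mul (hFi i)).add ?_
    exact contDiff_euclidean.1 (contDiff_cross contDiff_snd (hH.comp contDiff_fst)) i
  have hgd : ∀ d : E3 × E3, Continuous fun z => fderiv ℝ g z d := fun d =>
    (hg.continuous_fderiv (by norm_num)).clm_apply continuous_const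
  have hgc : ∀ d : E3 × E3, HasCompactSupport fun z => fderiv ℝ g z d := fun d =>
    hc.fderiv_apply ℝ d
  have key : ∀ z : E3 × E3, q z.2 * fderiv ℝ g z (u z.2, F z.1 + cross (u z.2) (H z.1))
      = ∑ i, z.2 i * fderiv ℝ g z (e i, 0)
        + ∑ i, (q z.2 * F z.1 i + cross z.2 (H z.1) i) * fderiv ℝ g z (0, e i) := by
    intro z
    have h1 : ((u z.2, F z.1 + cross (u z.2) (H z.1)) : E3 × E3)
        = ∑ i, u z.2 i • ((e i, 0) : E3 × E3)
          + ∑ i, (F z.1 + cross (u z.2) (H z.1)) i • ((0, e i) : E3 × E3) := by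
      ext1
      · simp only [Prod.fst_add, Prod.fst_sum, Prod.smul_fst, smul_zero, Finset.sum_const_zero,
          add_zero]
        exact vec_eq_sum _
      · simp only [Prod.snd_add, Prod.snd_sum, Prod.smul_snd, smul_zero, Finset.sum_const_zero,
          zero_add]
        exact vec_eq_sum _
    rw [h1, map_add, map_sum, map_sum, mul_add, Finset.mul_sum, Finset.mul_sum]
    congr 1
    · refine Finset.sum_congr rfl fun i _ => ?_
      rw [map_smul, smul_eq_mul, ← mul_assoc]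
      congr 1
      have := congrArg (fun a : E3 => a i) (q_smul_u z.2)
      simpa using this
    · refine Finset.sum_congr rfl fun i _ => ?_
      rw [map_smul, smul_eq_mul, ← mul_assoc]
      congr 1
      rw [PiLp.add_apply, mul_add, q_mul_cross]
  have i1 : ∀ i, Integrable fun z : E3 × E3 => z.2 i * fderiv ℝ g z (e i, 0) := fun i =>
    ((hsnd i).continuous.mul (hgd _)).integrable_of_hasCompactSupport
      (HasCompactSupport.mul_left (hgc _))
  have i2 : ∀ i, Integrable fun z : E3 × E3 =>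
      (q z.2 * F z.1 i + cross z.2 (H z.1) i) * fderiv ℝ g z (0, e i) := fun i =>
    ((hw1 i).continuous.mul (hgd _)).integrable_of_hasCompactSupport
      (HasCompactSupport.mul_left (hgc _))
  have c1 : ∀ i, ∫ z : E3 × E3, z.2 i * fderiv ℝ g z (e i, 0) = 0 := by
    intro i
    rw [ibp_line (hsnd i) hg hc (e i, 0) (w' := fun _ => 0)]
    · simp
    · intro z
      simpa using hasDerivAt_const (0 : ℝ) (z.2 i)
  have c2 : ∀ i, ∫ z : E3 × E3,
      (q z.2 * F z.1 i + cross z.2 (H z.1) i) * fderiv ℝ g z (0, e i)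
      = - ∫ z : E3 × E3, (u z.2 i * F z.1 i) * g z := by
    intro i
    rw [ibp_line (hw1 i) hg hc (0, e i) (w' := fun z => u z.2 i * F z.1 i)]
    intro z
    have h1 := (hasDerivAt_q_line z.2 i).mul_const (F z.1 i)
    have h2 := h1.add_const (cross z.2 (H z.1) i)
    refine h2.congr_of_eventuallyEq (Filter.Eventually.of_forall fun s => ?_)
    show q (z.2 + s • e i) * F (z.1 + s • (0 : E3)) i
      + cross (z.2 + s • e i) (H (z.1 + s • (0 : E3))) i = _
    simp only [smul_zero, add_zero, he, cross_line]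
  simp_rw [key]
  rw [integral_add (integrable_finsetSum _ fun i _ => i1 i)
    (integrable_finsetSum _ fun i _ => i2 i), integral_finsetSum _ fun i _ => i1 i,
    integral_finsetSum _ fun i _ => i2 i]
  simp_rw [c1, c2]
  rw [Finset.sum_const_zero, zero_add, Finset.sum_neg_distrib, ← integral_finsetSum]
  · congr 1
    refine integral_congr_ae (ae_of_all _ fun z => ?_)
    simp only [PiLp.inner_apply, Fin.sum_univ_three]
    simp
    ring
  · intro i _
    refine Continuous.integrable_of_hasCompactSupport ?_ (HasCompactSupport.mul_left hc)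
    refine Continuous.mul ?_ hg.continuous
    exact (contDiff_euclidean.1 (u_contDiff.comp contDiff_snd) i).continuous.mul
      (hFi i).continuous

lemma curl_inner {F H : E3 → E3} (hF : ContDiff ℝ 1 F) (hH : ContDiff ℝ 1 H) (x : E3) :
    ⟪F x, curl H x⟫ - ⟪H x, curl F x⟫
      = - ∑ i, fderiv ℝ (fun y => cross (F y) (H y) i) x (EuclideanSpace.single i 1) := by
  have hFi : ∀ i, DifferentiableAt ℝ (fun y => F y i) x := fun i =>
    ((contDiff_euclidean.1 hF i).differentiable (by norm_num)).differentiableAt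
  have hHi : ∀ i, DifferentiableAt ℝ (fun y => H y i) x := fun i =>
    ((contDiff_euclidean.1 hH i).differentiable (by norm_num)).differentiableAt
  have e0 : (fun y => cross (F y) (H y) 0) = fun y => F y 1 * H y 2 - F y 2 * H y 1 := rfl
  have e1 : (fun y => cross (F y) (H y) 1) = fun y => F y 2 * H y 0 - F y 0 * H y 2 := rfl
  have e2 : (fun y => cross (F y) (H y) 2) = fun y => F y 0 * H y 1 - F y 1 * H y 0 := rfl
  rw [Fin.sum_univ_three, e0, e1, e2,
    fderiv_fun_sub ((hFi 1).fun_mul (hHi 2)) ((hFi 2).fun_mul (hHi 1)),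
    fderiv_fun_sub ((hFi 2).fun_mul (hHi 0)) ((hFi 0).fun_mul (hHi 2)),
    fderiv_fun_sub ((hFi 0).fun_mul (hHi 1)) ((hFi 1).fun_mul (hHi 0)),
    fderiv_fun_mul (hFi 1) (hHi 2), fderiv_fun_mul (hFi 2) (hHi 1),
    fderiv_fun_mul (hFi 2) (hHi 0), fderiv_fun_mul (hFi 0) (hHi 2),
    fderiv_fun_mul (hFi 0) (hHi 1), fderiv_fun_mul (hFi 1) (hHi 0)]
  simp only [PiLp.inner_apply, Fin.sum_univ_three, curl, pd]
  simp
  ring

/-- The Maxwell part. -/
lemma maxwell_ibp {χ : E3 → ℝ} (hχ : ContDiff ℝ 1 χ) (hc : HasCompactSupport χ)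
    {F H : E3 → E3} (hF : ContDiff ℝ 1 F) (hH : ContDiff ℝ 1 H) :
    ∫ x, χ x * (⟪F x, curl H x⟫ - ⟪H x, curl F x⟫) = ∫ x, fderiv ℝ χ x (cross (F x) (H x)) := by
  have hw : ∀ i, ContDiff ℝ 1 fun y => cross (F y) (H y) i := fun i =>
    contDiff_euclidean.1 (contDiff_cross hF hH) i
  have hχd : ∀ d : E3, Continuous fun z => fderiv ℝ χ z d := fun d =>
    (hχ.continuous_fderiv (by norm_num)).clm_apply continuous_const
  have hwd : ∀ i, ∀ d : E3, Continuous fun z => fderiv ℝ (fun y => cross (F y) (H y) i) z d :=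
    fun i d => ((hw i).continuous_fderiv (by norm_num)).clm_apply continuous_const
  have e1 : ∀ x, χ x * (⟪F x, curl H x⟫ - ⟪H x, curl F x⟫)
      = ∑ i, - (fderiv ℝ (fun y => cross (F y) (H y) i) x (EuclideanSpace.single i 1) * χ x) := by
    intro x
    rw [curl_inner hF hH x, Finset.sum_neg_distrib, ← Finset.sum_mul]
    ring
  have e2 : ∀ x, fderiv ℝ χ x (cross (F x) (H x))
      = ∑ i, cross (F x) (H x) i * fderiv ℝ χ x (EuclideanSpace.single i 1) := by
    intro x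
    conv_lhs => rw [vec_eq_sum (cross (F x) (H x))]
    rw [map_sum]
    simp
  simp_rw [e1, e2]
  rw [integral_finsetSum, integral_finsetSum]
  · refine Finset.sum_congr rfl fun i _ => ?_
    rw [integral_neg, ← ibp_compact (hw i) hχ hc]
  · intro i _
    exact ((hw i).continuous.mul (hχd _)).integrable_of_hasCompactSupport
      (HasCompactSupport.mul_left (hc.fderiv_apply ℝ _))
  · intro i _
    exact (((hwd i _).mul hχ.continuous).integrable_of_hasCompactSupport
      (HasCompactSupport.mul_left hc)).neg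

end Vale.Agent.P107
end
end
end

section

section

attribute [-instance] ProperSMul.toContinuousSMul IsTopologicalTorsor.toContinuousSMul
  IdemSemiring.toCanonicallyOrderedAdd IdemSemiring.toMulLeftMono IdemSemiring.toMulRightMono
  AddQuantale.instAddLeftMono AddQuantale.instAddRightMono Quantale.instMulLeftMono
  Quantale.instMulRightMono FiniteDimensional.rclike_to_real IsScalarTower.complexToReal
  FiniteDimensional.complexToReal

section

/-!
Energy bound for classical solutions of the relativistic Vlasov-Maxwell system.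
-/

open MeasureTheory Set Filter Topology
open scoped RealInnerProductSpace ENNReal NNReal

namespace Vale.Agent.P107

section Slices

variable {T : ℝ} {f : ℝ → E3 → E3 → ℝ} {E B : ℝ → E3 → E3}

lemma IsClassicalSolution.f_slice (h : IsClassicalSolution T f E B) {t : ℝ} (ht : t ∈ Ico 0 T) :
    ContDiff ℝ 1 fun z : E3 × E3 => f t z.1 z.2 := by
  have h1 : ContDiffOn ℝ 1 (fun z : E3 × E3 => f t z.1 z.2) univ :=
    h.f_contDiff.comp (f := fun z : E3 × E3 => (t, z)) (by fun_prop)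
      (fun z _ => ⟨ht, mem_univ _⟩)
  exact contDiffOn_univ.1 h1

lemma IsClassicalSolution.E_slice (h : IsClassicalSolution T f E B) {t : ℝ} (ht : t ∈ Ico 0 T) :
    ContDiff ℝ 1 (E t) := by
  have h1 : ContDiffOn ℝ 1 (fun z : E3 => E t z) univ :=
    h.E_contDiff.comp (f := fun z : E3 => (t, z)) (by fun_prop)
      (fun z _ => ⟨ht, mem_univ _⟩)
  exact contDiffOn_univ.1 h1

lemma IsClassicalSolution.B_slice (h : IsClassicalSolution T f E B) {t : ℝ} (ht : t ∈ Ico 0 T) :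
    ContDiff ℝ 1 (B t) := by
  have h1 : ContDiffOn ℝ 1 (fun z : E3 => B t z) univ :=
    h.B_contDiff.comp (f := fun z : E3 => (t, z)) (by fun_prop)
      (fun z _ => ⟨ht, mem_univ _⟩)
  exact contDiffOn_univ.1 h1

/-- A `C¹` function on the slab `[0,T)` is `C¹` at interior times. -/
lemma contDiffAt_of_slab {X Y : Type*} [NormedAddCommGroup X] [NormedSpace ℝ X]
    [NormedAddCommGroup Y] [NormedSpace ℝ Y] {G : ℝ × X → Y}
    (hG : ContDiffOn ℝ 1 G (Ico 0 T ×ˢ univ)) {t : ℝ} (ht : t ∈ Ioo 0 T) (x : X) :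
    ContDiffAt ℝ 1 G (t, x) := by
  refine hG.contDiffAt ?_
  exact prod_mem_nhds (Ico_mem_nhds ht.1 ht.2) univ_mem

lemma hasDerivAt_of_slab {X Y : Type*} [NormedAddCommGroup X] [NormedSpace ℝ X]
    [NormedAddCommGroup Y] [NormedSpace ℝ Y] {G : ℝ × X → Y}
    (hG : ContDiffOn ℝ 1 G (Ico 0 T ×ˢ univ)) {t : ℝ} (ht : t ∈ Ioo 0 T) (x : X) :
    HasDerivAt (fun s => G (s, x)) (fderiv ℝ G (t, x) (1, 0)) t := by
  have h1 : HasFDerivAt G (fderiv ℝ G (t, x)) (t, x) :=
    ((contDiffAt_of_slab hG ht x).differentiableAt (by norm_num)).hasFDerivAt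
  have h2 : HasDerivAt (fun s : ℝ => (s, x)) ((1 : ℝ), (0 : X)) t :=
    (hasDerivAt_id t).prodMk (hasDerivAt_const t x)
  exact h1.comp_hasDerivAt t h2

lemma continuousOn_fderiv_of_slab {X Y : Type*} [NormedAddCommGroup X] [NormedSpace ℝ X]
    [NormedAddCommGroup Y] [NormedSpace ℝ Y] {G : ℝ × X → Y}
    (hG : ContDiffOn ℝ 1 G (Ico 0 T ×ˢ univ)) :
    ContinuousOn (fun z => fderiv ℝ G z (1, 0)) (Ioo 0 T ×ˢ univ) := by
  have h1 : ContDiffOn ℝ 1 G (Ioo 0 T ×ˢ univ) :=
    hG.mono (prod_mono Ioo_subset_Ico_self (subset_refl _))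
  have h2 := h1.continuousOn_fderiv_of_isOpen (isOpen_Ioo.prod isOpen_univ) (by norm_num)
  exact h2.clm_apply continuousOn_const

lemma IsClassicalSolution.vlasov_fderiv (h : IsClassicalSolution T f E B) {t : ℝ}
    (ht : t ∈ Ioo 0 T) (z : E3 × E3) :
    fderiv ℝ (fun y : ℝ × E3 × E3 => f y.1 y.2.1 y.2.2) (t, z) (1, 0)
      = - fderiv ℝ (fun y : E3 × E3 => f t y.1 y.2) z
          (u z.2, E t z.1 + cross (u z.2) (B t z.1)) := by
  have ht' : t ∈ Ico 0 T := Ioo_subset_Ico_self ht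
  have h1 := h.vlasov t ht' z.1 z.2
  have h2 : HasDerivAt (fun s => f s z.1 z.2)
      (fderiv ℝ (fun y : ℝ × E3 × E3 => f y.1 y.2.1 y.2.2) (t, z) (1, 0)) t :=
    hasDerivAt_of_slab h.f_contDiff ht z
  rw [derivWithin_of_mem_nhds (Ico_mem_nhds ht.1 ht.2), h2.deriv] at h1
  have hg : HasFDerivAt (fun y : E3 × E3 => f t y.1 y.2)
      (fderiv ℝ (fun y : E3 × E3 => f t y.1 y.2) z) (z.1, z.2) :=
    (((h.f_slice ht').differentiable (by norm_num)) z).hasFDerivAt
  have h3 : HasFDerivAt (fun y : E3 => f t y z.2)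
      ((fderiv ℝ (fun y : E3 × E3 => f t y.1 y.2) z).comp
        (ContinuousLinearMap.inl ℝ E3 E3)) z.1 :=
    HasFDerivAt.comp (f := fun y : E3 => (y, z.2)) z.1 hg (hasFDerivAt_prodMk_left z.1 z.2)
  have h4 : HasFDerivAt (fun y : E3 => f t z.1 y)
      ((fderiv ℝ (fun y : E3 × E3 => f t y.1 y.2) z).comp
        (ContinuousLinearMap.inr ℝ E3 E3)) z.2 :=
    HasFDerivAt.comp (f := fun y : E3 => (z.1, y)) z.2 hg (hasFDerivAt_prodMk_right z.1 z.2)
  rw [h3.fderiv, h4.fderiv] at h1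
  simp only [ContinuousLinearMap.comp_apply, ContinuousLinearMap.inl_apply,
    ContinuousLinearMap.inr_apply] at h1
  rw [add_assoc, ← map_add] at h1
  simp only [Prod.mk_add_mk, add_zero, zero_add] at h1
  linarith only [h1]

lemma IsClassicalSolution.ampere_fderiv (h : IsClassicalSolution T f E B) {t : ℝ}
    (ht : t ∈ Ioo 0 T) (x : E3) :
    fderiv ℝ (fun y : ℝ × E3 => E y.1 y.2) (t, x) (1, 0) = curl (B t) x - cur f t x := by
  have ht' : t ∈ Ico 0 T := Ioo_subset_Ico_self ht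
  have h1 := h.ampere t ht' x
  have h2 : HasDerivAt (fun s => E s x)
      (fderiv ℝ (fun y : ℝ × E3 => E y.1 y.2) (t, x) (1, 0)) t :=
    hasDerivAt_of_slab h.E_contDiff ht x
  rw [derivWithin_of_mem_nhds (Ico_mem_nhds ht.1 ht.2), h2.deriv] at h1
  rw [sub_eq_iff_eq_add] at h1
  rw [h1]
  abel

lemma IsClassicalSolution.faraday_fderiv (h : IsClassicalSolution T f E B) {t : ℝ}
    (ht : t ∈ Ioo 0 T) (x : E3) :
    fderiv ℝ (fun y : ℝ × E3 => B y.1 y.2) (t, x) (1, 0) = - curl (E t) x := by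
  have ht' : t ∈ Ico 0 T := Ioo_subset_Ico_self ht
  have h1 := h.faraday t ht' x
  have h2 : HasDerivAt (fun s => B s x)
      (fderiv ℝ (fun y : ℝ × E3 => B y.1 y.2) (t, x) (1, 0)) t :=
    hasDerivAt_of_slab h.B_contDiff ht x
  rw [derivWithin_of_mem_nhds (Ico_mem_nhds ht.1 ht.2), h2.deriv] at h1
  exact eq_neg_of_add_eq_zero_left h1

/-- The kinetic energy. -/
noncomputable def kin (f : ℝ → E3 → E3 → ℝ) (t : ℝ) : ℝ := ∫ z : E3 × E3, q z.2 * f t z.1 z.2

/-- The localized field energy. -/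
noncomputable def fen (χ : E3 → ℝ) (E B : ℝ → E3 → E3) (t : ℝ) : ℝ :=
  ∫ x, χ x * ((‖E t x‖ ^ 2 + ‖B t x‖ ^ 2) / 2)

lemma IsClassicalSolution.exists_support (h : IsClassicalSolution T f E B) {b : ℝ}
    (hb : b ∈ Ico 0 T) :
    ∃ R : ℝ, ∀ s ∈ Icc 0 b, ∀ z : E3 × E3,
      z ∉ Metric.closedBall (0 : E3) R ×ˢ Metric.closedBall (0 : E3) R → f s z.1 z.2 = 0 := by
  obtain ⟨R, hR⟩ := h.compact_support b hb
  refine ⟨R, fun s hs z hz => ?_⟩
  by_contra hne
  apply hz
  have := hR s hs z.1 z.2 hne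
  exact ⟨by simpa using this.1, by simpa using this.2⟩

lemma isCompact_KR (R : ℝ) :
    IsCompact (Metric.closedBall (0 : E3) R ×ˢ Metric.closedBall (0 : E3) R) :=
  (isCompact_closedBall _ _).prod (isCompact_closedBall _ _)

lemma IsClassicalSolution.hasCompactSupport (h : IsClassicalSolution T f E B) {t : ℝ}
    (ht : t ∈ Ico 0 T) : HasCompactSupport fun z : E3 × E3 => f t z.1 z.2 := by
  obtain ⟨R, hR⟩ := h.exists_support ht
  exact HasCompactSupport.intro (isCompact_KR R) (hR t ⟨ht.1, le_refl _⟩)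

lemma IsClassicalSolution.hasDerivAt_kin (h : IsClassicalSolution T f E B) {t : ℝ}
    (ht : t ∈ Ioo 0 T) :
    HasDerivAt (kin f) (∫ z : E3 × E3, f t z.1 z.2 * ⟪u z.2, E t z.1⟫) t := by
  have := isAddHaar_prod
  obtain ⟨b, htb, hbT⟩ := exists_between ht.2
  have hb : b ∈ Ico 0 T := ⟨(ht.1.trans htb).le, hbT⟩
  obtain ⟨R, hR⟩ := h.exists_support hb
  have hsub : Ioo 0 b ⊆ Ioo 0 T := Ioo_subset_Ioo_right hbT.le
  have h1 := hasDerivAt_integral_of_compact (μ := (volume : Measure (E3 × E3))) (a := 0) (b := b)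
    (F := fun s (z : E3 × E3) => q z.2 * f s z.1 z.2)
    (F' := fun s (z : E3 × E3) => q z.2
      * fderiv ℝ (fun y : ℝ × E3 × E3 => f y.1 y.2.1 y.2.2) (s, z) (1, 0))
    (isCompact_KR R) ?_ ?_ ?_ ?_ ⟨ht.1, htb⟩
  · have h2 : (∫ z : E3 × E3, q z.2
        * fderiv ℝ (fun y : ℝ × E3 × E3 => f y.1 y.2.1 y.2.2) (t, z) (1, 0))
        = ∫ z : E3 × E3, f t z.1 z.2 * ⟪u z.2, E t z.1⟫ := by
      have h3 := vlasov_ibp (h.f_slice (Ioo_subset_Ico_self ht))
        (h.hasCompactSupport (Ioo_subset_Ico_self ht)) (h.E_slice (Ioo_subset_Ico_self ht))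
        (h.B_slice (Ioo_subset_Ico_self ht))
      simp_rw [h.vlasov_fderiv ht, mul_neg]
      rw [integral_neg, h3, neg_neg]
    rw [← h2]
    exact h1
  · intro s hs z hz
    show q z.2 * f s z.1 z.2 = 0
    rw [hR s (Ioo_subset_Icc_self hs) z hz, mul_zero]
  · intro s hs z
    exact (hasDerivAt_of_slab h.f_contDiff (hsub hs) z).const_mul (q z.2)
  · intro s hs
    exact (continuous_q.comp continuous_snd).mul
      (h.f_slice (Ioo_subset_Ico_self (hsub hs))).continuous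
  · refine ContinuousOn.mul ?_ ?_
    · exact (continuous_q.comp (continuous_snd.comp continuous_snd)).continuousOn
    · exact (continuousOn_fderiv_of_slab h.f_contDiff).mono (prod_mono hsub (subset_refl _))

lemma IsClassicalSolution.continuousOn_kin (h : IsClassicalSolution T f E B) {b : ℝ}
    (hb : b ∈ Ico 0 T) : ContinuousOn (kin f) (Icc 0 b) := by
  have := isAddHaar_prod
  obtain ⟨R, hR⟩ := h.exists_support hb
  refine continuousOn_integral_of_compact_support (isCompact_KR R) ?_ ?_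
  · refine ContinuousOn.mul ?_ ?_
    · exact (continuous_q.comp (continuous_snd.comp continuous_snd)).continuousOn
    · exact h.f_contDiff.continuousOn.mono (prod_mono (Icc_subset_Ico_right hb.2) (subset_refl _))
  · intro s z hs hz
    rw [hR s hs z hz, mul_zero]

lemma IsClassicalSolution.integral_fuE (h : IsClassicalSolution T f E B) {t : ℝ}
    (ht : t ∈ Ico 0 T) :
    ∫ z : E3 × E3, f t z.1 z.2 * ⟪u z.2, E t z.1⟫ = ∫ x, ⟪E t x, cur f t x⟫ := by
  have := isAddHaar_prod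
  have hint : Integrable (fun z : E3 × E3 => f t z.1 z.2 * ⟪u z.2, E t z.1⟫) := by
    refine Continuous.integrable_of_hasCompactSupport ?_
      (HasCompactSupport.mul_right (h.hasCompactSupport ht))
    exact (h.f_slice ht).continuous.mul ((continuous_u.comp continuous_snd).inner
      ((h.E_slice ht).continuous.comp continuous_fst))
  rw [Measure.volume_eq_prod, integral_prod _ (by rwa [← Measure.volume_eq_prod])]
  refine integral_congr_ae (ae_of_all _ fun x => ?_)
  have hfv : Continuous fun v => f t x v :=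
    (h.f_slice ht).continuous.comp (f := fun v : E3 => (x, v)) (by fun_prop)
  obtain ⟨R, hR⟩ := h.exists_support ht
  have hsupp : HasCompactSupport fun v => f t x v := by
    refine HasCompactSupport.intro (isCompact_closedBall (0 : E3) R) fun v hv => ?_
    exact hR t ⟨ht.1, le_refl _⟩ (x, v) (fun hz => hv hz.2)
  have hi : Integrable fun v => f t x v • u v :=
    (hfv.smul continuous_u).integrable_of_hasCompactSupport (HasCompactSupport.smul_right hsupp)
  show ∫ v, f t x v * ⟪u v, E t x⟫ = ⟪E t x, cur f t x⟫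
  unfold cur
  rw [← integral_inner hi]
  refine integral_congr_ae (ae_of_all _ fun v => ?_)
  show f t x v * ⟪u v, E t x⟫ = ⟪E t x, f t x v • u v⟫
  rw [real_inner_smul_right, real_inner_comm]

lemma IsClassicalSolution.hasDerivAt_fen (h : IsClassicalSolution T f E B) {χ : E3 → ℝ}
    (hχ : ContDiff ℝ 1 χ) (hc : HasCompactSupport χ) {t : ℝ} (ht : t ∈ Ioo 0 T) :
    HasDerivAt (fen χ E B)
      (∫ x, χ x * (⟪E t x, curl (B t) x - cur f t x⟫ - ⟪B t x, curl (E t) x⟫)) t := by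
  have h1 := hasDerivAt_integral_of_compact (μ := (volume : Measure E3)) (a := 0) (b := T)
    (F := fun s x => χ x * ((‖E s x‖ ^ 2 + ‖B s x‖ ^ 2) / 2))
    (F' := fun s x => χ x * (⟪E s x, fderiv ℝ (fun y : ℝ × E3 => E y.1 y.2) (s, x) (1, 0)⟫
      + ⟪B s x, fderiv ℝ (fun y : ℝ × E3 => B y.1 y.2) (s, x) (1, 0)⟫)) hc ?_ ?_ ?_ ?_ ht
  · have h2 : (∫ x, χ x * (⟪E t x, fderiv ℝ (fun y : ℝ × E3 => E y.1 y.2) (t, x) (1, 0)⟫
        + ⟪B t x, fderiv ℝ (fun y : ℝ × E3 => B y.1 y.2) (t, x) (1, 0)⟫))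
        = ∫ x, χ x * (⟪E t x, curl (B t) x - cur f t x⟫ - ⟪B t x, curl (E t) x⟫) := by
      simp_rw [h.ampere_fderiv ht, h.faraday_fderiv ht, inner_neg_right, ← sub_eq_add_neg]
    rw [← h2]
    exact h1
  · intro s _ x hx
    show χ x * _ = 0
    rw [image_eq_zero_of_notMem_tsupport hx, zero_mul]
  · intro s hs x
    have hE := (hasDerivAt_of_slab h.E_contDiff hs x).norm_sq
    have hB := (hasDerivAt_of_slab h.B_contDiff hs x).norm_sq
    refine (((hE.add hB).div_const 2).const_mul (χ x)).congr_deriv ?_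
    ring
  · intro s hs
    have hE := (h.E_slice (Ioo_subset_Ico_self hs)).continuous
    have hB := (h.B_slice (Ioo_subset_Ico_self hs)).continuous
    exact hχ.continuous.mul (((hE.norm.pow 2).add (hB.norm.pow 2)).div_const 2)
  · have hE : ContinuousOn (fun y : ℝ × E3 => E y.1 y.2) (Ioo 0 T ×ˢ univ) :=
      h.E_contDiff.continuousOn.mono (prod_mono Ioo_subset_Ico_self (subset_refl _))
    have hB : ContinuousOn (fun y : ℝ × E3 => B y.1 y.2) (Ioo 0 T ×ˢ univ) :=
      h.B_contDiff.continuousOn.mono (prod_mono Ioo_subset_Ico_self (subset_refl _))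
    refine ContinuousOn.mul (hχ.continuous.comp continuous_snd).continuousOn ?_
    exact (hE.inner (continuousOn_fderiv_of_slab h.E_contDiff)).add
      (hB.inner (continuousOn_fderiv_of_slab h.B_contDiff))

lemma IsClassicalSolution.continuousOn_fen (h : IsClassicalSolution T f E B) {χ : E3 → ℝ}
    (hχ : Continuous χ) (hc : HasCompactSupport χ) : ContinuousOn (fen χ E B) (Ico 0 T) := by
  refine continuousOn_integral_of_compact_support hc ?_ ?_
  · refine ContinuousOn.mul (hχ.comp continuous_snd).continuousOn ?_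
    exact ((h.E_contDiff.continuousOn.norm.pow 2).add
      (h.B_contDiff.continuousOn.norm.pow 2)).div_const 2
  · intro s x _ hx
    rw [image_eq_zero_of_notMem_tsupport hx, zero_mul]

lemma continuous_curl {F : E3 → E3} (hF : ContDiff ℝ 1 F) : Continuous (curl F) := by
  have h : ∀ i j, Continuous fun x => pd i (fun y => F y j) x := by
    intro i j
    exact ((contDiff_euclidean.1 hF j).continuous_fderiv (by norm_num)).clm_apply continuous_const
  refine (PiLp.continuous_toLp 2 _).comp (continuous_pi fun i => ?_)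
  fin_cases i
  · exact (h 1 2).sub (h 2 1)
  · exact (h 2 0).sub (h 0 2)
  · exact (h 0 1).sub (h 1 0)

lemma IsClassicalSolution.continuous_cur (h : IsClassicalSolution T f E B) {t : ℝ}
    (ht : t ∈ Ioo 0 T) : Continuous (cur f t) := by
  have h1 : cur f t = fun x => curl (B t) x
      - fderiv ℝ (fun y : ℝ × E3 => E y.1 y.2) (t, x) (1, 0) := by
    ext1 x
    rw [h.ampere_fderiv ht x]
    abel
  rw [h1]
  refine (continuous_curl (h.B_slice (Ioo_subset_Ico_self ht))).sub ?_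
  have h2 : ContinuousOn (fun x : E3 => fderiv ℝ (fun y : ℝ × E3 => E y.1 y.2) (t, x) (1, 0))
      univ :=
    (continuousOn_fderiv_of_slab h.E_contDiff).comp (f := fun x : E3 => (t, x)) (by fun_prop)
      (fun x _ => ⟨ht, mem_univ _⟩)
  exact continuousOn_univ.1 h2

lemma IsClassicalSolution.hasDerivAt_total (h : IsClassicalSolution T f E B) {χ : E3 → ℝ}
    (hχ : ContDiff ℝ 1 χ) (hc : HasCompactSupport χ) {b R : ℝ} (hb : b ∈ Ico 0 T)
    (hR : ∀ s ∈ Icc 0 b, ∀ z : E3 × E3,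
      z ∉ Metric.closedBall (0 : E3) R ×ˢ Metric.closedBall (0 : E3) R → f s z.1 z.2 = 0)
    (hχR : ∀ x, ‖x‖ ≤ R → χ x = 1) {t : ℝ} (ht : t ∈ Ioo 0 b) :
    HasDerivAt (fun s => fen χ E B s + kin f s)
      (∫ x, fderiv ℝ χ x (cross (E t x) (B t x))) t := by
  have htT : t ∈ Ioo 0 T := ⟨ht.1, ht.2.trans hb.2⟩
  have htT' : t ∈ Ico 0 T := Ioo_subset_Ico_self htT
  have hcur : ∀ x, χ x * ⟪E t x, cur f t x⟫ = ⟪E t x, cur f t x⟫ := by
    intro x
    by_cases hx : ‖x‖ ≤ R
    · rw [hχR x hx, one_mul]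
    · have h0 : cur f t x = 0 := by
        unfold cur
        have : ∀ v, f t x v • u v = 0 := by
          intro v
          rw [hR t (Ioo_subset_Icc_self ht) (x, v) (fun hz => hx (by simpa using hz.1)), zero_smul]
        simp [this]
      rw [h0, inner_zero_right, mul_zero]
  have hE := (h.E_slice htT').continuous
  have hB := (h.B_slice htT').continuous
  have hcE := continuous_curl (h.E_slice htT')
  have hcB := continuous_curl (h.B_slice htT')
  have i1 : Integrable fun x => χ x * (⟪E t x, curl (B t) x⟫ - ⟪B t x, curl (E t) x⟫) :=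
    (hχ.continuous.mul ((hE.inner hcB).sub (hB.inner hcE))).integrable_of_hasCompactSupport
      (HasCompactSupport.mul_right hc)
  have i2 : Integrable fun x => χ x * ⟪E t x, cur f t x⟫ :=
    (hχ.continuous.mul (hE.inner (h.continuous_cur htT))).integrable_of_hasCompactSupport
      (HasCompactSupport.mul_right hc)
  have key : (∫ x, χ x * (⟪E t x, curl (B t) x - cur f t x⟫ - ⟪B t x, curl (E t) x⟫))
      + (∫ z : E3 × E3, f t z.1 z.2 * ⟪u z.2, E t z.1⟫)
      = ∫ x, fderiv ℝ χ x (cross (E t x) (B t x)) := by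
    rw [h.integral_fuE htT', ← maxwell_ibp hχ hc (h.E_slice htT') (h.B_slice htT')]
    have h1 : ∀ x, χ x * (⟪E t x, curl (B t) x - cur f t x⟫ - ⟪B t x, curl (E t) x⟫)
        = χ x * (⟪E t x, curl (B t) x⟫ - ⟪B t x, curl (E t) x⟫) - χ x * ⟪E t x, cur f t x⟫ := by
      intro x
      rw [inner_sub_right]
      ring
    simp_rw [h1]
    rw [integral_sub i1 i2]
    simp_rw [hcur]
    ring
  rw [← key]
  exact (h.hasDerivAt_fen hχ hc htT).add (h.hasDerivAt_kin htT)

end Slices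

lemma exists_chi : ∃ C : ℝ, 0 ≤ C ∧ ∀ ρ : ℝ, 0 < ρ → ∃ χ : E3 → ℝ, ContDiff ℝ 1 χ ∧
    HasCompactSupport χ ∧ (∀ x, 0 ≤ χ x) ∧ (∀ x, χ x ≤ 1) ∧ (∀ x, ‖x‖ ≤ ρ → χ x = 1) ∧
    (∀ x, ‖fderiv ℝ χ x‖ ≤ C / ρ) := by
  let φ : ContDiffBump (0 : E3) := ⟨1, 2, one_pos, one_lt_two⟩
  have hφ : ContDiff ℝ 1 φ := φ.contDiff
  obtain ⟨C, hC⟩ := (φ.hasCompactSupport.fderiv (𝕜 := ℝ)).exists_bound_of_continuous
    (hφ.continuous_fderiv (by norm_num))
  refine ⟨C, (norm_nonneg _).trans (hC 0), fun ρ hρ => ?_⟩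
  refine ⟨fun x => φ (ρ⁻¹ • x), hφ.comp (contDiff_const_smul ρ⁻¹), ?_, fun x => φ.nonneg,
    fun x => φ.le_one, fun x hx => ?_, fun x => ?_⟩
  · exact φ.hasCompactSupport.comp_smul (inv_ne_zero hρ.ne')
  · apply φ.one_of_mem_closedBall
    rw [mem_closedBall_zero_iff, norm_smul, norm_inv, Real.norm_of_nonneg hρ.le,
      inv_mul_le_iff₀ hρ]
    simpa [φ] using hx
  · have h1 : HasFDerivAt (fun x : E3 => φ (ρ⁻¹ • x))
        ((fderiv ℝ φ (ρ⁻¹ • x)).comp (ρ⁻¹ • ContinuousLinearMap.id ℝ E3)) x := by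
      refine HasFDerivAt.comp (g := φ) x
        ((hφ.differentiable (by norm_num)).differentiableAt.hasFDerivAt) ?_
      exact (hasFDerivAt_id x).const_smul ρ⁻¹
    rw [h1.fderiv]
    refine (ContinuousLinearMap.opNorm_comp_le _ _).trans ?_
    have h2 : ‖ρ⁻¹ • ContinuousLinearMap.id ℝ E3‖ ≤ ρ⁻¹ := by
      rw [norm_smul, norm_inv, Real.norm_of_nonneg hρ.le]
      exact mul_le_of_le_one_right (by positivity) ContinuousLinearMap.norm_id_le
    rw [div_eq_mul_inv]
    exact mul_le_mul (hC _) h2 (norm_nonneg _) ((norm_nonneg _).trans (hC 0))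

lemma exists_eLpNorm_bound {F : ℝ → E3 → E3} {T b : ℝ} (hb : b ∈ Ico 0 T)
    (hF : ∀ t ∈ Ico 0 T, MemLp (F t) 2 volume)
    (hc : ∀ t ∈ Ico 0 T,
      Tendsto (fun s => eLpNorm (fun x => F s x - F t x) 2 volume) (𝓝[Ico 0 T] t) (𝓝 0)) :
    ∃ M : ℝ≥0, ∀ s ∈ Icc 0 b, eLpNorm (F s) 2 volume ≤ M := by
  have hsub : Icc 0 b ⊆ Ico 0 T := Icc_subset_Ico_right hb.2
  have key : ∃ M : ℝ≥0, ∀ s ∈ Icc 0 b, s ∈ Icc 0 b → eLpNorm (F s) 2 volume ≤ M := by
    refine isCompact_Icc.induction_on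
      (p := fun S => ∃ M : ℝ≥0, ∀ s ∈ S, s ∈ Icc 0 b → eLpNorm (F s) 2 volume ≤ M) ?_ ?_ ?_ ?_
    · exact ⟨0, fun s hs => absurd hs (notMem_empty s)⟩
    · rintro S S' hSS' ⟨M, hM⟩
      exact ⟨M, fun s hs hs' => hM s (hSS' hs) hs'⟩
    · rintro S S' ⟨M, hM⟩ ⟨M', hM'⟩
      refine ⟨max M M', fun s hs hs' => ?_⟩
      rcases hs with hs | hs
      · exact (hM s hs hs').trans (by exact_mod_cast le_max_left _ _)
      · exact (hM' s hs hs').trans (by exact_mod_cast le_max_right _ _)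
    · intro t ht
      have h1 : ∀ᶠ s in 𝓝[Ico 0 T] t, eLpNorm (fun x => F s x - F t x) 2 volume < 1 :=
        (hc t (hsub ht)).eventually (gt_mem_nhds one_pos)
      have h2 : ∀ᶠ s in 𝓝[Icc 0 b] t, eLpNorm (fun x => F s x - F t x) 2 volume < 1 :=
        nhdsWithin_mono t hsub h1
      refine ⟨_, h2, (eLpNorm (F t) 2 volume).toNNReal + 1, fun s hs hs' => ?_⟩
      have h3 : F s = (fun x => F s x - F t x) + F t := by
        ext x
        simp
      have h4 : eLpNorm (F s) 2 volume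
          ≤ eLpNorm (fun x => F s x - F t x) 2 volume + eLpNorm (F t) 2 volume := by
        conv_lhs => rw [h3]
        exact eLpNorm_add_le ((hF s (hsub hs')).1.sub (hF t (hsub ht)).1) (hF t (hsub ht)).1
          (by norm_num)
      have h5 : ((eLpNorm (F t) 2 volume).toNNReal : ℝ≥0∞) = eLpNorm (F t) 2 volume :=
        ENNReal.coe_toNNReal (hF t (hsub ht)).2.ne
      push_cast
      rw [h5, add_comm]
      exact h4.trans (add_le_add_left (le_of_lt hs) _)
  obtain ⟨M, hM⟩ := key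
  exact ⟨M, fun s hs => hM s hs hs⟩

lemma lintegral_norm_sq (F : E3 → E3) :
    ∫⁻ x, ENNReal.ofReal (‖F x‖ ^ 2) = eLpNorm F 2 volume ^ 2 := by
  have h := eLpNorm_nnreal_pow_eq_lintegral (f := F) (μ := (volume : Measure E3)) (p := 2)
    (by norm_num)
  have h2 : eLpNorm F 2 volume ^ 2 = eLpNorm F ((2 : ℝ≥0) : ℝ≥0∞) volume ^ ((2 : ℝ≥0) : ℝ) := by
    norm_num
  rw [h2, h]
  refine lintegral_congr fun x => ?_
  rw [ENNReal.ofReal_pow (norm_nonneg _), ofReal_norm]
  norm_num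

lemma integrable_norm_sq {F : E3 → E3} (hF : MemLp F 2 volume) :
    Integrable fun x => ‖F x‖ ^ 2 := (memLp_two_iff_integrable_sq_norm hF.1).1 hF

lemma integral_norm_sq_le {F : E3 → E3} (hF : MemLp F 2 volume) {M : ℝ≥0}
    (hM : eLpNorm F 2 volume ≤ M) : ∫ x, ‖F x‖ ^ 2 ≤ (M : ℝ) ^ 2 := by
  have h1 := lintegral_norm_sq F
  rw [← ofReal_integral_eq_lintegral_ofReal (integrable_norm_sq hF)
    (ae_of_all _ fun x => by positivity)] at h1
  have h2 : ENNReal.ofReal (∫ x, ‖F x‖ ^ 2) ≤ ENNReal.ofReal ((M : ℝ) ^ 2) := by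
    rw [h1, ENNReal.ofReal_pow (by positivity), ENNReal.ofReal_coe_nnreal]
    gcongr
  exact (ENNReal.ofReal_le_ofReal_iff (by positivity)).1 h2

/-- The main energy inequality with a cutoff. -/
lemma IsClassicalSolution.energy_cutoff {T : ℝ} {f : ℝ → E3 → E3 → ℝ} {E B : ℝ → E3 → E3}
    (h : IsClassicalSolution T f E B) {t : ℝ} (ht : t ∈ Ico 0 T) :
    ∃ K : ℝ, 0 ≤ K ∧ ∃ R : ℝ, ∀ ρ : ℝ, 0 < ρ → R ≤ ρ → ∃ χ : E3 → ℝ, ContDiff ℝ 1 χ ∧
      HasCompactSupport χ ∧ (∀ x, 0 ≤ χ x) ∧ (∀ x, χ x ≤ 1) ∧ (∀ x, ‖x‖ ≤ ρ → χ x = 1) ∧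
      fen χ E B t + kin f t ≤ fen χ E B 0 + kin f 0 + K / ρ := by
  obtain ⟨C, hC0, hC⟩ := exists_chi
  obtain ⟨M, hM⟩ := exists_eLpNorm_bound ht h.E_memLp h.E_cont
  obtain ⟨M', hM'⟩ := exists_eLpNorm_bound ht h.B_memLp h.B_cont
  obtain ⟨R, hR⟩ := h.exists_support ht
  refine ⟨C * (((M : ℝ) ^ 2 + (M' : ℝ) ^ 2) / 2) * t, by have := ht.1; (clear * - hC0 this; positivity), R,
    fun ρ hρ hRρ => ?_⟩
  obtain ⟨χ, h1, h2, h3, h4, h5, h6⟩ := hC ρ hρ
  refine ⟨χ, h1, h2, h3, h4, h5, ?_⟩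
  rcases eq_or_lt_of_le ht.1 with ht0 | ht0
  · rw [← ht0]
    simp
  · have hcont : ContinuousOn (fun s => fen χ E B s + kin f s) (Icc 0 t) :=
      ((h.continuousOn_fen h1.continuous h2).mono (Icc_subset_Ico_right ht.2)).add
        (h.continuousOn_kin ht)
    obtain ⟨c, hc, hc'⟩ := exists_hasDerivAt_eq_slope (fun s => fen χ E B s + kin f s)
      (fun s => ∫ x, fderiv ℝ χ x (cross (E s x) (B s x))) ht0 hcont
      (fun s hs => h.hasDerivAt_total h1 h2 ht hR (fun x hx => h5 x (hx.trans hRρ)) hs)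
    have hcT : c ∈ Ico 0 T := ⟨hc.1.le, hc.2.trans ht.2⟩
    have hE := integrable_norm_sq (h.E_memLp c hcT)
    have hB := integrable_norm_sq (h.B_memLp c hcT)
    have hbound : |∫ x, fderiv ℝ χ x (cross (E c x) (B c x))|
        ≤ C / ρ * (((M : ℝ) ^ 2 + (M' : ℝ) ^ 2) / 2) := by
      have hle : ∀ x, ‖fderiv ℝ χ x (cross (E c x) (B c x))‖
          ≤ C / ρ * ((‖E c x‖ ^ 2 + ‖B c x‖ ^ 2) / 2) := by
        intro x
        refine (ContinuousLinearMap.le_opNorm _ _).trans ?_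
        have hx1 : ‖cross (E c x) (B c x)‖ ≤ (‖E c x‖ ^ 2 + ‖B c x‖ ^ 2) / 2 := by
          refine (norm_cross_le _ _).trans ?_
          nlinarith only [sq_nonneg (‖E c x‖ - ‖B c x‖)]
        exact mul_le_mul (h6 x) hx1 (norm_nonneg _) (by positivity)
      rw [← Real.norm_eq_abs]
      have hEB : Integrable fun x => C / ρ * ((‖E c x‖ ^ 2 + ‖B c x‖ ^ 2) / 2) :=
        ((hE.add hB).div_const 2).const_mul (C / ρ)
      refine (norm_integral_le_of_norm_le hEB (ae_of_all _ hle)).trans ?_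
      rw [integral_const_mul, integral_div]
      have hsum : ∫ x, (‖E c x‖ ^ 2 + ‖B c x‖ ^ 2) = (∫ x, ‖E c x‖ ^ 2) + ∫ x, ‖B c x‖ ^ 2 :=
        integral_add hE hB
      rw [hsum]
      have e1 := integral_norm_sq_le (h.E_memLp c hcT) (hM c (Ioo_subset_Icc_self hc))
      have e2 := integral_norm_sq_le (h.B_memLp c hcT) (hM' c (Ioo_subset_Icc_self hc))
      (clear * - hC0 hρ e1 e2; gcongr)
    have h7 : (fen χ E B t + kin f t) - (fen χ E B 0 + kin f 0)
        = (∫ x, fderiv ℝ χ x (cross (E c x) (B c x))) * t := by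
      rw [hc', sub_zero, div_mul_cancel₀ _ ht0.ne']
    have h8 : (∫ x, fderiv ℝ χ x (cross (E c x) (B c x))) * t
        ≤ C / ρ * (((M : ℝ) ^ 2 + (M' : ℝ) ^ 2) / 2) * t :=
      mul_le_mul_of_nonneg_right ((le_abs_self _).trans hbound) ht0.le
    have h9 : C / ρ * (((M : ℝ) ^ 2 + (M' : ℝ) ^ 2) / 2) * t
        = C * (((M : ℝ) ^ 2 + (M' : ℝ) ^ 2) / 2) * t / ρ := by ring
    linarith only [h7, h8, h9]

lemma IsClassicalSolution.kin_nonneg {T : ℝ} {f : ℝ → E3 → E3 → ℝ} {E B : ℝ → E3 → E3}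
    (h : IsClassicalSolution T f E B) {t : ℝ} (ht : t ∈ Ico 0 T) : 0 ≤ kin f t :=
  integral_nonneg fun _ => mul_nonneg (q_pos _).le (h.f_nonneg t ht _ _)

lemma fen_nonneg {χ : E3 → ℝ} (hχ : ∀ x, 0 ≤ χ x) (E B : ℝ → E3 → E3) (t : ℝ) :
    0 ≤ fen χ E B t :=
  integral_nonneg fun x => mul_nonneg (hχ x) (by positivity)

lemma IsClassicalSolution.lintegral_kin {T : ℝ} {f : ℝ → E3 → E3 → ℝ} {E B : ℝ → E3 → E3}
    (h : IsClassicalSolution T f E B) {t : ℝ} (ht : t ∈ Ico 0 T) :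
    ∫⁻ x, ∫⁻ v, ENNReal.ofReal (q v * f t x v) = ENNReal.ofReal (kin f t) := by
  have := isAddHaar_prod
  have hc : Continuous fun z : E3 × E3 => q z.2 * f t z.1 z.2 :=
    (continuous_q.comp continuous_snd).mul (h.f_slice ht).continuous
  have hi : Integrable fun z : E3 × E3 => q z.2 * f t z.1 z.2 :=
    hc.integrable_of_hasCompactSupport (HasCompactSupport.mul_left (h.hasCompactSupport ht))
  unfold kin
  rw [ofReal_integral_eq_lintegral_ofReal hi
    (ae_of_all _ fun z => mul_nonneg (q_pos _).le (h.f_nonneg t ht _ _)),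
    Measure.volume_eq_prod, lintegral_prod]
  exact (ENNReal.continuous_ofReal.comp hc).aemeasurable

/-- The total energy at time zero. -/
noncomputable def energy0 (f : ℝ → E3 → E3 → ℝ) (E B : ℝ → E3 → E3) : ℝ :=
  (∫ x, (‖E 0 x‖ ^ 2 + ‖B 0 x‖ ^ 2) / 2) + kin f 0

lemma IsClassicalSolution.fen_zero_le {T : ℝ} {f : ℝ → E3 → E3 → ℝ} {E B : ℝ → E3 → E3}
    (h : IsClassicalSolution T f E B) (hT : 0 < T) {χ : E3 → ℝ} (h0 : ∀ x, 0 ≤ χ x)
    (h1 : ∀ x, χ x ≤ 1) : fen χ E B 0 ≤ ∫ x, (‖E 0 x‖ ^ 2 + ‖B 0 x‖ ^ 2) / 2 := by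
  have h00 : (0 : ℝ) ∈ Ico 0 T := ⟨le_refl _, hT⟩
  unfold fen
  refine integral_mono_of_nonneg (ae_of_all _ fun x => mul_nonneg (h0 x) (by positivity)) ?_
    (ae_of_all _ fun x => ?_)
  · exact ((integrable_norm_sq (h.E_memLp 0 h00)).add
      (integrable_norm_sq (h.B_memLp 0 h00))).div_const 2
  · exact mul_le_of_le_one_left (by positivity) (h1 x)

/-- Local field energy on balls is bounded by the initial energy up to an error. -/
lemma IsClassicalSolution.energy_ball {T : ℝ} {f : ℝ → E3 → E3 → ℝ} {E B : ℝ → E3 → E3}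
    (h : IsClassicalSolution T f E B) {t : ℝ} (ht : t ∈ Ico 0 T) {ε : ℝ} (hε : 0 < ε) (n : ℕ) :
    (∫⁻ x in Metric.closedBall (0 : E3) n,
      ENNReal.ofReal ((‖E t x‖ ^ 2 + ‖B t x‖ ^ 2) / 2)) + ENNReal.ofReal (kin f t)
      ≤ ENNReal.ofReal (energy0 f E B + ε) := by
  have hT : 0 < T := lt_of_le_of_lt ht.1 ht.2
  obtain ⟨K, hK, R, hR⟩ := h.energy_cutoff ht
  set ρ : ℝ := (n : ℝ) + |R| + K / ε + 1 with hρ
  have hρ0 : 0 < ρ := by (clear * - ε hε n K hK R; positivity)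
  have hRρ : R ≤ ρ := by
    have h1 := le_abs_self R
    have h2 : 0 ≤ K / ε := by positivity
    have h3 : (0 : ℝ) ≤ n := by positivity
    linarith only [h1, h2, h3]
  have hnρ : (n : ℝ) ≤ ρ := by
    have h1 := abs_nonneg R
    have h2 : 0 ≤ K / ε := by positivity
    linarith only [h1, h2]
  have hKρ : K / ρ ≤ ε := by
    rw [div_le_iff₀ hρ0]
    have h1 : K = ε * (K / ε) := by field_simp
    have h2 : K / ε ≤ ρ := by
      have h1 := abs_nonneg R
      have h3 : (0 : ℝ) ≤ n := by positivity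
      linarith only [h1, h3]
    calc K = ε * (K / ε) := h1
      _ ≤ ε * ρ := by gcongr
  obtain ⟨χ, h1, h2, h3, h4, h5, h6⟩ := hR ρ hρ0 hRρ
  have h7 := h.fen_zero_le hT h3 h4
  have h8 : fen χ E B t + kin f t ≤ energy0 f E B + ε := by
    unfold energy0
    linarith only [hKρ, h6, h7]
  refine le_trans ?_ (ENNReal.ofReal_le_ofReal h8)
  rw [ENNReal.ofReal_add (fen_nonneg h3 E B t) (h.kin_nonneg ht)]
  gcongr
  have hE := (h.E_slice ht).continuous
  have hB := (h.B_slice ht).continuous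
  have hint : Integrable fun x => χ x * ((‖E t x‖ ^ 2 + ‖B t x‖ ^ 2) / 2) :=
    (h1.continuous.mul (((hE.norm.pow 2).add (hB.norm.pow 2)).div_const
      2)).integrable_of_hasCompactSupport (HasCompactSupport.mul_right h2)
  unfold fen
  rw [ofReal_integral_eq_lintegral_ofReal hint
    (ae_of_all _ fun x => mul_nonneg (h3 x) (by (clear * -; positivity)))]
  refine le_trans ?_ (setLIntegral_le_lintegral (Metric.closedBall (0 : E3) n) _)
  refine setLIntegral_mono' Metric.isClosed_closedBall.measurableSet fun x hx => ?_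
  rw [h5 x ((by simpa using hx : ‖x‖ ≤ n).trans hnρ), one_mul]

theorem IsClassicalSolution.energy_le {T : ℝ} {f : ℝ → E3 → E3 → ℝ} {E B : ℝ → E3 → E3}
    (h : IsClassicalSolution T f E B) {t : ℝ} (ht : t ∈ Ico 0 T) :
    (∫⁻ x, ENNReal.ofReal ((‖E t x‖ ^ 2 + ‖B t x‖ ^ 2) / 2)) + ENNReal.ofReal (kin f t)
      ≤ ENNReal.ofReal (energy0 f E B) := by
  have h1 : ∀ ε : ℝ, 0 < ε →
      (∫⁻ x, ENNReal.ofReal ((‖E t x‖ ^ 2 + ‖B t x‖ ^ 2) / 2)) + ENNReal.ofReal (kin f t)
        ≤ ENNReal.ofReal (energy0 f E B + ε) := by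
    intro ε hε
    rw [← setLIntegral_univ, ← Metric.iUnion_closedBall_nat (0 : E3),
      setLIntegral_iUnion_of_directed, ENNReal.iSup_add]
    · exact iSup_le fun n => h.energy_ball ht hε n
    · refine Monotone.directed_le fun m n hmn => ?_
      exact Metric.closedBall_subset_closedBall (by exact_mod_cast hmn)
  have h2 : Tendsto (fun ε : ℝ => ENNReal.ofReal (energy0 f E B + ε)) (𝓝[>] 0)
      (𝓝 (ENNReal.ofReal (energy0 f E B + 0))) := by
    refine (ENNReal.continuous_ofReal.tendsto _).comp ?_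
    exact (tendsto_const_nhds.add tendsto_id).mono_left nhdsWithin_le_nhds
  rw [add_zero] at h2
  refine ge_of_tendsto h2 ?_
  filter_upwards [self_mem_nhdsWithin] with ε hε
  exact h1 ε hε

lemma ofReal_le_two_mul {a b : ℝ} (hab : a ≤ 2 * b) :
    ENNReal.ofReal a ≤ 2 * ENNReal.ofReal b := by
  have : (2 : ℝ≥0∞) = ENNReal.ofReal 2 := by norm_num
  rw [this, ← ENNReal.ofReal_mul (by norm_num)]
  exact ENNReal.ofReal_le_ofReal hab

/-- Energy conservation gives bounds uniform up to time `T`. -/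
theorem energy_bound {T : ℝ} (hT : 0 < T) {f : ℝ → E3 → E3 → ℝ} {E B : ℝ → E3 → E3}
    (h : IsClassicalSolution T f E B) :
    ∃ M : ℝ≥0, ∀ t ∈ Ico 0 T,
      (∫⁻ x, ENNReal.ofReal (‖E t x‖ ^ 2) ≤ M) ∧ (∫⁻ x, ENNReal.ofReal (‖B t x‖ ^ 2) ≤ M) ∧
      (∫⁻ x, ∫⁻ v, ENNReal.ofReal (q v * f t x v) ≤ M) := by
  have := hT
  refine ⟨2 * (energy0 f E B).toNNReal, fun t ht => ?_⟩
  have h1 := h.energy_le ht
  have hM : ((2 * (energy0 f E B).toNNReal : ℝ≥0) : ℝ≥0∞) = 2 * ENNReal.ofReal (energy0 f E B) := by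
    push_cast
    rfl
  rw [hM]
  have h2 : ∫⁻ x, ENNReal.ofReal (‖E t x‖ ^ 2)
      ≤ 2 * ∫⁻ x, ENNReal.ofReal ((‖E t x‖ ^ 2 + ‖B t x‖ ^ 2) / 2) := by
    rw [← lintegral_const_mul' _ _ (by norm_num)]
    refine lintegral_mono fun x => ofReal_le_two_mul ?_
    nlinarith only []
  have h3 : ∫⁻ x, ENNReal.ofReal (‖B t x‖ ^ 2)
      ≤ 2 * ∫⁻ x, ENNReal.ofReal ((‖E t x‖ ^ 2 + ‖B t x‖ ^ 2) / 2) := by
    rw [← lintegral_const_mul' _ _ (by norm_num)]
    refine lintegral_mono fun x => ofReal_le_two_mul ?_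
    nlinarith only []
  have h4 : 2 * ∫⁻ x, ENNReal.ofReal ((‖E t x‖ ^ 2 + ‖B t x‖ ^ 2) / 2)
      ≤ 2 * ENNReal.ofReal (energy0 f E B) := by
    gcongr
    exact le_self_add.trans h1
  refine ⟨h2.trans h4, h3.trans h4, ?_⟩
  rw [h.lintegral_kin ht]
  refine (le_add_self.trans h1).trans ?_
  rw [two_mul]
  exact le_self_add

end Vale.Agent.P107
end
end
end

section

section

attribute [-instance] ProperSMul.toContinuousSMul IsTopologicalTorsor.toContinuousSMul
  IdemSemiring.toCanonicallyOrderedAdd IdemSemiring.toMulLeftMono IdemSemiring.toMulRightMono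
  AddQuantale.instAddLeftMono AddQuantale.instAddRightMono Quantale.instMulLeftMono
  Quantale.instMulRightMono FiniteDimensional.rclike_to_real IsScalarTower.complexToReal
  FiniteDimensional.complexToReal

section

/-!
Characteristics of the Vlasov equation.
-/

open MeasureTheory Set Filter Topology
open scoped RealInnerProductSpace ENNReal NNReal

namespace Vale.Agent.P107

/-- Solutions of an ordinary differential equation with a bounded `C¹` field exist on compact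
intervals. -/
lemma exists_solution_of_bounded {Z : Type*} [NormedAddCommGroup Z] [NormedSpace ℝ Z]
    [FiniteDimensional ℝ Z] {G : ℝ → Z → Z} {a b t₀ t₁ : ℝ} (ha : a < t₀) (hb : t₁ < b)
    (hG : ContDiffOn ℝ 1 (fun y : ℝ × Z => G y.1 y.2) (Ioo a b ×ˢ univ)) {L : ℝ≥0}
    (hL : ∀ t ∈ Icc t₀ t₁, ∀ z, ‖G t z‖ ≤ L) (τ : Icc t₀ t₁) (z₀ : Z) :
    ∃ α : ℝ → Z, α τ = z₀ ∧
      ∀ t ∈ Icc t₀ t₁, HasDerivWithinAt α (G t (α t)) (Icc t₀ t₁) t := by
  have := FiniteDimensional.complete ℝ Z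
  have : ProperSpace Z := FiniteDimensional.proper ℝ Z
  have h01 : t₀ ≤ t₁ := τ.2.1.trans τ.2.2
  have hsub : Icc t₀ t₁ ⊆ Ioo a b := fun s hs => ⟨ha.trans_le hs.1, hs.2.trans_lt hb⟩
  set r : ℝ≥0 := L * ⟨t₁ - t₀, sub_nonneg.2 h01⟩ with hr
  have hfd : ∀ t ∈ Icc t₀ t₁, ∀ z, HasFDerivAt (G t)
      ((fderiv ℝ (fun y : ℝ × Z => G y.1 y.2) (t, z)).comp (ContinuousLinearMap.inr ℝ ℝ Z)) z := by
    intro t ht z
    have h1 : HasFDerivAt (fun y : ℝ × Z => G y.1 y.2)
        (fderiv ℝ (fun y : ℝ × Z => G y.1 y.2) (t, z)) (t, z) :=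
      ((hG.contDiffAt ((isOpen_Ioo.prod isOpen_univ).mem_nhds ⟨hsub ht, mem_univ _⟩)
        ).differentiableAt (by norm_num)).hasFDerivAt
    exact HasFDerivAt.comp (f := fun y : Z => (t, y)) z h1 (hasFDerivAt_prodMk_right t z)
  have hcont : ContinuousOn (fun y => fderiv ℝ (fun y : ℝ × Z => G y.1 y.2) y)
      (Icc t₀ t₁ ×ˢ Metric.closedBall z₀ r) :=
    (hG.continuousOn_fderiv_of_isOpen (isOpen_Ioo.prod isOpen_univ) (by norm_num)).mono
      (prod_mono hsub (subset_univ _))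
  obtain ⟨K, hK⟩ := (isCompact_Icc.prod (isCompact_closedBall z₀ (r : ℝ))).exists_bound_of_continuousOn
    hcont
  have hpl : IsPicardLindelof G τ z₀ r 0 L K.toNNReal := by
    refine ⟨fun t ht => ?_, fun z _ => ?_, fun t ht z _ => hL t ht z, ?_⟩
    · refine (convex_closedBall z₀ (r : ℝ)).lipschitzOnWith_of_nnnorm_hasFDerivWithin_le
        (fun z hz => (hfd t ht z).hasFDerivWithinAt) fun z hz => ?_
      rw [← NNReal.coe_le_coe, coe_nnnorm]
      refine le_trans ?_ (Real.le_coe_toNNReal K)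
      refine (ContinuousLinearMap.opNorm_comp_le _ _).trans ?_
      refine le_trans ?_ (hK (t, z) ⟨ht, hz⟩)
      exact mul_le_of_le_one_right (norm_nonneg _) (ContinuousLinearMap.norm_inr_le_one ℝ ℝ Z)
    · exact hG.continuousOn.comp (f := fun t : ℝ => (t, z)) (by fun_prop)
        (fun t ht => ⟨hsub ht, mem_univ _⟩)
    · rw [hr]
      push_cast
      rw [sub_zero]
      refine mul_le_mul_of_nonneg_left ?_ L.2
      exact max_le (by linarith only [τ.2.1] : t₁ - (τ : ℝ) ≤ t₁ - t₀) (by linarith only [τ.2.2])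
  exact hpl.exists_eq_forall_mem_Icc_hasDerivWithinAt₀

variable {T : ℝ} {f : ℝ → E3 → E3 → ℝ} {E B : ℝ → E3 → E3}

/-- The space-momentum derivative of `f` is the restriction of the space-time derivative. -/
lemma IsClassicalSolution.fderiv_slice (h : IsClassicalSolution T f E B) {t : ℝ}
    (ht : t ∈ Ioo 0 T) (z w : E3 × E3) :
    fderiv ℝ (fun y : ℝ × E3 × E3 => f y.1 y.2.1 y.2.2) (t, z) (0, w)
      = fderiv ℝ (fun y : E3 × E3 => f t y.1 y.2) z w := by
  have h1 : HasFDerivAt (fun y : ℝ × E3 × E3 => f y.1 y.2.1 y.2.2)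
      (fderiv ℝ (fun y : ℝ × E3 × E3 => f y.1 y.2.1 y.2.2) (t, z)) (t, z) :=
    ((contDiffAt_of_slab h.f_contDiff ht z).differentiableAt (by norm_num)).hasFDerivAt
  have h2 := HasFDerivAt.comp (f := fun y : E3 × E3 => (t, y)) z h1
    (hasFDerivAt_prodMk_right t z)
  have h3 : fderiv ℝ (fun y : E3 × E3 => f t y.1 y.2) z
      = (fderiv ℝ (fun y : ℝ × E3 × E3 => f y.1 y.2.1 y.2.2) (t, z)).comp
        (ContinuousLinearMap.inr ℝ ℝ (E3 × E3)) := h2.fderiv
  rw [h3]
  simp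

/-- `f` is constant along characteristics. -/
lemma IsClassicalSolution.const_along (h : IsClassicalSolution T f E B) {t₀ t₁ : ℝ}
    (h0 : 0 < t₀) (h1 : t₁ < T) {X V : ℝ → E3}
    (hX : ∀ s ∈ Icc t₀ t₁, HasDerivWithinAt X (u (V s)) (Icc t₀ t₁) s)
    (hV : ∀ s ∈ Icc t₀ t₁,
      HasDerivWithinAt V (E s (X s) + cross (u (V s)) (B s (X s))) (Icc t₀ t₁) s)
    {s s' : ℝ} (hs : s ∈ Icc t₀ t₁) (hs' : s' ∈ Icc t₀ t₁) :
    f s (X s) (V s) = f s' (X s') (V s') := by
  have hder : ∀ r ∈ Icc t₀ t₁, HasDerivWithinAt (fun r => f r (X r) (V r)) 0 (Icc t₀ t₁) r := by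
    intro r hr
    have hrT : r ∈ Ioo 0 T := ⟨h0.trans_le hr.1, hr.2.trans_lt h1⟩
    have e1 : HasFDerivAt (fun y : ℝ × E3 × E3 => f y.1 y.2.1 y.2.2)
        (fderiv ℝ (fun y : ℝ × E3 × E3 => f y.1 y.2.1 y.2.2) (r, X r, V r)) (r, X r, V r) :=
      ((contDiffAt_of_slab h.f_contDiff hrT (X r, V r)).differentiableAt (by norm_num)).hasFDerivAt
    have e2 : HasDerivWithinAt (fun r : ℝ => (r, X r, V r))
        (1, u (V r), E r (X r) + cross (u (V r)) (B r (X r))) (Icc t₀ t₁) r :=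
      (hasDerivWithinAt_id r _).prodMk ((hX r hr).prodMk (hV r hr))
    have e3 := e1.comp_hasDerivWithinAt r e2
    have e4 : fderiv ℝ (fun y : ℝ × E3 × E3 => f y.1 y.2.1 y.2.2) (r, X r, V r)
        (1, u (V r), E r (X r) + cross (u (V r)) (B r (X r))) = 0 := by
      have e5 : ((1, u (V r), E r (X r) + cross (u (V r)) (B r (X r))) : ℝ × E3 × E3)
          = (1, 0) + (0, (u (V r), E r (X r) + cross (u (V r)) (B r (X r)))) := by
        simp
      rw [e5, map_add, h.vlasov_fderiv hrT (X r, V r), h.fderiv_slice hrT (X r, V r)]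
      simp
    rw [e4] at e3
    exact e3
  have := (convex_Icc t₀ t₁).norm_image_sub_le_of_norm_hasDerivWithin_le (C := 0) hder
    (fun r _ => by simp) hs' hs
  rw [zero_mul] at this
  exact sub_eq_zero.1 (norm_le_zero_iff.1 this)

/-- Module B. Characteristics inside `(0,T)` and transport of `f` along them. -/
theorem exists_characteristic_through
    (h : IsClassicalSolution T f E B) {t₀ t₁ : ℝ} (h0 : 0 < t₀) (h1 : t₁ < T)
    (τ : Icc t₀ t₁) (x v : E3) :
    ∃ X V : ℝ → E3, Continuous X ∧ Continuous V ∧ X τ = x ∧ V τ = v ∧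
      (∀ s ∈ Icc t₀ t₁, HasDerivWithinAt X (u (V s)) (Icc t₀ t₁) s) ∧
      (∀ s ∈ Icc t₀ t₁,
        HasDerivWithinAt V (E s (X s) + cross (u (V s)) (B s (X s))) (Icc t₀ t₁) s) ∧
      (∀ s ∈ Icc t₀ t₁, f s (X s) (V s) = f τ x v) := by
  have h01 : t₀ ≤ t₁ := τ.2.1.trans τ.2.2
  have hsub : Icc t₀ t₁ ⊆ Ioo 0 T := fun s hs => ⟨h0.trans_le hs.1, hs.2.trans_lt h1⟩
  have hsub' : Ioo 0 T ⊆ Ico 0 T := Ioo_subset_Ico_self
  let χ : ContDiffBump x := ⟨t₁ - t₀ + 1, t₁ - t₀ + 2, by linarith only [h01], by linarith only []⟩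
  have hχ : ContDiff ℝ 1 χ := χ.contDiff
  set G : ℝ → E3 × E3 → E3 × E3 := fun t z =>
    (u z.2, χ z.1 • (E t z.1 + cross (u z.2) (B t z.1))) with hG
  have hGc : ContDiffOn ℝ 1 (fun y : ℝ × E3 × E3 => G y.1 y.2) (Ioo 0 T ×ˢ univ) := by
    have hmap : MapsTo (fun y : ℝ × E3 × E3 => (y.1, y.2.1)) (Ioo 0 T ×ˢ univ)
        (Ico 0 T ×ˢ univ) := fun y hy => ⟨hsub' hy.1, mem_univ _⟩
    have hE : ContDiffOn ℝ 1 (fun y : ℝ × E3 × E3 => E y.1 y.2.1) (Ioo 0 T ×ˢ univ) :=
      h.E_contDiff.comp (f := fun y : ℝ × E3 × E3 => (y.1, y.2.1)) (by fun_prop) hmap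
    have hB : ContDiffOn ℝ 1 (fun y : ℝ × E3 × E3 => B y.1 y.2.1) (Ioo 0 T ×ˢ univ) :=
      h.B_contDiff.comp (f := fun y : ℝ × E3 × E3 => (y.1, y.2.1)) (by fun_prop) hmap
    have hu : ContDiffOn ℝ 1 (fun y : ℝ × E3 × E3 => u y.2.2) (Ioo 0 T ×ˢ univ) :=
      (u_contDiff.comp (contDiff_snd.comp contDiff_snd)).contDiffOn
    have hc : ContDiffOn ℝ 1 (fun y : ℝ × E3 × E3 => cross (u y.2.2) (B y.1 y.2.1))
        (Ioo 0 T ×ˢ univ) := by
      rw [contDiffOn_euclidean] at hu hB ⊢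
      intro i
      have h0 := hu 0
      have h1 := hu 1
      have h2 := hu 2
      have k0 := hB 0
      have k1 := hB 1
      have k2 := hB 2
      fin_cases i
      · exact (h1.mul k2).sub (h2.mul k1)
      · exact (h2.mul k0).sub (h0.mul k2)
      · exact (h0.mul k1).sub (h1.mul k0)
    refine hu.prodMk ?_
    exact ContDiffOn.smul (hχ.comp (contDiff_fst.comp contDiff_snd)).contDiffOn (hE.add hc)
  have hK : IsCompact (Icc t₀ t₁ ×ˢ Metric.closedBall x (t₁ - t₀ + 2)) :=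
    isCompact_Icc.prod (isCompact_closedBall _ _)
  have hsubK : Icc t₀ t₁ ×ˢ Metric.closedBall x (t₁ - t₀ + 2) ⊆ Ico 0 T ×ˢ univ :=
    prod_mono (hsub.trans hsub') (subset_univ _)
  obtain ⟨M, hM⟩ := hK.exists_bound_of_continuousOn (h.E_contDiff.continuousOn.mono hsubK)
  obtain ⟨M', hM'⟩ := hK.exists_bound_of_continuousOn (h.B_contDiff.continuousOn.mono hsubK)
  have hGL : ∀ t ∈ Icc t₀ t₁, ∀ z, ‖G t z‖ ≤ ((max 1 (M + M')).toNNReal : ℝ≥0) := by
    intro t ht z
    refine le_trans ?_ (Real.le_coe_toNNReal _)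
    rw [Prod.norm_def]
    refine max_le_max (norm_u_lt_one z.2).le ?_
    have hMM : 0 ≤ M + M' := by
      have e1 := (norm_nonneg _).trans (hM (t, x) ⟨ht, Metric.mem_closedBall_self (by linarith only [h01])⟩)
      have e2 := (norm_nonneg _).trans (hM' (t, x) ⟨ht, Metric.mem_closedBall_self (by linarith only [h01])⟩)
      linarith only [e1, e2]
    show ‖χ z.1 • (E t z.1 + cross (u z.2) (B t z.1))‖ ≤ M + M'
    by_cases hz : z.1 ∈ Metric.closedBall x (t₁ - t₀ + 2)
    · have e1 := hM (t, z.1) ⟨ht, hz⟩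
      have e2 := hM' (t, z.1) ⟨ht, hz⟩
      simp only at e1 e2
      rw [norm_smul, Real.norm_of_nonneg χ.nonneg]
      have e3 : ‖cross (u z.2) (B t z.1)‖ ≤ M' := by
        refine (norm_cross_le _ _).trans ?_
        refine le_trans ?_ e2
        exact mul_le_of_le_one_left (norm_nonneg _) (norm_u_lt_one z.2).le
      calc χ z.1 * ‖E t z.1 + cross (u z.2) (B t z.1)‖
          ≤ 1 * ‖E t z.1 + cross (u z.2) (B t z.1)‖ := by
            gcongr
            exact χ.le_one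
        _ ≤ M + M' := by
            rw [one_mul]
            exact (norm_add_le _ _).trans (add_le_add e1 e3)
    · have : χ z.1 = 0 := by
        apply χ.zero_of_le_dist
        rw [Metric.mem_closedBall, not_le] at hz
        exact hz.le
      rw [this, zero_smul, norm_zero]
      exact hMM
  obtain ⟨α, hα, hα'⟩ := exists_solution_of_bounded h0 h1 hGc hGL τ (x, v)
  have hX : ∀ s ∈ Icc t₀ t₁, HasDerivWithinAt (fun s => (α s).1) (u (α s).2) (Icc t₀ t₁) s :=
    fun s hs => (hα' s hs).fst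
  have hV0 : ∀ s ∈ Icc t₀ t₁, HasDerivWithinAt (fun s => (α s).2)
      (χ (α s).1 • (E s (α s).1 + cross (u (α s).2) (B s (α s).1))) (Icc t₀ t₁) s :=
    fun s hs => (hα' s hs).snd
  have hball : ∀ s ∈ Icc t₀ t₁, χ (α s).1 = 1 := by
    intro s hs
    apply χ.one_of_mem_closedBall
    have := (convex_Icc t₀ t₁).norm_image_sub_le_of_norm_hasDerivWithin_le (C := 1) hX
      (fun r _ => (norm_u_lt_one _).le) τ.2 hs
    rw [hα, one_mul] at this
    rw [Metric.mem_closedBall, dist_eq_norm]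
    refine this.trans ?_
    show ‖s - τ‖ ≤ t₁ - t₀ + 1
    rw [Real.norm_eq_abs, abs_le]
    constructor
    · linarith only [hs.1, τ.2.2]
    · linarith only [hs.2, τ.2.1]
  have hV : ∀ s ∈ Icc t₀ t₁, HasDerivWithinAt (fun s => (α s).2)
      (E s (α s).1 + cross (u (α s).2) (B s (α s).1)) (Icc t₀ t₁) s := by
    intro s hs
    have := hV0 s hs
    rwa [hball s hs, one_smul] at this
  -- extend by constants
  have hαc : ContinuousOn α (Icc t₀ t₁) := fun s hs => (hα' s hs).continuousWithinAt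
  have hproj : Continuous fun s : ℝ => α (projIcc t₀ t₁ h01 s) :=
    (continuousOn_iff_continuous_domRestrict.1 hαc).comp continuous_projIcc
  have hpe : ∀ s ∈ Icc t₀ t₁, α (projIcc t₀ t₁ h01 s) = α s := by
    intro s hs
    rw [projIcc_of_mem h01 hs]
  refine ⟨fun s => (α (projIcc t₀ t₁ h01 s)).1, fun s => (α (projIcc t₀ t₁ h01 s)).2,
    continuous_fst.comp hproj, continuous_snd.comp hproj, ?_, ?_, ?_, ?_, ?_⟩
  · beta_reduce
    rw [hpe _ τ.2, hα]
  · beta_reduce
    rw [hpe _ τ.2, hα]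
  · intro s hs
    beta_reduce
    rw [hpe s hs]
    exact (hX s hs).congr (fun r hr => by rw [hpe r hr]) (by rw [hpe s hs])
  · intro s hs
    beta_reduce
    rw [hpe s hs]
    exact (hV s hs).congr (fun r hr => by rw [hpe r hr]) (by rw [hpe s hs])
  · intro s hs
    have := h.const_along h0 h1 hX hV hs τ.2
    beta_reduce
    rw [hpe s hs, this, hα]

/-- Module B. Backward characteristics inside `(0,T)` and transport of `f` along them. -/
theorem exists_characteristic {T : ℝ} {f : ℝ → E3 → E3 → ℝ} {E B : ℝ → E3 → E3}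
    (h : IsClassicalSolution T f E B) {t₀ t₁ : ℝ} (h0 : 0 < t₀) (h01 : t₀ ≤ t₁) (h1 : t₁ < T)
    (x v : E3) :
    ∃ X V : ℝ → E3, Continuous X ∧ Continuous V ∧ X t₁ = x ∧ V t₁ = v ∧
      (∀ s ∈ Icc t₀ t₁, HasDerivWithinAt X (u (V s)) (Icc t₀ t₁) s) ∧
      (∀ s ∈ Icc t₀ t₁,
        HasDerivWithinAt V (E s (X s) + cross (u (V s)) (B s (X s))) (Icc t₀ t₁) s) ∧
      (∀ s ∈ Icc t₀ t₁, f s (X s) (V s) = f t₁ x v) :=
  exists_characteristic_through h h0 h1 ⟨t₁, h01, le_refl _⟩ x v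

end Vale.Agent.P107
end
end
end

section

section

attribute [-instance] ProperSMul.toContinuousSMul IsTopologicalTorsor.toContinuousSMul
  IdemSemiring.toCanonicallyOrderedAdd IdemSemiring.toMulLeftMono IdemSemiring.toMulRightMono
  AddQuantale.instAddLeftMono AddQuantale.instAddRightMono Quantale.instMulLeftMono
  Quantale.instMulRightMono FiniteDimensional.rclike_to_real IsScalarTower.complexToReal
  FiniteDimensional.complexToReal

section

/-!
Integration by parts on `E3` against kernels singular at the origin.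
-/

open MeasureTheory Set Filter Topology
open scoped RealInnerProductSpace ENNReal NNReal

namespace Vale.Agent.P107

lemma finrank_E3 : Module.finrank ℝ E3 = 3 := by simp

/-- Integrability of functions with a singularity of order two at the origin and bounded
support. -/
lemma integrable_kernel {g : E3 → ℝ} (hg : AEStronglyMeasurable g volume) {R C : ℝ}
    (hb : ∀ z, |g z| ≤ C * (‖z‖⁻¹) ^ 2) (hs : ∀ z, R < ‖z‖ → g z = 0) : Integrable g := by
  have h1 : IntegrableOn (fun z : E3 => (‖z‖⁻¹) ^ 2) (Metric.ball (0 : E3) (R + 1)) := by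
    rw [integrableOn_fun_norm_addHaar (volume : Measure E3) (f := fun r : ℝ => (r⁻¹) ^ 2)]
    rw [finrank_E3]
    have : IntegrableOn (fun _ : ℝ => (1 : ℝ)) (Ioo 0 (R + 1)) := by
      simp [integrableOn_const_iff]
    refine this.congr_fun ?_ measurableSet_Ioo
    intro r hr
    have : r ≠ 0 := ne_of_gt hr.1
    simp only [smul_eq_mul]
    field_simp
  have h2 : Integrable ((Metric.ball (0 : E3) (R + 1)).indicator
      (fun z : E3 => C * (‖z‖⁻¹) ^ 2)) := by
    rw [integrable_indicator_iff measurableSet_ball]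
    exact h1.const_mul C
  refine h2.mono' hg (ae_of_all _ fun z => ?_)
  by_cases hz : z ∈ Metric.ball (0 : E3) (R + 1)
  · rw [indicator_of_mem hz]
    exact hb z
  · rw [indicator_of_notMem hz]
    rw [Metric.mem_ball, dist_zero_right, not_lt] at hz
    rw [hs z (by linarith)]
    simp

/-- A cutoff function vanishing near the origin. -/
noncomputable def cut (n : ℕ) (z : E3) : ℝ :=
  Real.smoothTransition (‖z‖ ^ 2 * ((n : ℝ) + 1) ^ 2 - 1)

lemma cut_nonneg (n : ℕ) (z : E3) : 0 ≤ cut n z := Real.smoothTransition.nonneg _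

lemma cut_le_one (n : ℕ) (z : E3) : cut n z ≤ 1 := Real.smoothTransition.le_one _

lemma cut_contDiff (n : ℕ) : ContDiff ℝ 1 (cut n) := by
  unfold cut
  refine Real.smoothTransition.contDiff.comp ?_
  exact ((contDiff_norm_sq ℝ).mul contDiff_const).sub contDiff_const

lemma cut_eq_zero (n : ℕ) {z : E3} (hz : ‖z‖ * ((n : ℝ) + 1) ≤ 1) : cut n z = 0 := by
  unfold cut
  apply Real.smoothTransition.zero_of_nonpos
  have h : (‖z‖ * ((n : ℝ) + 1)) ^ 2 ≤ 1 := by
    have h0 : 0 ≤ ‖z‖ * ((n : ℝ) + 1) := by positivity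
    nlinarith only [hz, h0]
  nlinarith only [h]

lemma tsupport_cut (n : ℕ) : tsupport (cut n) ⊆ {z | 1 ≤ ‖z‖ * ((n : ℝ) + 1)} := by
  apply closure_minimal
  · intro z hz
    rw [Function.mem_support] at hz
    by_contra h
    simp only [mem_ofPred_eq, not_le] at h
    exact hz (cut_eq_zero n h.le)
  · exact isClosed_le continuous_const (by fun_prop)

lemma tendsto_cut {z : E3} (hz : z ≠ 0) : Tendsto (fun n => cut n z) atTop (𝓝 1) := by
  have hpos : 0 < ‖z‖ := norm_pos_iff.2 hz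
  obtain ⟨N, hN⟩ := exists_nat_gt (2 / ‖z‖)
  refine tendsto_const_nhds.congr' ?_
  filter_upwards [eventually_ge_atTop N] with n hn
  unfold cut
  symm
  apply Real.smoothTransition.one_of_one_le
  have h1 : 2 / ‖z‖ < (n : ℝ) + 1 := by
    have : (N : ℝ) ≤ n := by exact_mod_cast hn
    linarith only [hN, this]
  rw [div_lt_iff₀ hpos] at h1
  nlinarith only [h1]

lemma exists_bound_deriv_smoothTransition :
    ∃ L : ℝ, 0 ≤ L ∧ ∀ x, |deriv Real.smoothTransition x| ≤ L := by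
  have hc : Continuous (deriv Real.smoothTransition) :=
    (Real.smoothTransition.contDiff (n := 1)).continuous_deriv (by norm_num)
  have hs : ∀ x, x ∉ Icc (0 : ℝ) 1 → deriv Real.smoothTransition x = 0 := by
    intro x hx
    rw [mem_Icc, not_and_or, not_le, not_le] at hx
    rcases hx with hx | hx
    · have : Real.smoothTransition =ᶠ[𝓝 x] fun _ => 0 := by
        filter_upwards [Iio_mem_nhds hx] with y hy
        exact Real.smoothTransition.zero_of_nonpos (le_of_lt hy)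
      rw [this.deriv_eq]; simp
    · have : Real.smoothTransition =ᶠ[𝓝 x] fun _ => 1 := by
        filter_upwards [Ioi_mem_nhds hx] with y hy
        exact Real.smoothTransition.one_of_one_le (le_of_lt hy)
      rw [this.deriv_eq]; simp
  obtain ⟨L, hL⟩ := (isCompact_Icc (a := (0 : ℝ)) (b := 1)).exists_bound_of_continuousOn
    hc.continuousOn
  refine ⟨max L 0, le_max_right _ _, fun x => ?_⟩
  by_cases hx : x ∈ Icc (0 : ℝ) 1
  · exact (hL x hx).trans (le_max_left _ _)
  · rw [hs x hx]; simp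

lemma hasFDerivAt_cut (n : ℕ) (z : E3) :
    HasFDerivAt (cut n) ((deriv Real.smoothTransition (‖z‖ ^ 2 * ((n : ℝ) + 1) ^ 2 - 1)
      * (2 * ((n : ℝ) + 1) ^ 2)) • innerSL ℝ z) z := by
  unfold cut
  have h1 : HasFDerivAt (fun z : E3 => ‖z‖ ^ 2 * ((n : ℝ) + 1) ^ 2 - 1)
      ((((n : ℝ) + 1) ^ 2) • (2 • (innerSL ℝ z))) z :=
    ((hasStrictFDerivAt_norm_sq z).hasFDerivAt.mul_const _).sub_const _
  have h2 : HasDerivAt Real.smoothTransition
      (deriv Real.smoothTransition (‖z‖ ^ 2 * ((n : ℝ) + 1) ^ 2 - 1))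
      (‖z‖ ^ 2 * ((n : ℝ) + 1) ^ 2 - 1) :=
    ((Real.smoothTransition.contDiff (n := 1)).differentiable (by norm_num)).differentiableAt.hasDerivAt
  have h3 := h2.comp_hasFDerivAt z h1
  refine HasFDerivAt.congr_fderiv h3 ?_
  ext e
  simp
  ring

lemma deriv_smoothTransition_eq_zero {x : ℝ} (hx : x < 0 ∨ 1 < x) :
    deriv Real.smoothTransition x = 0 := by
  rcases hx with hx | hx
  · have : Real.smoothTransition =ᶠ[𝓝 x] fun _ => 0 := by
      filter_upwards [Iio_mem_nhds hx] with y hy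
      exact Real.smoothTransition.zero_of_nonpos (le_of_lt hy)
    rw [this.deriv_eq]; simp
  · have : Real.smoothTransition =ᶠ[𝓝 x] fun _ => 1 := by
      filter_upwards [Ioi_mem_nhds hx] with y hy
      exact Real.smoothTransition.one_of_one_le (le_of_lt hy)
    rw [this.deriv_eq]; simp

/-- Uniform bound for the derivative of the cutoff. -/
lemma exists_bound_fderiv_cut :
    ∃ L : ℝ, 0 ≤ L ∧ ∀ (n : ℕ) (z e : E3), |fderiv ℝ (cut n) z e| ≤ L * ‖e‖ * ‖z‖⁻¹ := by
  obtain ⟨L, hL0, hL⟩ := exists_bound_deriv_smoothTransition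
  refine ⟨4 * L, by positivity, fun n z e => ?_⟩
  rw [(hasFDerivAt_cut n z).fderiv]
  set D := deriv Real.smoothTransition (‖z‖ ^ 2 * ((n : ℝ) + 1) ^ 2 - 1) with hD
  by_cases hz : z = 0
  · subst hz; simp
  have hpos : 0 < ‖z‖ := norm_pos_iff.2 hz
  by_cases h2 : ‖z‖ ^ 2 * ((n : ℝ) + 1) ^ 2 ≤ 2
  · have h3 : |D * (2 * ((n : ℝ) + 1) ^ 2) * ⟪z, e⟫|
        ≤ L * (2 * ((n : ℝ) + 1) ^ 2) * (‖z‖ * ‖e‖) := by
      rw [abs_mul, abs_mul, abs_of_nonneg (by positivity : (0 : ℝ) ≤ 2 * ((n : ℝ) + 1) ^ 2)]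
      gcongr
      · exact hL _
      · exact abs_real_inner_le_norm z e
    have h4 : L * (2 * ((n : ℝ) + 1) ^ 2) * (‖z‖ * ‖e‖)
        = (2 * L * ‖e‖) * (‖z‖ ^ 2 * ((n : ℝ) + 1) ^ 2) * ‖z‖⁻¹ := by
      (clear * - hz; field_simp)
    have h5 : (2 * L * ‖e‖) * (‖z‖ ^ 2 * ((n : ℝ) + 1) ^ 2) * ‖z‖⁻¹
        ≤ (2 * L * ‖e‖) * 2 * ‖z‖⁻¹ := by gcongr
    have h6 : ((D * (2 * ((n : ℝ) + 1) ^ 2)) • innerSL ℝ z) e
        = D * (2 * ((n : ℝ) + 1) ^ 2) * ⟪z, e⟫ := by simp
    rw [h6]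
    calc _ ≤ _ := h3
      _ = _ := h4
      _ ≤ _ := h5
      _ = _ := by ring
  · have : D = 0 := deriv_smoothTransition_eq_zero (Or.inr (by linarith only [h2]))
    rw [this]
    simp
    (clear * - hL0 hz; positivity)

lemma tendsto_fderiv_cut {z : E3} (hz : z ≠ 0) (e : E3) :
    Tendsto (fun n => fderiv ℝ (cut n) z e) atTop (𝓝 0) := by
  have hpos : 0 < ‖z‖ := norm_pos_iff.2 hz
  obtain ⟨N, hN⟩ := exists_nat_gt (2 / ‖z‖)
  refine tendsto_const_nhds.congr' ?_
  filter_upwards [eventually_ge_atTop N] with n hn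
  rw [(hasFDerivAt_cut n z).fderiv]
  have h1 : 2 / ‖z‖ < (n : ℝ) + 1 := by
    have : (N : ℝ) ≤ n := by exact_mod_cast hn
    linarith only [hN, this]
  rw [div_lt_iff₀ hpos] at h1
  have : deriv Real.smoothTransition (‖z‖ ^ 2 * ((n : ℝ) + 1) ^ 2 - 1) = 0 := by
    apply deriv_smoothTransition_eq_zero
    right
    nlinarith only [h1]
  rw [this]
  simp

/-- Integration by parts against a kernel which is homogeneous-like of degree `-1`. -/
theorem ibp_kernel {w κ : E3 → ℝ} (e : E3) {R W W' C C' : ℝ}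
    (hwc : Continuous w) (hwd : ∀ z ≠ 0, DifferentiableAt ℝ w z)
    (hws : ∀ z, R < ‖z‖ → w z = 0) (hwb : ∀ z, |w z| ≤ W)
    (hwb' : ∀ z, z ≠ 0 → |fderiv ℝ w z e| ≤ W')
    (hκd : ∀ z ≠ 0, DifferentiableAt ℝ κ z)
    (hκ : ∀ z, z ≠ 0 → |κ z| ≤ C * ‖z‖⁻¹) (hκ' : ∀ z, z ≠ 0 → |fderiv ℝ κ z e| ≤ C' * (‖z‖⁻¹) ^ 2) :
    ∫ z, κ z * fderiv ℝ w z e = - ∫ z, fderiv ℝ κ z e * w z := by
  obtain ⟨L, hL0, hL⟩ := exists_bound_fderiv_cut
  have hW0 : 0 ≤ W := (abs_nonneg _).trans (hwb 0)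
  have hne : ∃ z : E3, z ≠ 0 := exists_ne 0
  obtain ⟨z₀, hz₀⟩ := hne
  have hz₀' : 0 < ‖z₀‖ := norm_pos_iff.2 hz₀
  have hW0' : 0 ≤ W' := (abs_nonneg _).trans (hwb' z₀ hz₀)
  have hC0 : 0 ≤ C := by
    have := (abs_nonneg _).trans (hκ z₀ hz₀)
    exact nonneg_of_mul_nonneg_left this (by positivity)
  have hC0' : 0 ≤ C' := by
    have := (abs_nonneg _).trans (hκ' z₀ hz₀)
    exact nonneg_of_mul_nonneg_left this (by positivity)
  have hκm : Measurable κ := measurable_of_continuousOn_compl_singleton 0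
    fun z hz => (hκd z hz).continuousAt.continuousWithinAt
  have hκ'm : Measurable fun z => fderiv ℝ κ z e := measurable_fderiv_apply_const ℝ κ e
  have hw'm : Measurable fun z => fderiv ℝ w z e := measurable_fderiv_apply_const ℝ w e
  have hcm : ∀ n, Measurable (cut n) := fun n => (cut_contDiff n).continuous.measurable
  have hc'm : ∀ n, Measurable fun z => fderiv ℝ (cut n) z e :=
    fun n => measurable_fderiv_apply_const ℝ _ e
  -- the support of the derivative of `w`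
  have hws' : ∀ z, max R 0 < ‖z‖ → fderiv ℝ w z e = 0 := by
    intro z hz
    have hz1 : R < ‖z‖ := (le_max_left _ _).trans_lt hz
    have : w =ᶠ[𝓝 z] fun _ => 0 := by
      have : {y : E3 | R < ‖y‖} ∈ 𝓝 z := (isOpen_lt continuous_const continuous_norm).mem_nhds hz1
      filter_upwards [this] with y hy
      exact hws y hy
    rw [this.fderiv_eq]; simp
  have hz_ne : ∀ᵐ z : E3, z ≠ 0 := by
    simp [ae_iff, measure_singleton]
  -- the bound for large `z`
  have hinv : ∀ z : E3, ‖z‖ ≤ max R 0 → ‖z‖⁻¹ ≤ max R 0 * (‖z‖⁻¹) ^ 2 := by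
    intro z hz
    rcases eq_or_ne z 0 with rfl | h0
    · simp
    · have hpos : 0 < ‖z‖ := norm_pos_iff.2 h0
      have : ‖z‖ * (‖z‖⁻¹) ^ 2 ≤ max R 0 * (‖z‖⁻¹) ^ 2 := by gcongr
      calc ‖z‖⁻¹ = ‖z‖ * (‖z‖⁻¹) ^ 2 := by field_simp
        _ ≤ _ := this
  -- derivative of the product `cut n * κ`
  have hprod : ∀ n (z : E3), z ≠ 0 → fderiv ℝ (fun y => cut n y * κ y) z e
      = fderiv ℝ (cut n) z e * κ z + cut n z * fderiv ℝ κ z e := by
    intro n z hz
    have h1 : DifferentiableAt ℝ (cut n) z := ((cut_contDiff n).differentiable (by norm_num)) z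
    have := fderiv_fun_mul h1 (hκd z hz)
    rw [this]
    simp
    ring
  have hprod_supp : ∀ n, tsupport (fun y => cut n y * κ y) ⊆ {z | z ≠ 0} := by
    intro n z hz
    have h1 : z ∈ tsupport (cut n) := tsupport_mul_subset_left hz
    have h2 := tsupport_cut n h1
    intro h0
    rw [h0] at h2
    simp at h2
    linarith only [h2]
  have hprod_diff : ∀ n (z : E3), DifferentiableAt ℝ (fun y => cut n y * κ y) z := by
    intro n z
    by_cases hz : z ∈ tsupport (fun y => cut n y * κ y)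
    · exact (((cut_contDiff n).differentiable (by norm_num)) z).mul (hκd z (hprod_supp n hz))
    · have : (fun y => cut n y * κ y) =ᶠ[𝓝 z] fun _ => 0 := by
        exact notMem_tsupport_iff_eventuallyEq.1 hz
      exact this.differentiableAt_iff.2 (differentiableAt_const _)
  -- bounding integrable functions
  have hint : ∀ {g : E3 → ℝ} {D : ℝ}, Measurable g →
      (∀ z, z ≠ 0 → |g z| ≤ D * (‖z‖⁻¹) ^ 2) → (∀ z, max R 0 < ‖z‖ → g z = 0) → Integrable g := by
    intro g D hg hb hs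
    have : Integrable (fun z => if z = 0 then 0 else g z) := by
      refine integrable_kernel (R := max R 0) (C := D)
        (Measurable.ite (measurableSet_singleton _) measurable_const hg).aestronglyMeasurable ?_ ?_
      · intro z
        split_ifs with h0
        · subst h0; simp
        · exact hb z h0
      · intro z hz
        split_ifs with h0
        · rfl
        · exact hs z hz
    refine this.congr ?_
    filter_upwards [hz_ne] with z hz
    simp [hz]
  -- the identity for the cutoff kernels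
  have key : ∀ n, ∫ z, (cut n z * κ z) * fderiv ℝ w z e
      = - ∫ z, fderiv ℝ (fun y => cut n y * κ y) z e * w z := by
    intro n
    have hm : Measurable fun z => fderiv ℝ (fun y => cut n y * κ y) z e :=
      measurable_fderiv_apply_const ℝ _ e
    refine integral_mul_fderiv_eq_neg_fderiv_mul_of_integrable ?_ ?_ ?_ ?_ ?_
    · refine hint (D := (L * ‖e‖ * C + C') * W) (hm.mul hwc.measurable) ?_ ?_
      · intro z hz
        rw [hprod n z hz, abs_mul]
        have h1 := hL n z e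
        have h2 := hκ z hz
        have h3 := hκ' z hz
        have h4 : |fderiv ℝ (cut n) z e * κ z + cut n z * fderiv ℝ κ z e|
            ≤ (L * ‖e‖ * ‖z‖⁻¹) * (C * ‖z‖⁻¹) + 1 * (C' * (‖z‖⁻¹) ^ 2) := by
          refine (abs_add_le _ _).trans ?_
          rw [abs_mul, abs_mul, abs_of_nonneg (cut_nonneg n z)]
          gcongr
          exact cut_le_one n z
        calc _ ≤ ((L * ‖e‖ * ‖z‖⁻¹) * (C * ‖z‖⁻¹) + 1 * (C' * (‖z‖⁻¹) ^ 2)) * W := by
              gcongr
              exact hwb z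
          _ = _ := by ring
      · intro z hz
        rw [hws z ((le_max_left _ _).trans_lt hz), mul_zero]
    · refine hint (D := C * W' * max R 0) (((hcm n).mul hκm).mul hw'm) ?_ ?_
      · intro z hz
        by_cases hzR : max R 0 < ‖z‖
        · rw [hws' z hzR, mul_zero, abs_zero]; (clear * - hW0' hC0 hz; positivity)
        · rw [abs_mul, abs_mul, abs_of_nonneg (cut_nonneg n z)]
          have h2 := hκ z hz
          have h5 := hwb' z hz
          have h6 := hinv z (not_lt.1 hzR)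
          calc cut n z * |κ z| * |fderiv ℝ w z e| ≤ 1 * (C * ‖z‖⁻¹) * W' := by
                gcongr
                exact cut_le_one n z
            _ ≤ 1 * (C * (max R 0 * (‖z‖⁻¹) ^ 2)) * W' := by (clear * - hW0' hC0 h6; gcongr)
            _ = _ := by ring
      · intro z hz
        rw [hws' z hz, mul_zero]
    · refine hint (D := C * W * max R 0) (((hcm n).mul hκm).mul hwc.measurable) ?_ ?_
      · intro z hz
        by_cases hzR : max R 0 < ‖z‖
        · rw [hws z ((le_max_left _ _).trans_lt hzR), mul_zero, abs_zero]; (clear * - hW0 hC0 hz; positivity)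
        · rw [abs_mul, abs_mul, abs_of_nonneg (cut_nonneg n z)]
          have h2 := hκ z hz
          have h5 := hwb z
          have h6 := hinv z (not_lt.1 hzR)
          calc cut n z * |κ z| * |w z| ≤ 1 * (C * ‖z‖⁻¹) * W := by
                gcongr
                exact cut_le_one n z
            _ ≤ 1 * (C * (max R 0 * (‖z‖⁻¹) ^ 2)) * W := by (clear * - hW0 hC0 h6; gcongr)
            _ = _ := by ring
      · intro z hz
        rw [hws z ((le_max_left _ _).trans_lt hz), mul_zero]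
    · intro z _
      exact hprod_diff n z
    · intro z hz
      exact hwd z (hprod_supp n hz)
  -- pass to the limit
  have hbound_int : ∀ D : ℝ, 0 ≤ D → Integrable (fun z : E3 =>
      (Metric.closedBall (0 : E3) (max R 0)).indicator (fun z => D * (‖z‖⁻¹) ^ 2) z) := by
    intro D hD
    refine integrable_kernel (R := max R 0) (C := D) ?_ ?_ ?_
    · refine (Measurable.indicator ?_ measurableSet_closedBall).aestronglyMeasurable
      fun_prop
    · intro z
      by_cases hz : z ∈ Metric.closedBall (0 : E3) (max R 0)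
      · rw [indicator_of_mem hz, abs_of_nonneg (by (clear * - hD; positivity))]
      · rw [indicator_of_notMem hz, abs_zero]; (clear * - hD; positivity)
    · intro z hz
      rw [indicator_of_notMem]
      simpa using hz
  have hlim1 : Tendsto (fun n => ∫ z, (cut n z * κ z) * fderiv ℝ w z e) atTop
      (𝓝 (∫ z, κ z * fderiv ℝ w z e)) := by
    refine tendsto_integral_of_dominated_convergence _ ?_ (hbound_int (C * W' * max R 0)
      (by (clear * - hW0' hC0; positivity))) ?_ ?_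
    · intro n
      exact (((hcm n).mul hκm).mul hw'm).aestronglyMeasurable
    · intro n
      filter_upwards [hz_ne] with z hz
      by_cases hzR : z ∈ Metric.closedBall (0 : E3) (max R 0)
      · rw [indicator_of_mem hzR]
        rw [Metric.mem_closedBall, dist_zero_right] at hzR
        rw [Real.norm_eq_abs, abs_mul, abs_mul, abs_of_nonneg (cut_nonneg n z)]
        have h2 := hκ z hz
        have h5 := hwb' z hz
        have h6 := hinv z hzR
        calc cut n z * |κ z| * |fderiv ℝ w z e| ≤ 1 * (C * ‖z‖⁻¹) * W' := by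
              gcongr
              exact cut_le_one n z
          _ ≤ 1 * (C * (max R 0 * (‖z‖⁻¹) ^ 2)) * W' := by (clear * - hW0' hC0 h6; gcongr)
          _ = _ := by ring
      · rw [indicator_of_notMem hzR]
        rw [Metric.mem_closedBall, dist_zero_right, not_le] at hzR
        rw [hws' z hzR]; simp
    · filter_upwards [hz_ne] with z hz
      have := ((tendsto_cut hz).mul_const (κ z)).mul_const (fderiv ℝ w z e)
      simpa using this
  have hlim2 : Tendsto (fun n => ∫ z, fderiv ℝ (fun y => cut n y * κ y) z e * w z) atTop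
      (𝓝 (∫ z, fderiv ℝ κ z e * w z)) := by
    refine tendsto_integral_of_dominated_convergence _ ?_
      (hbound_int ((L * ‖e‖ * C + C') * W) (by (clear * - hL0 hW0 hC0 hC0'; positivity))) ?_ ?_
    · intro n
      exact ((measurable_fderiv_apply_const ℝ _ e).mul hwc.measurable).aestronglyMeasurable
    · intro n
      filter_upwards [hz_ne] with z hz
      by_cases hzR : z ∈ Metric.closedBall (0 : E3) (max R 0)
      · rw [indicator_of_mem hzR]
        rw [hprod n z hz, Real.norm_eq_abs, abs_mul]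
        have h1 := hL n z e
        have h2 := hκ z hz
        have h3 := hκ' z hz
        have h4 : |fderiv ℝ (cut n) z e * κ z + cut n z * fderiv ℝ κ z e|
            ≤ (L * ‖e‖ * ‖z‖⁻¹) * (C * ‖z‖⁻¹) + 1 * (C' * (‖z‖⁻¹) ^ 2) := by
          refine (abs_add_le _ _).trans ?_
          rw [abs_mul, abs_mul, abs_of_nonneg (cut_nonneg n z)]
          gcongr
          exact cut_le_one n z
        calc _ ≤ ((L * ‖e‖ * ‖z‖⁻¹) * (C * ‖z‖⁻¹) + 1 * (C' * (‖z‖⁻¹) ^ 2)) * W := by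
              gcongr
              exact hwb z
          _ = _ := by ring
      · rw [indicator_of_notMem hzR]
        rw [Metric.mem_closedBall, dist_zero_right, not_le] at hzR
        rw [hws z ((le_max_left _ _).trans_lt hzR)]; simp
    · filter_upwards [hz_ne] with z hz
      have h1 := ((tendsto_fderiv_cut hz e).mul_const (κ z))
      have h2 := (tendsto_cut hz).mul_const (fderiv ℝ κ z e)
      have h3 := (h1.add h2).mul_const (w z)
      simp only [zero_mul, one_mul, zero_add] at h3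
      refine h3.congr fun n => ?_
      rw [hprod n z hz]
  have hlim3 : Tendsto (fun n => ∫ z, (cut n z * κ z) * fderiv ℝ w z e) atTop
      (𝓝 (-∫ z, fderiv ℝ κ z e * w z)) := by
    refine hlim2.neg.congr fun n => ?_
    rw [key n]
  exact tendsto_nhds_unique hlim1 hlim3

end Vale.Agent.P107
end
end
end

section

section

attribute [-instance] ProperSMul.toContinuousSMul IsTopologicalTorsor.toContinuousSMul
  IdemSemiring.toCanonicallyOrderedAdd IdemSemiring.toMulLeftMono IdemSemiring.toMulRightMono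
  AddQuantale.instAddLeftMono AddQuantale.instAddRightMono Quantale.instMulLeftMono
  Quantale.instMulRightMono FiniteDimensional.rclike_to_real IsScalarTower.complexToReal
  FiniteDimensional.complexToReal

section

/-!
Polar coordinates on `E3`.
-/

open MeasureTheory Set Filter Topology
open scoped RealInnerProductSpace ENNReal NNReal

namespace Vale.Agent.P107

/-- The surface measure of the unit sphere. -/
noncomputable abbrev sph : Measure (Metric.sphere (0 : E3) 1) := (volume : Measure E3).toSphere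

theorem integral_polar {F : E3 → ℝ} (hF : Integrable F) :
    ∫ z, F z = ∫ ω, ∫ r in Ioi (0 : ℝ), r ^ 2 * F (r • (ω : E3)) ∂volume ∂sph := by
  have hmp := (volume : Measure E3).measurePreserving_homeomorphUnitSphereProd
  have h1 : ∫ z, F z = ∫ z : ({0}ᶜ : Set E3), F z ∂(volume.comap Subtype.val) := by
    rw [integral_subtype_comap (measurableSet_singleton _).compl, restrict_compl_singleton]
  have hcomp : ∀ z : ({0}ᶜ : Set E3), F z = (fun p : Metric.sphere (0 : E3) 1 × Ioi (0 : ℝ) =>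
      F ((p.2 : ℝ) • (p.1 : E3))) (homeomorphUnitSphereProd E3 z) := by
    intro z
    have := (homeomorphUnitSphereProd E3).symm_apply_apply z
    have h := congrArg Subtype.val this
    rw [homeomorphUnitSphereProd_symm_apply_coe] at h
    simp only
    rw [h]
  have h2 : ∫ z : ({0}ᶜ : Set E3), F z ∂(volume.comap Subtype.val)
      = ∫ p : Metric.sphere (0 : E3) 1 × Ioi (0 : ℝ), F ((p.2 : ℝ) • (p.1 : E3))
        ∂(sph.prod (.volumeIoiPow (Module.finrank ℝ E3 - 1))) := by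
    rw [← hmp.integral_comp (Homeomorph.measurableEmbedding _)]
    exact integral_congr_ae (ae_of_all _ hcomp)
  have h3 : Integrable (fun p : Metric.sphere (0 : E3) 1 × Ioi (0 : ℝ) =>
      F ((p.2 : ℝ) • (p.1 : E3))) (sph.prod (.volumeIoiPow (Module.finrank ℝ E3 - 1))) := by
    rw [← hmp.integrable_comp_emb (Homeomorph.measurableEmbedding _)]
    have h4 : Integrable (fun z : ({0}ᶜ : Set E3) => F z) (volume.comap Subtype.val) := by
      have : IntegrableOn F ({0}ᶜ : Set E3) := hF.integrableOn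
      rwa [integrableOn_iff_comap_subtypeVal (measurableSet_singleton _).compl] at this
    exact h4.congr (ae_of_all _ hcomp)
  rw [h1, h2, integral_prod _ h3]
  refine integral_congr_ae (ae_of_all _ fun ω => ?_)
  simp only [Measure.volumeIoiPow, ENNReal.ofReal, finrank_euclideanSpace_fin]
  rw [integral_withDensity_eq_integral_smul,
    integral_subtype_comap measurableSet_Ioi fun r => Real.toNNReal (r ^ (3 - 1)) • F (r • (ω : E3)),
    setIntegral_congr_fun measurableSet_Ioi fun r hr ↦ ?_]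
  · rw [NNReal.smul_def, Real.coe_toNNReal _ (pow_nonneg hr.out.le _)]
    simp
  · exact (measurable_subtype_coe.pow_const _).real_toNNReal

end Vale.Agent.P107
end
end
end

section

section

attribute [-instance] ProperSMul.toContinuousSMul IsTopologicalTorsor.toContinuousSMul
  IdemSemiring.toCanonicallyOrderedAdd IdemSemiring.toMulLeftMono IdemSemiring.toMulRightMono
  AddQuantale.instAddLeftMono AddQuantale.instAddRightMono Quantale.instMulLeftMono
  Quantale.instMulRightMono FiniteDimensional.rclike_to_real IsScalarTower.complexToReal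
  FiniteDimensional.complexToReal

section

/-!
Identities for the Newtonian kernel `z / |z|³`.
-/

open MeasureTheory Set Filter Topology
open scoped RealInnerProductSpace ENNReal NNReal

namespace Vale.Agent.P107

/-- The support of the derivative. -/
lemma fderiv_eq_zero_of_support {w : E3 → ℝ} {R : ℝ} (hws : ∀ z, R < ‖z‖ → w z = 0) (e : E3)
    {z : E3} (hz : R < ‖z‖) : fderiv ℝ w z e = 0 := by
  have : w =ᶠ[𝓝 z] fun _ => 0 := by
    have : {y : E3 | R < ‖y‖} ∈ 𝓝 z := (isOpen_lt continuous_const continuous_norm).mem_nhds hz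
    filter_upwards [this] with y hy
    exact hws y hy
  rw [this.fderiv_eq]; simp

lemma ae_ne_zero : ∀ᵐ z : E3, z ≠ 0 := by
  simp [ae_iff, measure_singleton]

/-- The delta-function identity for the Newtonian kernel. -/
theorem newton_delta {w : E3 → ℝ} {R W' : ℝ}
    (hwc : Continuous w) (hwd : ∀ z ≠ 0, DifferentiableAt ℝ w z)
    (hws : ∀ z, R < ‖z‖ → w z = 0)
    (hwb' : ∀ z, z ≠ 0 → ‖fderiv ℝ w z‖ ≤ W') :
    ∫ z, (‖z‖⁻¹) ^ 3 * fderiv ℝ w z z = - (sph.real univ * w 0) := by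
  obtain ⟨z₀, hz₀⟩ : ∃ z : E3, z ≠ 0 := exists_ne 0
  have hW0' : 0 ≤ W' := (norm_nonneg _).trans (hwb' z₀ hz₀)
  have hm : Measurable fun z : E3 => fderiv ℝ w z z := by
    have h1 : Measurable (fderiv ℝ w) := measurable_fderiv ℝ w
    exact (isBoundedBilinearMap_apply (𝕜 := ℝ) (E := E3) (F := ℝ)).continuous.measurable.comp
      (h1.prodMk measurable_id)
  have hbound : ∀ z : E3, z ≠ 0 → |(‖z‖⁻¹) ^ 3 * fderiv ℝ w z z| ≤ W' * (‖z‖⁻¹) ^ 2 := by
    intro z hz
    have hpos : 0 < ‖z‖ := norm_pos_iff.2 hz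
    rw [abs_mul, abs_of_nonneg (by positivity)]
    have h1 : |fderiv ℝ w z z| ≤ W' * ‖z‖ := by
      have := (fderiv ℝ w z).le_opNorm z
      rw [Real.norm_eq_abs] at this
      refine this.trans ?_
      gcongr
      exact hwb' z hz
    calc (‖z‖⁻¹) ^ 3 * |fderiv ℝ w z z| ≤ (‖z‖⁻¹) ^ 3 * (W' * ‖z‖) := by (clear * - hz h1; gcongr)
      _ = W' * (‖z‖⁻¹) ^ 2 := by field_simp
  have hint : Integrable (fun z : E3 => (‖z‖⁻¹) ^ 3 * fderiv ℝ w z z) := by
    refine integrable_kernel (R := max R 0) (C := W') ?_ ?_ ?_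
    · exact (Measurable.mul (by fun_prop) hm).aestronglyMeasurable
    · intro z
      rcases eq_or_ne z 0 with rfl | hz
      · simp
      · exact hbound z hz
    · intro z hz
      rw [fderiv_eq_zero_of_support hws _ ((le_max_left _ _).trans_lt hz), mul_zero]
  rw [integral_polar hint]
  have hinner : ∀ ω : Metric.sphere (0 : E3) 1,
      ∫ r in Ioi (0 : ℝ), r ^ 2 * ((‖r • (ω : E3)‖⁻¹) ^ 3 * fderiv ℝ w (r • (ω : E3)) (r • (ω : E3)))
        = - w 0 := by
    intro ω
    have hω : ‖(ω : E3)‖ = 1 := by simp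
    have hω0 : (ω : E3) ≠ 0 := by
      intro h; rw [h] at hω; simp at hω
    have h1 : ∀ r ∈ Ioi (0 : ℝ), r ^ 2 * ((‖r • (ω : E3)‖⁻¹) ^ 3 *
        fderiv ℝ w (r • (ω : E3)) (r • (ω : E3))) = fderiv ℝ w (r • (ω : E3)) ω := by
      intro r hr
      have hr0 : (0 : ℝ) < r := hr
      rw [norm_smul, hω, mul_one, Real.norm_of_nonneg hr0.le, map_smul, smul_eq_mul]
      (clear * - hr0; field_simp)
    rw [setIntegral_congr_fun measurableSet_Ioi h1]
    have hderiv : ∀ r ∈ Ioi (0 : ℝ), HasDerivAt (fun r : ℝ => w (r • (ω : E3)))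
        (fderiv ℝ w (r • (ω : E3)) ω) r := by
      intro r hr
      have hr0 : (0 : ℝ) < r := hr
      have hne : r • (ω : E3) ≠ 0 := smul_ne_zero hr0.ne' hω0
      have h2 : HasDerivAt (fun r : ℝ => r • (ω : E3)) (ω : E3) r := by
        simpa using (hasDerivAt_id r).smul_const (ω : E3)
      exact (hwd _ hne).hasFDerivAt.comp_hasDerivAt r h2
    have hlim : Tendsto (fun r : ℝ => w (r • (ω : E3))) atTop (𝓝 0) := by
      refine tendsto_const_nhds.congr' ?_
      filter_upwards [eventually_gt_atTop (max R 0)] with r hr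
      symm
      apply hws
      have hr0 : 0 < r := (le_max_right _ _).trans_lt hr
      rw [norm_smul, hω, mul_one, Real.norm_of_nonneg hr0.le]
      exact (le_max_left _ _).trans_lt hr
    have hint2 : IntegrableOn (fun r : ℝ => fderiv ℝ w (r • (ω : E3)) ω) (Ioi 0) := by
      have h3 : IntegrableOn (fun _ : ℝ => W') (Ioc 0 (max R 0)) := by
        simp [integrableOn_const_iff]
      have h4 : Integrable ((Ioc 0 (max R 0)).indicator (fun _ : ℝ => W')) := by
        rwa [integrable_indicator_iff measurableSet_Ioc]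
      have hm2 : Measurable (fun r : ℝ => fderiv ℝ w (r • (ω : E3)) ω) := by
        have := measurable_fderiv_apply_const ℝ w (ω : E3)
        exact this.comp (by fun_prop)
      refine Integrable.mono' h4.integrableOn hm2.aestronglyMeasurable ?_
      filter_upwards [ae_restrict_mem measurableSet_Ioi] with r hr
      have hr0 : (0 : ℝ) < r := hr
      by_cases hrR : r ≤ max R 0
      · rw [indicator_of_mem (by exact ⟨hr0, hrR⟩)]
        have hne : r • (ω : E3) ≠ 0 := smul_ne_zero hr0.ne' hω0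
        have := (fderiv ℝ w (r • (ω : E3))).le_opNorm ω
        rw [hω, mul_one] at this
        exact this.trans (hwb' _ hne)
      · rw [indicator_of_notMem (fun h => hrR h.2)]
        rw [fderiv_eq_zero_of_support hws]
        · simp
        · rw [norm_smul, hω, mul_one, Real.norm_of_nonneg hr0.le]
          exact (le_max_left _ _).trans_lt (not_le.1 hrR)
    rw [integral_Ioi_of_hasDerivAt_of_tendsto _ hderiv hint2 hlim]
    · simp
    · apply Continuous.continuousWithinAt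
      exact hwc.comp (by fun_prop)
  rw [integral_congr_ae (ae_of_all _ hinner)]
  simp

lemma hasFDerivAt_component (i : Fin 3) (z : E3) :
    HasFDerivAt (fun y : E3 => y i) (EuclideanSpace.proj i : E3 →L[ℝ] ℝ) z :=
  (EuclideanSpace.proj i : E3 →L[ℝ] ℝ).hasFDerivAt

lemma hasFDerivAt_norm {z : E3} (hz : z ≠ 0) :
    HasFDerivAt (fun y : E3 => ‖y‖) (‖z‖⁻¹ • innerSL ℝ z) z := by
  have hpos : 0 < ‖z‖ := norm_pos_iff.2 hz
  have h1 : HasFDerivAt (fun y : E3 => ‖y‖ ^ 2) (2 • (innerSL ℝ z)) z :=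
    (hasStrictFDerivAt_norm_sq z).hasFDerivAt
  have h2 := h1.sqrt (by positivity)
  have h3 : (fun y : E3 => Real.sqrt (‖y‖ ^ 2)) = fun y : E3 => ‖y‖ := by
    ext y; exact Real.sqrt_sq (norm_nonneg y)
  rw [h3] at h2
  refine h2.congr_fderiv ?_
  rw [Real.sqrt_sq hpos.le]
  ext e
  simp
  field_simp

@[simp] lemma inner_single_E3 (z : E3) (i : Fin 3) :
    ⟪z, EuclideanSpace.single i (1 : ℝ)⟫ = z i := by
  simp [EuclideanSpace.inner_single_right]

lemma cut_eventually_zero (n : ℕ) : cut n =ᶠ[𝓝 0] fun _ => 0 := by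
  have : Metric.ball (0 : E3) ((n : ℝ) + 1)⁻¹ ∈ 𝓝 (0 : E3) :=
    Metric.ball_mem_nhds _ (by positivity)
  filter_upwards [this] with z hz
  rw [Metric.mem_ball, dist_zero_right] at hz
  apply cut_eq_zero
  have h : (0 : ℝ) < (n : ℝ) + 1 := by positivity
  calc ‖z‖ * ((n : ℝ) + 1) ≤ ((n : ℝ) + 1)⁻¹ * ((n : ℝ) + 1) := by (clear * - hz; gcongr)
    _ = 1 := inv_mul_cancel₀ h.ne'

/-- The radial cutoff kernel `cut · |z|⁻ᵏ` has a radial derivative. -/
lemma exists_hasFDerivAt_radial (n k : ℕ) (z : E3) :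
    ∃ c : ℝ, HasFDerivAt (fun y : E3 => cut n y * (‖y‖⁻¹) ^ k) (c • innerSL ℝ z) z := by
  rcases eq_or_ne z 0 with rfl | hz
  · refine ⟨0, ?_⟩
    have h : (fun y : E3 => cut n y * (‖y‖⁻¹) ^ k) =ᶠ[𝓝 0] fun _ => 0 := by
      filter_upwards [cut_eventually_zero n] with y hy
      simp [hy]
    have h2 : HasFDerivAt (fun _ : E3 => (0 : ℝ)) (0 : E3 →L[ℝ] ℝ) 0 := hasFDerivAt_const _ _
    simpa using h2.congr_of_eventuallyEq h
  · have hpos : 0 < ‖z‖ := norm_pos_iff.2 hz
    have h1 := hasFDerivAt_cut n z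
    have h2 : HasFDerivAt (fun y : E3 => ‖y‖⁻¹) (-(‖z‖ ^ 2)⁻¹ • (‖z‖⁻¹ • innerSL ℝ z)) z :=
      (hasDerivAt_inv hpos.ne').comp_hasFDerivAt z (hasFDerivAt_norm hz)
    have h3 : HasFDerivAt (fun y : E3 => (‖y‖⁻¹) ^ k) _ z := h2.pow k
    have h4 := h1.mul h3
    refine ⟨cut n z * (((k : ℝ) * (‖z‖⁻¹) ^ (k - 1)) * (-(‖z‖ ^ 2)⁻¹ * ‖z‖⁻¹))
        + (‖z‖⁻¹) ^ k * (deriv Real.smoothTransition (‖z‖ ^ 2 * ((n : ℝ) + 1) ^ 2 - 1)
      * (2 * ((n : ℝ) + 1) ^ 2)), h4.congr_fderiv ?_⟩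
    ext e
    simp
    ring

lemma abs_component_le (z : E3) (i : Fin 3) : |z i| ≤ ‖z‖ := by
  have := EuclideanSpace.norm_eq z
  rw [this]
  apply Real.abs_le_sqrt
  have : z i ^ 2 = ‖z i‖ ^ 2 := by simp
  rw [this]
  exact Finset.single_le_sum (f := fun i => ‖z i‖ ^ 2) (fun _ _ => by positivity) (Finset.mem_univ i)

lemma norm_single (i : Fin 3) : ‖(EuclideanSpace.single i (1 : ℝ) : E3)‖ = 1 := by simp

/-- The antisymmetric identity for radial kernels. -/
theorem radial_antisym {w : E3 → ℝ} {R W W' : ℝ} (k : ℕ) (hk : k ≤ 3) (i j : Fin 3)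
    (hwc : Continuous w) (hwd : ∀ z ≠ 0, DifferentiableAt ℝ w z)
    (hws : ∀ z, R < ‖z‖ → w z = 0) (hwb : ∀ z, |w z| ≤ W)
    (hwb' : ∀ z, z ≠ 0 → ‖fderiv ℝ w z‖ ≤ W') :
    ∫ z, (‖z‖⁻¹) ^ k * (z j * fderiv ℝ w z (EuclideanSpace.single i 1)
      - z i * fderiv ℝ w z (EuclideanSpace.single j 1)) = 0 := by
  obtain ⟨z₀, hz₀⟩ : ∃ z : E3, z ≠ 0 := exists_ne 0
  have hW0' : 0 ≤ W' := (norm_nonneg _).trans (hwb' z₀ hz₀)
  have hW0 : 0 ≤ W := (abs_nonneg _).trans (hwb 0)
  set R' := max R 0 with hR'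
  have hR'0 : 0 ≤ R' := le_max_right _ _
  have hws1 : ∀ z, R' < ‖z‖ → w z = 0 := fun z hz => hws z ((le_max_left _ _).trans_lt hz)
  have hws' : ∀ l : Fin 3, ∀ z, R' < ‖z‖ → fderiv ℝ w z (EuclideanSpace.single l 1) = 0 :=
    fun l z hz => fderiv_eq_zero_of_support hws1 _ hz
  have hdb : ∀ l : Fin 3, ∀ z, z ≠ 0 → |fderiv ℝ w z (EuclideanSpace.single l 1)| ≤ W' := by
    intro l z hz
    have := (fderiv ℝ w z).le_opNorm (EuclideanSpace.single l 1)
    rw [norm_single, mul_one] at this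
    exact this.trans (hwb' z hz)
  have hw'm : ∀ l : Fin 3, Measurable fun z => fderiv ℝ w z (EuclideanSpace.single l 1) :=
    fun l => measurable_fderiv_apply_const ℝ w _
  -- pointwise bound
  have hpt : ∀ l m : Fin 3, ∀ z : E3, z ≠ 0 → ‖z‖ ≤ R' →
      |(‖z‖⁻¹) ^ k * (z m * fderiv ℝ w z (EuclideanSpace.single l 1))|
        ≤ ((R' + 1) ^ 3 * W') * (‖z‖⁻¹) ^ 2 := by
    intro l m z hz hzR
    have hpos : 0 < ‖z‖ := norm_pos_iff.2 hz
    rw [abs_mul, abs_mul, abs_of_nonneg (by positivity)]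
    have h1 : (‖z‖⁻¹) ^ k * ‖z‖ ≤ (R' + 1) ^ 3 * (‖z‖⁻¹) ^ 2 := by
      have h2 : (‖z‖⁻¹) ^ k * ‖z‖ = ‖z‖ ^ (3 - k) * (‖z‖⁻¹) ^ 2 := by
        have h3 : ‖z‖ ^ 3 = ‖z‖ ^ (3 - k) * ‖z‖ ^ k := by
          rw [← pow_add]; congr 1; omega
        have h4 : ‖z‖ ^ k ≠ 0 := by positivity
        rw [inv_pow, inv_pow, inv_mul_eq_div, div_eq_iff h4, ← div_eq_mul_inv, div_mul_eq_mul_div,
          eq_div_iff (by positivity), ← h3]
        ring
      rw [h2]
      gcongr
      calc ‖z‖ ^ (3 - k) ≤ (R' + 1) ^ (3 - k) := by gcongr; linarith only [hzR]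
        _ ≤ (R' + 1) ^ 3 := by
          apply pow_le_pow_right₀ (by linarith only [hzR, hpos]) (by omega)
    calc (‖z‖⁻¹) ^ k * (|z m| * |fderiv ℝ w z (EuclideanSpace.single l 1)|)
        ≤ (‖z‖⁻¹) ^ k * (‖z‖ * W') := by
          gcongr
          · exact abs_component_le z m
          · exact hdb l z hz
      _ = ((‖z‖⁻¹) ^ k * ‖z‖) * W' := by ring
      _ ≤ ((R' + 1) ^ 3 * (‖z‖⁻¹) ^ 2) * W' := by (clear * - hW0' h1; gcongr)
      _ = _ := by ring
  -- the identity with cutoffs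
  have key : ∀ n, ∫ z, cut n z * ((‖z‖⁻¹) ^ k * (z j * fderiv ℝ w z (EuclideanSpace.single i 1)
      - z i * fderiv ℝ w z (EuclideanSpace.single j 1))) = 0 := by
    intro n
    set Φ : E3 → ℝ := fun y => cut n y * (‖y‖⁻¹) ^ k with hΦ
    have hcont : Continuous Φ := by
      rw [continuous_iff_continuousAt]
      intro z
      obtain ⟨c, hc⟩ := exists_hasFDerivAt_radial n k z
      exact hc.continuousAt
    have hsupp : tsupport Φ ⊆ {z | z ≠ 0} := by
      intro z hz
      have h1 : z ∈ tsupport (cut n) := tsupport_mul_subset_left hz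
      have h2 := tsupport_cut n h1
      intro h0
      rw [h0] at h2
      simp at h2
      linarith only [h2]
    -- use the full Frechet derivative instead, to compare the two
    have hder2 : ∀ z : E3, fderiv ℝ (fun y : E3 => Φ y * y j) z (EuclideanSpace.single i 1)
        = fderiv ℝ (fun y : E3 => Φ y * y i) z (EuclideanSpace.single j 1) := by
      intro z
      obtain ⟨c, hc⟩ := exists_hasFDerivAt_radial n k z
      have h1 : HasFDerivAt (fun y : E3 => Φ y * y j)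
        (Φ z • (EuclideanSpace.proj j : E3 →L[ℝ] ℝ) + (z j) • (c • innerSL ℝ z)) z :=
        hc.mul (hasFDerivAt_component j z)
      have h2 : HasFDerivAt (fun y : E3 => Φ y * y i)
        (Φ z • (EuclideanSpace.proj i : E3 →L[ℝ] ℝ) + (z i) • (c • innerSL ℝ z)) z :=
        hc.mul (hasFDerivAt_component i z)
      rw [h1.fderiv, h2.fderiv]
      by_cases hij : i = j
      · subst hij; rfl
      · simp [hij, Ne.symm hij]
        ring
    have hcontD : ∀ m l : Fin 3, Continuous (fun z : E3 =>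
        fderiv ℝ (fun y : E3 => Φ y * y m) z (EuclideanSpace.single l 1)) := by
      intro m l
      have hcd : ContDiff ℝ 1 (fun y : E3 => Φ y * y m) := by
        refine ContDiff.mul ?_ ?_
        · rw [contDiff_iff_contDiffAt]
          intro z
          by_cases hz : z = 0
          · subst hz
            have h : Φ =ᶠ[𝓝 0] fun _ => 0 := by
              filter_upwards [cut_eventually_zero n] with y hy
              simp [hΦ, hy]
            exact contDiffAt_const.congr_of_eventuallyEq h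
          · refine ContDiffAt.mul (cut_contDiff n).contDiffAt ?_
            refine ContDiffAt.pow ?_ _
            exact (contDiffAt_norm ℝ hz).inv (norm_ne_zero_iff.2 hz)
        · exact (EuclideanSpace.proj m : E3 →L[ℝ] ℝ).contDiff
      exact (hcd.continuous_fderiv (by norm_num)).clm_apply continuous_const
    have hcs : HasCompactSupport w := by
      refine HasCompactSupport.of_support_subset_isCompact (isCompact_closedBall (0 : E3) R') ?_
      intro z hz
      rw [Function.mem_support] at hz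
      by_contra h
      rw [Metric.mem_closedBall, dist_zero_right, not_le] at h
      exact hz (hws1 z h)
    have hibp : ∀ m l : Fin 3, ∫ z, (Φ z * z m) * fderiv ℝ w z (EuclideanSpace.single l 1)
        = - ∫ z, fderiv ℝ (fun y : E3 => Φ y * y m) z (EuclideanSpace.single l 1) * w z := by
      intro m l
      have hΦm : Continuous fun z : E3 => Φ z * z m := hcont.mul (by fun_prop)
      refine integral_mul_fderiv_eq_neg_fderiv_mul_of_integrable ?_ ?_ ?_ ?_ ?_
      · exact ((hcontD m l).mul hwc).integrable_of_hasCompactSupport hcs.mul_left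
      · -- bounded measurable times continuous compact support
        have hb : ∃ C, ∀ z ∈ Metric.closedBall (0 : E3) R', ‖Φ z * z m‖ ≤ C :=
          (isCompact_closedBall (0 : E3) R').exists_bound_of_continuousOn hΦm.continuousOn
        obtain ⟨C, hC⟩ := hb
        have hC0 : 0 ≤ C := (norm_nonneg _).trans (hC 0 (by simp [hR'0]))
        have h4 : Integrable ((Metric.closedBall (0 : E3) R').indicator (fun _ => C * W')) := by
          rw [integrable_indicator_iff measurableSet_closedBall]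
          exact integrableOn_const (measure_closedBall_lt_top.ne)
        refine h4.mono' ((hΦm.measurable.mul (hw'm l)).aestronglyMeasurable) ?_
        filter_upwards [ae_ne_zero] with z hz
        by_cases hzR : z ∈ Metric.closedBall (0 : E3) R'
        · rw [indicator_of_mem hzR, norm_mul]
          gcongr
          · exact hC z hzR
          · exact hdb l z hz
        · rw [indicator_of_notMem hzR]
          rw [Metric.mem_closedBall, dist_zero_right, not_le] at hzR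
          rw [hws' l z hzR]; simp
      · exact (hΦm.mul hwc).integrable_of_hasCompactSupport hcs.mul_left
      · intro z _
        obtain ⟨c, hc⟩ := exists_hasFDerivAt_radial n k z
        exact (hc.mul (hasFDerivAt_component m z)).differentiableAt
      · intro z hz
        apply hwd z
        exact hsupp (tsupport_mul_subset_left hz)
    have hI : ∀ m l : Fin 3, Integrable fun z => (Φ z * z m) * fderiv ℝ w z (EuclideanSpace.single l 1) := by
      intro m l
      have hΦm : Continuous fun z : E3 => Φ z * z m := hcont.mul (by fun_prop)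
      have hb : ∃ C, ∀ z ∈ Metric.closedBall (0 : E3) R', ‖Φ z * z m‖ ≤ C :=
        (isCompact_closedBall (0 : E3) R').exists_bound_of_continuousOn hΦm.continuousOn
      obtain ⟨C, hC⟩ := hb
      have hC0 : 0 ≤ C := (norm_nonneg _).trans (hC 0 (by simp [hR'0]))
      have h4 : Integrable ((Metric.closedBall (0 : E3) R').indicator (fun _ => C * W')) := by
        rw [integrable_indicator_iff measurableSet_closedBall]
        exact integrableOn_const (measure_closedBall_lt_top.ne)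
      refine h4.mono' ((hΦm.measurable.mul (hw'm l)).aestronglyMeasurable) ?_
      filter_upwards [ae_ne_zero] with z hz
      by_cases hzR : z ∈ Metric.closedBall (0 : E3) R'
      · rw [indicator_of_mem hzR, norm_mul]
        gcongr
        · exact hC z hzR
        · exact hdb l z hz
      · rw [indicator_of_notMem hzR]
        rw [Metric.mem_closedBall, dist_zero_right, not_le] at hzR
        rw [hws' l z hzR]; simp
    have h1 : ∫ z, ((Φ z * z j) * fderiv ℝ w z (EuclideanSpace.single i 1)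
        - (Φ z * z i) * fderiv ℝ w z (EuclideanSpace.single j 1)) = 0 := by
      rw [integral_sub (hI j i) (hI i j), hibp j i, hibp i j]
      have h2 : ∫ z, fderiv ℝ (fun y : E3 => Φ y * y j) z (EuclideanSpace.single i 1) * w z
          = ∫ z, fderiv ℝ (fun y : E3 => Φ y * y i) z (EuclideanSpace.single j 1) * w z :=
        integral_congr_ae (ae_of_all _ fun z => by simp only [hder2 z])
      rw [h2]
      ring
    rw [← h1]
    refine integral_congr_ae (ae_of_all _ fun z => ?_)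
    simp only [hΦ]
    ring
  -- pass to the limit
  have hlim : Tendsto (fun n : ℕ => ∫ z, cut n z * ((‖z‖⁻¹) ^ k *
      (z j * fderiv ℝ w z (EuclideanSpace.single i 1)
      - z i * fderiv ℝ w z (EuclideanSpace.single j 1)))) atTop
      (𝓝 (∫ z, (‖z‖⁻¹) ^ k * (z j * fderiv ℝ w z (EuclideanSpace.single i 1)
      - z i * fderiv ℝ w z (EuclideanSpace.single j 1)))) := by
    have hb : Integrable (fun z : E3 => (Metric.closedBall (0 : E3) R').indicator
        (fun z => (2 * ((R' + 1) ^ 3 * W')) * (‖z‖⁻¹) ^ 2) z) := by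
      refine integrable_kernel (R := R') (C := 2 * ((R' + 1) ^ 3 * W')) ?_ ?_ ?_
      · refine (Measurable.indicator ?_ measurableSet_closedBall).aestronglyMeasurable
        fun_prop
      · intro z
        by_cases hz : z ∈ Metric.closedBall (0 : E3) R'
        · rw [indicator_of_mem hz, abs_of_nonneg (by (clear * - R hW0'; positivity))]
        · rw [indicator_of_notMem hz, abs_zero]; (clear * - R hW0'; positivity)
      · intro z hz
        rw [indicator_of_notMem]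
        simpa using hz
    have hmeas : Measurable fun z : E3 => (‖z‖⁻¹) ^ k *
        (z j * fderiv ℝ w z (EuclideanSpace.single i 1)
        - z i * fderiv ℝ w z (EuclideanSpace.single j 1)) := by
      have h1 := hw'm i
      have h2 := hw'm j
      fun_prop
    refine tendsto_integral_of_dominated_convergence _ ?_ hb ?_ ?_
    · intro n
      exact ((cut_contDiff n).continuous.measurable.mul hmeas).aestronglyMeasurable
    · intro n
      filter_upwards [ae_ne_zero] with z hz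
      by_cases hzR : z ∈ Metric.closedBall (0 : E3) R'
      · rw [indicator_of_mem hzR]
        rw [Metric.mem_closedBall, dist_zero_right] at hzR
        rw [norm_mul, Real.norm_of_nonneg (cut_nonneg n z), mul_sub]
        have h1 := hpt i j z hz hzR
        have h2 := hpt j i z hz hzR
        have h3 : ‖(‖z‖⁻¹) ^ k * (z j * fderiv ℝ w z (EuclideanSpace.single i 1))
            - (‖z‖⁻¹) ^ k * (z i * fderiv ℝ w z (EuclideanSpace.single j 1))‖
            ≤ ((R' + 1) ^ 3 * W') * (‖z‖⁻¹) ^ 2 + ((R' + 1) ^ 3 * W') * (‖z‖⁻¹) ^ 2 :=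
          (norm_sub_le _ _).trans (add_le_add h1 h2)
        calc _ ≤ 1 * (((R' + 1) ^ 3 * W') * (‖z‖⁻¹) ^ 2 + ((R' + 1) ^ 3 * W') * (‖z‖⁻¹) ^ 2) := by
              gcongr
              exact cut_le_one n z
          _ = _ := by ring
      · rw [indicator_of_notMem hzR]
        rw [Metric.mem_closedBall, dist_zero_right, not_le] at hzR
        rw [hws' i z hzR, hws' j z hzR]; simp
    · filter_upwards [ae_ne_zero] with z hz
      have := (tendsto_cut hz).mul_const ((‖z‖⁻¹) ^ k *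
        (z j * fderiv ℝ w z (EuclideanSpace.single i 1)
        - z i * fderiv ℝ w z (EuclideanSpace.single j 1)))
      simpa using this
  have hlim0 : Tendsto (fun n : ℕ => ∫ z, cut n z * ((‖z‖⁻¹) ^ k *
      (z j * fderiv ℝ w z (EuclideanSpace.single i 1)
      - z i * fderiv ℝ w z (EuclideanSpace.single j 1)))) atTop (𝓝 0) := by
    simp only [key]
    exact tendsto_const_nhds
  exact tendsto_nhds_unique hlim hlim0

end Vale.Agent.P107
end
end
end

section

section

attribute [-instance] ProperSMul.toContinuousSMul IsTopologicalTorsor.toContinuousSMul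
  IdemSemiring.toCanonicallyOrderedAdd IdemSemiring.toMulLeftMono IdemSemiring.toMulRightMono
  AddQuantale.instAddLeftMono AddQuantale.instAddRightMono Quantale.instMulLeftMono
  Quantale.instMulRightMono FiniteDimensional.rclike_to_real IsScalarTower.complexToReal
  FiniteDimensional.complexToReal

section

/-!
Retarded functions `z ↦ G (t - |z|, x + z)` and their derivatives.
-/

open MeasureTheory Set Filter Topology
open scoped RealInnerProductSpace ENNReal NNReal

namespace Vale.Agent.P107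

/-- The retarded space-time point. -/
noncomputable def rp (t : ℝ) (x z : E3) : ℝ × E3 := (t - ‖z‖, x + z)

/-- Time derivative of a function on space-time. -/
noncomputable def ptd (G : ℝ × E3 → ℝ) (p : ℝ × E3) : ℝ := fderiv ℝ G p (1, 0)

/-- Spatial derivative of a function on space-time, in direction `e`. -/
noncomputable def pxd (e : E3) (G : ℝ × E3 → ℝ) (p : ℝ × E3) : ℝ := fderiv ℝ G p (0, e)

/-- Functions that are `C¹` before time `T` and vanish up to time `η > 0`. -/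
structure Late (T : ℝ) (G : ℝ × E3 → ℝ) : Prop where
  contDiffOn : ContDiffOn ℝ 1 G (Iio T ×ˢ univ)
  vanish : ∃ η > 0, ∀ p : ℝ × E3, p.1 ≤ η → G p = 0

/-- Functions that are continuous before time `T` and vanish up to time `0`. -/
structure LateC (T : ℝ) (A : ℝ × E3 → ℝ) : Prop where
  continuousOn : ContinuousOn A (Iio T ×ˢ univ)
  vanish : ∀ p : ℝ × E3, p.1 ≤ 0 → A p = 0

lemma isOpen_dom (T : ℝ) : IsOpen (Iio T ×ˢ (univ : Set E3)) := isOpen_Iio.prod isOpen_univ

lemma Late.lateC {T : ℝ} {G : ℝ × E3 → ℝ} (h : Late T G) : LateC T G := by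
  obtain ⟨η, hη, hv⟩ := h.vanish
  exact ⟨h.contDiffOn.continuousOn, fun p hp => hv p (hp.trans hη.le)⟩

lemma Late.fderiv_eq_zero {T : ℝ} {G : ℝ × E3 → ℝ} (h : Late T G) (p : ℝ × E3) (hp : p.1 ≤ 0) :
    fderiv ℝ G p = 0 := by
  obtain ⟨η, hη, hv⟩ := h.vanish
  have : G =ᶠ[𝓝 p] fun _ => 0 := by
    have hmem : {p : ℝ × E3 | p.1 < η} ∈ 𝓝 p :=
      (isOpen_lt continuous_fst continuous_const).mem_nhds (hp.trans_lt hη)
    filter_upwards [hmem] with y hy
    exact hv y (le_of_lt hy)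
  rw [this.fderiv_eq]; simp

lemma Late.fderiv_lateC {T : ℝ} {G : ℝ × E3 → ℝ} (h : Late T G) (d : ℝ × E3) :
    LateC T (fun p => fderiv ℝ G p d) := by
  refine ⟨?_, fun p hp => by rw [h.fderiv_eq_zero p hp]; simp⟩
  have := h.contDiffOn.continuousOn_fderiv_of_isOpen (isOpen_dom T) (le_refl 1)
  exact this.clm_apply continuousOn_const

lemma Late.ptd_lateC {T : ℝ} {G : ℝ × E3 → ℝ} (h : Late T G) : LateC T (ptd G) :=
  h.fderiv_lateC (1, 0)

lemma Late.pxd_lateC {T : ℝ} {G : ℝ × E3 → ℝ} (h : Late T G) (e : E3) : LateC T (pxd e G) :=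
  h.fderiv_lateC (0, e)

lemma LateC.add {T : ℝ} {A A' : ℝ × E3 → ℝ} (h : LateC T A) (h' : LateC T A') :
    LateC T (fun p => A p + A' p) :=
  ⟨h.continuousOn.add h'.continuousOn, fun p hp => by rw [h.vanish p hp, h'.vanish p hp, add_zero]⟩

lemma LateC.sub {T : ℝ} {A A' : ℝ × E3 → ℝ} (h : LateC T A) (h' : LateC T A') :
    LateC T (fun p => A p - A' p) :=
  ⟨h.continuousOn.sub h'.continuousOn, fun p hp => by rw [h.vanish p hp, h'.vanish p hp, sub_zero]⟩

lemma LateC.neg {T : ℝ} {A : ℝ × E3 → ℝ} (h : LateC T A) :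
    LateC T (fun p => - A p) :=
  ⟨h.continuousOn.neg, fun p hp => by rw [h.vanish p hp, neg_zero]⟩

lemma rp_mem {T t : ℝ} (ht : t < T) (x z : E3) : rp t x z ∈ Iio T ×ˢ (univ : Set E3) := by
  simp only [rp, mem_prod, mem_Iio, mem_univ, and_true]
  linarith only [ht, norm_nonneg z]

lemma continuous_rp (t : ℝ) (x : E3) : Continuous (rp t x) := by
  unfold rp
  fun_prop

lemma LateC.continuous_ret {T : ℝ} {A : ℝ × E3 → ℝ} (h : LateC T A) {t : ℝ} (ht : t < T) (x : E3) :
    Continuous fun z => A (rp t x z) :=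
  h.continuousOn.comp_continuous (continuous_rp t x) (fun z => rp_mem ht x z)

lemma LateC.ret_eq_zero {T : ℝ} {A : ℝ × E3 → ℝ} (h : LateC T A) {t : ℝ} (x : E3) {z : E3}
    (hz : t < ‖z‖) : A (rp t x z) = 0 := by
  apply h.vanish
  simp only [rp]
  linarith

lemma LateC.exists_bound {T : ℝ} {A : ℝ × E3 → ℝ} (h : LateC T A) {t : ℝ} (ht : t < T) (R : ℝ) :
    ∃ C, 0 ≤ C ∧ ∀ s ≤ t, ∀ x : E3, ‖x‖ ≤ R → ∀ z : E3, |A (rp s x z)| ≤ C := by
  have hcomp : IsCompact (Icc 0 t ×ˢ Metric.closedBall (0 : E3) (R + t)) :=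
    isCompact_Icc.prod (isCompact_closedBall _ _)
  obtain ⟨C, hC⟩ := hcomp.exists_bound_of_continuousOn (f := A) (h.continuousOn.mono (by
    intro p hp
    exact ⟨lt_of_le_of_lt hp.1.2 ht, mem_univ _⟩))
  refine ⟨max C 0, le_max_right _ _, fun s hs x hx z => ?_⟩
  by_cases hz : s < ‖z‖
  · rw [h.ret_eq_zero x hz, abs_zero]; exact le_max_right _ _
  · push Not at hz
    refine (hC (rp s x z) ⟨⟨?_, ?_⟩, ?_⟩).trans (le_max_left _ _)
    · simp only [rp]; linarith
    · simp only [rp]; linarith only [hs, norm_nonneg z]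
    · simp only [rp, Metric.mem_closedBall, dist_zero_right]
      refine (norm_add_le _ _).trans ?_
      linarith only [hs, hx, hz]

/-- Integrability against kernels of order two. -/
lemma LateC.integrable {T : ℝ} {A : ℝ × E3 → ℝ} (h : LateC T A) {t : ℝ} (ht : t < T) (x : E3)
    {κ : E3 → ℝ} (hκ : Measurable κ) {C : ℝ} (hb : ∀ z, ‖z‖ ≤ t → |κ z| ≤ C * (‖z‖⁻¹) ^ 2) :
    Integrable fun z => κ z * A (rp t x z) := by
  obtain ⟨D, hD0, hD⟩ := h.exists_bound ht ‖x‖
  refine integrable_kernel (R := t) (C := |C| * D) ?_ ?_ ?_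
  · exact (hκ.mul (h.continuous_ret ht x).measurable).aestronglyMeasurable
  · intro z
    rw [abs_mul]
    by_cases hz : t < ‖z‖
    · rw [h.ret_eq_zero x hz, abs_zero, mul_zero]; (clear * - hD0; positivity)
    · push Not at hz
      have h1 : |κ z| ≤ |C| * (‖z‖⁻¹) ^ 2 := (hb z hz).trans (by gcongr; exact le_abs_self C)
      calc |κ z| * |A (rp t x z)| ≤ (|C| * (‖z‖⁻¹) ^ 2) * D := by
            gcongr
            exact hD t le_rfl x le_rfl z
        _ = _ := by ring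
  · intro z hz
    rw [h.ret_eq_zero x hz, mul_zero]

lemma hasFDerivAt_rp (t : ℝ) (x : E3) {z : E3} (hz : z ≠ 0) :
    HasFDerivAt (rp t x) ((-(‖z‖⁻¹ • innerSL ℝ z)).prod (ContinuousLinearMap.id ℝ E3)) z := by
  unfold rp
  exact ((hasFDerivAt_norm hz).const_sub t).prodMk ((hasFDerivAt_id z).const_add x)

lemma Late.hasFDerivAt_ret {T : ℝ} {G : ℝ × E3 → ℝ} (h : Late T G) {t : ℝ} (ht : t < T) (x : E3)
    {z : E3} (hz : z ≠ 0) :
    HasFDerivAt (fun z => G (rp t x z))
      ((fderiv ℝ G (rp t x z)).comp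
        ((-(‖z‖⁻¹ • innerSL ℝ z)).prod (ContinuousLinearMap.id ℝ E3))) z := by
  have h1 : DifferentiableAt ℝ G (rp t x z) :=
    (h.contDiffOn.differentiableOn (by norm_num)).differentiableAt
      ((isOpen_dom T).mem_nhds (rp_mem ht x z))
  exact h1.hasFDerivAt.comp z (hasFDerivAt_rp t x hz)

lemma Late.fderiv_ret {T : ℝ} {G : ℝ × E3 → ℝ} (h : Late T G) {t : ℝ} (ht : t < T) (x : E3)
    {z : E3} (hz : z ≠ 0) (e : E3) :
    fderiv ℝ (fun z => G (rp t x z)) z e
      = pxd e G (rp t x z) - (‖z‖⁻¹ * ⟪z, e⟫) * ptd G (rp t x z) := by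
  rw [(h.hasFDerivAt_ret ht x hz).fderiv]
  simp only [ContinuousLinearMap.comp_apply, ContinuousLinearMap.prod_apply, pxd, ptd]
  have : ((-(‖z‖⁻¹ • innerSL ℝ z)) e, (ContinuousLinearMap.id ℝ E3) e)
      = ((0 : ℝ), e) - (‖z‖⁻¹ * ⟪z, e⟫) • ((1 : ℝ), (0 : E3)) := by
    simp
  rw [this, map_sub, map_smul, smul_eq_mul]

lemma Late.exists_fderiv_bound {T : ℝ} {G : ℝ × E3 → ℝ} (h : Late T G) {t : ℝ} (ht : t < T)
    (x : E3) : ∃ W', ∀ z, z ≠ 0 → ‖fderiv ℝ (fun z => G (rp t x z)) z‖ ≤ W' := by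
  have hcomp : IsCompact (Icc 0 t ×ˢ Metric.closedBall (0 : E3) (‖x‖ + t)) :=
    isCompact_Icc.prod (isCompact_closedBall _ _)
  obtain ⟨C, hC⟩ := hcomp.exists_bound_of_continuousOn (f := fderiv ℝ G)
    ((h.contDiffOn.continuousOn_fderiv_of_isOpen (isOpen_dom T) (le_refl 1)).mono (by
    intro p hp
    exact ⟨lt_of_le_of_lt hp.1.2 ht, mem_univ _⟩))
  refine ⟨max C 0, fun z hz => ?_⟩
  have hle : ‖fderiv ℝ G (rp t x z)‖ ≤ max C 0 := by
    by_cases hzt : t < ‖z‖
    · rw [h.fderiv_eq_zero (rp t x z) (by simp only [rp]; linarith only [hzt]), norm_zero]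
      exact le_max_right _ _
    · push Not at hzt
      refine (hC (rp t x z) ⟨⟨?_, ?_⟩, ?_⟩).trans (le_max_left _ _)
      · simp only [rp]; linarith only [hzt]
      · simp only [rp]; linarith only [t, z, norm_nonneg z]
      · simp only [rp, Metric.mem_closedBall, dist_zero_right]
        refine (norm_add_le _ _).trans ?_
        linarith only [hzt]
  rw [(h.hasFDerivAt_ret ht x hz).fderiv]
  refine (ContinuousLinearMap.opNorm_comp_le _ _).trans ?_
  have h2 : ‖(-(‖z‖⁻¹ • innerSL ℝ z)).prod (ContinuousLinearMap.id ℝ E3)‖ ≤ 1 := by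
    refine ContinuousLinearMap.opNorm_le_bound _ zero_le_one fun e => ?_
    have hpos : 0 < ‖z‖ := norm_pos_iff.2 hz
    simp only [ContinuousLinearMap.prod_apply, Prod.norm_def]
    apply max_le
    · simp only [ContinuousLinearMap.neg_apply, ContinuousLinearMap.smul_apply, innerSL_apply_apply,
        norm_neg, norm_smul, norm_inv, norm_norm]
      have := norm_inner_le_norm (𝕜 := ℝ) z e
      calc ‖z‖⁻¹ * ‖⟪z, e⟫‖ ≤ ‖z‖⁻¹ * (‖z‖ * ‖e‖) := by (clear * - hz this; gcongr)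
        _ = 1 * ‖e‖ := by field_simp
    · simp
  calc _ ≤ max C 0 * 1 := by (clear * - hle h2; gcongr)
    _ = _ := mul_one _

lemma clm_apply_eq_sum (L : E3 →L[ℝ] ℝ) (z : E3) :
    L z = ∑ l, z l * L (EuclideanSpace.single l 1) := by
  have hz_eq : ∑ l, z l • (EuclideanSpace.single l (1 : ℝ) : E3) = z := by
    ext m
    simp [Finset.sum_apply, Pi.single_apply]
  conv_lhs => rw [← hz_eq]
  rw [map_sum]
  simp

/-- The delta identity for retarded functions. -/
theorem Late.delta {T : ℝ} {G : ℝ × E3 → ℝ} (h : Late T G) {t : ℝ} (ht : t < T) (x : E3) :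
    ∫ z, (‖z‖⁻¹) ^ 3 * (∑ l, z l * pxd (EuclideanSpace.single l 1) G (rp t x z)
      - ‖z‖ * ptd G (rp t x z)) = - (sph.real univ * G (t, x)) := by
  obtain ⟨W', hW'⟩ := h.exists_fderiv_bound ht x
  have h1 := newton_delta (w := fun z => G (rp t x z)) (R := t) (W' := W')
    (h.lateC.continuous_ret ht x) (fun z hz => (h.hasFDerivAt_ret ht x hz).differentiableAt)
    (fun z hz => h.lateC.ret_eq_zero x hz) hW'
  have h2 : G (rp t x 0) = G (t, x) := by simp [rp]
  rw [h2] at h1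
  rw [← h1]
  refine integral_congr_ae ?_
  filter_upwards [ae_ne_zero] with z hz
  have hpos : 0 < ‖z‖ := norm_pos_iff.2 hz
  rw [clm_apply_eq_sum (fderiv ℝ (fun z => G (rp t x z)) z) z]
  have h4 : ∀ l : Fin 3, z l * fderiv ℝ (fun z => G (rp t x z)) z (EuclideanSpace.single l 1)
      = z l * pxd (EuclideanSpace.single l 1) G (rp t x z)
        - ‖z‖⁻¹ * (z l) ^ 2 * ptd G (rp t x z) := by
    intro l
    rw [h.fderiv_ret ht x hz, inner_single_E3]
    ring
  rw [Finset.sum_congr rfl (fun l _ => h4 l), Finset.sum_sub_distrib, ← Finset.sum_mul,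
    ← Finset.mul_sum]
  have h5 : ∑ l, (z l) ^ 2 = ‖z‖ ^ 2 := by
    rw [EuclideanSpace.norm_sq_eq]; simp
  rw [h5]
  congr 2
  (clear * - hz; field_simp)

/-- The antisymmetric identity for retarded functions. -/
theorem Late.antisym {T : ℝ} {G : ℝ × E3 → ℝ} (h : Late T G) {t : ℝ} (ht : t < T) (x : E3)
    (k : ℕ) (hk : k ≤ 3) (i j : Fin 3) :
    ∫ z, (‖z‖⁻¹) ^ k * (z j * pxd (EuclideanSpace.single i 1) G (rp t x z)
      - z i * pxd (EuclideanSpace.single j 1) G (rp t x z)) = 0 := by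
  obtain ⟨W', hW'⟩ := h.exists_fderiv_bound ht x
  obtain ⟨W, hW0, hW⟩ := h.lateC.exists_bound ht ‖x‖
  have h1 := radial_antisym (w := fun z => G (rp t x z)) (R := t) (W := W) (W' := W') k hk i j
    (h.lateC.continuous_ret ht x) (fun z hz => (h.hasFDerivAt_ret ht x hz).differentiableAt)
    (fun z hz => h.lateC.ret_eq_zero x hz) (fun z => hW t le_rfl x le_rfl z) hW'
  rw [← h1]
  refine integral_congr_ae ?_
  filter_upwards [ae_ne_zero] with z hz
  rw [h.fderiv_ret ht x hz, h.fderiv_ret ht x hz, inner_single_E3, inner_single_E3]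
  ring

/-- Integration by parts for retarded functions. -/
theorem Late.ibp {T : ℝ} {G : ℝ × E3 → ℝ} (h : Late T G) {t : ℝ} (ht : t < T) (x : E3)
    {κ : E3 → ℝ} (e : E3) {C C' : ℝ}
    (hκd : ∀ z ≠ 0, DifferentiableAt ℝ κ z)
    (hκ : ∀ z, z ≠ 0 → |κ z| ≤ C * ‖z‖⁻¹)
    (hκ' : ∀ z, z ≠ 0 → |fderiv ℝ κ z e| ≤ C' * (‖z‖⁻¹) ^ 2) :
    ∫ z, κ z * (pxd e G (rp t x z) - (‖z‖⁻¹ * ⟪z, e⟫) * ptd G (rp t x z))
      = - ∫ z, fderiv ℝ κ z e * G (rp t x z) := by
  obtain ⟨W', hW'⟩ := h.exists_fderiv_bound ht x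
  obtain ⟨W, hW0, hW⟩ := h.lateC.exists_bound ht ‖x‖
  have hW'e : ∀ z, z ≠ 0 → |fderiv ℝ (fun z => G (rp t x z)) z e| ≤ W' * ‖e‖ := by
    intro z hz
    have := (fderiv ℝ (fun z => G (rp t x z)) z).le_opNorm e
    refine this.trans ?_
    gcongr
    exact hW' z hz
  have h1 := ibp_kernel (w := fun z => G (rp t x z)) (κ := κ) e (R := t) (W := W)
    (h.lateC.continuous_ret ht x) (fun z hz => (h.hasFDerivAt_ret ht x hz).differentiableAt)
    (fun z hz => h.lateC.ret_eq_zero x hz) (fun z => hW t le_rfl x le_rfl z) hW'e hκd hκ hκ'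
  rw [← h1]
  refine integral_congr_ae ?_
  filter_upwards [ae_ne_zero] with z hz
  rw [h.fderiv_ret ht x hz]

end Vale.Agent.P107
end
end
end

section

section

attribute [-instance] ProperSMul.toContinuousSMul IsTopologicalTorsor.toContinuousSMul
  IdemSemiring.toCanonicallyOrderedAdd IdemSemiring.toMulLeftMono IdemSemiring.toMulRightMono
  AddQuantale.instAddLeftMono AddQuantale.instAddRightMono Quantale.instMulLeftMono
  Quantale.instMulRightMono FiniteDimensional.rclike_to_real IsScalarTower.complexToReal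
  FiniteDimensional.complexToReal

section

/-!
Jefimenko's representation formula for `C¹` solutions of the Maxwell system with electric and
magnetic sources, which vanish for early times.
-/

open MeasureTheory Set Filter Topology
open scoped RealInnerProductSpace ENNReal NNReal

namespace Vale.Agent.P107

lemma integral_add3 {f g h : E3 → ℝ} (hf : Integrable f) (hg : Integrable g) (hh : Integrable h) :
    (∫ z, f z) + (∫ z, g z) + (∫ z, h z) = ∫ z, (f z + g z + h z) := by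
  have h1 : Integrable fun z => f z + g z := hf.add hg
  rw [integral_add h1 hh, integral_add hf hg]

lemma integral_add3_sub {f g h k : E3 → ℝ} (hf : Integrable f) (hg : Integrable g)
    (hh : Integrable h) (hk : Integrable k) :
    (∫ z, f z) + (∫ z, g z) + (∫ z, h z) - (∫ z, k z) = ∫ z, (f z + g z + h z - k z) := by
  have h1 : Integrable fun z => f z + g z := hf.add hg
  have h2 : Integrable fun z => f z + g z + h z := h1.add hh
  rw [integral_sub h2 hk, integral_add h1 hh, integral_add hf hg]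

/-- The bracket `∫ κ(z) A(t - |z|, x + z) dz`. -/
noncomputable def br (t : ℝ) (x : E3) (κ : E3 → ℝ) (A : ℝ × E3 → ℝ) : ℝ :=
  ∫ z, κ z * A (rp t x z)

/-- Admissible kernels: measurable with a singularity of order two. -/
structure Ker (κ : E3 → ℝ) : Prop where
  measurable : Measurable κ
  bound : ∃ C, ∀ z, |κ z| ≤ C * ((‖z‖⁻¹) ^ 2 + ‖z‖⁻¹)

/-- The kernel `z_l / |z|³`. -/
noncomputable def k3 (l : Fin 3) (z : E3) : ℝ := (‖z‖⁻¹) ^ 3 * z l
/-- The kernel `1 / |z|²`. -/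
noncomputable def k2 (z : E3) : ℝ := (‖z‖⁻¹) ^ 2
/-- The kernel `z_l / |z|²`. -/
noncomputable def k2l (l : Fin 3) (z : E3) : ℝ := (‖z‖⁻¹) ^ 2 * z l
/-- The kernel `1 / |z|`. -/
noncomputable def k1 (z : E3) : ℝ := ‖z‖⁻¹

lemma ker_k3 (l : Fin 3) : Ker (k3 l) := by
  refine ⟨by unfold k3; fun_prop, 1, fun z => ?_⟩
  unfold k3
  rw [abs_mul, abs_of_nonneg (by positivity)]
  have h := abs_component_le z l
  rcases eq_or_ne z 0 with rfl | hz
  · simp
  · have hpos : 0 < ‖z‖ := norm_pos_iff.2 hz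
    calc (‖z‖⁻¹) ^ 3 * |z l| ≤ (‖z‖⁻¹) ^ 3 * ‖z‖ := by gcongr
      _ = (‖z‖⁻¹) ^ 2 := by field_simp
      _ ≤ 1 * ((‖z‖⁻¹) ^ 2 + ‖z‖⁻¹) := by
        have : 0 ≤ ‖z‖⁻¹ := by positivity
        linarith only [this]

lemma ker_k2 : Ker k2 := by
  refine ⟨by unfold k2; fun_prop, 1, fun z => ?_⟩
  unfold k2
  rw [abs_of_nonneg (by positivity)]
  have : 0 ≤ ‖z‖⁻¹ := by positivity
  linarith only [this]

lemma ker_k2l (l : Fin 3) : Ker (k2l l) := by
  refine ⟨by unfold k2l; fun_prop, 1, fun z => ?_⟩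
  unfold k2l
  rw [abs_mul, abs_of_nonneg (by positivity)]
  have h := abs_component_le z l
  rcases eq_or_ne z 0 with rfl | hz
  · simp
  · have hpos : 0 < ‖z‖ := norm_pos_iff.2 hz
    calc (‖z‖⁻¹) ^ 2 * |z l| ≤ (‖z‖⁻¹) ^ 2 * ‖z‖ := by gcongr
      _ = ‖z‖⁻¹ := by field_simp
      _ ≤ 1 * ((‖z‖⁻¹) ^ 2 + ‖z‖⁻¹) := by
        have : 0 ≤ (‖z‖⁻¹) ^ 2 := by positivity
        linarith only [this]

lemma ker_k1 : Ker k1 := by
  refine ⟨by unfold k1; fun_prop, 1, fun z => ?_⟩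
  unfold k1
  rw [abs_of_nonneg (by positivity)]
  have : 0 ≤ (‖z‖⁻¹) ^ 2 := by positivity
  linarith only [this]

lemma Ker.bound' {κ : E3 → ℝ} (hκ : Ker κ) (t : ℝ) :
    ∃ C, 0 ≤ C ∧ ∀ z, ‖z‖ ≤ t → |κ z| ≤ C * (‖z‖⁻¹) ^ 2 := by
  obtain ⟨C, hC⟩ := hκ.bound
  refine ⟨|C| * (1 + |t|), by positivity, fun z hz => ?_⟩
  have h1 : ‖z‖⁻¹ ≤ |t| * (‖z‖⁻¹) ^ 2 := by
    rcases eq_or_ne z 0 with rfl | h0
    · simp
    · have hpos : 0 < ‖z‖ := norm_pos_iff.2 h0
      have : ‖z‖ * (‖z‖⁻¹) ^ 2 ≤ |t| * (‖z‖⁻¹) ^ 2 := by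
        gcongr
        exact hz.trans (le_abs_self t)
      calc ‖z‖⁻¹ = ‖z‖ * (‖z‖⁻¹) ^ 2 := by field_simp
        _ ≤ _ := this
  calc |κ z| ≤ C * ((‖z‖⁻¹) ^ 2 + ‖z‖⁻¹) := hC z
    _ ≤ |C| * ((‖z‖⁻¹) ^ 2 + ‖z‖⁻¹) := by gcongr; exact le_abs_self C
    _ ≤ |C| * ((‖z‖⁻¹) ^ 2 + |t| * (‖z‖⁻¹) ^ 2) := by (clear * - h1; gcongr)
    _ = _ := by ring

lemma Ker.integrable {κ : E3 → ℝ} (hκ : Ker κ) {T : ℝ} {A : ℝ × E3 → ℝ} (h : LateC T A) {t : ℝ}
    (ht : t < T) (x : E3) : Integrable fun z => κ z * A (rp t x z) := by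
  obtain ⟨C, _, hC⟩ := hκ.bound' t
  exact h.integrable ht x hκ.measurable hC

section linear
variable {T : ℝ} {t : ℝ} {κ : E3 → ℝ} {A A' : ℝ × E3 → ℝ}

lemma br_add (hκ : Ker κ) (hA : LateC T A) (hA' : LateC T A') (ht : t < T) (x : E3) :
    br t x κ (fun p => A p + A' p) = br t x κ A + br t x κ A' := by
  unfold br
  rw [← integral_add (hκ.integrable hA ht x) (hκ.integrable hA' ht x)]
  congr 1
  ext z; ring

lemma br_sub (hκ : Ker κ) (hA : LateC T A) (hA' : LateC T A') (ht : t < T) (x : E3) :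
    br t x κ (fun p => A p - A' p) = br t x κ A - br t x κ A' := by
  unfold br
  rw [← integral_sub (hκ.integrable hA ht x) (hκ.integrable hA' ht x)]
  congr 1
  ext z; ring

lemma br_neg (x : E3) :
    br t x κ (fun p => - A p) = - br t x κ A := by
  unfold br
  rw [← integral_neg]
  congr 1
  ext z; ring

lemma br_congr (ht : t < T) (x : E3) (h : ∀ p ∈ Iio T ×ˢ (univ : Set E3), A p = A' p) :
    br t x κ A = br t x κ A' := by
  unfold br
  congr 1
  ext z
  rw [h _ (rp_mem ht x z)]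

end linear

section identities
variable {T : ℝ} {G : ℝ × E3 → ℝ} {t : ℝ}

/-- Abbreviation for the basis vectors. -/
noncomputable abbrev ee (l : Fin 3) : E3 := EuclideanSpace.single l (1 : ℝ)

lemma Late.br_delta (h : Late T G) (ht : t < T) (x : E3) :
    br t x (k3 0) (pxd (ee 0) G) + br t x (k3 1) (pxd (ee 1) G) + br t x (k3 2) (pxd (ee 2) G)
      - br t x k2 (ptd G) = - (sph.real univ * G (t, x)) := by
  rw [← h.delta ht x]
  unfold br
  have hi : ∀ l, Integrable fun z => k3 l z * pxd (ee l) G (rp t x z) :=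
    fun l => (ker_k3 l).integrable (h.pxd_lateC _) ht x
  have hi2 : Integrable fun z => k2 z * ptd G (rp t x z) := ker_k2.integrable h.ptd_lateC ht x
  rw [integral_add3_sub (hi 0) (hi 1) (hi 2) hi2]
  refine integral_congr_ae ?_
  filter_upwards [ae_ne_zero] with z hz
  have hpos : 0 < ‖z‖ := norm_pos_iff.2 hz
  simp only [k3, k2, Fin.sum_univ_three]
  field_simp

lemma Late.br_antisym3 (h : Late T G) (ht : t < T) (x : E3) (i j : Fin 3) :
    br t x (k3 j) (pxd (ee i) G) = br t x (k3 i) (pxd (ee j) G) := by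
  have h1 := h.antisym ht x 3 le_rfl i j
  have hi : ∀ l m, Integrable fun z => k3 l z * pxd (ee m) G (rp t x z) :=
    fun l m => (ker_k3 l).integrable (h.pxd_lateC _) ht x
  rw [← sub_eq_zero, ← h1]
  unfold br
  rw [← integral_sub (hi j i) (hi i j)]
  congr 1
  ext z
  simp only [k3]
  ring

lemma Late.br_antisym2 (h : Late T G) (ht : t < T) (x : E3) (i j : Fin 3) :
    br t x (k2l j) (pxd (ee i) G) = br t x (k2l i) (pxd (ee j) G) := by
  have h1 := h.antisym ht x 2 (by norm_num) i j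
  have hi : ∀ l m, Integrable fun z => k2l l z * pxd (ee m) G (rp t x z) :=
    fun l m => (ker_k2l l).integrable (h.pxd_lateC _) ht x
  rw [← sub_eq_zero, ← h1]
  unfold br
  rw [← integral_sub (hi j i) (hi i j)]
  congr 1
  ext z
  simp only [k2l]
  ring

lemma hasFDerivAt_norm_inv {z : E3} (hz : z ≠ 0) :
    HasFDerivAt (fun y : E3 => ‖y‖⁻¹) (-(‖z‖⁻¹) ^ 3 • innerSL ℝ z) z := by
  have hpos : 0 < ‖z‖ := norm_pos_iff.2 hz
  have h2 : HasFDerivAt (fun y : E3 => ‖y‖⁻¹) (-(‖z‖ ^ 2)⁻¹ • (‖z‖⁻¹ • innerSL ℝ z)) z :=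
    (hasDerivAt_inv hpos.ne').comp_hasFDerivAt z (hasFDerivAt_norm hz)
  refine h2.congr_fderiv ?_
  ext e
  simp
  (clear * - hz; field_simp)

lemma Late.br_ibp1 (h : Late T G) (ht : t < T) (x : E3) (l : Fin 3) :
    br t x k1 (pxd (ee l) G) - br t x (k2l l) (ptd G) = br t x (k3 l) G := by
  have hfd : ∀ z : E3, z ≠ 0 → fderiv ℝ k1 z (ee l) = - k3 l z := by
    intro z hz
    have h1 : HasFDerivAt k1 (-(‖z‖⁻¹) ^ 3 • innerSL ℝ z) z := hasFDerivAt_norm_inv hz
    rw [h1.fderiv]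
    simp [k3]
  have h1 := h.ibp ht x (κ := k1) (ee l) (C := 1) (C' := 1)
    (fun z hz => (hasFDerivAt_norm_inv hz).differentiableAt)
    (fun z hz => by unfold k1; rw [abs_of_nonneg (by positivity), one_mul])
    (fun z hz => by
      rw [hfd z hz, abs_neg]
      have hpos : 0 < ‖z‖ := norm_pos_iff.2 hz
      unfold k3
      rw [abs_mul, abs_of_nonneg (by positivity)]
      calc (‖z‖⁻¹) ^ 3 * |z l| ≤ (‖z‖⁻¹) ^ 3 * ‖z‖ := by gcongr; exact abs_component_le z l
        _ = 1 * (‖z‖⁻¹) ^ 2 := by field_simp)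
  have hi1 : Integrable fun z => k1 z * pxd (ee l) G (rp t x z) :=
    ker_k1.integrable (h.pxd_lateC _) ht x
  have hi2 : Integrable fun z => k2l l z * ptd G (rp t x z) :=
    (ker_k2l l).integrable h.ptd_lateC ht x
  unfold br
  rw [← integral_sub hi1 hi2]
  have h3 : ∫ z, (k1 z * pxd (ee l) G (rp t x z) - k2l l z * ptd G (rp t x z))
      = ∫ z, k1 z * (pxd (ee l) G (rp t x z) - (‖z‖⁻¹ * ⟪z, ee l⟫) * ptd G (rp t x z)) := by
    congr 1
    ext z
    rw [inner_single_E3]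
    simp only [k1, k2l]
    ring
  rw [h3, h1, ← integral_neg]
  refine integral_congr_ae ?_
  filter_upwards [ae_ne_zero] with z hz
  rw [hfd z hz]
  ring

lemma hasFDerivAt_k2l (l : Fin 3) {z : E3} (hz : z ≠ 0) :
    HasFDerivAt (k2l l) ((‖z‖⁻¹) ^ 2 • (EuclideanSpace.proj l : E3 →L[ℝ] ℝ)
      - (2 * (‖z‖⁻¹) ^ 4 * z l) • innerSL ℝ z) z := by
  have h1 : HasFDerivAt (fun y : E3 => (‖y‖⁻¹) ^ 2) _ z := (hasFDerivAt_norm_inv hz).pow 2
  have h2 := h1.mul (hasFDerivAt_component l z)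
  have h3 : HasFDerivAt (k2l l) _ z := h2
  refine h3.congr_fderiv ?_
  ext e
  simp
  ring

lemma Late.br_ibp2 (h : Late T G) (ht : t < T) (x : E3) :
    br t x (k2l 0) (pxd (ee 0) G) + br t x (k2l 1) (pxd (ee 1) G)
      + br t x (k2l 2) (pxd (ee 2) G) - br t x k1 (ptd G) = - br t x k2 G := by
  have hfd : ∀ l, ∀ z : E3, z ≠ 0 → fderiv ℝ (k2l l) z (ee l)
      = (‖z‖⁻¹) ^ 2 - 2 * (‖z‖⁻¹) ^ 4 * (z l) ^ 2 := by
    intro l z hz
    rw [(hasFDerivAt_k2l l hz).fderiv]
    simp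
    ring
  have hzl : ∀ l, ∀ z : E3, (z l) ^ 2 ≤ ‖z‖ ^ 2 := by
    intro l z
    rw [← sq_abs (z l)]
    have := abs_component_le z l
    gcongr
  have hfdb : ∀ l, ∀ z : E3, z ≠ 0 → |fderiv ℝ (k2l l) z (ee l)| ≤ 3 * (‖z‖⁻¹) ^ 2 := by
    intro l z hz
    have hpos : 0 < ‖z‖ := norm_pos_iff.2 hz
    rw [hfd l z hz]
    have h1 : 2 * (‖z‖⁻¹) ^ 4 * (z l) ^ 2 ≤ 2 * (‖z‖⁻¹) ^ 2 := by
      calc 2 * (‖z‖⁻¹) ^ 4 * (z l) ^ 2 ≤ 2 * (‖z‖⁻¹) ^ 4 * ‖z‖ ^ 2 :=
            mul_le_mul_of_nonneg_left (hzl l z) (by positivity)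
        _ = 2 * (‖z‖⁻¹) ^ 2 := by field_simp
    have h2 : 0 ≤ 2 * (‖z‖⁻¹) ^ 4 * (z l) ^ 2 := by (clear * - hz; positivity)
    have h3 : 0 ≤ (‖z‖⁻¹) ^ 2 := by positivity
    rw [abs_le]
    constructor <;> linarith only [h1, h2]
  have key : ∀ l, ∫ z, k2l l z * (pxd (ee l) G (rp t x z) - (‖z‖⁻¹ * ⟪z, ee l⟫) * ptd G (rp t x z))
      = - ∫ z, fderiv ℝ (k2l l) z (ee l) * G (rp t x z) := by
    intro l
    refine h.ibp ht x (κ := k2l l) (ee l) (C := 1) (C' := 3)
      (fun z hz => (hasFDerivAt_k2l l hz).differentiableAt) ?_ (hfdb l)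
    intro z hz
    have hpos : 0 < ‖z‖ := norm_pos_iff.2 hz
    unfold k2l
    rw [abs_mul, abs_of_nonneg (by positivity)]
    calc (‖z‖⁻¹) ^ 2 * |z l| ≤ (‖z‖⁻¹) ^ 2 * ‖z‖ := by gcongr; exact abs_component_le z l
      _ = 1 * ‖z‖⁻¹ := by field_simp
  -- the kernels `z_l² / |z|³`
  have hker : ∀ l, Ker (fun z : E3 => (‖z‖⁻¹) ^ 3 * (z l) ^ 2) := by
    intro l
    refine ⟨by fun_prop, 1, fun z => ?_⟩
    rw [abs_of_nonneg (by positivity)]
    rcases eq_or_ne z 0 with rfl | hz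
    · simp
    · have hpos : 0 < ‖z‖ := norm_pos_iff.2 hz
      calc (‖z‖⁻¹) ^ 3 * (z l) ^ 2 ≤ (‖z‖⁻¹) ^ 3 * ‖z‖ ^ 2 :=
            mul_le_mul_of_nonneg_left (hzl l z) (by positivity)
        _ = ‖z‖⁻¹ := by field_simp
        _ ≤ 1 * ((‖z‖⁻¹) ^ 2 + ‖z‖⁻¹) := by
          have : 0 ≤ (‖z‖⁻¹) ^ 2 := by positivity
          linarith only [this]
  have hker4 : ∀ l, Ker (fun z : E3 => fderiv ℝ (k2l l) z (ee l)) := by
    intro l
    refine ⟨measurable_fderiv_apply_const ℝ _ _, max 3 |fderiv ℝ (k2l l) 0 (ee l)|, fun z => ?_⟩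
    rcases eq_or_ne z 0 with rfl | hz
    · -- the value at the origin does not matter; it is zero
      have : fderiv ℝ (k2l l) (0 : E3) (ee l) = 0 := by
        by_cases hd : DifferentiableAt ℝ (k2l l) (0 : E3)
        · exfalso
          have hc : ContinuousAt (k2l l) (0 : E3) := hd.continuousAt
          have h0 : k2l l (0 : E3) = 0 := by simp [k2l]
          have hseq : Tendsto (fun n : ℕ => ((n : ℝ) + 1)⁻¹ • ee l) atTop (𝓝 (0 : E3)) := by
            have h1 : Tendsto (fun n : ℕ => ((n : ℝ) + 1)⁻¹) atTop (𝓝 0) :=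
              tendsto_inv_atTop_zero.comp (tendsto_atTop_add_const_right _ _
                tendsto_natCast_atTop_atTop)
            simpa using h1.smul_const (ee l)
          have h2 := hc.tendsto.comp hseq
          rw [h0] at h2
          have h3 : ∀ n : ℕ, (k2l l ∘ fun n : ℕ => ((n : ℝ) + 1)⁻¹ • ee l) n = (n : ℝ) + 1 := by
            intro n
            have hn : (0 : ℝ) < (n : ℝ) + 1 := by positivity
            simp only [Function.comp_apply, k2l, norm_smul, norm_inv, PiLp.smul_apply, smul_eq_mul,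
              Real.norm_of_nonneg hn.le]
            simp
            (clear * -; field_simp)
          have h4 : Tendsto (fun n : ℕ => (n : ℝ) + 1) atTop (𝓝 0) := h2.congr h3
          have h5 : Tendsto (fun n : ℕ => (n : ℝ) + 1) atTop atTop :=
            tendsto_atTop_add_const_right _ _ tendsto_natCast_atTop_atTop
          exact not_tendsto_nhds_of_tendsto_atTop h5 0 h4
        · rw [fderiv_zero_of_not_differentiableAt hd]; simp
      rw [this]; simp
    · calc |fderiv ℝ (k2l l) z (ee l)| ≤ 3 * (‖z‖⁻¹) ^ 2 := hfdb l z hz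
        _ ≤ max 3 |fderiv ℝ (k2l l) 0 (ee l)| * ((‖z‖⁻¹) ^ 2 + ‖z‖⁻¹) := by
          have h1 : (3 : ℝ) ≤ max 3 |fderiv ℝ (k2l l) 0 (ee l)| := le_max_left _ _
          have h2 : 0 ≤ ‖z‖⁻¹ := by positivity
          gcongr
          linarith only [h2]
  have hiA : ∀ l, Integrable fun z => k2l l z * pxd (ee l) G (rp t x z) :=
    fun l => (ker_k2l l).integrable (h.pxd_lateC _) ht x
  have hiB : ∀ l, Integrable fun z : E3 => ((‖z‖⁻¹) ^ 3 * (z l) ^ 2) * ptd G (rp t x z) :=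
    fun l => (hker l).integrable h.ptd_lateC ht x
  have hiC : ∀ l, Integrable fun z => fderiv ℝ (k2l l) z (ee l) * G (rp t x z) :=
    fun l => (hker4 l).integrable h.lateC ht x
  have key2 : ∀ l, (∫ z, k2l l z * pxd (ee l) G (rp t x z))
      - ∫ z, ((‖z‖⁻¹) ^ 3 * (z l) ^ 2) * ptd G (rp t x z)
      = - ∫ z, fderiv ℝ (k2l l) z (ee l) * G (rp t x z) := by
    intro l
    rw [← key l, ← integral_sub (hiA l) (hiB l)]
    congr 1
    ext z
    rw [inner_single_E3]
    simp only [k2l]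
    ring
  have hsum1 : (∫ z, ((‖z‖⁻¹) ^ 3 * (z 0) ^ 2) * ptd G (rp t x z))
      + (∫ z, ((‖z‖⁻¹) ^ 3 * (z 1) ^ 2) * ptd G (rp t x z))
      + (∫ z, ((‖z‖⁻¹) ^ 3 * (z 2) ^ 2) * ptd G (rp t x z)) = ∫ z, k1 z * ptd G (rp t x z) := by
    rw [integral_add3 (hiB 0) (hiB 1) (hiB 2)]
    refine integral_congr_ae ?_
    filter_upwards [ae_ne_zero] with z hz
    have hpos : 0 < ‖z‖ := norm_pos_iff.2 hz
    have hn : (z 0) ^ 2 + (z 1) ^ 2 + (z 2) ^ 2 = ‖z‖ ^ 2 := by
      rw [EuclideanSpace.norm_sq_eq, Fin.sum_univ_three]; simp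
    simp only [k1]
    calc _ = (‖z‖⁻¹) ^ 3 * ((z 0) ^ 2 + (z 1) ^ 2 + (z 2) ^ 2) * ptd G (rp t x z) := by ring
      _ = _ := by rw [hn]; (clear * - hz; field_simp)
  have hsum2 : (∫ z, fderiv ℝ (k2l 0) z (ee 0) * G (rp t x z))
      + (∫ z, fderiv ℝ (k2l 1) z (ee 1) * G (rp t x z))
      + (∫ z, fderiv ℝ (k2l 2) z (ee 2) * G (rp t x z)) = ∫ z, k2 z * G (rp t x z) := by
    rw [integral_add3 (hiC 0) (hiC 1) (hiC 2)]
    refine integral_congr_ae ?_
    filter_upwards [ae_ne_zero] with z hz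
    have hpos : 0 < ‖z‖ := norm_pos_iff.2 hz
    have hn : (z 0) ^ 2 + (z 1) ^ 2 + (z 2) ^ 2 = ‖z‖ ^ 2 := by
      rw [EuclideanSpace.norm_sq_eq, Fin.sum_univ_three]; simp
    simp only [k2]
    rw [hfd 0 z hz, hfd 1 z hz, hfd 2 z hz]
    calc _ = (3 * (‖z‖⁻¹) ^ 2 - 2 * (‖z‖⁻¹) ^ 4 * ((z 0) ^ 2 + (z 1) ^ 2 + (z 2) ^ 2))
          * G (rp t x z) := by ring
      _ = _ := by rw [hn]; field_simp; ring
  unfold br
  have e0 := key2 0
  have e1 := key2 1
  have e2 := key2 2
  linarith only [hsum1, hsum2, e0, e1, e2]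

end identities

/-- Differentiation of a bracket in time. -/
theorem hasDerivAt_br {T : ℝ} {κ : E3 → ℝ} (hκ : Ker κ) {A A' : ℝ × E3 → ℝ} (hA : LateC T A)
    (hA' : LateC T A')
    (hd : ∀ p ∈ Iio T ×ˢ (univ : Set E3), HasDerivAt (fun s => A (s, p.2)) (A' p) p.1)
    {t : ℝ} (ht : t < T) (x : E3) :
    HasDerivAt (fun t => br t x κ A) (br t x κ A') t := by
  obtain ⟨t', htt', ht'T⟩ := exists_between ht
  obtain ⟨D, hD0, hD⟩ := hA'.exists_bound ht'T ‖x‖
  obtain ⟨C, hC0, hC⟩ := hκ.bound' t'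
  have hbint : Integrable ((Metric.closedBall (0 : E3) t').indicator
      (fun z : E3 => C * (‖z‖⁻¹) ^ 2 * D)) := by
    refine integrable_kernel (R := t') (C := C * D) ?_ ?_ ?_
    · refine (Measurable.indicator ?_ measurableSet_closedBall).aestronglyMeasurable
      fun_prop
    · intro z
      by_cases hz : z ∈ Metric.closedBall (0 : E3) t'
      · rw [indicator_of_mem hz, abs_of_nonneg (by (clear * - hD0 hC0; positivity))]
        linarith only []
      · rw [indicator_of_notMem hz, abs_zero]; (clear * - hD0 hC0; positivity)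
    · intro z hz
      rw [indicator_of_notMem]
      simpa using hz
  have h := hasDerivAt_integral_of_dominated_loc_of_deriv_le (μ := (volume : Measure E3))
    (F := fun (s : ℝ) (z : E3) => κ z * A (rp s x z))
    (F' := fun (s : ℝ) (z : E3) => κ z * A' (rp s x z)) (s := Iio t') (x₀ := t)
    (bound := (Metric.closedBall (0 : E3) t').indicator (fun z : E3 => C * (‖z‖⁻¹) ^ 2 * D))
    (Iio_mem_nhds htt') ?_ (hκ.integrable hA ht x) ?_ ?_ hbint ?_
  · exact h.2
  · filter_upwards [Iio_mem_nhds htt'] with s hs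
    exact (hκ.integrable hA (lt_trans hs ht'T) x).aestronglyMeasurable
  · exact (hκ.integrable hA' ht x).aestronglyMeasurable
  · refine ae_of_all _ fun z s hs => ?_
    by_cases hz : z ∈ Metric.closedBall (0 : E3) t'
    · rw [indicator_of_mem hz, norm_mul]
      rw [Metric.mem_closedBall, dist_zero_right] at hz
      have h1 := hC z hz
      have h2 := hD s (le_of_lt hs) x le_rfl z
      rw [Real.norm_eq_abs, Real.norm_eq_abs]
      (clear * - hC0 h1 h2; gcongr)
    · rw [indicator_of_notMem hz]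
      rw [Metric.mem_closedBall, dist_zero_right, not_le] at hz
      have hs' : s < ‖z‖ := lt_trans hs hz
      rw [hA'.ret_eq_zero x hs', mul_zero, norm_zero]
  · refine ae_of_all _ fun z s hs => ?_
    have hp := rp_mem (lt_trans hs ht'T) x z
    have h1 := hd (rp s x z) hp
    simp only [rp] at h1
    have h2 : HasDerivAt (fun s : ℝ => s - ‖z‖) 1 s := (hasDerivAt_id s).sub_const _
    have h3 := h1.comp s h2
    simp only [mul_one] at h3
    have h4 : HasDerivAt (fun s : ℝ => A (rp s x z)) (A' (rp s x z)) s := h3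
    exact h4.const_mul (κ z)

lemma Late.hasDerivAt_ptd {T : ℝ} {G : ℝ × E3 → ℝ} (h : Late T G) (p : ℝ × E3)
    (hp : p ∈ Iio T ×ˢ (univ : Set E3)) : HasDerivAt (fun s => G (s, p.2)) (ptd G p) p.1 := by
  have h1 : DifferentiableAt ℝ G p :=
    (h.contDiffOn.differentiableOn (by norm_num)).differentiableAt ((isOpen_dom T).mem_nhds hp)
  have h2 : HasDerivAt (fun s : ℝ => (s, p.2)) ((1 : ℝ), (0 : E3)) p.1 :=
    (hasDerivAt_id _).prodMk (hasDerivAt_const _ _)
  exact h1.hasFDerivAt.comp_hasDerivAt_of_eq p.1 h2 rfl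

/-- A solution of the Maxwell system with sources, before time `T`, vanishing for early times;
`R'`, `J'`, `M'` are the time derivatives of the sources. -/
structure MaxwellLate (T : ℝ) (E B J M J' M' : Fin 3 → ℝ × E3 → ℝ) (R R' : ℝ × E3 → ℝ) : Prop where
  hE : ∀ i, Late T (E i)
  hB : ∀ i, Late T (B i)
  hJ : ∀ i, LateC T (J i)
  hM : ∀ i, LateC T (M i)
  hR : LateC T R
  hJ' : ∀ i, LateC T (J' i)
  hM' : ∀ i, LateC T (M' i)
  hR' : LateC T R'
  dJ : ∀ i, ∀ p ∈ Iio T ×ˢ (univ : Set E3), HasDerivAt (fun s => J i (s, p.2)) (J' i p) p.1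
  dM : ∀ i, ∀ p ∈ Iio T ×ˢ (univ : Set E3), HasDerivAt (fun s => M i (s, p.2)) (M' i p) p.1
  dR : ∀ p ∈ Iio T ×ˢ (univ : Set E3), HasDerivAt (fun s => R (s, p.2)) (R' p) p.1
  ampere : ∀ i, ∀ p ∈ Iio T ×ˢ (univ : Set E3), ptd (E i) p
    = pxd (ee (i + 1)) (B (i + 2)) p - pxd (ee (i + 2)) (B (i + 1)) p - J i p
  faraday : ∀ i, ∀ p ∈ Iio T ×ˢ (univ : Set E3), ptd (B i) p
    = - (pxd (ee (i + 1)) (E (i + 2)) p - pxd (ee (i + 2)) (E (i + 1)) p) - M i p
  gauss : ∀ p ∈ Iio T ×ˢ (univ : Set E3),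
    R p = pxd (ee 0) (E 0) p + pxd (ee 1) (E 1) p + pxd (ee 2) (E 2) p

lemma MaxwellLate.gauss_cyc {T : ℝ} {E B J M J' M' : Fin 3 → ℝ × E3 → ℝ} {R R' : ℝ × E3 → ℝ}
    (h : MaxwellLate T E B J M J' M' R R') (i : Fin 3) :
    ∀ p ∈ Iio T ×ˢ (univ : Set E3),
    R p = pxd (ee i) (E i) p + pxd (ee (i + 1)) (E (i + 1)) p
      + pxd (ee (i + 2)) (E (i + 2)) p := by
  intro p hp
  rw [h.gauss p hp]
  fin_cases i <;> simp <;> ring

lemma Late.br_delta_cyc {T t : ℝ} {G : ℝ × E3 → ℝ} (h : Late T G) (ht : t < T) (x : E3)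
    (i : Fin 3) :
    br t x (k3 i) (pxd (ee i) G) + br t x (k3 (i + 1)) (pxd (ee (i + 1)) G)
      + br t x (k3 (i + 2)) (pxd (ee (i + 2)) G)
      - br t x k2 (ptd G) = - (sph.real univ * G (t, x)) := by
  rw [← h.br_delta ht x]
  fin_cases i <;> simp <;> ring

lemma Late.br_ibp2_cyc {T t : ℝ} {G : ℝ × E3 → ℝ} (h : Late T G) (ht : t < T) (x : E3)
    (i : Fin 3) :
    br t x (k2l i) (pxd (ee i) G) + br t x (k2l (i + 1)) (pxd (ee (i + 1)) G)
      + br t x (k2l (i + 2)) (pxd (ee (i + 2)) G) - br t x k1 (ptd G) = - br t x k2 G := by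
  rw [← h.br_ibp2 ht x]
  fin_cases i <;> simp <;> ring

/-- First representation. -/
lemma MaxwellLate.first {T : ℝ} {E B J M J' M' : Fin 3 → ℝ × E3 → ℝ} {R R' : ℝ × E3 → ℝ}
    (h : MaxwellLate T E B J M J' M' R R') {t : ℝ} (ht : t < T) (x : E3) (i j k : Fin 3)
    (hj : j = i + 1) (hk : k = i + 2) :
    - (sph.real univ * E i (t, x)) = br t x (k3 i) R
      + br t x (k3 j) (M k) - br t x (k3 k) (M j)
      - (br t x k2 (ptd (E i)) + br t x (k3 k) (ptd (B j)) - br t x (k3 j) (ptd (B k))) := by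
  subst hj hk
  have hkj : (i + 2 : Fin 3) + 1 = i := by fin_cases i <;> rfl
  have hkk : (i + 2 : Fin 3) + 2 = i + 1 := by fin_cases i <;> rfl
  have hjj : (i + 1 : Fin 3) + 1 = i + 2 := by fin_cases i <;> rfl
  have hjk : (i + 1 : Fin 3) + 2 = i := by fin_cases i <;> rfl
  have hR : ∀ κ, Ker κ → br t x κ R = br t x κ (pxd (ee i) (E i))
      + br t x κ (pxd (ee (i + 1)) (E (i + 1))) + br t x κ (pxd (ee (i + 2)) (E (i + 2))) := by
    intro κ hκ
    rw [br_congr ht x (h.gauss_cyc i), br_add hκ _ ((h.hE _).pxd_lateC _) ht x,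
      br_add hκ ((h.hE _).pxd_lateC _) ((h.hE _).pxd_lateC _) ht x]
    exact ((h.hE _).pxd_lateC _).add ((h.hE _).pxd_lateC _)
  have hBk : ∀ κ, Ker κ → br t x κ (ptd (B (i + 2))) = - (br t x κ (pxd (ee i) (E (i + 1)))
      - br t x κ (pxd (ee (i + 1)) (E i))) - br t x κ (M (i + 2)) := by
    intro κ hκ
    have hf := h.faraday (i + 2)
    rw [hkj, hkk] at hf
    rw [br_congr ht x hf, br_sub hκ _ (h.hM _) ht x, br_neg,
      br_sub hκ ((h.hE _).pxd_lateC _) ((h.hE _).pxd_lateC _) ht x]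
    exact (((h.hE _).pxd_lateC _).sub ((h.hE _).pxd_lateC _)).neg
  have hBj : ∀ κ, Ker κ → br t x κ (ptd (B (i + 1))) = - (br t x κ (pxd (ee (i + 2)) (E i))
      - br t x κ (pxd (ee i) (E (i + 2)))) - br t x κ (M (i + 1)) := by
    intro κ hκ
    have hf := h.faraday (i + 1)
    rw [hjj, hjk] at hf
    rw [br_congr ht x hf, br_sub hκ _ (h.hM _) ht x, br_neg,
      br_sub hκ ((h.hE _).pxd_lateC _) ((h.hE _).pxd_lateC _) ht x]
    exact (((h.hE _).pxd_lateC _).sub ((h.hE _).pxd_lateC _)).neg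
  have e1 := (h.hE i).br_delta_cyc ht x i
  have e2 := hR (k3 i) (ker_k3 i)
  have e3 := hBk (k3 (i + 1)) (ker_k3 _)
  have e4 := hBj (k3 (i + 2)) (ker_k3 _)
  have e5 := (h.hE (i + 1)).br_antisym3 ht x i (i + 1)
  have e6 := (h.hE (i + 2)).br_antisym3 ht x i (i + 2)
  linarith only [e1, e2, e3, e4, e5, e6]

/-- Second representation. -/
lemma MaxwellLate.second {T : ℝ} {E B J M J' M' : Fin 3 → ℝ × E3 → ℝ} {R R' : ℝ × E3 → ℝ}
    (h : MaxwellLate T E B J M J' M' R R') {t : ℝ} (ht : t < T) (x : E3) (i j k : Fin 3)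
    (hj : j = i + 1) (hk : k = i + 2) :
    br t x k2 (E i) + br t x (k3 k) (B j) - br t x (k3 j) (B k)
      = - br t x (k2l i) R - br t x k1 (J i) + br t x (k2l k) (M j) - br t x (k2l j) (M k) := by
  subst hj hk
  have hkj : (i + 2 : Fin 3) + 1 = i := by fin_cases i <;> rfl
  have hkk : (i + 2 : Fin 3) + 2 = i + 1 := by fin_cases i <;> rfl
  have hjj : (i + 1 : Fin 3) + 1 = i + 2 := by fin_cases i <;> rfl
  have hjk : (i + 1 : Fin 3) + 2 = i := by fin_cases i <;> rfl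
  have hR : ∀ κ, Ker κ → br t x κ R = br t x κ (pxd (ee i) (E i))
      + br t x κ (pxd (ee (i + 1)) (E (i + 1))) + br t x κ (pxd (ee (i + 2)) (E (i + 2))) := by
    intro κ hκ
    rw [br_congr ht x (h.gauss_cyc i), br_add hκ _ ((h.hE _).pxd_lateC _) ht x,
      br_add hκ ((h.hE _).pxd_lateC _) ((h.hE _).pxd_lateC _) ht x]
    exact ((h.hE _).pxd_lateC _).add ((h.hE _).pxd_lateC _)
  have hBk : ∀ κ, Ker κ → br t x κ (ptd (B (i + 2))) = - (br t x κ (pxd (ee i) (E (i + 1)))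
      - br t x κ (pxd (ee (i + 1)) (E i))) - br t x κ (M (i + 2)) := by
    intro κ hκ
    have hf := h.faraday (i + 2)
    rw [hkj, hkk] at hf
    rw [br_congr ht x hf, br_sub hκ _ (h.hM _) ht x, br_neg,
      br_sub hκ ((h.hE _).pxd_lateC _) ((h.hE _).pxd_lateC _) ht x]
    exact (((h.hE _).pxd_lateC _).sub ((h.hE _).pxd_lateC _)).neg
  have hBj : ∀ κ, Ker κ → br t x κ (ptd (B (i + 1))) = - (br t x κ (pxd (ee (i + 2)) (E i))
      - br t x κ (pxd (ee i) (E (i + 2)))) - br t x κ (M (i + 1)) := by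
    intro κ hκ
    have hf := h.faraday (i + 1)
    rw [hjj, hjk] at hf
    rw [br_congr ht x hf, br_sub hκ _ (h.hM _) ht x, br_neg,
      br_sub hκ ((h.hE _).pxd_lateC _) ((h.hE _).pxd_lateC _) ht x]
    exact (((h.hE _).pxd_lateC _).sub ((h.hE _).pxd_lateC _)).neg
  have hEi : br t x k1 (ptd (E i)) = br t x k1 (pxd (ee (i + 1)) (B (i + 2)))
      - br t x k1 (pxd (ee (i + 2)) (B (i + 1))) - br t x k1 (J i) := by
    rw [br_congr ht x (h.ampere i), br_sub ker_k1 _ (h.hJ _) ht x,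
      br_sub ker_k1 ((h.hB _).pxd_lateC _) ((h.hB _).pxd_lateC _) ht x]
    exact ((h.hB _).pxd_lateC _).sub ((h.hB _).pxd_lateC _)
  have a := (h.hE i).br_ibp2_cyc ht x i
  have b := (h.hB (i + 1)).br_ibp1 ht x (i + 2)
  have c := (h.hB (i + 2)).br_ibp1 ht x (i + 1)
  have e2 := hR (k2l i) (ker_k2l i)
  have e3 := hBk (k2l (i + 1)) (ker_k2l _)
  have e4 := hBj (k2l (i + 2)) (ker_k2l _)
  have e5 := (h.hE (i + 1)).br_antisym2 ht x i (i + 1)
  have e6 := (h.hE (i + 2)).br_antisym2 ht x i (i + 2)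
  linarith only [hEi, a, b, c, e2, e3, e4, e5, e6]

/-- Jefimenko's formula. -/
theorem MaxwellLate.jefimenko {T : ℝ} {E B J M J' M' : Fin 3 → ℝ × E3 → ℝ} {R R' : ℝ × E3 → ℝ}
    (h : MaxwellLate T E B J M J' M' R R') {t : ℝ} (ht : t < T) (x : E3) (i j k : Fin 3)
    (hj : j = i + 1) (hk : k = i + 2) :
    - (sph.real univ * E i (t, x)) = br t x (k3 i) R + br t x (k2l i) R' + br t x k1 (J' i)
      + br t x (k3 j) (M k) - br t x (k3 k) (M j)
      + br t x (k2l j) (M' k) - br t x (k2l k) (M' j) := by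
  have h1 := h.first ht x i j k hj hk
  have hL : HasDerivAt (fun t => br t x k2 (E i) + br t x (k3 k) (B j) - br t x (k3 j) (B k))
      (br t x k2 (ptd (E i)) + br t x (k3 k) (ptd (B j)) - br t x (k3 j) (ptd (B k))) t := by
    refine ((hasDerivAt_br ker_k2 (h.hE i).lateC (h.hE i).ptd_lateC
      (h.hE i).hasDerivAt_ptd ht x).add ?_).sub ?_
    · exact hasDerivAt_br (ker_k3 k) (h.hB j).lateC (h.hB j).ptd_lateC
        (h.hB j).hasDerivAt_ptd ht x
    · exact hasDerivAt_br (ker_k3 j) (h.hB k).lateC (h.hB k).ptd_lateC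
        (h.hB k).hasDerivAt_ptd ht x
  have hRt : HasDerivAt (fun t => - br t x (k2l i) R - br t x k1 (J i) + br t x (k2l k) (M j)
      - br t x (k2l j) (M k))
      (- br t x (k2l i) R' - br t x k1 (J' i) + br t x (k2l k) (M' j) - br t x (k2l j) (M' k))
      t := by
    refine ((HasDerivAt.sub (HasDerivAt.neg ?_) ?_).add ?_).sub ?_
    · exact hasDerivAt_br (ker_k2l i) h.hR h.hR' h.dR ht x
    · exact hasDerivAt_br ker_k1 (h.hJ i) (h.hJ' i) (h.dJ i) ht x
    · exact hasDerivAt_br (ker_k2l k) (h.hM j) (h.hM' j) (h.dM j) ht x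
    · exact hasDerivAt_br (ker_k2l j) (h.hM k) (h.hM' k) (h.dM k) ht x
  have heq : (fun t => br t x k2 (E i) + br t x (k3 k) (B j) - br t x (k3 j) (B k))
      =ᶠ[𝓝 t] (fun t => - br t x (k2l i) R - br t x k1 (J i) + br t x (k2l k) (M j)
      - br t x (k2l j) (M k)) := by
    filter_upwards [Iio_mem_nhds ht] with s hs
    exact h.second hs x i j k hj hk
  have h2 := hL.unique (hRt.congr_of_eventuallyEq heq)
  linarith only [h1, h2]

end Vale.Agent.P107
end
end
end

section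

section

attribute [-instance] ProperSMul.toContinuousSMul IsTopologicalTorsor.toContinuousSMul
  IdemSemiring.toCanonicallyOrderedAdd IdemSemiring.toMulLeftMono IdemSemiring.toMulRightMono
  AddQuantale.instAddLeftMono AddQuantale.instAddRightMono Quantale.instMulLeftMono
  Quantale.instMulRightMono FiniteDimensional.rclike_to_real IsScalarTower.complexToReal
  FiniteDimensional.complexToReal

section

/-!
The Glassey-Strauss decomposition for a fixed velocity `a`, `|a| < 1`.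
-/

open MeasureTheory Set Filter Topology
open scoped RealInnerProductSpace ENNReal NNReal

namespace Vale.Agent.P107

/-- The kernel of the `S`-part, `(ω_i + a_i) / ((1 + a·ω) |z|)`. -/
noncomputable def kS (a : E3) (i : Fin 3) (z : E3) : ℝ :=
  (z i + ‖z‖ * a i) * (‖z‖ + ⟪a, z⟫)⁻¹ * ‖z‖⁻¹

/-- The kernel of the `T`-part, `(ω_i + a_i)(1 - |a|²) / ((1 + a·ω)² |z|²)`. -/
noncomputable def kT (a : E3) (i : Fin 3) (z : E3) : ℝ :=
  (z i + ‖z‖ * a i) * (1 - ‖a‖ ^ 2) * ((‖z‖ + ⟪a, z⟫)⁻¹) ^ 2 * ‖z‖⁻¹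

lemma denom_ge (a z : E3) : (1 - ‖a‖) * ‖z‖ ≤ ‖z‖ + ⟪a, z⟫ := by
  have := (abs_le.1 (abs_real_inner_le_norm a z)).1
  linarith only [this]

lemma denom_pos {a z : E3} (ha : ‖a‖ < 1) (hz : z ≠ 0) : 0 < ‖z‖ + ⟪a, z⟫ := by
  have hpos : 0 < ‖z‖ := norm_pos_iff.2 hz
  have : 0 < (1 - ‖a‖) * ‖z‖ := mul_pos (by linarith only [ha]) hpos
  exact this.trans_le (denom_ge a z)

lemma abs_num_le {a : E3} (ha : ‖a‖ ≤ 1) (z : E3) (i : Fin 3) : |z i + ‖z‖ * a i| ≤ 2 * ‖z‖ := by
  have h1 := abs_component_le z i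
  have h2 := abs_component_le a i
  calc |z i + ‖z‖ * a i| ≤ |z i| + |‖z‖ * a i| := abs_add_le _ _
    _ = |z i| + ‖z‖ * |a i| := by rw [abs_mul, abs_norm]
    _ ≤ ‖z‖ + ‖z‖ * 1 := by gcongr; exact h2.trans ha
    _ = 2 * ‖z‖ := by ring

lemma measurable_kS (a : E3) (i : Fin 3) : Measurable (kS a i) := by
  unfold kS; fun_prop

lemma measurable_kT (a : E3) (i : Fin 3) : Measurable (kT a i) := by
  unfold kT; fun_prop

lemma abs_kS_le {a : E3} (ha : ‖a‖ < 1) (i : Fin 3) {z : E3} (hz : z ≠ 0) :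
    |kS a i z| ≤ 2 * (1 - ‖a‖)⁻¹ * ‖z‖⁻¹ := by
  have hpos : 0 < ‖z‖ := norm_pos_iff.2 hz
  have hD := denom_pos ha hz
  have h1a : 0 < 1 - ‖a‖ := by linarith only [ha]
  unfold kS
  rw [abs_mul, abs_mul, abs_of_pos (inv_pos.2 hD), abs_of_pos (inv_pos.2 hpos)]
  have h1 := abs_num_le ha.le z i
  have h2 : (‖z‖ + ⟪a, z⟫)⁻¹ ≤ ((1 - ‖a‖) * ‖z‖)⁻¹ := by
    gcongr
    exact denom_ge a z
  calc |z i + ‖z‖ * a i| * (‖z‖ + ⟪a, z⟫)⁻¹ * ‖z‖⁻¹
      ≤ (2 * ‖z‖) * ((1 - ‖a‖) * ‖z‖)⁻¹ * ‖z‖⁻¹ := by (clear * - hz hD h1 h2; gcongr)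
    _ = _ := by field_simp

lemma abs_kT_le {a : E3} (ha : ‖a‖ < 1) (i : Fin 3) {z : E3} (hz : z ≠ 0) :
    |kT a i z| ≤ 2 * ((1 - ‖a‖)⁻¹) ^ 2 * (‖z‖⁻¹) ^ 2 := by
  have hpos : 0 < ‖z‖ := norm_pos_iff.2 hz
  have hD := denom_pos ha hz
  have h1a : 0 < 1 - ‖a‖ := by linarith
  have h0 : 0 ≤ 1 - ‖a‖ ^ 2 := by nlinarith only [ha, norm_nonneg a]
  have h0' : 1 - ‖a‖ ^ 2 ≤ 1 := by nlinarith only []
  unfold kT
  have hD2 : 0 ≤ ((‖z‖ + ⟪a, z⟫)⁻¹) ^ 2 := sq_nonneg _
  rw [abs_mul, abs_mul, abs_mul, abs_of_nonneg hD2, abs_of_pos (inv_pos.2 hpos),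
    abs_of_nonneg h0]
  have h1 := abs_num_le ha.le z i
  have h2 : (‖z‖ + ⟪a, z⟫)⁻¹ ≤ ((1 - ‖a‖) * ‖z‖)⁻¹ := by
    gcongr
    exact denom_ge a z
  calc |z i + ‖z‖ * a i| * (1 - ‖a‖ ^ 2) * ((‖z‖ + ⟪a, z⟫)⁻¹) ^ 2 * ‖z‖⁻¹
      ≤ (2 * ‖z‖) * 1 * (((1 - ‖a‖) * ‖z‖)⁻¹) ^ 2 * ‖z‖⁻¹ := by gcongr
    _ = _ := by field_simp

lemma ker_kT {a : E3} (ha : ‖a‖ < 1) (i : Fin 3) : Ker (kT a i) := by
  refine ⟨measurable_kT a i, 2 * ((1 - ‖a‖)⁻¹) ^ 2, fun z => ?_⟩
  have h1a : 0 < 1 - ‖a‖ := by linarith only [ha]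
  rcases eq_or_ne z 0 with rfl | hz
  · simp [kT]
  · refine (abs_kT_le ha i hz).trans ?_
    gcongr
    have : 0 ≤ ‖z‖⁻¹ := by positivity
    linarith only [this]

lemma ker_kS {a : E3} (ha : ‖a‖ < 1) (i : Fin 3) : Ker (kS a i) := by
  refine ⟨measurable_kS a i, 2 * (1 - ‖a‖)⁻¹, fun z => ?_⟩
  have h1a : 0 < 1 - ‖a‖ := by linarith only [ha]
  rcases eq_or_ne z 0 with rfl | hz
  · simp [kS]
  · refine (abs_kS_le ha i hz).trans ?_
    gcongr
    have : 0 ≤ (‖z‖⁻¹) ^ 2 := by positivity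
    linarith only [this]

lemma differentiableAt_kS {a : E3} (ha : ‖a‖ < 1) (i : Fin 3) {z : E3} (hz : z ≠ 0) :
    DifferentiableAt ℝ (kS a i) z := by
  have hD := denom_pos ha hz
  have hpos : 0 < ‖z‖ := norm_pos_iff.2 hz
  have hn : DifferentiableAt ℝ (fun y : E3 => ‖y‖) z := (hasFDerivAt_norm hz).differentiableAt
  have hc : DifferentiableAt ℝ (fun y : E3 => y i) z := (hasFDerivAt_component i z).differentiableAt
  have hin : DifferentiableAt ℝ (fun y : E3 => ⟪a, y⟫) z := (innerSL ℝ a).differentiableAt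
  unfold kS
  refine DifferentiableAt.mul (DifferentiableAt.mul ?_ ?_) ?_
  · exact hc.add (hn.mul (differentiableAt_const _))
  · exact (hn.add hin).inv hD.ne'
  · exact hn.inv hpos.ne'

/-- The derivative of the `S`-kernel in the direction of the velocity. -/
lemma fderiv_kS {a : E3} (ha : ‖a‖ < 1) (i : Fin 3) {z : E3} (hz : z ≠ 0) :
    fderiv ℝ (kS a i) z a = kT a i z - k3 i z := by
  have hD := denom_pos ha hz
  have hpos : 0 < ‖z‖ := norm_pos_iff.2 hz
  have hn := hasFDerivAt_norm hz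
  have hin : HasFDerivAt (fun y : E3 => ⟪a, y⟫) (innerSL ℝ a) z := (innerSL ℝ a).hasFDerivAt
  have hnum : HasFDerivAt (fun y : E3 => y i + ‖y‖ * a i)
      ((EuclideanSpace.proj i : E3 →L[ℝ] ℝ) + (a i) • (‖z‖⁻¹ • innerSL ℝ z)) z :=
    (hasFDerivAt_component i z).add (hn.mul_const (a i))
  have hden : HasFDerivAt (fun y : E3 => ‖y‖ + ⟪a, y⟫) (‖z‖⁻¹ • innerSL ℝ z + innerSL ℝ a) z :=
    hn.add hin
  have hinv : HasFDerivAt (fun y : E3 => (‖y‖ + ⟪a, y⟫)⁻¹)
      (-((‖z‖ + ⟪a, z⟫) ^ 2)⁻¹ • (‖z‖⁻¹ • innerSL ℝ z + innerSL ℝ a)) z :=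
    (hasDerivAt_inv hD.ne').comp_hasFDerivAt z hden
  have h1 : HasFDerivAt (kS a i) _ z := (hnum.mul hinv).mul (hasFDerivAt_norm_inv hz)
  rw [h1.fderiv]
  have haz : ⟪z, a⟫ = ⟪a, z⟫ := real_inner_comm _ _
  have hproj : (EuclideanSpace.proj i : E3 →L[ℝ] ℝ) a = a i := rfl
  simp only [kT, k3, innerSL_apply_apply, add_apply,
    smul_apply, smul_eq_mul, haz, real_inner_self_eq_norm_sq,
    hproj, Pi.mul_apply]
  generalize ⟪a, z⟫ = s at *
  generalize ‖z‖ = r at *
  field_simp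
  ring

/-- The Glassey-Strauss identity for a fixed velocity. -/
theorem Late.glassey_strauss {T t : ℝ} {G : ℝ × E3 → ℝ} (h : Late T G) (ht : t < T) (x : E3)
    {a : E3} (ha : ‖a‖ < 1) (i : Fin 3) :
    br t x (k3 i) G + br t x (k2l i) (ptd G) + a i * br t x k1 (ptd G)
      = br t x (kT a i) G + br t x (kS a i) (fun p => ptd G p + pxd a G p) := by
  have h1a : 0 < 1 - ‖a‖ := by linarith only [ha]
  have h0 := h.ibp ht x (κ := kS a i) a (C := 2 * (1 - ‖a‖)⁻¹)
    (C' := 2 * ((1 - ‖a‖)⁻¹) ^ 2 + 1)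
    (fun z hz => differentiableAt_kS ha i hz) (fun z hz => abs_kS_le ha i hz)
    (fun z hz => by
      rw [fderiv_kS ha i hz]
      have hpos : 0 < ‖z‖ := norm_pos_iff.2 hz
      have h3 : |k3 i z| ≤ (‖z‖⁻¹) ^ 2 := by
        unfold k3
        rw [abs_mul, abs_of_nonneg (by positivity)]
        calc (‖z‖⁻¹) ^ 3 * |z i| ≤ (‖z‖⁻¹) ^ 3 * ‖z‖ := by gcongr; exact abs_component_le z i
          _ = (‖z‖⁻¹) ^ 2 := by field_simp
      calc |kT a i z - k3 i z| ≤ |kT a i z| + |k3 i z| := abs_sub _ _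
        _ ≤ 2 * ((1 - ‖a‖)⁻¹) ^ 2 * (‖z‖⁻¹) ^ 2 + (‖z‖⁻¹) ^ 2 :=
            add_le_add (abs_kT_le ha i hz) h3
        _ = _ := by ring)
  have hS : LateC T (fun p => ptd G p + pxd a G p) := h.ptd_lateC.add (h.pxd_lateC a)
  have iS : Integrable fun z => kS a i z * (ptd G (rp t x z) + pxd a G (rp t x z)) :=
    (ker_kS ha i).integrable hS ht x
  have i2 : Integrable fun z => k2l i z * ptd G (rp t x z) :=
    (ker_k2l i).integrable h.ptd_lateC ht x
  have i1 : Integrable fun z => a i * (k1 z * ptd G (rp t x z)) :=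
    (ker_k1.integrable h.ptd_lateC ht x).const_mul _
  have iT : Integrable fun z => kT a i z * G (rp t x z) := (ker_kT ha i).integrable h.lateC ht x
  have i3 : Integrable fun z => k3 i z * G (rp t x z) := (ker_k3 i).integrable h.lateC ht x
  have e1 : ∫ z, kS a i z * (pxd a G (rp t x z) - (‖z‖⁻¹ * ⟪z, a⟫) * ptd G (rp t x z))
      = br t x (kS a i) (fun p => ptd G p + pxd a G p) - br t x (k2l i) (ptd G)
        - a i * br t x k1 (ptd G) := by
    unfold br
    rw [← integral_const_mul, ← integral_sub iS i2]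
    have i3 : Integrable fun z => kS a i z * (ptd G (rp t x z) + pxd a G (rp t x z))
      - k2l i z * ptd G (rp t x z) := iS.sub i2
    rw [← integral_sub i3 i1]
    refine integral_congr_ae ?_
    filter_upwards [ae_ne_zero] with z hz
    have hpos : 0 < ‖z‖ := norm_pos_iff.2 hz
    have hD := denom_pos ha hz
    have haz : ⟪z, a⟫ = ⟪a, z⟫ := real_inner_comm _ _
    rw [haz]
    simp only [kS, k2l, k1]
    generalize ⟪a, z⟫ = s at *
    generalize ‖z‖ = r at *
    field_simp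
    ring
  have e2 : ∫ z, fderiv ℝ (kS a i) z a * G (rp t x z)
      = br t x (kT a i) G - br t x (k3 i) G := by
    unfold br
    rw [← integral_sub iT i3]
    refine integral_congr_ae ?_
    filter_upwards [ae_ne_zero] with z hz
    rw [fderiv_kS ha i hz]
    ring
  rw [e1, e2] at h0
  linarith only [h0]

end Vale.Agent.P107
end
end
end

section

section

attribute [-instance] ProperSMul.toContinuousSMul IsTopologicalTorsor.toContinuousSMul
  IdemSemiring.toCanonicallyOrderedAdd IdemSemiring.toMulLeftMono IdemSemiring.toMulRightMono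
  AddQuantale.instAddLeftMono AddQuantale.instAddRightMono Quantale.instMulLeftMono
  Quantale.instMulRightMono FiniteDimensional.rclike_to_real IsScalarTower.complexToReal
  FiniteDimensional.complexToReal

section

/-!
Pointwise bounds for the Glassey-Strauss kernels.
-/

open MeasureTheory Set Filter Topology
open scoped RealInnerProductSpace ENNReal NNReal

namespace Vale.Agent.P107

/-- `|ω + u|² ≤ 2 (1 + u·ω)` for `|ω| = 1`, `|u| ≤ 1`. -/
lemma norm_add_sq_le {w a : E3} (hw : ‖w‖ = 1) (ha : ‖a‖ ≤ 1) :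
    ‖w + a‖ ^ 2 ≤ 2 * (1 + ⟪a, w⟫) := by
  have h := norm_add_sq_real w a
  have h2 : ⟪w, a⟫ = ⟪a, w⟫ := real_inner_comm _ _
  rw [h, hw, h2]
  nlinarith only [ha, norm_nonneg a]

lemma norm_add_le_sqrt {w a : E3} (hw : ‖w‖ = 1) (ha : ‖a‖ ≤ 1) :
    ‖w + a‖ ≤ Real.sqrt 2 * Real.sqrt (1 + ⟪a, w⟫) := by
  rw [← Real.sqrt_mul (by norm_num)]
  exact Real.le_sqrt_of_sq_le (norm_add_sq_le hw ha)

/-- `|ω - (u·ω) u|² ≤ 2 (1 + u·ω)`. -/
lemma norm_sub_sq_le {w a : E3} (hw : ‖w‖ = 1) (ha : ‖a‖ ≤ 1) :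
    ‖w - ⟪a, w⟫ • a‖ ^ 2 ≤ 2 * (1 + ⟪a, w⟫) := by
  have h := norm_sub_sq_real w (⟪a, w⟫ • a)
  have h2 : ⟪w, ⟪a, w⟫ • a⟫ = ⟪a, w⟫ ^ 2 := by
    rw [real_inner_smul_right, real_inner_comm]; ring
  rw [h, hw, h2, norm_smul, mul_pow, Real.norm_eq_abs, sq_abs]
  have h3 : |⟪a, w⟫| ≤ 1 := by
    have := abs_real_inner_le_norm a w
    rw [hw, mul_one] at this
    exact this.trans ha
  have h4 := abs_le.1 h3
  have h5 : ‖a‖ ^ 2 ≤ 1 := by nlinarith only [ha, norm_nonneg a]
  nlinarith only [h4, mul_nonneg (sq_nonneg ⟪a, w⟫) (sub_nonneg.2 h5)]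

/-- The vector `q⁻¹ (F - (u·F) u)`, i.e. the acceleration. -/
noncomputable def acc (v F : E3) : E3 := (q v)⁻¹ • (F - ⟪u v, F⟫ • u v)

lemma norm_acc_le (v F : E3) : ‖acc v F‖ ≤ (q v)⁻¹ * ‖F‖ := by
  have hq := q_pos v
  have hu := (norm_u_lt_one v).le
  unfold acc
  rw [norm_smul, norm_inv, Real.norm_of_nonneg hq.le]
  gcongr
  have h := norm_sub_sq_real F (⟪u v, F⟫ • u v)
  have h2 : ⟪F, ⟪u v, F⟫ • u v⟫ = ⟪u v, F⟫ ^ 2 := by
    rw [real_inner_smul_right, real_inner_comm]; ring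
  rw [h2, norm_smul, mul_pow, Real.norm_eq_abs, sq_abs] at h
  have h5 : ‖u v‖ ^ 2 ≤ 1 := by nlinarith only [hu, norm_nonneg (u v)]
  have h6 : ‖F - ⟪u v, F⟫ • u v‖ ^ 2 ≤ ‖F‖ ^ 2 := by
    rw [h]
    nlinarith only [mul_nonneg (sq_nonneg ⟪u v, F⟫) (sub_nonneg.2 h5)]
  exact le_of_sq_le_sq h6 (norm_nonneg _)

lemma inner_acc (v F w : E3) : ⟪acc v F, w⟫ = (q v)⁻¹ * ⟪F, w - ⟪u v, w⟫ • u v⟫ := by
  unfold acc
  rw [real_inner_smul_left, inner_sub_left, inner_sub_right, real_inner_smul_left,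
    real_inner_smul_right, real_inner_comm F (u v)]
  ring

lemma abs_inner_acc_le (v F : E3) {w : E3} (hw : ‖w‖ = 1) :
    |⟪acc v F, w⟫| ≤ (q v)⁻¹ * (‖F‖ * (Real.sqrt 2 * Real.sqrt (1 + ⟪u v, w⟫))) := by
  have hq := q_pos v
  rw [inner_acc, abs_mul, abs_of_pos (inv_pos.2 hq)]
  gcongr
  refine (abs_real_inner_le_norm _ _).trans ?_
  gcongr
  rw [← Real.sqrt_mul (by norm_num)]
  exact Real.le_sqrt_of_sq_le (norm_sub_sq_le hw (norm_u_lt_one v).le)

end Vale.Agent.P107
end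
end
end

section

section

attribute [-instance] ProperSMul.toContinuousSMul IsTopologicalTorsor.toContinuousSMul
  IdemSemiring.toCanonicallyOrderedAdd IdemSemiring.toMulLeftMono IdemSemiring.toMulRightMono
  AddQuantale.instAddLeftMono AddQuantale.instAddRightMono Quantale.instMulLeftMono
  Quantale.instMulRightMono FiniteDimensional.rclike_to_real IsScalarTower.complexToReal
  FiniteDimensional.complexToReal

section

/-!
Phase space functions and velocity integrals of retarded functions.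
-/

open MeasureTheory Set Filter Topology
open scoped RealInnerProductSpace ENNReal NNReal

namespace Vale.Agent.P107

/-- Continuous phase space functions before time `T`, vanishing up to time `0`, with locally
bounded velocity support. -/
structure LateV (T : ℝ) (H : ℝ × E3 → E3 → ℝ) : Prop where
  cont : ContinuousOn (fun z : (ℝ × E3) × E3 => H z.1 z.2) ((Iio T ×ˢ univ) ×ˢ univ)
  vanish : ∀ p : ℝ × E3, p.1 ≤ 0 → ∀ v, H p v = 0
  supp : ∀ t < T, ∃ R : ℝ, ∀ p : ℝ × E3, p.1 ≤ t → ∀ v, R < ‖v‖ → H p v = 0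

lemma LateV.lateC_integral {T : ℝ} {H : ℝ × E3 → E3 → ℝ} (h : LateV T H) :
    LateC T (fun p => ∫ v, H p v) := by
  refine ⟨?_, fun p hp => by simp [h.vanish p hp]⟩
  intro p₀ hp₀
  have hp₀' : p₀.1 < T := hp₀.1
  obtain ⟨t', h1, h2⟩ := exists_between hp₀'
  obtain ⟨R, hR⟩ := h.supp t' h2
  have hc : ContinuousOn (fun p : ℝ × E3 => ∫ v, H p v) (Iio t' ×ˢ univ) := by
    refine continuousOn_integral_of_compact_support (k := Metric.closedBall (0 : E3) R)
      (isCompact_closedBall _ _) ?_ ?_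
    · refine h.cont.mono ?_
      intro z hz
      exact ⟨⟨lt_trans hz.1.1 h2, mem_univ _⟩, mem_univ _⟩
    · intro p v hp hv
      rw [Metric.mem_closedBall, dist_zero_right, not_le] at hv
      exact hR p (le_of_lt hp.1) v hv
  exact (hc.continuousAt ((isOpen_dom t').mem_nhds ⟨h1, mem_univ _⟩)).continuousWithinAt

lemma LateV.lateC_fix {T : ℝ} {H : ℝ × E3 → E3 → ℝ} (h : LateV T H) (v : E3) :
    LateC T (fun p => H p v) := by
  refine ⟨?_, fun p hp => h.vanish p hp v⟩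
  have h1 : ContinuousOn (fun p : ℝ × E3 => (p, v)) (Iio T ×ˢ univ) := by fun_prop
  exact h.cont.comp h1 (fun p hp => ⟨hp, mem_univ _⟩)

lemma LateV.mul_right {T : ℝ} {H : ℝ × E3 → E3 → ℝ} (h : LateV T H) {g : E3 → ℝ}
    (hg : Continuous g) : LateV T (fun p v => g v * H p v) := by
  refine ⟨?_, fun p hp v => by rw [h.vanish p hp v, mul_zero], fun t ht => ?_⟩
  · exact ContinuousOn.mul (by (clear * - hg; fun_prop)) h.cont
  · obtain ⟨R, hR⟩ := h.supp t ht
    exact ⟨R, fun p hp v hv => by rw [hR p hp v hv, mul_zero]⟩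

lemma LateV.exists_bound {T : ℝ} {H : ℝ × E3 → E3 → ℝ} (h : LateV T H) {t : ℝ} (ht : t < T)
    (R : ℝ) :
    ∃ C, 0 ≤ C ∧ ∀ s ≤ t, ∀ x : E3, ‖x‖ ≤ R → ∀ z v : E3, |H (rp s x z) v| ≤ C := by
  obtain ⟨R', hR'⟩ := h.supp t ht
  have hcomp : IsCompact ((Icc 0 t ×ˢ Metric.closedBall (0 : E3) (R + t)) ×ˢ
      Metric.closedBall (0 : E3) R') :=
    (isCompact_Icc.prod (isCompact_closedBall _ _)).prod (isCompact_closedBall _ _)
  obtain ⟨C, hC⟩ := hcomp.exists_bound_of_continuousOn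
    (f := fun z : (ℝ × E3) × E3 => H z.1 z.2) (h.cont.mono (by
    intro p hp
    exact ⟨⟨lt_of_le_of_lt hp.1.1.2 ht, mem_univ _⟩, mem_univ _⟩))
  refine ⟨max C 0, le_max_right _ _, fun s hs x hx z v => ?_⟩
  by_cases hz : s < ‖z‖
  · rw [h.vanish _ (by simp only [rp]; linarith only [hz]), abs_zero]; exact le_max_right _ _
  · push Not at hz
    by_cases hv : R' < ‖v‖
    · rw [hR' (rp s x z) (by simp only [rp]; linarith only [t, s, hs, z, norm_nonneg z]) v hv, abs_zero]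
      exact le_max_right _ _
    · push Not at hv
      refine (hC (rp s x z, v) ⟨⟨⟨?_, ?_⟩, ?_⟩, ?_⟩).trans (le_max_left _ _)
      · simp only [rp]; linarith
      · simp only [rp]; linarith [norm_nonneg z]
      · simp only [rp, Metric.mem_closedBall, dist_zero_right]
        refine (norm_add_le _ _).trans ?_
        linarith only [hs, hx, hz]
      · simpa using hv

lemma measurable_H {T : ℝ} {H : ℝ × E3 → E3 → ℝ} (h : LateV T H) {t : ℝ} (ht : t < T) (x : E3) :
    Continuous fun w : E3 × E3 => H (rp t x w.2) w.1 := by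
  have h1 : Continuous fun w : E3 × E3 => ((rp t x w.2, w.1) : (ℝ × E3) × E3) :=
    ((continuous_rp t x).comp continuous_snd).prodMk continuous_fst
  exact h.cont.comp_continuous h1 (fun w => ⟨rp_mem ht x w.2, mem_univ _⟩)

/-- Velocity dependent kernels. -/
structure KerV (κ : E3 → E3 → ℝ) : Prop where
  measurable : Measurable (fun w : E3 × E3 => κ w.1 w.2)
  bound : ∀ R : ℝ, ∃ C, ∀ v, ‖v‖ ≤ R → ∀ z, |κ v z| ≤ C * ((‖z‖⁻¹) ^ 2 + ‖z‖⁻¹)

lemma KerV.ker {κ : E3 → E3 → ℝ} (hκ : KerV κ) (v : E3) : Ker (κ v) := by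
  obtain ⟨C, hC⟩ := hκ.bound ‖v‖
  exact ⟨hκ.measurable.comp (by fun_prop : Measurable fun z : E3 => (v, z)), C, hC v le_rfl⟩

lemma KerV.integrable {κ : E3 → E3 → ℝ} (hκ : KerV κ) {T : ℝ} {H : ℝ × E3 → E3 → ℝ}
    (h : LateV T H) {t : ℝ} (ht : t < T) (x : E3) :
    Integrable (fun w : E3 × E3 => κ w.1 w.2 * H (rp t x w.2) w.1) (volume.prod volume) := by
  obtain ⟨R, hR⟩ := h.supp t ht
  obtain ⟨C, hC⟩ := hκ.bound R
  obtain ⟨D, hD0, hD⟩ := h.exists_bound ht ‖x‖
  have i1 : Integrable ((Metric.closedBall (0 : E3) R).indicator (fun _ => (1 : ℝ))) := by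
    rw [integrable_indicator_iff measurableSet_closedBall]
    exact integrableOn_const measure_closedBall_lt_top.ne
  have i2 : Integrable ((Metric.closedBall (0 : E3) t).indicator
      (fun z : E3 => |C| * (1 + |t|) * D * (‖z‖⁻¹) ^ 2)) := by
    refine integrable_kernel (R := t) (C := |C| * (1 + |t|) * D) ?_ ?_ ?_
    · refine (Measurable.indicator ?_ measurableSet_closedBall).aestronglyMeasurable
      fun_prop
    · intro z
      by_cases hz : z ∈ Metric.closedBall (0 : E3) t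
      · rw [indicator_of_mem hz, abs_of_nonneg (by (clear * - hD0; positivity))]
      · rw [indicator_of_notMem hz, abs_zero]; (clear * - hD0; positivity)
    · intro z hz
      rw [indicator_of_notMem]
      simpa using hz
  refine (i1.mul_prod i2).mono' ?_ (ae_of_all _ fun w => ?_)
  · exact (hκ.measurable.mul (measurable_H h ht x).measurable).aestronglyMeasurable
  · have hind1 : 0 ≤ (Metric.closedBall (0 : E3) R).indicator (fun _ => (1 : ℝ)) w.1 :=
      indicator_nonneg (fun _ _ => zero_le_one) _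
    have hind2 : 0 ≤ (Metric.closedBall (0 : E3) t).indicator
      (fun z : E3 => |C| * (1 + |t|) * D * (‖z‖⁻¹) ^ 2) w.2 :=
      indicator_nonneg (fun _ _ => by (clear * - hD0; positivity)) _
    by_cases hv : R < ‖w.1‖
    · rw [hR (rp t x w.2) (by simp only [rp]; linarith only [norm_nonneg w.2]) w.1 hv, mul_zero,
        norm_zero]
      exact mul_nonneg hind1 hind2
    by_cases hz : t < ‖w.2‖
    · rw [h.vanish _ (by simp only [rp]; linarith only [t, w, hz]), mul_zero, norm_zero]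
      exact mul_nonneg hind1 hind2
    push Not at hv hz
    rw [indicator_of_mem (by simpa using hv), indicator_of_mem (by simpa using hz), one_mul,
      norm_mul, Real.norm_eq_abs, Real.norm_eq_abs]
    have h1 : ‖w.2‖⁻¹ ≤ |t| * (‖w.2‖⁻¹) ^ 2 := by
      rcases eq_or_ne w.2 0 with h0 | h0
      · rw [h0]; simp
      · have hpos : 0 < ‖w.2‖ := norm_pos_iff.2 h0
        have : ‖w.2‖ * (‖w.2‖⁻¹) ^ 2 ≤ |t| * (‖w.2‖⁻¹) ^ 2 := by
          gcongr
          exact hz.trans (le_abs_self t)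
        calc ‖w.2‖⁻¹ = ‖w.2‖ * (‖w.2‖⁻¹) ^ 2 := by field_simp
          _ ≤ _ := this
    have h2 : |κ w.1 w.2| ≤ |C| * (1 + |t|) * (‖w.2‖⁻¹) ^ 2 := by
      calc |κ w.1 w.2| ≤ C * ((‖w.2‖⁻¹) ^ 2 + ‖w.2‖⁻¹) := hC w.1 hv w.2
        _ ≤ |C| * ((‖w.2‖⁻¹) ^ 2 + ‖w.2‖⁻¹) := by gcongr; exact le_abs_self C
        _ ≤ |C| * ((‖w.2‖⁻¹) ^ 2 + |t| * (‖w.2‖⁻¹) ^ 2) := by (clear * - h1; gcongr)
        _ = _ := by ring
    calc |κ w.1 w.2| * |H (rp t x w.2) w.1| ≤ (|C| * (1 + |t|) * (‖w.2‖⁻¹) ^ 2) * D := by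
          gcongr
          exact hD t le_rfl x le_rfl w.2 w.1
      _ = _ := by ring

/-- Swapping the velocity integral and the bracket. -/
lemma KerV.swap {κ : E3 → E3 → ℝ} (hκ : KerV κ) {T : ℝ} {H : ℝ × E3 → E3 → ℝ}
    (h : LateV T H) {t : ℝ} (ht : t < T) (x : E3) :
    ∫ v, br t x (κ v) (fun p => H p v) = ∫ z, ∫ v, κ v z * H (rp t x z) v := by
  unfold br
  exact integral_integral_swap (hκ.integrable h ht x)

lemma Ker.kerV {κ : E3 → ℝ} (hκ : Ker κ) : KerV (fun _ z => κ z) := by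
  obtain ⟨C, hC⟩ := hκ.bound
  exact ⟨hκ.measurable.comp measurable_snd, fun _ => ⟨C, fun _ _ z => hC z⟩⟩

lemma Ker.br_integral {κ : E3 → ℝ} (hκ : Ker κ) {T : ℝ} {H : ℝ × E3 → E3 → ℝ}
    (h : LateV T H) {t : ℝ} (ht : t < T) (x : E3) :
    br t x κ (fun p => ∫ v, H p v) = ∫ v, br t x κ (fun p => H p v) := by
  rw [hκ.kerV.swap h ht x]
  unfold br
  congr 1
  ext z
  rw [integral_const_mul]

lemma cont_q : Continuous q := by
  unfold q; fun_prop

lemma cont_u : Continuous u := by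
  unfold u
  exact (cont_q.inv₀ (fun v => (q_pos v).ne')).smul continuous_id

/-- A lower bound for `1 - |u|`. -/
lemma inv_one_sub_norm_u_le (v : E3) : (1 - ‖u v‖)⁻¹ ≤ 2 * q v ^ 2 := by
  have hu := norm_u_lt_one v
  have h1 := norm_u_sq v
  have hq := q_pos v
  rw [inv_le_comm₀ (by linarith only [hu]) (by positivity)]
  have h2 : (q v ^ 2)⁻¹ ≤ 2 * (1 - ‖u v‖) := by
    rw [← h1]
    nlinarith only [hu]
  rw [mul_inv]
  linarith only [h2]

lemma measurable_num (i : Fin 3) :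
    Measurable fun w : E3 × E3 => w.2 i + ‖w.2‖ * (u w.1) i := by
  have hu : Measurable u := cont_u.measurable
  have h1 : Measurable fun w : E3 × E3 => u w.1 := hu.comp measurable_fst
  have h2 : Measurable fun w : E3 × E3 => (u w.1) i :=
    (EuclideanSpace.proj i : E3 →L[ℝ] ℝ).continuous.measurable.comp h1
  have h3 : Measurable fun w : E3 × E3 => w.2 i :=
    (EuclideanSpace.proj i : E3 →L[ℝ] ℝ).continuous.measurable.comp measurable_snd
  exact h3.add (measurable_snd.norm.mul h2)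

lemma measurable_den :
    Measurable fun w : E3 × E3 => (‖w.2‖ + ⟪u w.1, w.2⟫)⁻¹ := by
  have hu : Measurable u := cont_u.measurable
  have h1 : Measurable fun w : E3 × E3 => u w.1 := hu.comp measurable_fst
  exact (measurable_snd.norm.add (h1.inner measurable_snd)).inv

lemma kerV_kT (i : Fin 3) : KerV (fun v z => kT (u v) i z) := by
  have hu : Measurable u := cont_u.measurable
  refine ⟨?_, fun R => ⟨2 * (2 * (1 + |R|) ^ 2) ^ 2, fun v hv z => ?_⟩⟩
  · unfold kT
    have h1 : Measurable fun w : E3 × E3 => 1 - ‖u w.1‖ ^ 2 :=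
      measurable_const.sub ((hu.comp measurable_fst).norm.pow_const 2)
    exact (((measurable_num i).mul h1).mul (measurable_den.pow_const 2)).mul measurable_snd.norm.inv
  · rcases eq_or_ne z 0 with rfl | hz
    · simp [kT]
    · have hu1 := norm_u_lt_one v
      have h1a : 0 < 1 - ‖u v‖ := by linarith only [hu1]
      have hq : q v ≤ 1 + |R| := (q_le_one_add_norm v).trans (by linarith only [R, v, hv, le_abs_self R])
      have hq0 := (q_pos v).le
      refine (abs_kT_le hu1 i hz).trans ?_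
      have h4 : (1 - ‖u v‖)⁻¹ ≤ 2 * (1 + |R|) ^ 2 :=
        (inv_one_sub_norm_u_le v).trans (by (clear * - hq hq0; gcongr))
      calc 2 * ((1 - ‖u v‖)⁻¹) ^ 2 * (‖z‖⁻¹) ^ 2
          ≤ 2 * (2 * (1 + |R|) ^ 2) ^ 2 * ((‖z‖⁻¹) ^ 2 + 0) := by rw [add_zero]; (clear * - hz hu1 h4; gcongr)
        _ ≤ _ := by gcongr; positivity

lemma kerV_kS (i : Fin 3) : KerV (fun v z => kS (u v) i z) := by
  refine ⟨?_, fun R => ⟨2 * (2 * (1 + |R|) ^ 2), fun v hv z => ?_⟩⟩
  · unfold kS
    exact ((measurable_num i).mul measurable_den).mul measurable_snd.norm.inv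
  · rcases eq_or_ne z 0 with rfl | hz
    · simp [kS]
    · have hu1 := norm_u_lt_one v
      have h1a : 0 < 1 - ‖u v‖ := by linarith only [hu1]
      have hq : q v ≤ 1 + |R| := (q_le_one_add_norm v).trans (by linarith only [hv, le_abs_self R])
      have hq0 := (q_pos v).le
      refine (abs_kS_le hu1 i hz).trans ?_
      have h4 : (1 - ‖u v‖)⁻¹ ≤ 2 * (1 + |R|) ^ 2 :=
        (inv_one_sub_norm_u_le v).trans (by (clear * - hq hq0; gcongr))
      calc 2 * (1 - ‖u v‖)⁻¹ * ‖z‖⁻¹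
          ≤ 2 * (2 * (1 + |R|) ^ 2) * (0 + ‖z‖⁻¹) := by rw [zero_add]; gcongr
        _ ≤ _ := by gcongr; positivity

/-- The representation obtained from Jefimenko's formula and the Glassey-Strauss decomposition:
the charge and current densities are velocity integrals of `H0`, with time derivative `H1`, and
`HS` is the derivative of `H0` along free transport. -/
theorem GS_representation {T : ℝ} {H0 H1 HS : ℝ × E3 → E3 → ℝ} (h0 : LateV T H0)
    (h1 : LateV T H1) (hS : LateV T HS) (hL : ∀ v, Late T (fun p => H0 p v))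
    (hpt : ∀ v, ∀ p ∈ Iio T ×ˢ (univ : Set E3), ptd (fun p => H0 p v) p = H1 p v)
    (hps : ∀ v, ∀ p ∈ Iio T ×ˢ (univ : Set E3),
      ptd (fun p => H0 p v) p + pxd (u v) (fun p => H0 p v) p = HS p v)
    {t : ℝ} (ht : t < T) (x : E3) (i : Fin 3) :
    br t x (k3 i) (fun p => ∫ v, H0 p v) + br t x (k2l i) (fun p => ∫ v, H1 p v)
      + br t x k1 (fun p => ∫ v, (u v) i * H1 p v)
    = (∫ z, ∫ v, kT (u v) i z * H0 (rp t x z) v) + ∫ z, ∫ v, kS (u v) i z * HS (rp t x z) v := by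
  have hui : Continuous fun v : E3 => (u v) i :=
    (EuclideanSpace.proj i : E3 →L[ℝ] ℝ).continuous.comp cont_u
  rw [(ker_k3 i).br_integral h0 ht x, (ker_k2l i).br_integral h1 ht x,
    ker_k1.br_integral (h1.mul_right hui) ht x, ← (kerV_kT i).swap h0 ht x,
    ← (kerV_kS i).swap hS ht x]
  have e3 : ∀ v, br t x k1 (fun p => (u v) i * H1 p v) = (u v) i * br t x k1 (fun p => H1 p v) := by
    intro v
    unfold br
    rw [← integral_const_mul]
    congr 1
    ext z
    ring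
  have key : ∀ v, br t x (k3 i) (fun p => H0 p v) + br t x (k2l i) (fun p => H1 p v)
      + br t x k1 (fun p => (u v) i * H1 p v)
      = br t x (kT (u v) i) (fun p => H0 p v) + br t x (kS (u v) i) (fun p => HS p v) := by
    intro v
    have hgs := (hL v).glassey_strauss ht x (norm_u_lt_one v) i
    rw [br_congr ht x (hpt v), br_congr ht x (hpt v), br_congr ht x (hps v)] at hgs
    rw [e3 v]
    exact hgs
  have int_of : ∀ {κ : E3 → E3 → ℝ} {H : ℝ × E3 → E3 → ℝ}, KerV κ → LateV T H →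
      Integrable (fun v => br t x (κ v) (fun p => H p v)) := by
    intro κ H hκ hH
    exact (hκ.integrable hH ht x).integral_prod_left
  have i1 := int_of (ker_k3 i).kerV h0
  have i2 := int_of (ker_k2l i).kerV h1
  have i3 := int_of ker_k1.kerV (h1.mul_right hui)
  have i4 := int_of (kerV_kT i) h0
  have i5 := int_of (kerV_kS i) hS
  rw [← integral_add i4 i5]
  rw [integral_add3 i1 i2 i3]
  exact integral_congr_ae (ae_of_all _ key)

end Vale.Agent.P107
end
end
end

section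

section

attribute [-instance] ProperSMul.toContinuousSMul IsTopologicalTorsor.toContinuousSMul
  IdemSemiring.toCanonicallyOrderedAdd IdemSemiring.toMulLeftMono IdemSemiring.toMulRightMono
  AddQuantale.instAddLeftMono AddQuantale.instAddRightMono Quantale.instMulLeftMono
  Quantale.instMulRightMono FiniteDimensional.rclike_to_real IsScalarTower.complexToReal
  FiniteDimensional.complexToReal

section

/-!
Integration by parts in the velocity variable.
-/

open MeasureTheory Set Filter Topology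
open scoped RealInnerProductSpace ENNReal NNReal

namespace Vale.Agent.P107

/-- Integration by parts for a `C¹` vector field and a compactly supported `C¹` function. -/
theorem ibp_vector {g : E3 → ℝ} {W : E3 → E3} (hg : ContDiff ℝ 1 g) (hgs : HasCompactSupport g)
    (hW : ContDiff ℝ 1 W) :
    ∫ v, fderiv ℝ g v (W v) = - ∫ v, g v * div W v := by
  have hWk : ∀ k : Fin 3, ContDiff ℝ 1 (fun v => W v k) := fun k =>
    (EuclideanSpace.proj k : E3 →L[ℝ] ℝ).contDiff.comp hW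
  have hgd : ∀ k : Fin 3, Continuous fun v => fderiv ℝ g v (ee k) := fun k =>
    (hg.continuous_fderiv (by norm_num)).clm_apply continuous_const
  have hWd : ∀ k : Fin 3, Continuous fun v => fderiv ℝ (fun v => W v k) v (ee k) := fun k =>
    ((hWk k).continuous_fderiv (by norm_num)).clm_apply continuous_const
  have hgds : ∀ k : Fin 3, HasCompactSupport fun v => fderiv ℝ g v (ee k) := fun k =>
    hgs.fderiv_apply (𝕜 := ℝ) _
  have key : ∀ k : Fin 3, ∫ v, W v k * fderiv ℝ g v (ee k)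
      = - ∫ v, fderiv ℝ (fun v => W v k) v (ee k) * g v := by
    intro k
    refine integral_mul_fderiv_eq_neg_fderiv_mul_of_integrable ?_ ?_ ?_ ?_ ?_
    · exact ((hWd k).mul hg.continuous).integrable_of_hasCompactSupport hgs.mul_left
    · exact ((hWk k).continuous.mul (hgd k)).integrable_of_hasCompactSupport (hgds k).mul_left
    · exact ((hWk k).continuous.mul hg.continuous).integrable_of_hasCompactSupport hgs.mul_left
    · intro v _; exact (hWk k).differentiable (by norm_num) v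
    · intro v _; exact hg.differentiable (by norm_num) v
  have i1 : ∀ k : Fin 3, Integrable fun v => W v k * fderiv ℝ g v (ee k) := fun k =>
    ((hWk k).continuous.mul (hgd k)).integrable_of_hasCompactSupport (hgds k).mul_left
  have i2 : ∀ k : Fin 3, Integrable fun v => fderiv ℝ (fun v => W v k) v (ee k) * g v := fun k =>
    ((hWd k).mul hg.continuous).integrable_of_hasCompactSupport hgs.mul_left
  have e1 : ∫ v, fderiv ℝ g v (W v) = ∑ k, ∫ v, W v k * fderiv ℝ g v (ee k) := by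
    rw [← integral_finsetSum _ (fun k _ => i1 k)]
    congr 1
    ext v
    exact clm_apply_eq_sum (fderiv ℝ g v) (W v)
  have e2 : ∫ v, g v * div W v = ∑ k, ∫ v, fderiv ℝ (fun v => W v k) v (ee k) * g v := by
    rw [← integral_finsetSum _ (fun k _ => i2 k)]
    congr 1
    ext v
    unfold div pd
    rw [Finset.mul_sum]
    refine Finset.sum_congr rfl fun k _ => ?_
    ring
  rw [e1, e2, ← Finset.sum_neg_distrib]
  exact Finset.sum_congr rfl fun k _ => key k

lemma contDiff_qq : ContDiff ℝ 1 q := by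
  unfold q
  refine ContDiff.sqrt ?_ (fun v => by positivity)
  exact contDiff_const.add (contDiff_norm_sq ℝ)

lemma contDiff_uu : ContDiff ℝ 1 u := by
  unfold u
  exact (contDiff_qq.inv (fun v => (q_pos v).ne')).smul contDiff_id

lemma hasFDerivAt_qq (v : E3) : HasFDerivAt q ((q v)⁻¹ • innerSL ℝ v) v := by
  have h1 : HasFDerivAt (fun y : E3 => 1 + ‖y‖ ^ 2) (2 • (innerSL ℝ v)) v :=
    (hasStrictFDerivAt_norm_sq v).hasFDerivAt.const_add 1
  have h2 := h1.sqrt (by positivity)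
  refine HasFDerivAt.congr_fderiv h2 ?_
  ext e
  simp [q]
  (clear * -; field_simp)

/-- The derivative of `u` at `v`, in direction `e`, is `acc v e`. -/
lemma hasFDerivAt_u (v : E3) : HasFDerivAt u
    ((q v)⁻¹ • (ContinuousLinearMap.id ℝ E3 - (innerSL ℝ (u v)).smulRight (u v))) v := by
  have hq := q_pos v
  have h1 : HasFDerivAt (fun y : E3 => (q y)⁻¹) (-((q v) ^ 2)⁻¹ • ((q v)⁻¹ • innerSL ℝ v)) v :=
    (hasDerivAt_inv hq.ne').comp_hasFDerivAt v (hasFDerivAt_qq v)
  have h2 : HasFDerivAt u ((q v)⁻¹ • (ContinuousLinearMap.id ℝ E3)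
      + (-((q v) ^ 2)⁻¹ • ((q v)⁻¹ • innerSL ℝ v)).smulRight v) v :=
    h1.smul (hasFDerivAt_id v)
  refine h2.congr_fderiv ?_
  ext1 e
  have hv : v = q v • u v := (q_smul_u v).symm
  have hin : ⟪v, e⟫ = q v * ⟪u v, e⟫ := by
    conv_lhs => rw [hv]
    rw [real_inner_smul_left]
  simp only [add_apply, smul_apply, ContinuousLinearMap.smulRight_apply,
    sub_apply, innerSL_apply_apply, smul_eq_mul, hin, ContinuousLinearMap.id_apply]
  rw [smul_sub, sub_eq_add_neg, smul_smul]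
  congr 1
  have hc : ∀ c : ℝ, c • v = (c * q v) • u v := fun c => by
    rw [mul_smul, q_smul_u]
  rw [hc, ← neg_smul]
  congr 1
  field_simp

lemma fderiv_u_apply (v e : E3) : fderiv ℝ u v e = acc v e := by
  rw [(hasFDerivAt_u v).fderiv]
  simp [acc]

/-- The Lorentz force field, as a function of `v`. -/
noncomputable def lor (E₀ B₀ v : E3) : E3 := E₀ + cross (u v) B₀

lemma cross_apply (a b : E3) (k : Fin 3) :
    cross a b k = a (k + 1) * b (k + 2) - a (k + 2) * b (k + 1) := by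
  fin_cases k <;> simp [cross]

lemma contDiff_lor (E₀ B₀ : E3) : ContDiff ℝ 1 (lor E₀ B₀) := by
  rw [contDiff_euclidean]
  intro k
  have hu : ∀ l : Fin 3, ContDiff ℝ 1 (fun v => (u v) l) := fun l =>
    (EuclideanSpace.proj l : E3 →L[ℝ] ℝ).contDiff.comp contDiff_uu
  have : (fun v => lor E₀ B₀ v k)
      = fun v => E₀ k + ((u v) (k + 1) * B₀ (k + 2) - (u v) (k + 2) * B₀ (k + 1)) := by
    ext v
    simp only [lor, PiLp.add_apply, cross_apply]
  rw [this]
  exact contDiff_const.add (((hu _).mul contDiff_const).sub ((hu _).mul contDiff_const))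

/-- The Lorentz force is divergence free in `v`. -/
lemma div_lor (E₀ B₀ v : E3) : div (lor E₀ B₀) v = 0 := by
  have hul : ∀ l : Fin 3, HasFDerivAt (fun v => (u v) l)
      ((EuclideanSpace.proj l : E3 →L[ℝ] ℝ).comp (fderiv ℝ u v)) v := by
    intro l
    have h1 : HasFDerivAt u (fderiv ℝ u v) v :=
      (contDiff_uu.differentiable (by norm_num) v).hasFDerivAt
    exact (EuclideanSpace.proj l : E3 →L[ℝ] ℝ).hasFDerivAt.comp v h1
  have hk : ∀ k : Fin 3, pd k (fun y => lor E₀ B₀ y k) v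
      = (acc v (ee k)) (k + 1) * B₀ (k + 2) - (acc v (ee k)) (k + 2) * B₀ (k + 1) := by
    intro k
    have : (fun y => lor E₀ B₀ y k)
      = fun v => E₀ k + ((u v) (k + 1) * B₀ (k + 2) - (u v) (k + 2) * B₀ (k + 1)) := by
      ext v
      simp only [lor, PiLp.add_apply, cross_apply]
    unfold pd
    rw [this]
    have h2 : HasFDerivAt
        (fun v => E₀ k + ((u v) (k + 1) * B₀ (k + 2) - (u v) (k + 2) * B₀ (k + 1)))
        (B₀ (k + 2) • ((EuclideanSpace.proj (k + 1) : E3 →L[ℝ] ℝ).comp (fderiv ℝ u v))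
          - B₀ (k + 1) • ((EuclideanSpace.proj (k + 2) : E3 →L[ℝ] ℝ).comp (fderiv ℝ u v))) v :=
      (((hul (k + 1)).mul_const (B₀ (k + 2))).sub
        ((hul (k + 2)).mul_const (B₀ (k + 1)))).const_add (E₀ k)
    rw [h2.fderiv]
    simp only [sub_apply, smul_apply, ContinuousLinearMap.comp_apply, smul_eq_mul,
      fderiv_u_apply]
    simp only [PiLp.proj_apply]
    ring
  unfold div
  rw [Fin.sum_univ_three, hk 0, hk 1, hk 2]
  simp only [acc, PiLp.smul_apply, PiLp.sub_apply, smul_eq_mul, inner_single_E3]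
  simp
  ring

/-- The contracted derivative of the `S`-kernel. -/
noncomputable def dkS (i : Fin 3) (v z F : E3) : ℝ :=
  (acc v F) i * (‖z‖ + ⟪u v, z⟫)⁻¹
    - (z i + ‖z‖ * (u v) i) * ⟪acc v F, z⟫ * ((‖z‖ + ⟪u v, z⟫)⁻¹) ^ 2 * ‖z‖⁻¹

lemma fderiv_kS_u (i : Fin 3) {z : E3} (hz : z ≠ 0) (v F : E3) :
    fderiv ℝ (fun v => kS (u v) i z) v F = dkS i v z F := by
  have hpos : 0 < ‖z‖ := norm_pos_iff.2 hz
  have hD := denom_pos (norm_u_lt_one v) hz
  have h1 : HasFDerivAt u (fderiv ℝ u v) v :=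
    (contDiff_uu.differentiable (by norm_num) v).hasFDerivAt
  have hul : HasFDerivAt (fun v => (u v) i)
      ((EuclideanSpace.proj i : E3 →L[ℝ] ℝ).comp (fderiv ℝ u v)) v :=
    (EuclideanSpace.proj i : E3 →L[ℝ] ℝ).hasFDerivAt.comp v h1
  have hin : HasFDerivAt (fun v => ⟪u v, z⟫) ((innerSL ℝ z).comp (fderiv ℝ u v)) v := by
    have h2 : HasFDerivAt (fun a : E3 => ⟪z, a⟫) (innerSL ℝ z) (u v) := (innerSL ℝ z).hasFDerivAt
    have h3 := h2.comp v h1
    refine h3.congr_of_eventuallyEq (Eventually.of_forall fun w => ?_)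
    exact real_inner_comm _ _
  have hnum := (hul.const_mul ‖z‖).const_add (z i)
  have hden := hin.const_add ‖z‖
  have hinv := (hasDerivAt_inv hD.ne').comp_hasFDerivAt v hden
  have h4 := (hnum.mul hinv).mul_const ‖z‖⁻¹
  have h5 : HasFDerivAt (fun v => kS (u v) i z) _ v := h4
  rw [h5.fderiv]
  simp only [add_apply, smul_apply, ContinuousLinearMap.comp_apply, smul_eq_mul,
    fderiv_u_apply, PiLp.proj_apply, innerSL_apply_apply, Function.comp_apply, dkS]
  rw [real_inner_comm (acc v F) z]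
  field_simp
  ring

lemma contDiff_kS_u (i : Fin 3) {z : E3} (hz : z ≠ 0) : ContDiff ℝ 1 (fun v => kS (u v) i z) := by
  unfold kS
  have hul : ContDiff ℝ 1 (fun v => (u v) i) :=
    (EuclideanSpace.proj i : E3 →L[ℝ] ℝ).contDiff.comp contDiff_uu
  have hin : ContDiff ℝ 1 (fun v => ⟪u v, z⟫) := contDiff_uu.inner ℝ contDiff_const
  refine ContDiff.mul (ContDiff.mul ?_ ?_) contDiff_const
  · exact contDiff_const.add (contDiff_const.mul hul)
  · exact (contDiff_const.add hin).inv fun v => (denom_pos (norm_u_lt_one v) hz).ne'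

end Vale.Agent.P107
end
end
end

section

section

attribute [-instance] ProperSMul.toContinuousSMul IsTopologicalTorsor.toContinuousSMul
  IdemSemiring.toCanonicallyOrderedAdd IdemSemiring.toMulLeftMono IdemSemiring.toMulRightMono
  AddQuantale.instAddLeftMono AddQuantale.instAddRightMono Quantale.instMulLeftMono
  Quantale.instMulRightMono FiniteDimensional.rclike_to_real IsScalarTower.complexToReal
  FiniteDimensional.complexToReal

section

/-!
Definitions for the full a priori bound: kernels, characteristics, weighted integrals along a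
path.
-/

open MeasureTheory Set Filter Topology
open scoped RealInnerProductSpace ENNReal NNReal

namespace Vale.Agent.P107

/-! ### Kernels -/

/-- The unit direction of `z`. -/
noncomputable def dir (z : E3) : E3 := ‖z‖⁻¹ • z

/-- `α = 1 + a·ω` for the velocity `a` and the direction `w`. -/
noncomputable def al (w a : E3) : ℝ := 1 + ⟪a, w⟫

/-- `k̂ = (1 + b·ω)(ω + a) - ((ω + b)·(ω + a)) ω`, where `a` is the source velocity and `b` the
test velocity. -/
noncomputable def khat (w a b : E3) : E3 := al w b • (w + a) - ⟪w + b, w + a⟫ • w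

/-- The regularised denominator `D = α + ε (α₀ + e²)`. -/
noncomputable def Dn (ε e : ℝ) (w a b : E3) : ℝ := al w a + ε * (al w b + e ^ 2)

/-- The kernel `c` of the momentum correction, with frozen test velocity `c`. -/
noncomputable def ck (ε e : ℝ) (w a c : E3) : E3 := (ε / Dn ε e w a c) • khat w a c

/-- The regularised acceleration kernel `Ψ = (k̂ - α₀ c)/α`. -/
noncomputable def Psi (ε e : ℝ) (w a b c : E3) : E3 :=
  (al w a)⁻¹ • (khat w a b - al w b • ck ε e w a c)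

/-- The derivative of `w ↦ khat w a c` in the direction `y`. -/
noncomputable def dkhat (w a c y : E3) : E3 :=
  ⟪c, y⟫ • (w + a) + al w c • y - (⟪y, w + a⟫ + ⟪w + c, y⟫) • w - ⟪w + c, w + a⟫ • y

/-- The derivative of `w ↦ ck ε e w a c` in the direction `y`. -/
noncomputable def dck (ε e : ℝ) (w a c y : E3) : E3 :=
  (ε / Dn ε e w a c) • dkhat w a c y
    - (ε * (⟪a, y⟫ + ε * ⟪c, y⟫) / Dn ε e w a c ^ 2) • khat w a c

/-- `y⊥ = (ω + b) - (α₀/α) (ω + a)`. -/
noncomputable def yperp (w a b : E3) : E3 := (w + b) - (al w b / al w a) • (w + a)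

/-- The kernel `Θ` of the terms of order `R⁻²`. -/
noncomputable def Theta (ε e : ℝ) (w a b c : E3) : E3 :=
  - ((1 - ‖a‖ ^ 2) / al w a ^ 2) • (khat w a b + al w a • w)
    - (dck ε e w a c (yperp w a b)
      + ((1 - ⟪a, b⟫) / al w a - al w b * (1 - ‖a‖ ^ 2) / al w a ^ 2) • ck ε e w a c)

/-- Bound for `c`. -/
noncomputable def bC (ε e : ℝ) (w a b : E3) : ℝ :=
  ε * √(al w a) * (√(al w b) + e) / Dn ε e w a b

/-- Bound for the velocity gradient of `Ψ` (times `q`). -/
noncomputable def bS (ε e : ℝ) (w a b : E3) : ℝ :=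
  √(al w b) / Dn ε e w a b + e / al w a * (ε * (al w b + e ^ 2) / Dn ε e w a b)

/-- General bound for `Θ`. -/
noncomputable def bT (ε e : ℝ) (w a b : E3) : ℝ :=
  (√ε)⁻¹ * ((1 - ‖a‖ ^ 2) / al w a)
    + √ε * √(al w b) * (√(al w b) + √(al w a)) / Dn ε e w a b + e / √(al w a)

/-- Bound for `Θ` in the diagonal region. -/
noncomputable def bTd (ε : ℝ) (w a b : E3) : ℝ :=
  (√ε)⁻¹ * ((1 - ‖a‖ ^ 2) / al w a) + √ε * √((1 - ⟪a, b⟫) / al w b)

/-- The diagonal region. -/
def Diag (e : ℝ) (w a b : E3) : Prop :=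
  e ^ 2 ≤ al w b ∧ al w a ≤ 256 * al w b ∧ al w b ≤ 256 * al w a

open Classical in
/-- The bound for `Θ` used in the estimates. -/
noncomputable def bTT (ε e : ℝ) (w a b : E3) : ℝ :=
  if Diag e w a b then bTd ε w a b else bT ε e w a b

/-! ### Characteristics -/

/-- `(X, V)` is a characteristic on `[a, b]`. -/
structure IsChar (E B : ℝ → E3 → E3) (X V : ℝ → E3) (a b : ℝ) : Prop where
  hX : ∀ s ∈ Icc a b, HasDerivWithinAt X (u (V s)) (Icc a b) s
  hV : ∀ s ∈ Icc a b,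
    HasDerivWithinAt V (E s (X s) + cross (u (V s)) (B s (X s))) (Icc a b) s

/-- Quasi-variation bound: `‖V s' - V s‖ ≤ G s' - G s + η` with `G` monotone, of total increase
at most `Γ`. -/
def QV (V : ℝ → E3) (a b Γ η : ℝ) : Prop :=
  ∃ G : ℝ → ℝ, MonotoneOn G (Icc a b) ∧ G b - G a ≤ Γ ∧
    ∀ s ∈ Icc a b, ∀ s' ∈ Icc a b, s ≤ s' → ‖V s' - V s‖ ≤ G s' - G s + η

/-! ### Late densities and integrals along a path -/

open Classical in
/-- The density, cut off to the times `[ta, T)`, with values in `[0, ∞]`. -/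
noncomputable def fl (ta T : ℝ) (f : ℝ → E3 → E3 → ℝ) (τ : ℝ) (x v : E3) : ℝ≥0∞ :=
  if ta ≤ τ ∧ τ < T then ENNReal.ofReal (f τ x v) else 0

/-- `∫ dz ∫ dv g(z,v) fl(s - |z|, x + z, v)`. -/
noncomputable def coneInt (ta T : ℝ) (f : ℝ → E3 → E3 → ℝ) (s : ℝ) (x : E3)
    (g : E3 → E3 → ℝ≥0∞) : ℝ≥0∞ :=
  ∫⁻ z, ∫⁻ v, g z v * fl ta T f (s - ‖z‖) (x + z) v

/-- `∫_J ds ∫ dz ∫ dv g(s,z,v) fl(s - |z|, X s + z, v)`. -/
noncomputable def pathInt (ta T : ℝ) (f : ℝ → E3 → E3 → ℝ) (X : ℝ → E3) (t₁ t₂ : ℝ)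
    (g : ℝ → E3 → E3 → ℝ≥0∞) : ℝ≥0∞ :=
  ∫⁻ s in Icc t₁ t₂, coneInt ta T f s (X s) (g s)

end Vale.Agent.P107
end
end
end

section

section

attribute [-instance] ProperSMul.toContinuousSMul IsTopologicalTorsor.toContinuousSMul
  IdemSemiring.toCanonicallyOrderedAdd IdemSemiring.toMulLeftMono IdemSemiring.toMulRightMono
  AddQuantale.instAddLeftMono AddQuantale.instAddRightMono Quantale.instMulLeftMono
  Quantale.instMulRightMono FiniteDimensional.rclike_to_real IsScalarTower.complexToReal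
  FiniteDimensional.complexToReal

section

/-!
Explicit real functions for the arithmetic of the cell sums (full a priori bound).
Everything here is elementary: no PDE.
-/

open Set Filter Topology
open scoped ENNReal NNReal

namespace Vale.Agent.P107.Ar

/-- The window length `δ_j = c₁ / (4^j + 2^j (1+p))`. -/
noncomputable def dl (c₁ : ℝ) (p j : ℕ) : ℝ := c₁ / (4 ^ j + 2 ^ j * (1 + p))

/-- The momentum scale `q_i = 2^(p-i)`. -/
noncomputable def qq (p i : ℕ) : ℝ := 2 ^ p / 2 ^ i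

/-- The direction error `e_j = q_j^(-5/8)`. -/
noncomputable def ee (p j : ℕ) : ℝ := qq p j ^ (-(5 / 8 : ℝ))

/-- The regularised denominator on a cell. -/
noncomputable def DD (p j m l : ℕ) : ℝ := (1 / 4) ^ l + (1 / 4) ^ j * ((1 / 4) ^ m + ee p j ^ 2)

/-- The number of windows. -/
noncomputable def KK (c₁ : ℝ) (p j i k : ℕ) : ℝ :=
  1 + (dl c₁ p j + (1 / 2) ^ k) / dl c₁ p i

/-- Good scales. -/
def gd (p j i : ℕ) (x : ℝ) : Prop := 12 * i ≤ 5 * p ∧ 1024 * ee p i ≤ x ∧ 1024 * ee p j ≤ x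

open Classical in
/-- Bound for the mass of an aligned cell (`l ≥ m + 4`). -/
noncomputable def nA (c₁ : ℝ) (p j i k m l : ℕ) : ℝ :=
  min (min (dl c₁ p j * (1 / 8) ^ k * (1 / 4) ^ m * (1 / 4) ^ l * qq p i ^ 3)
      (dl c₁ p j * 4 ^ l / qq p i))
    (min ((dl c₁ p j + (1 / 2) ^ k) * 4 ^ m / qq p i)
      (if gd p j i ((1 / 2) ^ m) then 8 ^ m * (1 / 2) ^ k * KK c₁ p j i k / qq p i
        else (dl c₁ p j + (1 / 2) ^ k) * 4 ^ m / qq p i))

open Classical in
/-- Bound for the mass of a nonaligned cell (`m ≥ l + 4`). -/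
noncomputable def nN (c₁ : ℝ) (p j i k m l : ℕ) : ℝ :=
  min (min (dl c₁ p j * (1 / 8) ^ k * (1 / 4) ^ m * (1 / 4) ^ l * qq p i ^ 3)
      (dl c₁ p j * 4 ^ l / qq p i))
    (min ((dl c₁ p j + (1 / 2) ^ k) * 4 ^ m / qq p i)
      (if gd p j i ((1 / 2) ^ l) then 4 ^ m * 2 ^ l * (1 / 2) ^ k * KK c₁ p j i k / qq p i
        else (dl c₁ p j + (1 / 2) ^ k) * 4 ^ m / qq p i))

open Classical in
/-- Bound for the mass of a diagonal cell (relative velocity index `n`, `m ≤ n + 4`). -/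
noncomputable def nD (c₁ : ℝ) (p j i k m n : ℕ) : ℝ :=
  min (min (dl c₁ p j * (1 / 8) ^ k * (1 / 4) ^ m * (1 / 4) ^ n * qq p i ^ 3)
      (dl c₁ p j * 4 ^ m / qq p i))
    (min ((dl c₁ p j + (1 / 2) ^ k) * 4 ^ m / qq p i)
      (if gd p j i ((1 / 2) ^ n) then 2 ^ m * 4 ^ n * (1 / 2) ^ k * KK c₁ p j i k / qq p i
        else (dl c₁ p j + (1 / 2) ^ k) * 4 ^ m / qq p i))

/-! Kernels on cells -/

noncomputable def tA (p j i m l : ℕ) : ℝ :=
  2 ^ j * 4 ^ l / qq p i ^ 2 + (1 / 2) ^ j * (1 / 4) ^ m / DD p j m l + ee p j * 2 ^ l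

noncomputable def tN (p j i m l : ℕ) : ℝ :=
  2 ^ j * 4 ^ l / qq p i ^ 2 + (1 / 2) ^ j * (1 / 2) ^ m * 2 ^ l + ee p j * 2 ^ l

open Classical in
noncomputable def tD (p j i m n : ℕ) : ℝ :=
  2 ^ j * 4 ^ m / qq p i ^ 2 + (1 / 2) ^ j * 2 ^ m * ((1 / 2) ^ n + 1 / qq p i + 1 / qq p j)
    + (if (1 / 4 : ℝ) ^ m < 2 * ee p j ^ 2 then (1 / 2) ^ j + ee p j * 2 ^ m else 0)

noncomputable def sA (p j m l : ℕ) : ℝ := (1 / 2) ^ m / DD p j m l + ee p j * 4 ^ l

noncomputable def sN (p j m l : ℕ) : ℝ :=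
  (1 / 2) ^ m * 4 ^ l
    + ee p j * 4 ^ l * min 1 ((1 / 4) ^ j * ((1 / 4) ^ m + ee p j ^ 2) * 4 ^ l)

noncomputable def sD (p j m : ℕ) : ℝ := 2 ^ m + ee p j * 4 ^ m

/-- Index ranges. -/
def rA (p j i m l : ℕ) : Prop := m + 4 ≤ l ∧ i ≤ p ∧ m ≤ p - j + 3 ∧ l ≤ p - i + 1

def rN (p j i m l : ℕ) : Prop := l + 4 ≤ m ∧ i ≤ p ∧ m ≤ p - j + 3 ∧ l ≤ p - i + 1

def rD (p j i m n : ℕ) : Prop := m ≤ n + 4 ∧ i ≤ p ∧ m ≤ p - j + 3 ∧ m ≤ p - i + 4

/-! ### The statements -/

open Classical in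
/-- T-sums. -/
def StatT : Prop := ∃ C : ℝ, 0 < C ∧ ∀ c₁ : ℝ, 0 < c₁ → c₁ ≤ 1 → ∃ p₀ : ℕ, ∀ p ≥ p₀,
  ∀ j : ℕ, 12 * j ≤ 5 * p →
  (∑' (k : ℕ) (m : ℕ) (l : ℕ) (i : ℕ), if rA p j i m l then
      ENNReal.ofReal (4 ^ k * tA p j i m l * nA c₁ p j i k m l) else 0)
    ≤ ENNReal.ofReal (C * √c₁ * qq p j) ∧
  (∑' (k : ℕ) (m : ℕ) (l : ℕ) (i : ℕ), if rN p j i m l then
      ENNReal.ofReal (4 ^ k * tN p j i m l * nN c₁ p j i k m l) else 0)
    ≤ ENNReal.ofReal (C * √c₁ * qq p j) ∧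
  (∑' (k : ℕ) (m : ℕ) (n : ℕ) (i : ℕ), if rD p j i m n then
      ENNReal.ofReal (4 ^ k * tD p j i m n * nD c₁ p j i k m n) else 0)
    ≤ ENNReal.ofReal (C * √c₁ * qq p j)

open Classical in
/-- S-sums with the flux budget. -/
def StatSg : Prop := ∃ C : ℝ, 0 < C ∧ ∀ c₁ : ℝ, 0 < c₁ → c₁ ≤ 1 → ∃ p₀ : ℕ, ∀ p ≥ p₀,
  ∀ j : ℕ, 12 * j ≤ 5 * p →
  (∑' (k : ℕ) (m : ℕ) (l : ℕ) (i : ℕ), if rA p j i m l then
      ENNReal.ofReal (2 ^ k * sA p j m l * (qq p i)⁻¹ * √(dl c₁ p j)
        * √(qq p i ^ 3 * (1 / 4) ^ l * nA c₁ p j i k m l)) else 0)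
    ≤ ENNReal.ofReal (C * √c₁ * qq p j) ∧
  (∑' (k : ℕ) (m : ℕ) (l : ℕ) (i : ℕ), if rN p j i m l then
      ENNReal.ofReal (2 ^ k * sN p j m l * (qq p i)⁻¹ * √(dl c₁ p j)
        * √(qq p i ^ 3 * (1 / 4) ^ l * nN c₁ p j i k m l)) else 0)
    ≤ ENNReal.ofReal (C * √c₁ * qq p j) ∧
  (∑' (k : ℕ) (m : ℕ) (n : ℕ) (i : ℕ), if rD p j i m n then
      ENNReal.ofReal (2 ^ k * sD p j m * (qq p i)⁻¹ * √(dl c₁ p j)
        * √(qq p i ^ 3 * (1 / 4) ^ n * nD c₁ p j i k m n)) else 0)
    ≤ ENNReal.ofReal (C * √c₁ * qq p j)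

open Classical in
/-- One S-sum with the magnetic budget, for a family with cell terms `w k m l i` (the squares) in
the range `r m l i`: for near shells (`2^{-k} ≤ δ_j`) the sums over `k` and `m` are inside the
square root, for far shells only the sum over `m`. -/
noncomputable def sumSb (c₁ : ℝ) (p j : ℕ) (r : ℕ → ℕ → ℕ → Prop)
    (w : ℕ → ℕ → ℕ → ℕ → ℝ) : ℝ≥0∞ :=
  (∑' (l : ℕ) (i : ℕ), ENNReal.ofReal (√(dl c₁ p j)) *
      (∑' (k : ℕ) (m : ℕ), if (1 / 2 : ℝ) ^ k ≤ dl c₁ p j ∧ r m l i then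
        ENNReal.ofReal (w k m l i) else 0) ^ (1 / 2 : ℝ))
  + ∑' (k : ℕ) (l : ℕ) (i : ℕ), ENNReal.ofReal (√(dl c₁ p j + (1 / 2) ^ k)) *
      (∑' (m : ℕ), if dl c₁ p j < (1 / 2 : ℝ) ^ k ∧ r m l i then
        ENNReal.ofReal (w k m l i) else 0) ^ (1 / 2 : ℝ)

/-- S-sums with the magnetic budget. In the diagonal family the third index is `n`. -/
def StatSb : Prop := ∃ C : ℝ, 0 < C ∧ ∀ c₁ : ℝ, 0 < c₁ → c₁ ≤ 1 → ∃ p₀ : ℕ, ∀ p ≥ p₀,
  ∀ j : ℕ, 12 * j ≤ 5 * p →
  sumSb c₁ p j (fun m l i => rA p j i m l) (fun k m l i =>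
      (2 ^ k * sA p j m l * (qq p i)⁻¹ * 2 ^ m * (1 / 2) ^ l) ^ 2
        * (qq p i ^ 3 * (1 / 4) ^ l * nA c₁ p j i k m l))
    ≤ ENNReal.ofReal (C * √c₁ * qq p j) ∧
  sumSb c₁ p j (fun m l i => rN p j i m l) (fun k m l i =>
      (2 ^ k * sN p j m l * (qq p i)⁻¹ * 2 ^ m * (1 / 2) ^ l) ^ 2
        * (qq p i ^ 3 * (1 / 4) ^ l * nN c₁ p j i k m l))
    ≤ ENNReal.ofReal (C * √c₁ * qq p j) ∧
  sumSb c₁ p j (fun m n i => rD p j i m n) (fun k m n i =>
      (2 ^ k * sD p j m * (qq p i)⁻¹) ^ 2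
        * (qq p i ^ 3 * (1 / 4) ^ n * nD c₁ p j i k m n))
    ≤ ENNReal.ofReal (C * √c₁ * qq p j)

open Classical in
/-- The b-sum. -/
def StatB : Prop := ∀ θ : ℝ, 0 < θ → ∃ p₀ : ℕ, ∀ p ≥ p₀, ∀ j : ℕ, 12 * j ≤ 5 * p →
  (∑' (k : ℕ) (m : ℕ) (l : ℕ) (i : ℕ), if i ≤ p ∧ m ≤ p - j + 3 ∧ l ≤ p - i + 1 then
      ENNReal.ofReal (2 ^ k * ((1 / 4) ^ j * (1 / 2) ^ l * ((1 / 2) ^ m + ee p j) / DD p j m l)
        * min ((1 / 8) ^ k * (1 / 4) ^ m * (1 / 4) ^ l * qq p i ^ 3) (4 ^ l / qq p i)) else 0)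
    ≤ ENNReal.ofReal (θ * (ee p j * qq p j))

end Vale.Agent.P107.Ar
end
end
end

section

section

attribute [-instance] ProperSMul.toContinuousSMul IsTopologicalTorsor.toContinuousSMul
  IdemSemiring.toCanonicallyOrderedAdd IdemSemiring.toMulLeftMono IdemSemiring.toMulRightMono
  AddQuantale.instAddLeftMono AddQuantale.instAddRightMono Quantale.instMulLeftMono
  Quantale.instMulRightMono FiniteDimensional.rclike_to_real IsScalarTower.complexToReal
  FiniteDimensional.complexToReal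

section

/-!
Cells in `(s, z, v)` space along a test path, and the hypotheses under which their masses are
estimated.
-/

open MeasureTheory Set Filter Topology
open scoped RealInnerProductSpace ENNReal NNReal

namespace Vale.Agent.P107

open Vale.Agent.P107.Ar

/-- The `k`-th dyadic shell, `T₁ 2^(-k-1) < |z| ≤ T₁ 2^(-k)`. -/
def shellI (T₁ : ℝ) (k : ℕ) (z : E3) : Prop := T₁ * (1 / 2) ^ (k + 1) < ‖z‖ ∧ ‖z‖ ≤ T₁ * (1 / 2) ^ k

/-- `2·4^(-m-1) < x ≤ 2·4^(-m)`. -/
def alI (m : ℕ) (x : ℝ) : Prop := 2 * (1 / 4) ^ (m + 1) < x ∧ x ≤ 2 * (1 / 4) ^ m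

/-- `2·2^(-n-1) < x ≤ 2·2^(-n)`. -/
def phI (n : ℕ) (x : ℝ) : Prop := 2 * (1 / 2) ^ (n + 1) < x ∧ x ≤ 2 * (1 / 2) ^ n

/-- `q_i/2 < x ≤ q_i`. -/
def qI (p i : ℕ) (x : ℝ) : Prop := qq p i / 2 < x ∧ x ≤ qq p i

/-- Cells of the aligned and nonaligned families; points are `(s, z, v)`. -/
def cellAN (T₁ : ℝ) (p : ℕ) (V : ℝ → E3) (t₁ t₂ : ℝ) (k m l i : ℕ) : Set (ℝ × E3 × E3) :=
  {y | y.1 ∈ Icc t₁ t₂ ∧ shellI T₁ k y.2.1 ∧ alI m (al (dir y.2.1) (u (V y.1))) ∧
    alI l (al (dir y.2.1) (u y.2.2)) ∧ qI p i (q y.2.2)}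

/-- Cells of the diagonal family. -/
def cellD (T₁ : ℝ) (p : ℕ) (V : ℝ → E3) (t₁ t₂ : ℝ) (k m n i : ℕ) : Set (ℝ × E3 × E3) :=
  {y | y.1 ∈ Icc t₁ t₂ ∧ shellI T₁ k y.2.1 ∧ alI m (al (dir y.2.1) (u (V y.1))) ∧
    (∃ l : ℕ, l ≤ m + 3 ∧ m ≤ l + 3 ∧ alI l (al (dir y.2.1) (u y.2.2))) ∧
    phI n ‖u y.2.2 - u (V y.1)‖ ∧ qI p i (q y.2.2)}

/-- The mass of a set of `(s, z, v)`. -/
noncomputable def mass (ta T : ℝ) (f : ℝ → E3 → E3 → ℝ) (X : ℝ → E3) (t₁ t₂ : ℝ)
    (c : Set (ℝ × E3 × E3)) : ℝ≥0∞ :=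
  pathInt ta T f X t₁ t₂ (fun s z v => c.indicator (fun _ => 1) (s, z, v))

/-- The weak hypothesis on all characteristics up to time `th`: on windows of length `δ_i`, a
particle which is in the good class `i` at some time has quasi-variation at most `q_i/16` with
error `e_i q_i`. -/
def GoodWeak (f : ℝ → E3 → E3 → ℝ) (E B : ℝ → E3 → E3) (c₁ t₀ th : ℝ) (p : ℕ) : Prop :=
  ∀ i : ℕ, 12 * i ≤ 5 * p → ∀ a b : ℝ, t₀ ≤ a → a ≤ b → b ≤ th → b - a ≤ dl c₁ p i →
    ∀ X V : ℝ → E3, IsChar E B X V a b → f a (X a) (V a) ≠ 0 →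
      (∃ s ∈ Icc a b, qI p i (q (V s))) → QV V a b (qq p i / 16) (Ar.ee p i * qq p i)

/-- The strong form: wider classes, half the variation and half the error. -/
def GoodStrong (f : ℝ → E3 → E3 → ℝ) (E B : ℝ → E3 → E3) (c₁ t₀ th : ℝ) (p : ℕ) : Prop :=
  ∀ i : ℕ, 12 * i ≤ 5 * p → ∀ a b : ℝ, t₀ ≤ a → a ≤ b → b ≤ th → b - a ≤ dl c₁ p i →
    ∀ X V : ℝ → E3, IsChar E B X V a b → f a (X a) (V a) ≠ 0 →
      (∃ s ∈ Icc a b, qq p i / 4 ≤ q (V s) ∧ q (V s) ≤ 2 * qq p i) →
      QV V a b (qq p i / 32) (Ar.ee p i * qq p i / 2)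

/-- The situation in which the main estimates are proved: a test characteristic `(X, V)` on
`[t₁, t₂]`, of momentum comparable to `q_j`, and the weak hypothesis for all particles. -/
structure Ctx (T : ℝ) (f : ℝ → E3 → E3 → ℝ) (E B : ℝ → E3 → E3) (t₀ th c₁ : ℝ) (p j : ℕ)
    (X V : ℝ → E3) (t₁ t₂ : ℝ) : Prop where
  hsol : IsClassicalSolution T f E B
  ht₀ : 0 < t₀
  ht₁ : t₀ ≤ t₁
  h12 : t₁ ≤ t₂
  h2 : t₂ ≤ th
  hth : th < T
  hc₁ : 0 < c₁
  hc₁' : c₁ ≤ 1
  hP : ∀ s ∈ Icc 0 th, ∀ x v, f s x v ≠ 0 → q v ≤ 2 ^ p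
  hlen : t₂ - t₁ ≤ dl c₁ p j
  hj : 12 * j ≤ 5 * p
  hchar : IsChar E B X V t₁ t₂
  hsupp : f t₁ (X t₁) (V t₁) ≠ 0
  hq : ∀ s ∈ Icc t₁ t₂, qq p j / 8 ≤ q (V s) ∧ q (V s) ≤ 4 * qq p j
  hQV : QV V t₁ t₂ (qq p j) (Ar.ee p j * qq p j)
  hgood : GoodWeak f E B c₁ t₀ th p

/-- The total kernel of a path: the integrand of `path_bound`. -/
noncomputable def kerT (j : ℕ) (e : ℝ) (V : ℝ → E3) (s : ℝ) (z v : E3) : ℝ≥0∞ :=
  ENNReal.ofReal ((‖z‖⁻¹) ^ 2 * bTT ((1 / 4) ^ j) e (dir z) (u v) (u (V s)))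

noncomputable def kerS (j : ℕ) (e : ℝ) (E B : ℝ → E3 → E3) (X V : ℝ → E3) (s : ℝ) (z v : E3) :
    ℝ≥0∞ :=
  ENNReal.ofReal (‖z‖⁻¹ * ((q v)⁻¹ * ‖lor (E (s - ‖z‖) (X s + z)) (B (s - ‖z‖) (X s + z)) v‖
    * bS ((1 / 4) ^ j) e (dir z) (u v) (u (V s))))

noncomputable def kerB (j : ℕ) (e : ℝ) (V : ℝ → E3) (s : ℝ) (z v : E3) : ℝ≥0∞ :=
  ENNReal.ofReal (‖z‖⁻¹ * bC ((1 / 4) ^ j) e (dir z) (u v) (u (V s)))

end Vale.Agent.P107
end
end
end

section

section

attribute [-instance] ProperSMul.toContinuousSMul IsTopologicalTorsor.toContinuousSMul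
  IdemSemiring.toCanonicallyOrderedAdd IdemSemiring.toMulLeftMono IdemSemiring.toMulRightMono
  AddQuantale.instAddLeftMono AddQuantale.instAddRightMono Quantale.instMulLeftMono
  Quantale.instMulRightMono FiniteDimensional.rclike_to_real IsScalarTower.complexToReal
  FiniteDimensional.complexToReal

section

/-!
Module M2T, part 1: the kernel `bTT` on the cells.
-/

open MeasureTheory Set Filter Topology
open scoped RealInnerProductSpace ENNReal NNReal

namespace Vale.Agent.P107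

open Vale.Agent.P107.Ar

/-! ### Vector algebra -/

lemma dT_al_pos {w a : E3} (hw : ‖w‖ = 1) (ha : ‖a‖ < 1) : 0 < al w a := by
  unfold al
  have h1 := abs_real_inner_le_norm a w
  rw [hw, mul_one] at h1
  have h2 := (abs_le.1 h1).1
  linarith only [ha, h2]

lemma dT_norm_add_sq {w a : E3} (hw : ‖w‖ = 1) : ‖a + w‖ ^ 2 = 2 * al w a - (1 - ‖a‖ ^ 2) := by
  unfold al
  rw [norm_add_sq_real, hw]
  ring

lemma dT_one_sub_le {w a : E3} (hw : ‖w‖ = 1) : 1 - ‖a‖ ^ 2 ≤ 2 * al w a := by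
  have h := dT_norm_add_sq (w := w) (a := a) hw
  nlinarith only [h]

lemma dT_one_sub_inner (a b : E3) :
    1 - ⟪a, b⟫ = (‖a - b‖ ^ 2 + (1 - ‖a‖ ^ 2) + (1 - ‖b‖ ^ 2)) / 2 := by
  rw [norm_sub_sq_real]
  ring

lemma dT_one_sub_inner_le {w a b : E3} (hw : ‖w‖ = 1) (ha : ‖a‖ < 1) (hb : ‖b‖ < 1) :
    1 - ⟪a, b⟫ ≤ 3 * (al w a + al w b) := by
  rw [dT_one_sub_inner]
  have h1 := dT_norm_add_sq (w := w) (a := a) hw
  have h2 := dT_norm_add_sq (w := w) (a := b) hw
  have h3 : ‖a - b‖ ^ 2 ≤ 2 * ‖a + w‖ ^ 2 + 2 * ‖b + w‖ ^ 2 := by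
    have h4 : a - b = (a + w) - (b + w) := by abel
    have h5 := norm_sub_le (a + w) (b + w)
    rw [← h4] at h5
    nlinarith only [h5, norm_nonneg (a - b), sq_nonneg (‖a + w‖ - ‖b + w‖)]
  have h6 := dT_one_sub_le (w := w) (a := a) hw
  have h7 := dT_one_sub_le (w := w) (a := b) hw
  have h8 : ‖a‖ ^ 2 ≤ 1 := by nlinarith only [ha, norm_nonneg a]
  have h9 : ‖b‖ ^ 2 ≤ 1 := by nlinarith only [hb, norm_nonneg b]
  nlinarith only [h1, h2, h3, h8, h9]

/-! ### Real inequalities -/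

lemma dT_first {δ y g α qi : ℝ} (hδ : 0 < δ) (hy : 0 < y) (hα : y ^ 2 / 2 < α)
    (hqi : 0 < qi) (_ : 0 ≤ g) (hg : g ≤ 4 / qi ^ 2) :
    δ⁻¹ * (g / α) ≤ 8 * (δ⁻¹ * (y ^ 2)⁻¹ / qi ^ 2) := by
  have h1 : g / α ≤ (4 / qi ^ 2) / (y ^ 2 / 2) := by
    have : 0 < y ^ 2 / 2 := by positivity
    (clear * - hy hα hqi hg; gcongr)
  calc δ⁻¹ * (g / α) ≤ δ⁻¹ * ((4 / qi ^ 2) / (y ^ 2 / 2)) := by gcongr
    _ = 8 * (δ⁻¹ * (y ^ 2)⁻¹ / qi ^ 2) := by field_simp; norm_num

lemma dT_sqrt_le {x β : ℝ} (hx : 0 ≤ x) (h : β ≤ 2 * x ^ 2) : √β ≤ 2 * x := by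
  rw [Real.sqrt_le_iff]
  exact ⟨by positivity, by nlinarith only [h]⟩

lemma dT_third {y α e : ℝ} (hy : 0 < y) (he : 0 ≤ e) (hα : y ^ 2 / 2 < α) :
    e / √α ≤ 2 * (e * y⁻¹) := by
  have h1 : y / 2 ≤ √α := by
    apply Real.le_sqrt_of_sq_le
    nlinarith only [hα]
  calc e / √α ≤ e / (y / 2) := by
        have : 0 < y / 2 := by positivity
        gcongr
    _ = 2 * (e * y⁻¹) := by field_simp

lemma dT_second {x α β D M : ℝ} (hβ : √β ≤ 2 * x) {y : ℝ} (hα : √α ≤ 2 * y) (hx : 0 ≤ x)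
    (hD : 0 < D) (hM : 4 * x * (x + y) ≤ M * D) :
    √β * (√β + √α) / D ≤ M := by
  rw [div_le_iff₀ hD]
  refine le_trans ?_ hM
  calc √β * (√β + √α) ≤ (2 * x) * (2 * x + 2 * y) := by
        have h1 := Real.sqrt_nonneg β
        have h2 := Real.sqrt_nonneg α
        gcongr
    _ = 4 * x * (x + y) := by ring

lemma dT_alI {m : ℕ} {x : ℝ} (h : alI m x) :
    ((1 / 2 : ℝ) ^ m) ^ 2 / 2 < x ∧ x ≤ 2 * ((1 / 2 : ℝ) ^ m) ^ 2 := by
  have h1 : ((1 / 2 : ℝ) ^ m) ^ 2 = (1 / 4) ^ m := by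
    rw [← pow_mul, mul_comm m 2, pow_mul]; norm_num
  rw [h1]
  unfold alI at h
  rw [pow_succ] at h
  constructor
  · linarith only [h.1]
  · exact h.2

lemma dT_quarter (m : ℕ) : (1 / 4 : ℝ) ^ m = ((1 / 2 : ℝ) ^ m) ^ 2 := by
  rw [← pow_mul, mul_comm m 2, pow_mul]; norm_num

lemma dT_two (m : ℕ) : (2 : ℝ) ^ m = ((1 / 2 : ℝ) ^ m)⁻¹ := by
  rw [← inv_pow]; norm_num

lemma dT_four (m : ℕ) : (4 : ℝ) ^ m = (((1 / 2 : ℝ) ^ m) ^ 2)⁻¹ := by
  rw [← dT_quarter, ← inv_pow]; norm_num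

lemma dT_half_le {m l : ℕ} (k : ℕ) (h : m + k ≤ l) :
    (1 / 2 : ℝ) ^ l ≤ (1 / 2 : ℝ) ^ k * (1 / 2 : ℝ) ^ m := by
  rw [← pow_add]
  exact pow_le_pow_of_le_one (by norm_num) (by norm_num) (by omega)

lemma dT_ee_pos (p j : ℕ) : 0 < Ar.ee p j := by
  unfold Ar.ee qq
  positivity

lemma dT_qq_pos (p j : ℕ) : 0 < qq p j := by
  unfold qq
  positivity

lemma dT_g {p i : ℕ} {v : E3} (hv : qI p i (q v)) :
    0 ≤ 1 - ‖u v‖ ^ 2 ∧ 1 - ‖u v‖ ^ 2 ≤ 4 / qq p i ^ 2 := by
  rw [norm_u_sq]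
  have h1 := q_pos v
  have h2 := dT_qq_pos p i
  refine ⟨by positivity, ?_⟩
  have h3 : (qq p i / 2) ^ 2 ≤ q v ^ 2 := by
    have := hv.1
    gcongr
  calc (q v ^ 2)⁻¹ ≤ ((qq p i / 2) ^ 2)⁻¹ := by gcongr
    _ = 4 / qq p i ^ 2 := by field_simp; norm_num

lemma dT_sqrt_eps (j : ℕ) : √((1 / 4 : ℝ) ^ j) = (1 / 2) ^ j := by
  rw [dT_quarter]
  exact Real.sqrt_sq (by positivity)

/-- General bound of `bT` from bounds of its parts. -/
lemma dT_bT {p j i m l : ℕ} {w : E3} {v V : E3} (hv : qI p i (q v))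
    (hm : alI m (al w (u V))) (hl : alI l (al w (u v))) {M : ℝ}
    (hM : 4 * (1 / 2) ^ m * ((1 / 2) ^ m + (1 / 2) ^ l)
      ≤ M * Dn ((1 / 4) ^ j) (Ar.ee p j) w (u v) (u V)) :
    bT ((1 / 4) ^ j) (Ar.ee p j) w (u v) (u V)
      ≤ 8 * (2 ^ j * 4 ^ l / qq p i ^ 2) + (1 / 2) ^ j * M + 2 * (Ar.ee p j * 2 ^ l) := by
  have hm' := dT_alI hm
  have hl' := dT_alI hl
  have hx : (0 : ℝ) < (1 / 2) ^ m := by positivity
  have hy : (0 : ℝ) < (1 / 2) ^ l := by positivity
  have hδ : (0 : ℝ) < (1 / 2) ^ j := by positivity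
  have hα : 0 < al w (u v) := lt_of_le_of_lt (by positivity) hl'.1
  have hβ : 0 < al w (u V) := lt_of_le_of_lt (by positivity) hm'.1
  have he := dT_ee_pos p j
  have hD : 0 < Dn ((1 / 4) ^ j) (Ar.ee p j) w (u v) (u V) := by
    unfold Dn
    (clear * - hα hβ he; positivity)
  unfold bT
  rw [dT_sqrt_eps]
  have h1 := dT_first hδ hy hl'.1 (dT_qq_pos p i) (dT_g hv).1 (dT_g hv).2
  have h2 := dT_second (dT_sqrt_le hx.le hm'.2) (dT_sqrt_le hy.le hl'.2) hx.le hD hM
  have h3 := dT_third hy he.le hl'.1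
  rw [dT_two j, dT_four l, dT_two l]
  have h4 : (1 / 2 : ℝ) ^ j * √(al w (u V)) * (√(al w (u V)) + √(al w (u v)))
      / Dn ((1 / 4) ^ j) (Ar.ee p j) w (u v) (u V)
      = (1 / 2) ^ j * (√(al w (u V)) * (√(al w (u V)) + √(al w (u v)))
        / Dn ((1 / 4) ^ j) (Ar.ee p j) w (u v) (u V)) := by
    rw [mul_assoc, mul_div_assoc]
  rw [h4]
  exact add_le_add (add_le_add h1 (mul_le_mul_of_nonneg_left h2 hδ.le)) h3

/-- General bound of `bTd` from a bound of the square root. -/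
lemma dT_bTd {p j i l : ℕ} {w : E3} {v V : E3} (hv : qI p i (q v))
    (hl : alI l (al w (u v))) {M : ℝ}
    (hM : √((1 - ⟪u v, u V⟫) / al w (u V)) ≤ M) :
    bTd ((1 / 4) ^ j) w (u v) (u V)
      ≤ 8 * (2 ^ j * 4 ^ l / qq p i ^ 2) + (1 / 2) ^ j * M := by
  have hl' := dT_alI hl
  have hy : (0 : ℝ) < (1 / 2) ^ l := by positivity
  have hδ : (0 : ℝ) < (1 / 2) ^ j := by positivity
  unfold bTd
  rw [dT_sqrt_eps]
  have h1 := dT_first hδ hy hl'.1 (dT_qq_pos p i) (dT_g hv).1 (dT_g hv).2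
  rw [dT_two j, dT_four l]
  exact add_le_add h1 (mul_le_mul_of_nonneg_left hM hδ.le)

lemma dT_Dn_ge {p j m l : ℕ} {w : E3} {v V : E3}
    (hm : alI m (al w (u V))) (hl : alI l (al w (u v))) :
    DD p j m l / 2 ≤ Dn ((1 / 4) ^ j) (Ar.ee p j) w (u v) (u V) := by
  have hm' := dT_alI hm
  have hl' := dT_alI hl
  unfold DD Dn
  rw [dT_quarter l, dT_quarter m]
  have h1 : (0 : ℝ) < (1 / 4) ^ j := by positivity
  have h2 : (1 / 4 : ℝ) ^ j * ((((1 / 2) ^ m) ^ 2 + Ar.ee p j ^ 2) / 2)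
      ≤ (1 / 4) ^ j * (al w (u V) + Ar.ee p j ^ 2) := by
    apply mul_le_mul_of_nonneg_left _ h1.le
    nlinarith only [hm'.1]
  linarith only [h2, hl'.1]

lemma dT_Dn_ge' {p j l : ℕ} {w : E3} {v V : E3} (hβ : 0 ≤ al w (u V))
    (hl : alI l (al w (u v))) :
    ((1 / 2) ^ l) ^ 2 / 2 ≤ Dn ((1 / 4) ^ j) (Ar.ee p j) w (u v) (u V) := by
  have hl' := dT_alI hl
  unfold Dn
  have h1 : (0 : ℝ) ≤ (1 / 4) ^ j * (al w (u V) + Ar.ee p j ^ 2) := by positivity
  linarith only [h1, hl'.1]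

/-- In the diagonal region, `1 - a·b` is controlled by `α₀`. -/
lemma dT_diag_sqrt {e : ℝ} {w a b : E3} (hw : ‖w‖ = 1) (ha : ‖a‖ < 1) (hb : ‖b‖ < 1)
    (h : Diag e w a b) : √((1 - ⟪a, b⟫) / al w b) ≤ 28 := by
  have hβ := dT_al_pos hw hb
  rw [Real.sqrt_le_iff]
  refine ⟨by norm_num, ?_⟩
  rw [div_le_iff₀ hβ]
  have h1 := dT_one_sub_inner_le hw ha hb
  have h2 := h.2.1
  nlinarith only [hβ, h1, h2]

/-- The kernel on aligned cells. -/
theorem dT_ker_A {p j i m l : ℕ} {w : E3} (hw : ‖w‖ = 1) {v V : E3} (hv : qI p i (q v))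
    (hm : alI m (al w (u V))) (hl : alI l (al w (u v))) (hml : m + 4 ≤ l) :
    bTT ((1 / 4) ^ j) (Ar.ee p j) w (u v) (u V) ≤ 10000 * tA p j i m l := by
  have hm' := dT_alI hm
  have hl' := dT_alI hl
  have hx : (0 : ℝ) < (1 / 2) ^ m := by positivity
  have hy : (0 : ℝ) < (1 / 2) ^ l := by positivity
  have hδ : (0 : ℝ) < (1 / 2) ^ j := by positivity
  have he := dT_ee_pos p j
  have hDD : 0 < DD p j m l := by unfold DD; positivity
  have hqi := dT_qq_pos p i
  have hyx : (1 / 2 : ℝ) ^ l ≤ (1 / 2) ^ m := by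
    have := dT_half_le 4 hml
    nlinarith only [hy, this]
  have h0 : 0 ≤ 2 ^ j * 4 ^ l / qq p i ^ 2 := by (clear * - hqi; positivity)
  have h00 : 0 ≤ Ar.ee p j * 2 ^ l := by positivity
  unfold bTT tA
  split_ifs with hd
  · have h1 := dT_bTd (j := j) hv hl (dT_diag_sqrt hw (norm_u_lt_one v) (norm_u_lt_one V) hd)
    have h2 : (1 / 4 : ℝ) ≤ (1 / 4) ^ m / DD p j m l := by
      rw [le_div_iff₀ hDD]
      have h3 : Ar.ee p j ^ 2 ≤ 2 * ((1 / 2) ^ m) ^ 2 := hd.1.trans hm'.2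
      have h4 : (1 / 4 : ℝ) ^ j ≤ 1 := pow_le_one₀ (by norm_num) (by norm_num)
      have h5 : (1 / 4 : ℝ) ^ j * ((1 / 4) ^ m + Ar.ee p j ^ 2)
          ≤ 1 * ((1 / 4) ^ m + Ar.ee p j ^ 2) := by
        apply mul_le_mul_of_nonneg_right h4
        positivity
      unfold DD
      rw [dT_quarter l, dT_quarter m] at *
      nlinarith only [hy, hyx, h3, h5]
    have h3 : (1 / 2 : ℝ) ^ j * (1 / 4) ≤ (1 / 2) ^ j * (1 / 4) ^ m / DD p j m l := by
      rw [mul_div_assoc]
      exact mul_le_mul_of_nonneg_left h2 hδ.le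
    linarith only [hδ, h0, h00, h1, h3]
  · have hM : 4 * (1 / 2 : ℝ) ^ m * ((1 / 2) ^ m + (1 / 2) ^ l)
        ≤ (16 * ((1 / 4) ^ m / DD p j m l)) * Dn ((1 / 4) ^ j) (Ar.ee p j) w (u v) (u V) := by
      have h1 := dT_Dn_ge (p := p) (j := j) hm hl
      have h2 : (16 * ((1 / 4 : ℝ) ^ m / DD p j m l)) * (DD p j m l / 2)
          ≤ (16 * ((1 / 4) ^ m / DD p j m l)) * Dn ((1 / 4) ^ j) (Ar.ee p j) w (u v) (u V) :=
        mul_le_mul_of_nonneg_left h1 (by positivity)
      refine le_trans ?_ h2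
      have h3 : (16 * ((1 / 4 : ℝ) ^ m / DD p j m l)) * (DD p j m l / 2) = 8 * (1 / 4) ^ m := by
        field_simp
        norm_num
      rw [h3, dT_quarter m]
      nlinarith only [hx, hyx]
    have h1 := dT_bT hv hm hl hM
    have h2 : (1 / 2 : ℝ) ^ j * (16 * ((1 / 4) ^ m / DD p j m l))
        = 16 * ((1 / 2) ^ j * (1 / 4) ^ m / DD p j m l) := by ring
    rw [h2] at h1
    have h3 : 0 ≤ (1 / 2 : ℝ) ^ j * (1 / 4) ^ m / DD p j m l := by positivity
    linarith only [h0, h00, h1, h3]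

/-- The kernel on nonaligned cells. -/
theorem dT_ker_N {p j i m l : ℕ} {w : E3} (hw : ‖w‖ = 1) {v V : E3} (hv : qI p i (q v))
    (hm : alI m (al w (u V))) (hl : alI l (al w (u v))) (hml : l + 4 ≤ m) :
    bTT ((1 / 4) ^ j) (Ar.ee p j) w (u v) (u V) ≤ 10000 * tN p j i m l := by
  have hm' := dT_alI hm
  have hl' := dT_alI hl
  have hx : (0 : ℝ) < (1 / 2) ^ m := by positivity
  have hy : (0 : ℝ) < (1 / 2) ^ l := by positivity
  have hδ : (0 : ℝ) < (1 / 2) ^ j := by positivity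
  have he := dT_ee_pos p j
  have hqi := dT_qq_pos p i
  have hxy : (1 / 2 : ℝ) ^ m ≤ (1 / 2) ^ l := by
    have := dT_half_le 4 hml
    nlinarith only [hx, this]
  have h0 : 0 ≤ 2 ^ j * 4 ^ l / qq p i ^ 2 := by positivity
  have h00 : 0 ≤ Ar.ee p j * 2 ^ l := by positivity
  have h02 : (1 / 2 : ℝ) ^ j * (1 / 2) ^ m * 2 ^ l = (1 / 2) ^ j * ((1 / 2) ^ m * 2 ^ l) := by ring
  unfold bTT tN
  rw [h02]
  split_ifs with hd
  · have h1 := dT_bTd (j := j) hv hl (dT_diag_sqrt hw (norm_u_lt_one v) (norm_u_lt_one V) hd)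
    have h2 : (1 / 32 : ℝ) ≤ (1 / 2) ^ m * 2 ^ l := by
      rw [dT_two l, ← div_eq_mul_inv, le_div_iff₀ hy]
      have h3 := hd.2.1
      have h4 : ((1 / 2 : ℝ) ^ l) ^ 2 / 2 < 256 * (2 * ((1 / 2) ^ m) ^ 2) :=
        hl'.1.trans_le (h3.trans (by linarith only [hm'.2]))
      by_contra hcon
      push Not at hcon
      nlinarith only [hm', hl', hx, h3, hcon]
    have h3 : (1 / 2 : ℝ) ^ j * (1 / 32) ≤ (1 / 2) ^ j * ((1 / 2) ^ m * 2 ^ l) :=
      mul_le_mul_of_nonneg_left h2 hδ.le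
    linarith only [hδ, h0, h00, h1, h3]
  · have hM : 4 * (1 / 2 : ℝ) ^ m * ((1 / 2) ^ m + (1 / 2) ^ l)
        ≤ (16 * ((1 / 2) ^ m * 2 ^ l)) * Dn ((1 / 4) ^ j) (Ar.ee p j) w (u v) (u V) := by
      have hβ : 0 ≤ al w (u V) := (lt_of_le_of_lt (by positivity) hm'.1).le
      have h1 := dT_Dn_ge' (p := p) (j := j) (V := V) hβ hl
      have h2 : (16 * ((1 / 2 : ℝ) ^ m * 2 ^ l)) * (((1 / 2) ^ l) ^ 2 / 2)
          ≤ (16 * ((1 / 2) ^ m * 2 ^ l)) * Dn ((1 / 4) ^ j) (Ar.ee p j) w (u v) (u V) :=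
        mul_le_mul_of_nonneg_left h1 (by positivity)
      refine le_trans ?_ h2
      have h3 : (16 * ((1 / 2 : ℝ) ^ m * 2 ^ l)) * (((1 / 2) ^ l) ^ 2 / 2)
          = 8 * (1 / 2) ^ m * (1 / 2) ^ l := by
        rw [dT_two l]
        field_simp
        norm_num
      rw [h3]
      nlinarith only [hx, hxy]
    have h1 := dT_bT hv hm hl hM
    have h3 : 0 ≤ (1 / 2 : ℝ) ^ j * ((1 / 2) ^ m * 2 ^ l) := by positivity
    linarith only [h0, h00, h1, h3]

/-- The kernel on diagonal cells. -/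
theorem dT_ker_D {p j i m l n : ℕ} {w : E3} (_ : ‖w‖ = 1) {v V : E3} (hv : qI p i (q v))
    (hV : qq p j / 8 ≤ q V) (hm : alI m (al w (u V))) (hl : alI l (al w (u v)))
    (hlm : l ≤ m + 3) (hml : m ≤ l + 3) (hn : phI n ‖u v - u V‖) :
    bTT ((1 / 4) ^ j) (Ar.ee p j) w (u v) (u V) ≤ 10000 * tD p j i m n := by
  have hm' := dT_alI hm
  have hl' := dT_alI hl
  have hx : (0 : ℝ) < (1 / 2) ^ m := by positivity
  have hy : (0 : ℝ) < (1 / 2) ^ l := by positivity
  have hδ : (0 : ℝ) < (1 / 2) ^ j := by positivity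
  have he := dT_ee_pos p j
  have hqi := dT_qq_pos p i
  have hqj := dT_qq_pos p j
  have hα : 0 < al w (u v) := lt_of_le_of_lt (by positivity) hl'.1
  have hβ : 0 < al w (u V) := lt_of_le_of_lt (by positivity) hm'.1
  have hxy : (1 / 2 : ℝ) ^ m ≤ 8 * (1 / 2) ^ l := by
    have h1 := dT_half_le (m := m) (l := l + 3) 0 (by omega)
    have h2 : (1 / 2 : ℝ) ^ (l + 3) = (1 / 2) ^ l / 8 := by rw [pow_add]; norm_num; ring
    have h3 := dT_half_le (m := l) (l := m + 3) 0 (by omega)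
    have h4 : (1 / 2 : ℝ) ^ (m + 3) = (1 / 2) ^ m / 8 := by rw [pow_add]; norm_num; ring
    linarith only [h3, h4]
  have hyx : (1 / 2 : ℝ) ^ l ≤ 8 * (1 / 2) ^ m := by
    have h1 := dT_half_le (m := m) (l := l + 3) 0 (by omega)
    have h2 : (1 / 2 : ℝ) ^ (l + 3) = (1 / 2) ^ l / 8 := by rw [pow_add]; norm_num; ring
    linarith only [h1, h2]
  have h4l : (4 : ℝ) ^ l ≤ 64 * 4 ^ m := by
    have h1 : (4 : ℝ) ^ l ≤ 4 ^ (m + 3) := pow_le_pow_right₀ (by norm_num) hlm
    rw [pow_add] at h1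
    linarith only [h1]
  have h2l : (2 : ℝ) ^ l ≤ 8 * 2 ^ m := by
    have h1 : (2 : ℝ) ^ l ≤ 2 ^ (m + 3) := pow_le_pow_right₀ (by norm_num) hlm
    rw [pow_add] at h1
    linarith only [h1]
  have hfirst : 8 * (2 ^ j * 4 ^ l / qq p i ^ 2) ≤ 512 * (2 ^ j * 4 ^ m / qq p i ^ 2) := by
    have h1 : (2 : ℝ) ^ j * 4 ^ l / qq p i ^ 2 ≤ 2 ^ j * (64 * 4 ^ m) / qq p i ^ 2 := by (clear * - hqi h4l; gcongr)
    have h2 : (2 : ℝ) ^ j * (64 * 4 ^ m) / qq p i ^ 2 = 64 * (2 ^ j * 4 ^ m / qq p i ^ 2) := by ring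
    linarith only [h1, h2]
  have h0 : 0 ≤ 2 ^ j * 4 ^ m / qq p i ^ 2 := by positivity
  have h00 : 0 ≤ (1 / 2 : ℝ) ^ j * 2 ^ m * ((1 / 2) ^ n + 1 / qq p i + 1 / qq p j) := by positivity
  unfold bTT tD
  by_cases hd : Diag (Ar.ee p j) w (u v) (u V)
  · rw [if_pos hd]
    have h1 : √((1 - ⟪u v, u V⟫) / al w (u V))
        ≤ 8 * (2 ^ m * ((1 / 2) ^ n + 1 / qq p i + 1 / qq p j)) := by
      have ha : 0 ≤ ‖u v - u V‖ := norm_nonneg _
      have hn2 : ‖u v - u V‖ ≤ 2 * (1 / 2) ^ n := hn.2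
      have hqv : (q v)⁻¹ ≤ 2 / qq p i := by
        have h3 := hv.1
        calc (q v)⁻¹ ≤ (qq p i / 2)⁻¹ := by (clear * - hqi h3; gcongr)
          _ = 2 / qq p i := by rw [inv_div]
      have hqV : (q V)⁻¹ ≤ 8 / qq p j := by
        calc (q V)⁻¹ ≤ (qq p j / 8)⁻¹ := by (clear * - hV hqj; gcongr)
          _ = 8 / qq p j := by rw [inv_div]
      have hqv0 : 0 < (q v)⁻¹ := inv_pos.2 (q_pos v)
      have hqV0 : 0 < (q V)⁻¹ := inv_pos.2 (q_pos V)
      have h2 : (1 - ⟪u v, u V⟫) / al w (u V)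
          ≤ (2 ^ m * (‖u v - u V‖ + (q v)⁻¹ + (q V)⁻¹)) ^ 2 := by
        rw [dT_one_sub_inner, norm_u_sq, norm_u_sq, div_le_iff₀ hβ]
        have h3 : (2 ^ m * (‖u v - u V‖ + (q v)⁻¹ + (q V)⁻¹)) ^ 2 * al w (u V)
            ≥ (2 ^ m * (‖u v - u V‖ + (q v)⁻¹ + (q V)⁻¹)) ^ 2 * (((1 / 2) ^ m) ^ 2 / 2) :=
          mul_le_mul_of_nonneg_left hm'.1.le (by (clear * - hqv0 hqV0; positivity))
        have h4 : (2 ^ m * (‖u v - u V‖ + (q v)⁻¹ + (q V)⁻¹)) ^ 2 * (((1 / 2 : ℝ) ^ m) ^ 2 / 2)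
            = (‖u v - u V‖ + (q v)⁻¹ + (q V)⁻¹) ^ 2 / 2 := by
          rw [dT_two m]
          (clear * -; field_simp)
        have h5 : (q v ^ 2)⁻¹ = ((q v)⁻¹) ^ 2 := by rw [inv_pow]
        have h6 : (q V ^ 2)⁻¹ = ((q V)⁻¹) ^ 2 := by rw [inv_pow]
        rw [h5, h6]
        have h7 := mul_nonneg ha hqv0.le
        have h8 := mul_nonneg ha hqV0.le
        have h9 := mul_pos hqv0 hqV0
        nlinarith only [h3, h4, h8, h9]
      calc √((1 - ⟪u v, u V⟫) / al w (u V))
          ≤ √((2 ^ m * (‖u v - u V‖ + (q v)⁻¹ + (q V)⁻¹)) ^ 2) := Real.sqrt_le_sqrt h2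
        _ = 2 ^ m * (‖u v - u V‖ + (q v)⁻¹ + (q V)⁻¹) := Real.sqrt_sq (by (clear * - hqv0 hqV0; positivity))
        _ ≤ 2 ^ m * (8 * ((1 / 2) ^ n + 1 / qq p i + 1 / qq p j)) := by
            apply mul_le_mul_of_nonneg_left _ (by positivity)
            have h3 : 2 / qq p i ≤ 8 * (1 / qq p i) := by
              rw [div_eq_mul_one_div]
              have : 0 < 1 / qq p i := by positivity
              linarith only [this]
            have h4 : 8 / qq p j = 8 * (1 / qq p j) := by ring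
            have h5 : (0 : ℝ) ≤ (1 / 2) ^ n := by positivity
            linarith only [ha, hn2, hqv, hqV, h3, h4]
        _ = 8 * (2 ^ m * ((1 / 2) ^ n + 1 / qq p i + 1 / qq p j)) := by ring
    have h2 := dT_bTd (j := j) hv hl h1
    have h3 : (1 / 2 : ℝ) ^ j * (8 * (2 ^ m * ((1 / 2) ^ n + 1 / qq p i + 1 / qq p j)))
        = 8 * ((1 / 2) ^ j * 2 ^ m * ((1 / 2) ^ n + 1 / qq p i + 1 / qq p j)) := by ring
    rw [h3] at h2
    have h4 : 0 ≤ (if (1 / 4 : ℝ) ^ m < 2 * Ar.ee p j ^ 2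
        then (1 / 2 : ℝ) ^ j + Ar.ee p j * 2 ^ m else 0) := by
      split_ifs <;> positivity
    linarith only [hfirst, h0, h00, h2, h4]
  · rw [if_neg hd]
    have h1 : (1 / 4 : ℝ) ^ m < 2 * Ar.ee p j ^ 2 := by
      by_contra hcon
      push Not at hcon
      apply hd
      rw [dT_quarter m] at hcon
      have hsq1 : ((1 / 2 : ℝ) ^ m) ^ 2 ≤ 64 * ((1 / 2) ^ l) ^ 2 := by nlinarith only [hx, hxy]
      have hsq2 : ((1 / 2 : ℝ) ^ l) ^ 2 ≤ 64 * ((1 / 2) ^ m) ^ 2 := by nlinarith only [hy, hyx]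
      refine ⟨by linarith only [hcon, hm'.1], by linarith only [hsq2, hm'.1, hl'.2], by linarith only [hsq1, hm'.2, hl'.1]⟩
    rw [if_pos h1]
    have hM : 4 * (1 / 2 : ℝ) ^ m * ((1 / 2) ^ m + (1 / 2) ^ l)
        ≤ 4608 * Dn ((1 / 4) ^ j) (Ar.ee p j) w (u v) (u V) := by
      have h1 := dT_Dn_ge' (p := p) (j := j) (V := V) hβ.le hl
      have h2 : ((1 / 2 : ℝ) ^ m) * ((1 / 2) ^ m + (1 / 2) ^ l) ≤ 72 * ((1 / 2) ^ l) ^ 2 := by
        calc ((1 / 2 : ℝ) ^ m) * ((1 / 2) ^ m + (1 / 2) ^ l)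
            ≤ (8 * (1 / 2) ^ l) * (8 * (1 / 2) ^ l + (1 / 2) ^ l) := by (clear * - hxy; gcongr)
          _ = 72 * ((1 / 2) ^ l) ^ 2 := by ring
      linarith only [hl', h1, h2]
    have h2 := dT_bT hv hm hl hM
    have h3 : Ar.ee p j * 2 ^ l ≤ Ar.ee p j * (8 * 2 ^ m) := mul_le_mul_of_nonneg_left h2l he.le
    have h4 : 0 ≤ Ar.ee p j * 2 ^ m := by positivity
    have h5 : Ar.ee p j * (8 * 2 ^ m) = 8 * (Ar.ee p j * 2 ^ m) := by ring
    linarith only [hδ, hfirst, h0, h00, h2, h3, h4]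

end Vale.Agent.P107
end
end
end

section

section

attribute [-instance] ProperSMul.toContinuousSMul IsTopologicalTorsor.toContinuousSMul
  IdemSemiring.toCanonicallyOrderedAdd IdemSemiring.toMulLeftMono IdemSemiring.toMulRightMono
  AddQuantale.instAddLeftMono AddQuantale.instAddRightMono Quantale.instMulLeftMono
  Quantale.instMulRightMono FiniteDimensional.rclike_to_real IsScalarTower.complexToReal
  FiniteDimensional.complexToReal

section

/-!
The singular angular integral.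
-/

open MeasureTheory Set Filter Topology
open scoped RealInnerProductSpace ENNReal NNReal

namespace Vale.Agent.P107

end Vale.Agent.P107
end
end
end

section

section

attribute [-instance] ProperSMul.toContinuousSMul IsTopologicalTorsor.toContinuousSMul
  IdemSemiring.toCanonicallyOrderedAdd IdemSemiring.toMulLeftMono IdemSemiring.toMulRightMono
  AddQuantale.instAddLeftMono AddQuantale.instAddRightMono Quantale.instMulLeftMono
  Quantale.instMulRightMono FiniteDimensional.rclike_to_real IsScalarTower.complexToReal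
  FiniteDimensional.complexToReal

section

/-!
Integration of retarded quantities along a subluminal path.
-/

open MeasureTheory Set Filter Topology
open scoped RealInnerProductSpace ENNReal NNReal

namespace Vale.Agent.P107

lemma det_id_add (U w : E3) :
    (ContinuousLinearMap.id ℝ E3 + (innerSL ℝ w).smulRight U).det = 1 + ⟪U, w⟫ := by
  have h1 : ((ContinuousLinearMap.id ℝ E3 + (innerSL ℝ w).smulRight U : E3 →L[ℝ] E3) :
      E3 →ₗ[ℝ] E3) = LinearMap.transvection (innerSL ℝ w : E3 →L[ℝ] ℝ).toLinearMap U := by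
    ext x
    simp [LinearMap.transvection.apply]
  rw [ContinuousLinearMap.det, h1, LinearMap.transvection.det]
  simp [real_inner_comm]

section path

variable {X U : ℝ → E3} {t₀ t₁ : ℝ}

lemma path_lt (hU : Continuous U) (hX : ∀ s ∈ Ioo t₀ t₁, HasDerivAt X (U s) s)
    (hU1 : ∀ s, ‖U s‖ < 1) {s s' : ℝ} (hs : s ∈ Ioo t₀ t₁) (hs' : s' ∈ Ioo t₀ t₁) (h : s < s') :
    ‖X s' - X s‖ < s' - s := by
  obtain ⟨m, hm, hmax⟩ := (isCompact_Icc (a := s) (b := s')).exists_isMaxOn
    ⟨s, left_mem_Icc.2 h.le⟩ (hU.norm.continuousOn)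
  have hb : ∀ x ∈ Icc s s', ‖X x - X s‖ ≤ ‖U m‖ * (x - s) := by
    refine norm_image_sub_le_of_norm_deriv_le_segment' (f' := U) ?_ ?_
    · intro x hx
      exact (hX x ⟨hs.1.trans_le hx.1, hx.2.trans_lt hs'.2⟩).hasDerivWithinAt
    · intro x hx
      exact hmax ⟨hx.1, hx.2.le⟩
  have h1 := hb s' (right_mem_Icc.2 h.le)
  have h2 : ‖U m‖ * (s' - s) < 1 * (s' - s) := by
    have := hU1 m
    have h3 : 0 < s' - s := by linarith only [h]
    (clear * - h this; gcongr)
  linarith only [h1, h2]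

/-- The map `z ↦ X(τ + |z|) + z`. -/
noncomputable def Phi (X : ℝ → E3) (τ : ℝ) (z : E3) : E3 := X (τ + ‖z‖) + z

/-- The domain of `Phi`. -/
def Om (t₀ t₁ τ : ℝ) : Set E3 := {z | z ≠ 0 ∧ τ + ‖z‖ ∈ Ioo t₀ t₁}

lemma measurableSet_Om (t₀ t₁ τ : ℝ) : MeasurableSet (Om t₀ t₁ τ) := by
  refine MeasurableSet.inter ?_ ?_
  · exact (measurableSet_singleton (0 : E3)).compl
  · exact measurableSet_Ioo.preimage (by fun_prop)

lemma injOn_Phi (hU : Continuous U) (hX : ∀ s ∈ Ioo t₀ t₁, HasDerivAt X (U s) s)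
    (hU1 : ∀ s, ‖U s‖ < 1) (τ : ℝ) : InjOn (Phi X τ) (Om t₀ t₁ τ) := by
  have key : ∀ z ∈ Om t₀ t₁ τ, ∀ z' ∈ Om t₀ t₁ τ, Phi X τ z = Phi X τ z' → ¬ ‖z‖ < ‖z'‖ := by
    intro z hz z' hz' h hlt
    have h1 := path_lt hU hX hU1 hz.2 hz'.2 (by linarith only [hlt] : τ + ‖z‖ < τ + ‖z'‖)
    have h2 : X (τ + ‖z'‖) - X (τ + ‖z‖) = z - z' := by
      unfold Phi at h
      rw [sub_eq_sub_iff_add_eq_add, ← h]
      abel
    rw [h2] at h1
    have h3 := abs_norm_sub_norm_le z z'
    have h4 : ‖z'‖ - ‖z‖ ≤ |‖z‖ - ‖z'‖| := by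
      rw [abs_sub_comm]; exact le_abs_self _
    linarith only [h1, h3, h4]
  intro z hz z' hz' h
  have h1 : ‖z‖ = ‖z'‖ :=
    le_antisymm (not_lt.1 (key z' hz' z hz h.symm)) (not_lt.1 (key z hz z' hz' h))
  unfold Phi at h
  rw [h1] at h
  exact add_left_cancel h

lemma hasFDerivAt_Phi (hX : ∀ s ∈ Ioo t₀ t₁, HasDerivAt X (U s) s) {τ : ℝ} {z : E3}
    (hz : z ∈ Om t₀ t₁ τ) :
    HasFDerivAt (Phi X τ) (ContinuousLinearMap.id ℝ E3
      + (innerSL ℝ (‖z‖⁻¹ • z)).smulRight (U (τ + ‖z‖))) z := by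
  have hpos : 0 < ‖z‖ := norm_pos_iff.2 hz.1
  have h1 : HasFDerivAt (fun y : E3 => τ + ‖y‖) (innerSL ℝ (‖z‖⁻¹ • z)) z := by
    have h2 : HasFDerivAt (fun y : E3 => ‖y‖) (innerSL ℝ (‖z‖⁻¹ • z)) z := by
      have h3 := (hasStrictFDerivAt_norm_sq z).hasFDerivAt.sqrt (by positivity)
      simp only [Real.sqrt_sq (norm_nonneg _)] at h3
      refine h3.congr_fderiv ?_
      ext e
      simp
      field_simp
    exact h2.const_add τ
  have h4 : HasFDerivAt (fun y : E3 => X (τ + ‖y‖))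
      ((ContinuousLinearMap.toSpanSingleton ℝ (U (τ + ‖z‖))).comp (innerSL ℝ (‖z‖⁻¹ • z))) z :=
    (hX _ hz.2).hasFDerivAt.comp z h1
  have h5 := h4.add (hasFDerivAt_id z)
  refine h5.congr_fderiv ?_
  ext e
  simp [add_comm]
  ring

lemma change_of_variables (hU : Continuous U) (hX : ∀ s ∈ Ioo t₀ t₁, HasDerivAt X (U s) s)
    (hU1 : ∀ s, ‖U s‖ < 1) (τ : ℝ) (g : E3 → ℝ≥0∞) :
    ∫⁻ z in Om t₀ t₁ τ, g (Phi X τ z) * ENNReal.ofReal (1 + ⟪U (τ + ‖z‖), ‖z‖⁻¹ • z⟫)
      ≤ ∫⁻ y, g y := by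
  have h1 := lintegral_image_eq_lintegral_abs_det_fderiv_mul (volume : Measure E3)
    (measurableSet_Om t₀ t₁ τ)
    (fun z hz => (hasFDerivAt_Phi hX hz).hasFDerivWithinAt) (injOn_Phi hU hX hU1 τ) g
  have h2 : ∫⁻ z in Om t₀ t₁ τ, g (Phi X τ z) * ENNReal.ofReal (1 + ⟪U (τ + ‖z‖), ‖z‖⁻¹ • z⟫)
      = ∫⁻ y in Phi X τ '' Om t₀ t₁ τ, g y := by
    rw [h1]
    refine setLIntegral_congr_fun (measurableSet_Om t₀ t₁ τ) fun z hz => ?_
    simp only
    rw [det_id_add, mul_comm, abs_of_pos]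
    have hpos : 0 < ‖z‖ := norm_pos_iff.2 hz.1
    have hw : ‖‖z‖⁻¹ • z‖ = 1 := by
      rw [norm_smul, norm_inv, norm_norm]; field_simp
    have := neg_le_of_abs_le (abs_real_inner_le_norm (U (τ + ‖z‖)) (‖z‖⁻¹ • z))
    rw [hw, mul_one] at this
    linarith only [this, hU1 (τ + ‖z‖)]
  rw [h2]
  exact setLIntegral_le_lintegral _ _

end path

end Vale.Agent.P107
end
end
end

section

section

attribute [-instance] ProperSMul.toContinuousSMul IsTopologicalTorsor.toContinuousSMul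
  IdemSemiring.toCanonicallyOrderedAdd IdemSemiring.toMulLeftMono IdemSemiring.toMulRightMono
  AddQuantale.instAddLeftMono AddQuantale.instAddRightMono Quantale.instMulLeftMono
  Quantale.instMulRightMono FiniteDimensional.rclike_to_real IsScalarTower.complexToReal
  FiniteDimensional.complexToReal

section

/-!
Module Sl: change of variables along a subluminal path.
-/

open MeasureTheory Set Filter Topology
open scoped RealInnerProductSpace ENNReal NNReal

namespace Vale.Agent.P107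

/-- A subluminal path moves by less than the elapsed time (closed interval version). -/
lemma path_lt_Icc {X U : ℝ → E3} {t₁ t₂ : ℝ}
    (hX : ∀ s ∈ Icc t₁ t₂, HasDerivWithinAt X (U s) (Icc t₁ t₂) s)
    (hU : ContinuousOn U (Icc t₁ t₂)) (hU1 : ∀ s ∈ Icc t₁ t₂, ‖U s‖ < 1)
    {s s' : ℝ} (hs : s ∈ Icc t₁ t₂) (hs' : s' ∈ Icc t₁ t₂) (h : s < s') :
    ‖X s' - X s‖ < s' - s := by
  have hsub : Icc s s' ⊆ Icc t₁ t₂ := Icc_subset_Icc hs.1 hs'.2
  obtain ⟨m, hm, hmax⟩ := (isCompact_Icc (a := s) (b := s')).exists_isMaxOn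
    ⟨s, left_mem_Icc.2 h.le⟩ ((hU.mono hsub).norm)
  have hb : ∀ x ∈ Icc s s', ‖X x - X s‖ ≤ ‖U m‖ * (x - s) := by
    refine norm_image_sub_le_of_norm_deriv_le_segment' (f' := U) ?_ ?_
    · intro x hx
      exact (hX x (hsub hx)).mono hsub
    · intro x hx
      exact hmax ⟨hx.1, hx.2.le⟩
  have h1 := hb s' (right_mem_Icc.2 h.le)
  have h2 : ‖U m‖ * (s' - s) < 1 * (s' - s) := by
    have := hU1 m (hsub hm)
    have h3 : 0 < s' - s := by linarith only [h]
    (clear * - h this; gcongr)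
  linarith only [h1, h2]

/-- Clamping a path to an interval. -/
lemma exists_path_extension {X U : ℝ → E3} {t₁ t₂ : ℝ} (h12 : t₁ ≤ t₂)
    (hX : ∀ s ∈ Icc t₁ t₂, HasDerivWithinAt X (U s) (Icc t₁ t₂) s)
    (hU : ContinuousOn U (Icc t₁ t₂)) (hU1 : ∀ s ∈ Icc t₁ t₂, ‖U s‖ < 1) :
    ∃ X' U' : ℝ → E3, Continuous X' ∧ Continuous U' ∧ (∀ s ∈ Icc t₁ t₂, X' s = X s) ∧
      (∀ s ∈ Icc t₁ t₂, U' s = U s) ∧ (∀ s ∈ Ioo t₁ t₂, HasDerivAt X' (U' s) s) ∧
      ∀ s, ‖U' s‖ < 1 := by
  have hXc : ContinuousOn X (Icc t₁ t₂) := fun s hs => (hX s hs).continuousWithinAt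
  have hproj : Continuous fun s : ℝ => ((projIcc t₁ t₂ h12 s : Icc t₁ t₂) : ℝ) :=
    continuous_subtype_val.comp continuous_projIcc
  have hval : ∀ s ∈ Icc t₁ t₂, ((projIcc t₁ t₂ h12 s : Icc t₁ t₂) : ℝ) = s := fun s hs => by
    rw [projIcc_of_mem h12 hs]
  refine ⟨fun s => X (projIcc t₁ t₂ h12 s), fun s => U (projIcc t₁ t₂ h12 s),
    hXc.comp_continuous hproj fun s => (projIcc t₁ t₂ h12 s).2,
    hU.comp_continuous hproj fun s => (projIcc t₁ t₂ h12 s).2,
    fun s hs => by simp only [hval s hs], fun s hs => by simp only [hval s hs], ?_,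
    fun s => hU1 _ (projIcc t₁ t₂ h12 s).2⟩
  intro s hs
  have h1 : HasDerivAt X (U s) s :=
    (hX s (Ioo_subset_Icc_self hs)).hasDerivAt (Icc_mem_nhds hs.1 hs.2)
  have h2 : (fun s => X (projIcc t₁ t₂ h12 s)) =ᶠ[𝓝 s] X := by
    filter_upwards [Icc_mem_nhds hs.1 hs.2] with r hr
    simp only [hval r hr]
  simp only [hval s (Ioo_subset_Icc_self hs)]
  exact h1.congr_of_eventuallyEq h2

/-- The shear `s = τ + |z|`. -/
lemma shear_lintegral (H : ℝ × E3 → ℝ≥0∞) (hH : Measurable H) :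
    ∫⁻ s, ∫⁻ z, H (s, z) = ∫⁻ τ, ∫⁻ z, H (τ + ‖z‖, z) := by
  rw [lintegral_lintegral_swap (f := fun s z => H (s, z)) (by exact hH.aemeasurable)]
  have : ∀ z : E3, ∫⁻ s, H (s, z) = ∫⁻ τ, H (τ + ‖z‖, z) := by
    intro z
    exact (lintegral_add_right_eq_self (fun s => H (s, z)) ‖z‖).symm
  simp only [this]
  rw [lintegral_lintegral_swap (f := fun z τ => H (τ + ‖z‖, z))]
  apply Measurable.aemeasurable
  exact hH.comp ((measurable_snd.add measurable_fst.norm).prodMk measurable_fst)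

/-- Change of variables on a shell, for a fixed retarded time. -/
lemma slice_transfer {X U : ℝ → E3} {t₁ t₂ : ℝ} (hU : Continuous U)
    (hX : ∀ s ∈ Ioo t₁ t₂, HasDerivAt X (U s) s) (hU1 : ∀ s, ‖U s‖ < 1)
    (τ : ℝ) (g : E3 → ℝ≥0∞) (k : E3 → ℝ≥0∞)
    (hk0 : ∀ z, k z ≠ 0 → z ∈ Om t₁ t₂ τ)
    (hk : ∀ z ∈ Om t₁ t₂ τ, k z ≤ ENNReal.ofReal (al (dir z) (U (τ + ‖z‖))) * g (Phi X τ z)) :
    ∫⁻ z, k z ≤ ∫⁻ y, g y := by
  refine le_trans ?_ (change_of_variables hU hX hU1 τ g)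
  rw [← lintegral_indicator (measurableSet_Om t₁ t₂ τ)]
  refine lintegral_mono fun z => ?_
  by_cases hz : z ∈ Om t₁ t₂ τ
  · rw [indicator_of_mem hz, mul_comm]
    exact hk z hz
  · rw [indicator_of_notMem hz]
    by_contra hne
    exact hz (hk0 z (fun h0 => hne (by rw [h0])))

/-- Change of variables on a general shell `r < |z| ≤ R`. -/
theorem shell_transfer_gen {X U : ℝ → E3} {t₁ t₂ : ℝ} (h12 : t₁ ≤ t₂)
    (hX : ∀ s ∈ Icc t₁ t₂, HasDerivWithinAt X (U s) (Icc t₁ t₂) s)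
    (hU : ContinuousOn U (Icc t₁ t₂)) (hU1 : ∀ s ∈ Icc t₁ t₂, ‖U s‖ < 1)
    {r R : ℝ} (hr : 0 ≤ r) (G : ℝ → E3 → ℝ≥0∞) (hG : Measurable (Function.uncurry G)) :
    ∫⁻ s in Icc t₁ t₂, ∫⁻ z, {z : E3 | r < ‖z‖ ∧ ‖z‖ ≤ R}.indicator (fun z =>
        ENNReal.ofReal (al (dir z) (U s)) * G (s - ‖z‖) (X s + z)) z
      ≤ ∫⁻ τ in Icc (t₁ - R) (t₂ - r), ∫⁻ y, G τ y := by
  obtain ⟨X', U', hX'c, hU'c, hXX, hUU, hd, hU'1⟩ := exists_path_extension h12 hX hU hU1
  set K : Set (ℝ × E3) := {p | p.1 ∈ Ioo t₁ t₂ ∧ r < ‖p.2‖ ∧ ‖p.2‖ ≤ R} with hK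
  have hKm : MeasurableSet K := by
    refine MeasurableSet.inter ?_ (MeasurableSet.inter ?_ ?_)
    · exact measurableSet_Ioo.preimage measurable_fst
    · exact measurableSet_lt measurable_const (measurable_norm.comp measurable_snd)
    · exact measurableSet_le (measurable_norm.comp measurable_snd) measurable_const
  set F : ℝ × E3 → ℝ≥0∞ := fun p =>
    ENNReal.ofReal (al (dir p.2) (U' p.1)) * G (p.1 - ‖p.2‖) (X' p.1 + p.2) with hF
  have hFm : Measurable F := by
    have m1 : Measurable fun p : ℝ × E3 => U' p.1 := hU'c.measurable.comp measurable_fst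
    have m2 : Measurable fun p : ℝ × E3 => dir p.2 :=
      (measurable_snd.norm.inv).smul measurable_snd
    have m3 : Measurable fun p : ℝ × E3 => al (dir p.2) (U' p.1) :=
      measurable_const.add (m1.inner m2)
    have m4 : Measurable fun p : ℝ × E3 => p.1 - ‖p.2‖ := measurable_fst.sub measurable_snd.norm
    have m5 : Measurable fun p : ℝ × E3 => (p.1 - ‖p.2‖, X' p.1 + p.2) :=
      m4.prodMk ((hX'c.measurable.comp measurable_fst).add measurable_snd)
    exact m3.ennreal_ofReal.mul (hG.comp m5)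
  have hm : Measurable (K.indicator F) := hFm.indicator hKm
  have e1 : ∫⁻ s in Icc t₁ t₂, ∫⁻ z, {z : E3 | r < ‖z‖ ∧ ‖z‖ ≤ R}.indicator (fun z =>
        ENNReal.ofReal (al (dir z) (U s)) * G (s - ‖z‖) (X s + z)) z
      = ∫⁻ s, ∫⁻ z, K.indicator F (s, z) := by
    rw [← setLIntegral_congr (Ioo_ae_eq_Icc (μ := volume) (a := t₁) (b := t₂)),
      ← lintegral_indicator measurableSet_Ioo]
    refine lintegral_congr fun s => ?_
    by_cases hs : s ∈ Ioo t₁ t₂
    · rw [indicator_of_mem hs]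
      refine lintegral_congr fun z => ?_
      by_cases hz : z ∈ {z : E3 | r < ‖z‖ ∧ ‖z‖ ≤ R}
      · have hmem : (s, z) ∈ K := ⟨hs, hz⟩
        rw [indicator_of_mem hz, indicator_of_mem hmem]
        simp only [hF, hXX s (Ioo_subset_Icc_self hs), hUU s (Ioo_subset_Icc_self hs)]
      · have hmem : (s, z) ∉ K := fun h => hz h.2
        rw [indicator_of_notMem hz, indicator_of_notMem hmem]
    · rw [indicator_of_notMem hs]
      symm
      have hzero : ∀ z : E3, K.indicator F (s, z) = 0 := fun z =>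
        indicator_of_notMem (fun h => hs h.1) _
      simp only [hzero, lintegral_zero]
  rw [e1, shear_lintegral _ hm, ← lintegral_indicator measurableSet_Icc]
  refine lintegral_mono fun τ => ?_
  by_cases hτ : τ ∈ Icc (t₁ - R) (t₂ - r)
  · rw [indicator_of_mem hτ]
    have hne : ∀ z, K.indicator F (τ + ‖z‖, z) ≠ 0 → (τ + ‖z‖, z) ∈ K := by
      intro z hz
      by_contra hcon
      exact hz (indicator_of_notMem hcon _)
    refine slice_transfer hU'c hd hU'1 τ (G τ) (fun z => K.indicator F (τ + ‖z‖, z)) ?_ ?_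
    · intro z hz
      have h1 := hne z hz
      refine ⟨?_, h1.1⟩
      have h2 : r < ‖z‖ := h1.2.1
      exact norm_pos_iff.1 (by linarith only [hr, h2])
    · intro z hz
      by_cases hmem : (τ + ‖z‖, z) ∈ K
      · rw [indicator_of_mem hmem]
        simp only [hF, Phi, add_sub_cancel_right]
        exact le_rfl
      · rw [indicator_of_notMem hmem]
        exact zero_le
  · rw [indicator_of_notMem hτ]
    apply le_of_eq
    have hzero : ∀ z : E3, K.indicator F (τ + ‖z‖, z) = 0 := by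
      intro z
      refine indicator_of_notMem ?_ _
      intro h
      apply hτ
      have h1 : t₁ < τ + ‖z‖ := h.1.1
      have h2 : τ + ‖z‖ < t₂ := h.1.2
      have h3 : r < ‖z‖ := h.2.1
      have h4 : ‖z‖ ≤ R := h.2.2
      exact ⟨by linarith only [h1, h4], by linarith only [h2, h3]⟩
    simp only [hzero, lintegral_zero]

theorem shell_transfer {X U : ℝ → E3} {t₁ t₂ : ℝ} (h12 : t₁ ≤ t₂)
    (hX : ∀ s ∈ Icc t₁ t₂, HasDerivWithinAt X (U s) (Icc t₁ t₂) s)
    (hU : ContinuousOn U (Icc t₁ t₂)) (hU1 : ∀ s ∈ Icc t₁ t₂, ‖U s‖ < 1)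
    {R : ℝ} (hR : 0 < R) (G : ℝ → E3 → ℝ≥0∞) (hG : Measurable (Function.uncurry G)) :
    ∫⁻ s in Icc t₁ t₂, ∫⁻ z, {z : E3 | R / 2 < ‖z‖ ∧ ‖z‖ ≤ R}.indicator (fun z =>
        ENNReal.ofReal (al (dir z) (U s)) * G (s - ‖z‖) (X s + z)) z
      ≤ ∫⁻ τ in Icc (t₁ - R) (t₂ - R / 2), ∫⁻ y, G τ y :=
  shell_transfer_gen h12 hX hU hU1 (by linarith only [hR]) G hG

/-- The late density is jointly measurable. -/
lemma measurable_fl {T : ℝ} {f : ℝ → E3 → E3 → ℝ} {E B : ℝ → E3 → E3}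
    (h : IsClassicalSolution T f E B) {ta : ℝ} (h0 : 0 < ta) :
    Measurable fun y : ℝ × E3 × E3 => fl ta T f y.1 y.2.1 y.2.2 := by
  have hset : MeasurableSet {y : ℝ × E3 × E3 | ta ≤ y.1 ∧ y.1 < T} :=
    (measurableSet_Ico (a := ta) (b := T)).preimage measurable_fst
  have hcont : ContinuousOn (fun y : ℝ × E3 × E3 => ENNReal.ofReal (f y.1 y.2.1 y.2.2))
      {y : ℝ × E3 × E3 | ta ≤ y.1 ∧ y.1 < T} := by
    refine ENNReal.continuous_ofReal.comp_continuousOn (h.f_contDiff.continuousOn.mono ?_)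
    intro y hy
    exact ⟨⟨h0.le.trans hy.1, hy.2⟩, mem_univ _⟩
  classical
  have heq : (fun y : ℝ × E3 × E3 => fl ta T f y.1 y.2.1 y.2.2)
      = {y : ℝ × E3 × E3 | ta ≤ y.1 ∧ y.1 < T}.indicator
        (fun y : ℝ × E3 × E3 => ENNReal.ofReal (f y.1 y.2.1 y.2.2)) := by
    funext y
    unfold fl
    by_cases hy : ta ≤ y.1 ∧ y.1 < T
    · rw [if_pos hy, indicator_of_mem (by exact hy)]
    · rw [if_neg hy, indicator_of_notMem (by exact hy)]
  rw [heq, ← piecewise_eq_indicator]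
  exact hcont.measurable_piecewise continuousOn_const hset

/-- The same with dependence on `(s, z, v)`: `S` is the image of the part of the cell `c` at
times in `[t₁, t₂]` and late retarded times. -/
theorem cell_transfer {T : ℝ} {f : ℝ → E3 → E3 → ℝ} {E B : ℝ → E3 → E3}
    (h : IsClassicalSolution T f E B) {ta : ℝ} (h0 : 0 < ta)
    {X U : ℝ → E3} {t₁ t₂ : ℝ} (h12 : t₁ ≤ t₂) (h2T : t₂ < T)
    (hX : ∀ s ∈ Icc t₁ t₂, HasDerivWithinAt X (U s) (Icc t₁ t₂) s)
    (hU : ContinuousOn U (Icc t₁ t₂)) (hU1 : ∀ s ∈ Icc t₁ t₂, ‖U s‖ < 1)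
    {R : ℝ} (hR : 0 < R) (c : Set (ℝ × E3 × E3)) (hc : MeasurableSet c)
    (hcR : ∀ y ∈ c, R / 2 < ‖y.2.1‖ ∧ ‖y.2.1‖ ≤ R) :
    ∃ S : Set (ℝ × E3 × E3), MeasurableSet S ∧
      (∀ y ∈ S, ta ≤ y.1 ∧ y.1 < T ∧ ∃ s ∈ Icc t₁ t₂, ‖y.2.1 - X s‖ = s - y.1 ∧
        (s, y.2.1 - X s, y.2.2) ∈ c) ∧
      pathInt ta T f X t₁ t₂ (fun s z v => c.indicator (fun _ => ENNReal.ofReal (al (dir z) (U s)))
          (s, z, v))
        ≤ ∫⁻ τ in Icc (max ta (t₁ - R)) (t₂ - R / 2), ∫⁻ x, ∫⁻ v,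
            S.indicator (fun _ => ENNReal.ofReal (f τ x v)) (τ, x, v) := by
  classical
  have hXc : ContinuousOn X (Icc t₁ t₂) := fun s hs => (hX s hs).continuousWithinAt
  obtain ⟨X', U', hX'c, hU'c, hXX, hUU, hd, hU'1⟩ := exists_path_extension h12 hX hU hU1
  -- the part of the cell which matters
  set c' : Set (ℝ × E3 × E3) :=
    c ∩ {y | y.1 ∈ Icc t₁ t₂ ∧ ta ≤ y.1 - ‖y.2.1‖ ∧ y.1 - ‖y.2.1‖ < T} with hc'
  have hc'm : MeasurableSet c' := by
    refine hc.inter (MeasurableSet.inter ?_ (MeasurableSet.inter ?_ ?_))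
    · exact measurableSet_Icc.preimage measurable_fst
    · exact measurableSet_le measurable_const
        (measurable_fst.sub (measurable_fst.comp measurable_snd).norm)
    · exact measurableSet_lt (measurable_fst.sub (measurable_fst.comp measurable_snd).norm)
        measurable_const
  set Ψ : ℝ × E3 × E3 → ℝ × E3 × E3 := fun y => (y.1 - ‖y.2.1‖, X' y.1 + y.2.1, y.2.2) with hΨ
  have hΨc : Continuous Ψ := by
    have : Continuous fun y : ℝ × E3 × E3 => X' y.1 := hX'c.comp continuous_fst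
    (clear * - X' hX'c; fun_prop)
  have hinj : InjOn Ψ c' := by
    have key : ∀ y ∈ c', ∀ y' ∈ c', Ψ y = Ψ y' → ¬ y.1 < y'.1 := by
      intro y hy y' hy' hyy hlt
      have h1 := path_lt_Icc hX hU hU1 hy.2.1 hy'.2.1 hlt
      simp only [hΨ, Prod.mk.injEq] at hyy
      rw [hXX _ hy.2.1, hXX _ hy'.2.1] at hyy
      have h2 : X y'.1 - X y.1 = y.2.1 - y'.2.1 := by
        rw [sub_eq_sub_iff_add_eq_add, ← hyy.2.1]
        abel
      rw [h2] at h1
      have h3 := abs_norm_sub_norm_le y.2.1 y'.2.1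
      have h4 : ‖y'.2.1‖ - ‖y.2.1‖ ≤ |‖y.2.1‖ - ‖y'.2.1‖| := by
        rw [abs_sub_comm]; exact le_abs_self _
      have h5 := hyy.1
      linarith only [h1, hyy, h3, h4]
    intro y hy y' hy' hyy
    have h1 : y.1 = y'.1 :=
      le_antisymm (not_lt.1 (key y' hy' y hy hyy.symm)) (not_lt.1 (key y hy y' hy' hyy))
    simp only [hΨ, Prod.mk.injEq] at hyy
    rw [h1] at hyy
    exact Prod.ext h1 (Prod.ext (add_left_cancel hyy.2.1) hyy.2.2)
  set S : Set (ℝ × E3 × E3) := Ψ '' c' with hS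
  have hSm : MeasurableSet S := hc'm.image_of_continuousOn_injOn hΨc.continuousOn hinj
  refine ⟨S, hSm, ?_, ?_⟩
  · rintro y ⟨p, hp, rfl⟩
    have hp1 := hXX _ hp.2.1
    refine ⟨hp.2.2.1, hp.2.2.2, p.1, hp.2.1, ?_, ?_⟩
    · simp only [hΨ, hp1]
      rw [add_sub_cancel_left]
      ring
    · simp only [hΨ, hp1]
      rw [add_sub_cancel_left]
      exact hp.1
  -- the integrand
  set F : ℝ × E3 × E3 → ℝ≥0∞ := fun y =>
    (c'.indicator (fun y => ENNReal.ofReal (al (dir y.2.1) (U' y.1))) y)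
      * fl ta T f (y.1 - ‖y.2.1‖) (X' y.1 + y.2.1) y.2.2 with hF
  have hFm : Measurable F := by
    have m1 : Measurable fun y : ℝ × E3 × E3 => U' y.1 := hU'c.measurable.comp measurable_fst
    have m2 : Measurable fun y : ℝ × E3 × E3 => dir y.2.1 :=
      ((measurable_fst.comp measurable_snd).norm.inv).smul (measurable_fst.comp measurable_snd)
    have m3 : Measurable fun y : ℝ × E3 × E3 => al (dir y.2.1) (U' y.1) :=
      measurable_const.add (m1.inner m2)
    exact (m3.ennreal_ofReal.indicator hc'm).mul ((measurable_fl h h0).comp hΨc.measurable)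
  set K : Set (ℝ × E3 × E3) := {y | y.1 ∈ Ioo t₁ t₂} with hK
  have hKm : MeasurableSet K := measurableSet_Ioo.preimage measurable_fst
  have hm : Measurable (K.indicator F) := hFm.indicator hKm
  set H : ℝ × E3 → ℝ≥0∞ := fun p => ∫⁻ v, K.indicator F (p.1, p.2, v) with hH
  have hHm : Measurable H := by
    have h1 : Measurable fun r : (ℝ × E3) × E3 => K.indicator F (r.1.1, r.1.2, r.2) :=
      hm.comp ((measurable_fst.comp measurable_fst).prodMk
        ((measurable_snd.comp measurable_fst).prodMk measurable_snd))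
    exact h1.lintegral_prod_right'
  have e1 : pathInt ta T f X t₁ t₂
      (fun s z v => c.indicator (fun _ => ENNReal.ofReal (al (dir z) (U s))) (s, z, v))
      = ∫⁻ s, ∫⁻ z, H (s, z) := by
    unfold pathInt coneInt
    rw [← setLIntegral_congr (Ioo_ae_eq_Icc (μ := volume) (a := t₁) (b := t₂)),
      ← lintegral_indicator measurableSet_Ioo]
    refine lintegral_congr fun s => ?_
    by_cases hs : s ∈ Ioo t₁ t₂
    · rw [indicator_of_mem hs]
      refine lintegral_congr fun z => ?_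
      simp only [hH]
      refine lintegral_congr fun v => ?_
      have hmem : (s, z, v) ∈ K := hs
      rw [indicator_of_mem hmem]
      simp only [hF, hXX s (Ioo_subset_Icc_self hs)]
      by_cases hz : ta ≤ s - ‖z‖ ∧ s - ‖z‖ < T
      · by_cases hcm : (s, z, v) ∈ c
        · have hcm' : (s, z, v) ∈ c' := ⟨hcm, Ioo_subset_Icc_self hs, hz.1, hz.2⟩
          rw [indicator_of_mem hcm, indicator_of_mem hcm', hUU s (Ioo_subset_Icc_self hs)]
        · have hcm' : (s, z, v) ∉ c' := fun hh => hcm hh.1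
          rw [indicator_of_notMem hcm, indicator_of_notMem hcm']
      · have h1 : fl ta T f (s - ‖z‖) (X s + z) v = 0 := by
          unfold fl
          rw [if_neg hz]
        rw [h1, mul_zero, mul_zero]
    · rw [indicator_of_notMem hs]
      symm
      have hzero : ∀ z v : E3, K.indicator F (s, z, v) = 0 := fun z v =>
        indicator_of_notMem (show (s, z, v) ∉ K from hs) _
      simp only [hH, hzero, lintegral_zero]
  rw [e1, shear_lintegral _ hHm, ← lintegral_indicator measurableSet_Icc]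
  refine lintegral_mono fun τ => ?_
  have hmτ : Measurable fun p : E3 × E3 => K.indicator F (τ + ‖p.1‖, p.1, p.2) :=
    hm.comp ((measurable_const.add measurable_fst.norm).prodMk
      (measurable_fst.prodMk measurable_snd))
  by_cases hτ : τ ∈ Icc (max ta (t₁ - R)) (t₂ - R / 2)
  · rw [indicator_of_mem hτ]
    have hSτ : Measurable fun p : E3 × E3 =>
        S.indicator (fun _ => ENNReal.ofReal (f τ p.1 p.2)) (τ, p.1, p.2) := by
      by_cases hτT : τ < T
      · have hτ0 : τ ∈ Ico 0 T := ⟨h0.le.trans ((le_max_left _ _).trans hτ.1), hτT⟩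
        have hcont : Continuous fun p : E3 × E3 => f τ p.1 p.2 := by
          have h1 : ContinuousOn (fun z : ℝ × E3 × E3 => f z.1 z.2.1 z.2.2) (Ico 0 T ×ˢ univ) :=
            h.f_contDiff.continuousOn
          exact h1.comp_continuous (f := fun p : E3 × E3 => (τ, p.1, p.2)) (by fun_prop)
            fun p => ⟨hτ0, mem_univ _⟩
        have hpre : MeasurableSet {p : E3 × E3 | (τ, p.1, p.2) ∈ S} :=
          hSm.preimage (f := fun p : E3 × E3 => (τ, p.1, p.2))
            (measurable_const.prodMk (measurable_fst.prodMk measurable_snd))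
        have heq : (fun p : E3 × E3 =>
            S.indicator (fun _ => ENNReal.ofReal (f τ p.1 p.2)) (τ, p.1, p.2))
            = {p : E3 × E3 | (τ, p.1, p.2) ∈ S}.indicator
              (fun p => ENNReal.ofReal (f τ p.1 p.2)) := by
          funext p
          by_cases hp : (τ, p.1, p.2) ∈ S
          · rw [indicator_of_mem hp, indicator_of_mem (by exact hp)]
          · rw [indicator_of_notMem hp, indicator_of_notMem (by exact hp)]
        rw [heq]
        exact hcont.measurable.ennreal_ofReal.indicator hpre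
      · exfalso
        apply hτT
        linarith only [h2T, hR, hτ.2]
    calc ∫⁻ z, H (τ + ‖z‖, z) = ∫⁻ v, ∫⁻ z, K.indicator F (τ + ‖z‖, z, v) := by
          simp only [hH]
          exact lintegral_lintegral_swap (f := fun z v => K.indicator F (τ + ‖z‖, z, v))
            hmτ.aemeasurable
      _ ≤ ∫⁻ v, ∫⁻ x, S.indicator (fun _ => ENNReal.ofReal (f τ x v)) (τ, x, v) := by
          refine lintegral_mono fun v => ?_
          refine slice_transfer hU'c hd hU'1 τ
            (fun x => S.indicator (fun _ => ENNReal.ofReal (f τ x v)) (τ, x, v))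
            (fun z => K.indicator F (τ + ‖z‖, z, v)) ?_ ?_
          · intro z hz
            have h1 : (τ + ‖z‖, z, v) ∈ K := by
              by_contra hcon
              exact hz (indicator_of_notMem hcon _)
            rw [indicator_of_mem h1] at hz
            have h2 : (τ + ‖z‖, z, v) ∈ c' := by
              by_contra hcon
              apply hz
              simp only [hF]
              rw [indicator_of_notMem hcon, zero_mul]
            have h3 : R / 2 < ‖z‖ := (hcR _ h2.1).1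
            exact ⟨norm_pos_iff.1 (by linarith only [hR, h3]), h1⟩
          · intro z hz
            have h1 : (τ + ‖z‖, z, v) ∈ K := hz.2
            rw [indicator_of_mem h1]
            simp only [hF]
            by_cases hmem : (τ + ‖z‖, z, v) ∈ c'
            · have hSmem : (τ, Phi X' τ z, v) ∈ S := by
                refine ⟨(τ + ‖z‖, z, v), hmem, ?_⟩
                simp only [hΨ, Phi, add_sub_cancel_right]
              rw [indicator_of_mem hmem, indicator_of_mem hSmem]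
              have h2 : ta ≤ τ ∧ τ < T := by
                have := hmem.2.2
                simpa using this
              have h3 : fl ta T f (τ + ‖z‖ - ‖z‖) (X' (τ + ‖z‖) + z) v
                  = ENNReal.ofReal (f τ (Phi X' τ z) v) := by
                unfold fl
                rw [add_sub_cancel_right, if_pos h2]
                rfl
              rw [h3]
            · rw [indicator_of_notMem hmem, zero_mul]
              exact zero_le
      _ = ∫⁻ x, ∫⁻ v, S.indicator (fun _ => ENNReal.ofReal (f τ x v)) (τ, x, v) :=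
          (lintegral_lintegral_swap
            (f := fun x v => S.indicator (fun _ => ENNReal.ofReal (f τ x v)) (τ, x, v))
            hSτ.aemeasurable).symm
  · rw [indicator_of_notMem hτ]
    apply le_of_eq
    have hzero : ∀ z v : E3, K.indicator F (τ + ‖z‖, z, v) = 0 := by
      intro z v
      by_contra hne
      have h1 : (τ + ‖z‖, z, v) ∈ K := by
        by_contra hcon
        exact hne (indicator_of_notMem hcon _)
      rw [indicator_of_mem h1] at hne
      have h2 : (τ + ‖z‖, z, v) ∈ c' := by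
        by_contra hcon
        apply hne
        simp only [hF]
        rw [indicator_of_notMem hcon, zero_mul]
      apply hτ
      have h3 : t₁ < τ + ‖z‖ := h1.1
      have h4 : τ + ‖z‖ < t₂ := h1.2
      have h5 : R / 2 < ‖z‖ := (hcR _ h2.1).1
      have h6 : ‖z‖ ≤ R := (hcR _ h2.1).2
      have h7 : ta ≤ τ := by
        have := h2.2.2.1
        simpa using this
      exact ⟨max_le h7 (by linarith only [h3, h6]), by linarith only [h4, h5]⟩
    simp only [hH, hzero, lintegral_zero]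

end Vale.Agent.P107
end
end
end

section

section

attribute [-instance] ProperSMul.toContinuousSMul IsTopologicalTorsor.toContinuousSMul
  IdemSemiring.toCanonicallyOrderedAdd IdemSemiring.toMulLeftMono IdemSemiring.toMulRightMono
  AddQuantale.instAddLeftMono AddQuantale.instAddRightMono Quantale.instMulLeftMono
  Quantale.instMulRightMono FiniteDimensional.rclike_to_real IsScalarTower.complexToReal
  FiniteDimensional.complexToReal

section

/-!
Module M2T, part 2: measurability of the cells and sums over cells.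
-/

open MeasureTheory Set Filter Topology
open scoped RealInnerProductSpace ENNReal NNReal

namespace Vale.Agent.P107

open Vale.Agent.P107.Ar

/-- Clamping a continuous path. -/
lemma dT_clamp {X : ℝ → E3} {t₁ t₂ : ℝ} (h12 : t₁ ≤ t₂) (hX : ContinuousOn X (Icc t₁ t₂)) :
    ∃ X' : ℝ → E3, Continuous X' ∧ ∀ s ∈ Icc t₁ t₂, X' s = X s := by
  have hproj : Continuous fun s : ℝ => ((projIcc t₁ t₂ h12 s : Icc t₁ t₂) : ℝ) :=
    continuous_subtype_val.comp continuous_projIcc
  refine ⟨fun s => X (projIcc t₁ t₂ h12 s),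
    hX.comp_continuous hproj fun s => (projIcc t₁ t₂ h12 s).2, ?_⟩
  intro s hs
  have : ((projIcc t₁ t₂ h12 s : Icc t₁ t₂) : ℝ) = s := by rw [projIcc_of_mem h12 hs]
  simp only [this]

lemma dT_measurable_dir : Measurable dir := by
  unfold dir
  exact (measurable_norm.inv).smul measurable_id

lemma dT_measurable_al {Ω : Type*} [MeasurableSpace Ω] {g h : Ω → E3} (hg : Measurable g)
    (hh : Measurable h) : Measurable fun y => al (g y) (h y) := by
  unfold al
  exact measurable_const.add (hh.inner hg)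

lemma dT_meas_alI {Ω : Type*} [MeasurableSpace Ω] {g : Ω → ℝ} (hg : Measurable g) (m : ℕ) :
    MeasurableSet {y | alI m (g y)} :=
  (measurableSet_Ioc (a := 2 * (1 / 4 : ℝ) ^ (m + 1)) (b := 2 * (1 / 4 : ℝ) ^ m)).preimage hg

lemma dT_meas_phI {Ω : Type*} [MeasurableSpace Ω] {g : Ω → ℝ} (hg : Measurable g) (m : ℕ) :
    MeasurableSet {y | phI m (g y)} :=
  (measurableSet_Ioc (a := 2 * (1 / 2 : ℝ) ^ (m + 1)) (b := 2 * (1 / 2 : ℝ) ^ m)).preimage hg

lemma dT_meas_qI {Ω : Type*} [MeasurableSpace Ω] {g : Ω → ℝ} (hg : Measurable g) (p i : ℕ) :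
    MeasurableSet {y | qI p i (g y)} :=
  (measurableSet_Ioc (a := qq p i / 2) (b := qq p i)).preimage hg

lemma dT_meas_shellI {Ω : Type*} [MeasurableSpace Ω] {g : Ω → E3} (hg : Measurable g)
    (T₁ : ℝ) (k : ℕ) : MeasurableSet {y | shellI T₁ k (g y)} :=
  (measurableSet_Ioc (a := T₁ * (1 / 2 : ℝ) ^ (k + 1)) (b := T₁ * (1 / 2 : ℝ) ^ k)).preimage hg.norm

/-- The cells `cellAN` are measurable. -/
theorem dT_meas_cellAN {V : ℝ → E3} {t₁ t₂ : ℝ} (h12 : t₁ ≤ t₂)
    (hV : ContinuousOn V (Icc t₁ t₂)) (T₁ : ℝ) (p k m l i : ℕ) :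
    MeasurableSet (cellAN T₁ p V t₁ t₂ k m l i) := by
  obtain ⟨V', hV'c, hVV⟩ := dT_clamp h12 hV
  have heq : cellAN T₁ p V t₁ t₂ k m l i = cellAN T₁ p V' t₁ t₂ k m l i := by
    ext y
    unfold cellAN
    simp only [mem_setOf_eq]
    constructor
    · rintro ⟨h1, h2⟩
      rw [hVV _ h1]
      exact ⟨h1, h2⟩
    · rintro ⟨h1, h2⟩
      rw [hVV _ h1] at h2
      exact ⟨h1, h2⟩
  rw [heq]
  have mz : Measurable fun y : ℝ × E3 × E3 => y.2.1 := measurable_fst.comp measurable_snd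
  have mv : Measurable fun y : ℝ × E3 × E3 => y.2.2 := measurable_snd.comp measurable_snd
  have mdir : Measurable fun y : ℝ × E3 × E3 => dir y.2.1 := dT_measurable_dir.comp mz
  have muV : Measurable fun y : ℝ × E3 × E3 => u (V' y.1) :=
    (continuous_u.comp hV'c).measurable.comp measurable_fst
  have muv : Measurable fun y : ℝ × E3 × E3 => u y.2.2 := continuous_u.measurable.comp mv
  have mqv : Measurable fun y : ℝ × E3 × E3 => q y.2.2 := continuous_q.measurable.comp mv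
  exact (measurableSet_Icc.preimage measurable_fst).inter
    ((dT_meas_shellI mz T₁ k).inter ((dT_meas_alI (dT_measurable_al mdir muV) m).inter
      ((dT_meas_alI (dT_measurable_al mdir muv) l).inter (dT_meas_qI mqv p i))))

/-- The cells `cellD` are measurable. -/
theorem dT_meas_cellD {V : ℝ → E3} {t₁ t₂ : ℝ} (h12 : t₁ ≤ t₂)
    (hV : ContinuousOn V (Icc t₁ t₂)) (T₁ : ℝ) (p k m n i : ℕ) :
    MeasurableSet (cellD T₁ p V t₁ t₂ k m n i) := by
  obtain ⟨V', hV'c, hVV⟩ := dT_clamp h12 hV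
  have heq : cellD T₁ p V t₁ t₂ k m n i = cellD T₁ p V' t₁ t₂ k m n i := by
    ext y
    unfold cellD
    simp only [mem_setOf_eq]
    constructor
    · rintro ⟨h1, h2⟩
      rw [hVV _ h1]
      exact ⟨h1, h2⟩
    · rintro ⟨h1, h2⟩
      rw [hVV _ h1] at h2
      exact ⟨h1, h2⟩
  rw [heq]
  have mz : Measurable fun y : ℝ × E3 × E3 => y.2.1 := measurable_fst.comp measurable_snd
  have mv : Measurable fun y : ℝ × E3 × E3 => y.2.2 := measurable_snd.comp measurable_snd
  have mdir : Measurable fun y : ℝ × E3 × E3 => dir y.2.1 := dT_measurable_dir.comp mz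
  have muV : Measurable fun y : ℝ × E3 × E3 => u (V' y.1) :=
    (continuous_u.comp hV'c).measurable.comp measurable_fst
  have muv : Measurable fun y : ℝ × E3 × E3 => u y.2.2 := continuous_u.measurable.comp mv
  have mqv : Measurable fun y : ℝ × E3 × E3 => q y.2.2 := continuous_q.measurable.comp mv
  have ml : MeasurableSet {y : ℝ × E3 × E3 | ∃ l : ℕ, l ≤ m + 3 ∧ m ≤ l + 3 ∧
      alI l (al (dir y.2.1) (u y.2.2))} := by
    have : {y : ℝ × E3 × E3 | ∃ l : ℕ, l ≤ m + 3 ∧ m ≤ l + 3 ∧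
        alI l (al (dir y.2.1) (u y.2.2))}
        = ⋃ l : ℕ, {y | l ≤ m + 3 ∧ m ≤ l + 3 ∧ alI l (al (dir y.2.1) (u y.2.2))} := by
      ext y
      simp
    rw [this]
    refine MeasurableSet.iUnion fun l => ?_
    exact (MeasurableSet.const _).inter ((MeasurableSet.const _).inter
      (dT_meas_alI (dT_measurable_al mdir muv) l))
  exact (measurableSet_Icc.preimage measurable_fst).inter
    ((dT_meas_shellI mz T₁ k).inter ((dT_meas_alI (dT_measurable_al mdir muV) m).inter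
      (ml.inter ((dT_meas_phI (muv.sub muV).norm n).inter (dT_meas_qI mqv p i)))))

/-- `pathInt` is the integral for a measure on `(s, z, v)` space. -/
theorem dT_pathInt_measure {T : ℝ} {f : ℝ → E3 → E3 → ℝ} {E B : ℝ → E3 → E3}
    (h : IsClassicalSolution T f E B) {ta : ℝ} (h0 : 0 < ta) {X : ℝ → E3} {t₁ t₂ : ℝ}
    (h12 : t₁ ≤ t₂) (hX : ContinuousOn X (Icc t₁ t₂)) :
    ∃ μ : Measure (ℝ × E3 × E3), ∀ G : ℝ × E3 × E3 → ℝ≥0∞, Measurable G →
      pathInt ta T f X t₁ t₂ (fun s z v => G (s, z, v)) = ∫⁻ y, G y ∂μ := by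
  obtain ⟨X', hX'c, hXX⟩ := dT_clamp h12 hX
  set F : ℝ × E3 × E3 → ℝ≥0∞ := fun y => fl ta T f (y.1 - ‖y.2.1‖) (X' y.1 + y.2.1) y.2.2 with hF
  have hFm : Measurable F := by
    have hc : Continuous fun y : ℝ × E3 × E3 => (y.1 - ‖y.2.1‖, X' y.1 + y.2.1, y.2.2) := by
      have : Continuous fun y : ℝ × E3 × E3 => X' y.1 := hX'c.comp continuous_fst
      (clear * - hX'c; fun_prop)
    exact (measurable_fl h h0).comp hc.measurable
  refine ⟨((volume.restrict (Icc t₁ t₂)).prod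
    ((volume : Measure E3).prod (volume : Measure E3))).withDensity F, ?_⟩
  intro G hG
  rw [lintegral_withDensity_eq_lintegral_mul _ hFm hG,
    lintegral_prod _ (hFm.mul hG).aemeasurable]
  unfold pathInt coneInt
  refine setLIntegral_congr_fun measurableSet_Icc ?_
  intro s hs
  simp only
  have hm : Measurable fun p : E3 × E3 => (F * G) (s, p) :=
    (hFm.mul hG).comp measurable_prodMk_left
  rw [lintegral_prod _ hm.aemeasurable]
  refine lintegral_congr fun z => lintegral_congr fun v => ?_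
  simp only [hF, Pi.mul_apply, hXX s hs]
  rw [mul_comm]

/-- `pathInt` of a sum over cells. -/
theorem dT_pathInt_cells {T : ℝ} {f : ℝ → E3 → E3 → ℝ} {E B : ℝ → E3 → E3}
    (h : IsClassicalSolution T f E B) {ta : ℝ} (h0 : 0 < ta) {X : ℝ → E3} {t₁ t₂ : ℝ}
    (h12 : t₁ ≤ t₂) (hX : ContinuousOn X (Icc t₁ t₂))
    (c : ℕ → ℕ → ℕ → ℕ → ℝ≥0∞) (S : ℕ → ℕ → ℕ → ℕ → Set (ℝ × E3 × E3))
    (hS : ∀ k m l i, MeasurableSet (S k m l i)) :
    pathInt ta T f X t₁ t₂ (fun s z v => ∑' (k : ℕ) (m : ℕ) (l : ℕ) (i : ℕ),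
        c k m l i * (S k m l i).indicator (fun _ => 1) (s, z, v))
      = ∑' (k : ℕ) (m : ℕ) (l : ℕ) (i : ℕ), c k m l i * mass ta T f X t₁ t₂ (S k m l i) := by
  obtain ⟨μ, hμ⟩ := dT_pathInt_measure h h0 h12 hX
  have m4 : ∀ k m l i, Measurable fun y : ℝ × E3 × E3 =>
      c k m l i * (S k m l i).indicator (fun _ => (1 : ℝ≥0∞)) y := fun k m l i =>
    measurable_const.mul (measurable_const.indicator (hS k m l i))
  have m3 : ∀ k m l, Measurable fun y : ℝ × E3 × E3 =>
      ∑' i, c k m l i * (S k m l i).indicator (fun _ => (1 : ℝ≥0∞)) y := fun k m l =>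
    Measurable.ennreal_tsum fun i => m4 k m l i
  have m2 : ∀ k m, Measurable fun y : ℝ × E3 × E3 =>
      ∑' l, ∑' i, c k m l i * (S k m l i).indicator (fun _ => (1 : ℝ≥0∞)) y := fun k m =>
    Measurable.ennreal_tsum fun l => m3 k m l
  have m1 : ∀ k, Measurable fun y : ℝ × E3 × E3 =>
      ∑' m, ∑' l, ∑' i, c k m l i * (S k m l i).indicator (fun _ => (1 : ℝ≥0∞)) y := fun k =>
    Measurable.ennreal_tsum fun m => m2 k m
  have m0 : Measurable fun y : ℝ × E3 × E3 =>
      ∑' k, ∑' m, ∑' l, ∑' i, c k m l i * (S k m l i).indicator (fun _ => (1 : ℝ≥0∞)) y :=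
    Measurable.ennreal_tsum fun k => m1 k
  rw [hμ _ m0, lintegral_tsum fun k => (m1 k).aemeasurable]
  refine tsum_congr fun k => ?_
  rw [lintegral_tsum fun m => (m2 k m).aemeasurable]
  refine tsum_congr fun m => ?_
  rw [lintegral_tsum fun l => (m3 k m l).aemeasurable]
  refine tsum_congr fun l => ?_
  rw [lintegral_tsum fun i => (m4 k m l i).aemeasurable]
  refine tsum_congr fun i => ?_
  rw [lintegral_const_mul _ (measurable_const.indicator (hS k m l i))]
  unfold mass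
  rw [hμ _ (measurable_const.indicator (hS k m l i))]

/-- `pathInt` is additive for measurable kernels. -/
theorem dT_pathInt_add {T : ℝ} {f : ℝ → E3 → E3 → ℝ} {E B : ℝ → E3 → E3}
    (h : IsClassicalSolution T f E B) {ta : ℝ} (h0 : 0 < ta) {X : ℝ → E3} {t₁ t₂ : ℝ}
    (h12 : t₁ ≤ t₂) (hX : ContinuousOn X (Icc t₁ t₂)) {G H : ℝ × E3 × E3 → ℝ≥0∞}
    (hG : Measurable G) (hH : Measurable H) :
    pathInt ta T f X t₁ t₂ (fun s z v => G (s, z, v) + H (s, z, v))
      = pathInt ta T f X t₁ t₂ (fun s z v => G (s, z, v))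
        + pathInt ta T f X t₁ t₂ (fun s z v => H (s, z, v)) := by
  obtain ⟨μ, hμ⟩ := dT_pathInt_measure h h0 h12 hX
  rw [hμ (fun y => G y + H y) (hG.add hH), hμ G hG, hμ H hH, lintegral_add_left hG]

/-- The sum over cells is measurable. -/
theorem dT_meas_cells (c : ℕ → ℕ → ℕ → ℕ → ℝ≥0∞) (S : ℕ → ℕ → ℕ → ℕ → Set (ℝ × E3 × E3))
    (hS : ∀ k m l i, MeasurableSet (S k m l i)) :
    Measurable fun y : ℝ × E3 × E3 => ∑' (k : ℕ) (m : ℕ) (l : ℕ) (i : ℕ),
        c k m l i * (S k m l i).indicator (fun _ => (1 : ℝ≥0∞)) y :=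
  Measurable.ennreal_tsum fun k => Measurable.ennreal_tsum fun m =>
    Measurable.ennreal_tsum fun l => Measurable.ennreal_tsum fun i =>
      measurable_const.mul (measurable_const.indicator (hS k m l i))

/-- A term of the sum over cells is below the sum. -/
theorem dT_le_cells {c : ℕ → ℕ → ℕ → ℕ → ℝ≥0∞} {S : ℕ → ℕ → ℕ → ℕ → Set (ℝ × E3 × E3)}
    {y : ℝ × E3 × E3} {k m l i : ℕ} (hy : y ∈ S k m l i) :
    c k m l i ≤ ∑' (k : ℕ) (m : ℕ) (l : ℕ) (i : ℕ),
      c k m l i * (S k m l i).indicator (fun _ => (1 : ℝ≥0∞)) y := by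
  have h1 : c k m l i = c k m l i * (S k m l i).indicator (fun _ => (1 : ℝ≥0∞)) y := by
    rw [indicator_of_mem hy, mul_one]
  rw [h1]
  refine le_trans (ENNReal.le_tsum
    (f := fun i => c k m l i * (S k m l i).indicator (fun _ => (1 : ℝ≥0∞)) y) i) ?_
  refine le_trans (ENNReal.le_tsum (f := fun l => ∑' (i : ℕ),
    c k m l i * (S k m l i).indicator (fun _ => (1 : ℝ≥0∞)) y) l) ?_
  refine le_trans (ENNReal.le_tsum (f := fun m => ∑' (l : ℕ) (i : ℕ),
    c k m l i * (S k m l i).indicator (fun _ => (1 : ℝ≥0∞)) y) m) ?_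
  exact ENNReal.le_tsum (f := fun k => ∑' (m : ℕ) (l : ℕ) (i : ℕ),
    c k m l i * (S k m l i).indicator (fun _ => (1 : ℝ≥0∞)) y) k

end Vale.Agent.P107
end
end
end

section

section

attribute [-instance] ProperSMul.toContinuousSMul IsTopologicalTorsor.toContinuousSMul
  IdemSemiring.toCanonicallyOrderedAdd IdemSemiring.toMulLeftMono IdemSemiring.toMulRightMono
  AddQuantale.instAddLeftMono AddQuantale.instAddRightMono Quantale.instMulLeftMono
  Quantale.instMulRightMono FiniteDimensional.rclike_to_real IsScalarTower.complexToReal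
  FiniteDimensional.complexToReal

section

/-!
Energy flux through backward light cones (statement `cone_flux`).
-/

open MeasureTheory Set Filter Topology
open scoped RealInnerProductSpace ENNReal NNReal

namespace Vale.Agent.P107

namespace Flux

/-- a smooth step: `1` on `(-∞, 0]`, `0` on `[1, ∞)` -/
noncomputable def ps (r : ℝ) : ℝ := Real.smoothTransition (1 - r)

/-- minus the derivative of `ps` -/
noncomputable def kk (r : ℝ) : ℝ := deriv Real.smoothTransition (1 - r)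

lemma contDiff_st : ContDiff ℝ 1 Real.smoothTransition := Real.smoothTransition.contDiff

lemma contDiff_ps : ContDiff ℝ 1 ps := contDiff_st.comp (contDiff_const.sub contDiff_id)

lemma continuous_kk : Continuous kk :=
  (contDiff_st.continuous_deriv (by norm_num)).comp (continuous_const.sub continuous_id)

lemma kk_nonneg (r : ℝ) : 0 ≤ kk r := Real.smoothTransition.monotone.deriv_nonneg

lemma hasDerivAt_ps (r : ℝ) : HasDerivAt ps (-kk r) r := by
  have h1 : HasDerivAt Real.smoothTransition (deriv Real.smoothTransition (1 - r)) (1 - r) :=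
    ((contDiff_st.differentiable (by norm_num)) _).hasDerivAt
  have h2 := h1.comp r ((hasDerivAt_id r).const_sub 1)
  refine h2.congr_deriv ?_
  unfold kk
  ring

lemma kk_of_nonpos {r : ℝ} (hr : r ≤ 0) : kk r = 0 := by
  unfold kk
  apply IsLocalMax.deriv_eq_zero
  refine Eventually.of_forall fun y => ?_
  rw [Real.smoothTransition.one_of_one_le (by linarith only [hr] : 1 ≤ 1 - r)]
  exact Real.smoothTransition.le_one y

lemma ps_of_nonpos {r : ℝ} (hr : r ≤ 0) : ps r = 1 :=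
  Real.smoothTransition.one_of_one_le (by linarith only [hr])

lemma ps_of_one_le {r : ℝ} (hr : 1 ≤ r) : ps r = 0 :=
  Real.smoothTransition.zero_of_nonpos (by linarith)

lemma kk_of_one_le {r : ℝ} (hr : 1 ≤ r) : kk r = 0 := by
  unfold kk
  apply IsLocalMin.deriv_eq_zero
  refine Eventually.of_forall fun y => ?_
  rw [Real.smoothTransition.zero_of_nonpos (by linarith : 1 - r ≤ 0)]
  exact Real.smoothTransition.nonneg y

lemma ps_nonneg (r : ℝ) : 0 ≤ ps r := Real.smoothTransition.nonneg _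

lemma ps_le_one (r : ℝ) : ps r ≤ 1 := Real.smoothTransition.le_one _

/-- the rescaled distance to the light cone -/
noncomputable def rr (s η : ℝ) (x : E3) (t : ℝ) (y : E3) : ℝ := (‖y - x‖ - (s - t)) / η

/-- the cutoff -/
noncomputable def ch (s η : ℝ) (x : E3) (t : ℝ) (y : E3) : ℝ := ps (rr s η x t y)

lemma continuous_rr (s η : ℝ) (x : E3) : Continuous fun z : ℝ × E3 => rr s η x z.1 z.2 := by
  unfold rr
  fun_prop

lemma contDiffOn_ch {s η : ℝ} (hη : 0 < η) (x : E3) :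
    ContDiffOn ℝ 1 (fun z : ℝ × E3 => ch s η x z.1 z.2) (Iio s ×ˢ univ) := by
  intro z hz
  apply ContDiffAt.contDiffWithinAt
  by_cases hx : z.2 = x
  · have h0 : rr s η x z.1 z.2 < 0 := by
      unfold rr
      rw [hx, sub_self, norm_zero]
      have : z.1 < s := hz.1
      exact div_neg_of_neg_of_pos (by linarith only [this]) hη
    have h1 : ∀ᶠ w : ℝ × E3 in 𝓝 z, rr s η x w.1 w.2 < 0 :=
      (continuous_rr s η x).continuousAt.eventually (gt_mem_nhds h0)
    refine (contDiffAt_const (c := (1 : ℝ))).congr_of_eventuallyEq ?_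
    filter_upwards [h1] with w hw
    exact ps_of_nonpos hw.le
  · have h0 : z.2 - x ≠ 0 := sub_ne_zero.2 hx
    have h1 : ContDiffAt ℝ 1 (fun w : ℝ × E3 => ‖w.2 - x‖) z :=
      ContDiffAt.norm ℝ (contDiffAt_snd.sub contDiffAt_const) h0
    have h2 : ContDiffAt ℝ 1 (fun w : ℝ × E3 => rr s η x w.1 w.2) z := by
      unfold rr
      exact (h1.sub (contDiffAt_const.sub contDiffAt_fst)).div_const η
    exact contDiff_ps.contDiffAt.comp z h2

lemma hasDerivAt_ch_time (s η : ℝ) (x : E3) (t : ℝ) (y : E3) :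
    HasDerivAt (fun t => ch s η x t y) (-(η⁻¹ * kk (rr s η x t y))) t := by
  have h1 : HasDerivAt (fun t => rr s η x t y) (η⁻¹) t := by
    unfold rr
    have h2 : HasDerivAt (fun t : ℝ => ‖y - x‖ - (s - t)) 1 t := by
      have := ((hasDerivAt_id t).const_sub s).const_sub ‖y - x‖
      simpa using this
    have h3 := h2.div_const η
    simpa [one_div] using h3
  refine ((hasDerivAt_ps _).comp t h1).congr_deriv ?_
  ring

lemma fderiv_ch {s η : ℝ} (hη : 0 < η) (x : E3) {t : ℝ} (ht : t < s) (y d : E3) :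
    fderiv ℝ (fun y => ch s η x t y) y d = -(η⁻¹ * kk (rr s η x t y)) * ⟪dir (y - x), d⟫ := by
  by_cases hx : y = x
  · have h0 : rr s η x t y < 0 := by
      unfold rr
      rw [hx, sub_self, norm_zero]
      exact div_neg_of_neg_of_pos (by linarith) hη
    have hc : Continuous fun w : E3 => rr s η x t w := by unfold rr; (clear * -; fun_prop)
    have h1 : ∀ᶠ w : E3 in 𝓝 y, rr s η x t w < 0 :=
      hc.continuousAt.eventually (gt_mem_nhds h0)
    have h2 : (fun y => ch s η x t y) =ᶠ[𝓝 y] fun _ => 1 := by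
      filter_upwards [h1] with w hw
      exact ps_of_nonpos hw.le
    rw [h2.fderiv_eq, fderiv_const_apply, kk_of_nonpos h1.self_of_nhds.le]
    simp
  · have h0 : y - x ≠ 0 := sub_ne_zero.2 hx
    have hn : ‖y - x‖ ≠ 0 := norm_ne_zero_iff.2 h0
    have h1 : HasFDerivAt (fun w : E3 => ‖w - x‖) (‖y - x‖⁻¹ • innerSL ℝ (y - x)) y := by
      have h2 := ((hasFDerivAt_id (𝕜 := ℝ) y).sub_const x).norm_sq
      have h4 := h2.sqrt (by
        have : (0 : ℝ) < ‖y - x‖ ^ 2 := by positivity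
        exact this.ne')
      have h5 : (fun w : E3 => √(‖id w - x‖ ^ 2)) = fun w => ‖w - x‖ := by
        funext w
        exact Real.sqrt_sq (norm_nonneg _)
      rw [h5] at h4
      refine h4.congr_fderiv ?_
      ext w
      simp only [id_eq, Real.sqrt_sq (norm_nonneg (y - x))]
      simp
      field_simp
    have h6 : HasFDerivAt (fun w : E3 => rr s η x t w)
        (η⁻¹ • (‖y - x‖⁻¹ • innerSL ℝ (y - x))) y := by
      unfold rr
      have h7 := (h1.sub_const (s - t)).const_mul η⁻¹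
      refine h7.congr_of_eventuallyEq ?_
      exact Eventually.of_forall fun w => by
        show (‖w - x‖ - (s - t)) / η = η⁻¹ * (‖w - x‖ - (s - t))
        rw [div_eq_inv_mul]
    have h8 := (hasDerivAt_ps (rr s η x t y)).comp_hasFDerivAt y h6
    have h9 : fderiv ℝ (fun y => ch s η x t y) y = _ := h8.fderiv
    rw [h9]
    simp only [smul_apply, innerSL_apply_apply, smul_eq_mul, dir,
      real_inner_smul_left]
    ring

variable {T : ℝ} {f : ℝ → E3 → E3 → ℝ} {E B : ℝ → E3 → E3}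

/-- the field part of the flux -/
noncomputable def fa (E B : ℝ → E3 → E3) (x : E3) (t : ℝ) (y : E3) : ℝ :=
  (‖E t y‖ ^ 2 + ‖B t y‖ ^ 2) / 2 + ⟪dir (y - x), cross (E t y) (B t y)⟫

/-- the particle part of the flux -/
noncomputable def fp (f : ℝ → E3 → E3 → ℝ) (x : E3) (t : ℝ) (z : E3 × E3) : ℝ :=
  q z.2 * al (dir (z.1 - x)) (u z.2) * f t z.1 z.2

lemma contDiff_ch_slice {s η : ℝ} (hη : 0 < η) (x : E3) {t : ℝ} (ht : t < s) :
    ContDiff ℝ 1 (fun y => ch s η x t y) := by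
  have h1 : ContDiffOn ℝ 1 (fun y : E3 => ch s η x t y) univ :=
    (contDiffOn_ch hη x).comp (f := fun y : E3 => (t, y)) (by fun_prop)
      (fun z _ => ⟨ht, mem_univ _⟩)
  exact contDiffOn_univ.1 h1

lemma continuous_ch (s η : ℝ) (x : E3) : Continuous fun z : ℝ × E3 => ch s η x z.1 z.2 :=
  contDiff_ps.continuous.comp (continuous_rr s η x)

lemma ch_eq_zero {s η : ℝ} (hη : 0 < η) {x : E3} {t : ℝ} (ht : 0 ≤ t) {y : E3}
    (hy : y ∉ Metric.closedBall x (s + η)) : ch s η x t y = 0 := by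
  apply ps_of_one_le
  rw [Metric.mem_closedBall, dist_eq_norm, not_le] at hy
  unfold rr
  rw [le_div_iff₀ hη]
  linarith only [ht, hy]

lemma kkrr_eq_zero {s η : ℝ} (hη : 0 < η) {x : E3} {t : ℝ} (ht : 0 ≤ t) {y : E3}
    (hy : y ∉ Metric.closedBall x (s + η)) : kk (rr s η x t y) = 0 := by
  apply kk_of_one_le
  rw [Metric.mem_closedBall, dist_eq_norm, not_le] at hy
  unfold rr
  rw [le_div_iff₀ hη]
  linarith

lemma hasCompactSupport_ch {s η : ℝ} (hη : 0 < η) (x : E3) {t : ℝ} (ht : 0 ≤ t) :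
    HasCompactSupport fun y => ch s η x t y :=
  HasCompactSupport.intro (isCompact_closedBall x (s + η)) fun _ hy => ch_eq_zero hη ht hy

/-- the product of the kernel with the direction is continuous -/
lemma continuous_kk_dir {s η : ℝ} (hη : 0 < η) (x : E3) {t : ℝ} (ht : t < s) :
    Continuous fun y => kk (rr s η x t y) • dir (y - x) := by
  rw [continuous_iff_continuousAt]
  intro y
  by_cases hx : y = x
  · have h0 : rr s η x t y < 0 := by
      unfold rr
      rw [hx, sub_self, norm_zero]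
      exact div_neg_of_neg_of_pos (by linarith only [ht]) hη
    have hc : Continuous fun w : E3 => rr s η x t w := by unfold rr; fun_prop
    have h1 : ∀ᶠ w : E3 in 𝓝 y, rr s η x t w < 0 :=
      hc.continuousAt.eventually (gt_mem_nhds h0)
    have h2 : (fun y => kk (rr s η x t y) • dir (y - x)) =ᶠ[𝓝 y] fun _ => 0 := by
      filter_upwards [h1] with w hw
      rw [kk_of_nonpos hw.le, zero_smul]
    exact h2.continuousAt
  · have h0 : y - x ≠ 0 := sub_ne_zero.2 hx
    have hc : Continuous fun w : E3 => rr s η x t w := by unfold rr; (clear * -; fun_prop)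
    refine ContinuousAt.smul (continuous_kk.comp hc).continuousAt ?_
    unfold dir
    have a1 : Continuous fun y : E3 => ‖y - x‖ := by fun_prop
    have a2 : Continuous fun y : E3 => y - x := by fun_prop
    exact (a1.continuousAt.inv₀ (norm_ne_zero_iff.2 h0)).smul a2.continuousAt

lemma integral_chi_fuE (h : IsClassicalSolution T f E B) {t : ℝ} (ht : t ∈ Ico 0 T) {χ : E3 → ℝ}
    (hχ : Continuous χ) :
    ∫ z : E3 × E3, χ z.1 * (f t z.1 z.2 * ⟪u z.2, E t z.1⟫) = ∫ x, χ x * ⟪E t x, cur f t x⟫ := by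
  have := isAddHaar_prod
  have hint : Integrable (fun z : E3 × E3 => χ z.1 * (f t z.1 z.2 * ⟪u z.2, E t z.1⟫)) := by
    refine Continuous.integrable_of_hasCompactSupport ?_
      (HasCompactSupport.mul_left (HasCompactSupport.mul_right (h.hasCompactSupport ht)))
    exact (hχ.comp continuous_fst).mul ((h.f_slice ht).continuous.mul
      ((continuous_u.comp continuous_snd).inner
      ((h.E_slice ht).continuous.comp continuous_fst)))
  rw [Measure.volume_eq_prod, integral_prod _ (by rwa [← Measure.volume_eq_prod])]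
  refine integral_congr_ae (ae_of_all _ fun x => ?_)
  have hfv : Continuous fun v => f t x v :=
    (h.f_slice ht).continuous.comp (f := fun v : E3 => (x, v)) (by fun_prop)
  obtain ⟨R, hR⟩ := h.exists_support ht
  have hsupp : HasCompactSupport fun v => f t x v := by
    refine HasCompactSupport.intro (isCompact_closedBall (0 : E3) R) fun v hv => ?_
    exact hR t ⟨ht.1, le_refl _⟩ (x, v) (fun hz => hv hz.2)
  have hi : Integrable fun v => f t x v • u v :=
    (hfv.smul continuous_u).integrable_of_hasCompactSupport (HasCompactSupport.smul_right hsupp)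
  show ∫ v, χ x * (f t x v * ⟪u v, E t x⟫) = χ x * ⟪E t x, cur f t x⟫
  rw [integral_const_mul]
  congr 1
  unfold cur
  rw [← integral_inner hi]
  refine integral_congr_ae (ae_of_all _ fun v => ?_)
  show f t x v * ⟪u v, E t x⟫ = ⟪E t x, f t x v • u v⟫
  rw [real_inner_smul_right, real_inner_comm]

lemma int_comb {α : Type*} [MeasurableSpace α] {μ : Measure α} {a b c : α → ℝ} (k : ℝ)
    (ha : Integrable a μ) (hb : Integrable b μ) (hc : Integrable c μ) :
    ∫ y, (k * a y + b y - c y) ∂μ = k * ∫ y, a y ∂μ + ∫ y, b y ∂μ - ∫ y, c y ∂μ := by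
  have h1 : Integrable (fun y => k * a y + b y) μ := (ha.const_mul k).add hb
  rw [integral_sub h1 hc, integral_add (ha.const_mul k) hb, integral_const_mul]

/-- the derivative of the localized field energy -/
lemma hasDerivAt_fenT (h : IsClassicalSolution T f E B) {s η : ℝ} (hη : 0 < η) (hs : s < T)
    (x : E3) {t : ℝ} (ht : t ∈ Ioo 0 s) :
    HasDerivAt (fun t => ∫ y, ch s η x t y * ((‖E t y‖ ^ 2 + ‖B t y‖ ^ 2) / 2))
      (-(η⁻¹ * ∫ y, kk (rr s η x t y) * fa E B x t y)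
        - ∫ y, ch s η x t y * ⟪E t y, cur f t y⟫) t := by
  have hsub : Ioo 0 s ⊆ Ioo 0 T := Ioo_subset_Ioo_right hs.le
  have htT : t ∈ Ioo 0 T := hsub ht
  have htT' : t ∈ Ico 0 T := Ioo_subset_Ico_self htT
  have h1 := hasDerivAt_integral_of_compact (μ := (volume : Measure E3)) (a := 0) (b := s)
    (K := Metric.closedBall x (s + η))
    (F := fun t y => ch s η x t y * ((‖E t y‖ ^ 2 + ‖B t y‖ ^ 2) / 2))
    (F' := fun t y => -(η⁻¹ * kk (rr s η x t y)) * ((‖E t y‖ ^ 2 + ‖B t y‖ ^ 2) / 2) +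
      ch s η x t y * (⟪E t y, fderiv ℝ (fun y : ℝ × E3 => E y.1 y.2) (t, y) (1, 0)⟫
      + ⟪B t y, fderiv ℝ (fun y : ℝ × E3 => B y.1 y.2) (t, y) (1, 0)⟫))
    (isCompact_closedBall _ _) ?_ ?_ ?_ ?_ ht
  · refine h1.congr_deriv ?_
    have hE := (h.E_slice htT').continuous
    have hB := (h.B_slice htT').continuous
    have hcE := continuous_curl (h.E_slice htT')
    have hcB := continuous_curl (h.B_slice htT')
    have hch := (contDiff_ch_slice hη x ht.2)
    have hcs := hasCompactSupport_ch hη (s := s) x ht.1.le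
    have hkc : Continuous fun y => kk (rr s η x t y) :=
      continuous_kk.comp (by unfold rr; fun_prop)
    have hkcs : HasCompactSupport fun y => kk (rr s η x t y) :=
      HasCompactSupport.intro (isCompact_closedBall x (s + η)) fun _ hy =>
        kkrr_eq_zero hη ht.1.le hy
    have hen : Continuous fun y => (‖E t y‖ ^ 2 + ‖B t y‖ ^ 2) / 2 :=
      ((hE.norm.pow 2).add (hB.norm.pow 2)).div_const 2
    have hcross : Continuous fun y => cross (E t y) (B t y) :=
      (contDiff_cross (h.E_slice htT') (h.B_slice htT')).continuous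
    have hkd : Continuous fun y => kk (rr s η x t y) * ⟪dir (y - x), cross (E t y) (B t y)⟫ := by
      have h2 : Continuous fun y => ⟪kk (rr s η x t y) • dir (y - x), cross (E t y) (B t y)⟫ :=
        (continuous_kk_dir hη x ht.2).inner hcross
      simpa only [real_inner_smul_left] using h2
    have i1 : Integrable fun y => kk (rr s η x t y) * ((‖E t y‖ ^ 2 + ‖B t y‖ ^ 2) / 2) :=
      (hkc.mul hen).integrable_of_hasCompactSupport hkcs.mul_right
    have i2 : Integrable fun y => kk (rr s η x t y) * ⟪dir (y - x), cross (E t y) (B t y)⟫ :=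
      hkd.integrable_of_hasCompactSupport hkcs.mul_right
    have i3 : Integrable fun y => ch s η x t y *
        (⟪E t y, curl (B t) y⟫ - ⟪B t y, curl (E t) y⟫) :=
      (hch.continuous.mul ((hE.inner hcB).sub (hB.inner hcE))).integrable_of_hasCompactSupport
        hcs.mul_right
    have i4 : Integrable fun y => ch s η x t y * ⟪E t y, cur f t y⟫ :=
      (hch.continuous.mul (hE.inner (h.continuous_cur htT))).integrable_of_hasCompactSupport
        hcs.mul_right
    have e1 : ∀ y, -(η⁻¹ * kk (rr s η x t y)) * ((‖E t y‖ ^ 2 + ‖B t y‖ ^ 2) / 2) +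
        ch s η x t y * (⟪E t y, fderiv ℝ (fun y : ℝ × E3 => E y.1 y.2) (t, y) (1, 0)⟫
        + ⟪B t y, fderiv ℝ (fun y : ℝ × E3 => B y.1 y.2) (t, y) (1, 0)⟫) =
        (-η⁻¹) * (kk (rr s η x t y) * ((‖E t y‖ ^ 2 + ‖B t y‖ ^ 2) / 2)) +
        ch s η x t y * (⟪E t y, curl (B t) y⟫ - ⟪B t y, curl (E t) y⟫)
        - ch s η x t y * ⟪E t y, cur f t y⟫ := by
      intro y
      rw [h.ampere_fderiv htT, h.faraday_fderiv htT, inner_neg_right, inner_sub_right]
      ring
    simp_rw [e1]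
    rw [int_comb _ i1 i3 i4, maxwell_ibp hch hcs (h.E_slice htT') (h.B_slice htT')]
    have e2 : ∀ y, fderiv ℝ (fun y => ch s η x t y) y (cross (E t y) (B t y)) =
        (-η⁻¹) * (kk (rr s η x t y) * ⟪dir (y - x), cross (E t y) (B t y)⟫) := by
      intro y
      rw [fderiv_ch hη x ht.2]
      ring
    have e3 : ∀ y, kk (rr s η x t y) * fa E B x t y =
        kk (rr s η x t y) * ((‖E t y‖ ^ 2 + ‖B t y‖ ^ 2) / 2) +
        kk (rr s η x t y) * ⟪dir (y - x), cross (E t y) (B t y)⟫ := by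
      intro y
      unfold fa
      ring
    simp_rw [e2, e3]
    rw [integral_const_mul, integral_add i1 i2]
    ring
  · intro r hr y hy
    rw [ch_eq_zero hη hr.1.le hy, zero_mul]
  · intro r hr y
    have hE := (hasDerivAt_of_slab h.E_contDiff (hsub hr) y).norm_sq
    have hB := (hasDerivAt_of_slab h.B_contDiff (hsub hr) y).norm_sq
    refine ((hasDerivAt_ch_time s η x r y).mul ((hE.add hB).div_const 2)).congr_deriv ?_
    simp only [Pi.add_apply]
    ring
  · intro r hr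
    have hE := (h.E_slice (Ioo_subset_Ico_self (hsub hr))).continuous
    have hB := (h.B_slice (Ioo_subset_Ico_self (hsub hr))).continuous
    exact (contDiff_ch_slice hη x hr.2).continuous.mul
      (((hE.norm.pow 2).add (hB.norm.pow 2)).div_const 2)
  · have hE : ContinuousOn (fun y : ℝ × E3 => E y.1 y.2) (Ioo 0 s ×ˢ univ) :=
      h.E_contDiff.continuousOn.mono
        (prod_mono (hsub.trans Ioo_subset_Ico_self) (subset_refl _))
    have hB : ContinuousOn (fun y : ℝ × E3 => B y.1 y.2) (Ioo 0 s ×ˢ univ) :=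
      h.B_contDiff.continuousOn.mono
        (prod_mono (hsub.trans Ioo_subset_Ico_self) (subset_refl _))
    have hdE : ContinuousOn (fun z : ℝ × E3 =>
        fderiv ℝ (fun y : ℝ × E3 => E y.1 y.2) z (1, 0)) (Ioo 0 s ×ˢ univ) :=
      (continuousOn_fderiv_of_slab h.E_contDiff).mono (prod_mono hsub (subset_refl _))
    have hdB : ContinuousOn (fun z : ℝ × E3 =>
        fderiv ℝ (fun y : ℝ × E3 => B y.1 y.2) z (1, 0)) (Ioo 0 s ×ˢ univ) :=
      (continuousOn_fderiv_of_slab h.B_contDiff).mono (prod_mono hsub (subset_refl _))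
    have hk : Continuous fun z : ℝ × E3 => kk (rr s η x z.1 z.2) :=
      continuous_kk.comp (continuous_rr s η x)
    refine ContinuousOn.add ?_ ?_
    · exact (continuous_const.mul hk).neg.continuousOn.mul
        (((hE.norm.pow 2).add (hB.norm.pow 2)).div_const 2)
    · exact (continuous_ch s η x).continuousOn.mul ((hE.inner hdE).add (hB.inner hdB))

/-- the integral of the time derivative of the localized kinetic energy density -/
lemma kin_identity (h : IsClassicalSolution T f E B) {s η : ℝ} (hη : 0 < η) (hs : s < T)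
    (x : E3) {t : ℝ} (ht : t ∈ Ioo 0 s) :
    ∫ z : E3 × E3, (-(η⁻¹ * kk (rr s η x t z.1)) * (q z.2 * f t z.1 z.2) +
      ch s η x t z.1 * (q z.2
        * fderiv ℝ (fun y : ℝ × E3 × E3 => f y.1 y.2.1 y.2.2) (t, z) (1, 0))) =
      -(η⁻¹ * ∫ z : E3 × E3, kk (rr s η x t z.1) * fp f x t z)
        + ∫ y, ch s η x t y * ⟪E t y, cur f t y⟫ := by
  have := isAddHaar_prod
  have hsub : Ioo 0 s ⊆ Ioo 0 T := Ioo_subset_Ioo_right hs.le
  have htT : t ∈ Ioo 0 T := hsub ht
  have htT' : t ∈ Ico 0 T := Ioo_subset_Ico_self htT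
  have hfc := h.f_slice htT'
  have hfs := h.hasCompactSupport htT'
  have hch := (contDiff_ch_slice hη x ht.2)
  have hk : Continuous fun z : E3 × E3 => kk (rr s η x t z.1) := by
    have hk0 : Continuous fun y => kk (rr s η x t y) :=
      continuous_kk.comp (by unfold rr; fun_prop)
    exact hk0.comp continuous_fst
  have hq : Continuous fun z : E3 × E3 => q z.2 := continuous_q.comp continuous_snd
  have hu : Continuous fun z : E3 × E3 => u z.2 := continuous_u.comp continuous_snd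
  have hg : ContDiff ℝ 1 fun z : E3 × E3 => ch s η x t z.1 * f t z.1 z.2 :=
    (hch.comp contDiff_fst).mul hfc
  have hgs : HasCompactSupport fun z : E3 × E3 => ch s η x t z.1 * f t z.1 z.2 :=
    hfs.mul_left
  have hib := vlasov_ibp hg hgs (h.E_slice htT') (h.B_slice htT')
  have hfd : ∀ z d : E3 × E3, fderiv ℝ (fun z : E3 × E3 => ch s η x t z.1 * f t z.1 z.2) z d =
      ch s η x t z.1 * fderiv ℝ (fun z : E3 × E3 => f t z.1 z.2) z d +
      f t z.1 z.2 * (-(η⁻¹ * kk (rr s η x t z.1)) * ⟪dir (z.1 - x), d.1⟫) := by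
    intro z d
    have a1 : HasFDerivAt (fun y => ch s η x t y) (fderiv ℝ (fun y => ch s η x t y) z.1) z.1 :=
      ((hch.differentiable (by norm_num)) z.1).hasFDerivAt
    have a2 : HasFDerivAt (fun z : E3 × E3 => ch s η x t z.1)
        ((fderiv ℝ (fun y => ch s η x t y) z.1).comp (ContinuousLinearMap.fst ℝ E3 E3)) z :=
      HasFDerivAt.comp (f := fun z : E3 × E3 => z.1) z a1 hasFDerivAt_fst
    have a3 : HasFDerivAt (fun z : E3 × E3 => f t z.1 z.2)
        (fderiv ℝ (fun z : E3 × E3 => f t z.1 z.2) z) z :=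
      ((hfc.differentiable (by norm_num)) z).hasFDerivAt
    have a4 : HasFDerivAt (fun z : E3 × E3 => ch s η x t z.1 * f t z.1 z.2)
        (ch s η x t z.1 • fderiv ℝ (fun z : E3 × E3 => f t z.1 z.2) z + f t z.1 z.2 •
        (fderiv ℝ (fun y => ch s η x t y) z.1).comp (ContinuousLinearMap.fst ℝ E3 E3)) z :=
      a2.mul a3
    rw [a4.fderiv]
    simp only [add_apply, smul_apply, ContinuousLinearMap.comp_apply,
      ContinuousLinearMap.coe_fst', smul_eq_mul]
    rw [fderiv_ch hη x ht.2]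
  have hdf : Continuous fun z : E3 × E3 => fderiv ℝ (fun z : E3 × E3 => f t z.1 z.2) z
      (u z.2, E t z.1 + cross (u z.2) (B t z.1)) := by
    refine (hfc.continuous_fderiv (by norm_num)).clm_apply ?_
    refine hu.prodMk (((h.E_slice htT').continuous.comp continuous_fst).add ?_)
    exact (contDiff_cross (u_contDiff.comp contDiff_snd)
      ((h.B_slice htT').comp contDiff_fst)).continuous
  have hdfs : HasCompactSupport fun z : E3 × E3 => fderiv ℝ (fun z : E3 × E3 => f t z.1 z.2) z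
      (u z.2, E t z.1 + cross (u z.2) (B t z.1)) := by
    have h2 := hfs.fderiv (𝕜 := ℝ)
    refine HasCompactSupport.mono h2 ?_
    intro z hz
    rw [Function.mem_support] at hz ⊢
    intro h0
    apply hz
    rw [h0]
    rfl
  have hkd : Continuous fun z : E3 × E3 => kk (rr s η x t z.1) * ⟪dir (z.1 - x), u z.2⟫ := by
    have h2 : Continuous fun z : E3 × E3 => ⟪kk (rr s η x t z.1) • dir (z.1 - x), u z.2⟫ :=
      ((continuous_kk_dir hη x ht.2).comp continuous_fst).inner hu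
    simpa only [real_inner_smul_left] using h2
  have hqf : Continuous fun z : E3 × E3 => q z.2 * f t z.1 z.2 := hq.mul hfc.continuous
  have hqfs : HasCompactSupport fun z : E3 × E3 => q z.2 * f t z.1 z.2 := hfs.mul_left
  have i1 : Integrable fun z : E3 × E3 => kk (rr s η x t z.1) * (q z.2 * f t z.1 z.2) :=
    (hk.mul hqf).integrable_of_hasCompactSupport hqfs.mul_left
  have i2 : Integrable fun z : E3 × E3 =>
      (kk (rr s η x t z.1) * ⟪dir (z.1 - x), u z.2⟫) * (q z.2 * f t z.1 z.2) :=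
    (hkd.mul hqf).integrable_of_hasCompactSupport hqfs.mul_left
  have i3 : Integrable fun z : E3 × E3 => ch s η x t z.1 * (q z.2 *
      fderiv ℝ (fun z : E3 × E3 => f t z.1 z.2) z
      (u z.2, E t z.1 + cross (u z.2) (B t z.1))) :=
    ((hch.continuous.comp continuous_fst).mul (hq.mul hdf)).integrable_of_hasCompactSupport
      hdfs.mul_left.mul_left
  have e1 : ∀ z : E3 × E3, q z.2 * fderiv ℝ (fun z : E3 × E3 => ch s η x t z.1 * f t z.1 z.2) z
      (u z.2, E t z.1 + cross (u z.2) (B t z.1)) =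
      (-η⁻¹) * ((kk (rr s η x t z.1) * ⟪dir (z.1 - x), u z.2⟫) * (q z.2 * f t z.1 z.2)) +
      ch s η x t z.1 * (q z.2 * fderiv ℝ (fun z : E3 × E3 => f t z.1 z.2) z
      (u z.2, E t z.1 + cross (u z.2) (B t z.1))) - 0 := by
    intro z
    rw [hfd]
    ring
  have i0 : Integrable (fun _ : E3 × E3 => (0 : ℝ)) := integrable_zero _ _ _
  simp_rw [e1] at hib
  rw [int_comb _ i2 i3 i0] at hib
  have e2 : ∀ z : E3 × E3, -(η⁻¹ * kk (rr s η x t z.1)) * (q z.2 * f t z.1 z.2) +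
      ch s η x t z.1 * (q z.2
      * fderiv ℝ (fun y : ℝ × E3 × E3 => f y.1 y.2.1 y.2.2) (t, z) (1, 0)) =
      (-η⁻¹) * (kk (rr s η x t z.1) * (q z.2 * f t z.1 z.2)) + 0 -
      ch s η x t z.1 * (q z.2 * fderiv ℝ (fun z : E3 × E3 => f t z.1 z.2) z
      (u z.2, E t z.1 + cross (u z.2) (B t z.1))) := by
    intro z
    rw [h.vlasov_fderiv htT]
    ring
  simp_rw [e2]
  rw [int_comb _ i1 i0 i3]
  have e3 : ∀ z : E3 × E3, kk (rr s η x t z.1) * fp f x t z =
      1 * (kk (rr s η x t z.1) * (q z.2 * f t z.1 z.2)) +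
      (kk (rr s η x t z.1) * ⟪dir (z.1 - x), u z.2⟫) * (q z.2 * f t z.1 z.2) - 0 := by
    intro z
    unfold fp al
    rw [real_inner_comm (u z.2)]
    ring
  simp_rw [e3]
  rw [int_comb _ i1 i2 i0, ← integral_chi_fuE h htT' hch.continuous]
  have e4 : ∀ z : E3 × E3, ch s η x t z.1 * (f t z.1 z.2 * ⟪u z.2, E t z.1⟫) =
      ch s η x t z.1 * f t z.1 z.2 * ⟪u z.2, E t z.1⟫ := fun z => by ring
  simp_rw [e4]
  simp only [integral_zero, sub_zero, add_zero, one_mul] at hib ⊢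
  linarith only [hib]

lemma c_rr2 (s η : ℝ) (x : E3) : Continuous fun z : ℝ × E3 × E3 => rr s η x z.1 z.2.1 := by
  unfold rr
  fun_prop

lemma c_kk2 (s η : ℝ) (x : E3) : Continuous fun z : ℝ × E3 × E3 => kk (rr s η x z.1 z.2.1) :=
  continuous_kk.comp (c_rr2 s η x)

lemma c_ch2 (s η : ℝ) (x : E3) : Continuous fun z : ℝ × E3 × E3 => ch s η x z.1 z.2.1 :=
  contDiff_ps.continuous.comp (c_rr2 s η x)

lemma continuousOn_kinF (h : IsClassicalSolution T f E B) {s η : ℝ} (hs : s < T)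
    (x : E3) :
    ContinuousOn (fun z : ℝ × E3 × E3 => -(η⁻¹ * kk (rr s η x z.1 z.2.1)) *
      (q z.2.2 * f z.1 z.2.1 z.2.2) + ch s η x z.1 z.2.1 * (q z.2.2
        * fderiv ℝ (fun y : ℝ × E3 × E3 => f y.1 y.2.1 y.2.2) z (1, 0))) (Ioo 0 s ×ˢ univ) := by
  have hsub : Ioo 0 s ⊆ Ioo 0 T := Ioo_subset_Ioo_right hs.le
  have hf : ContinuousOn (fun y : ℝ × E3 × E3 => f y.1 y.2.1 y.2.2) (Ioo 0 s ×ˢ univ) :=
    h.f_contDiff.continuousOn.mono
      (prod_mono (hsub.trans Ioo_subset_Ico_self) (subset_refl _))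
  have hdf : ContinuousOn (fun z : ℝ × E3 × E3 =>
      fderiv ℝ (fun y : ℝ × E3 × E3 => f y.1 y.2.1 y.2.2) z (1, 0)) (Ioo 0 s ×ˢ univ) :=
    (continuousOn_fderiv_of_slab h.f_contDiff).mono (prod_mono hsub (subset_refl _))
  have hz2 : Continuous fun z : ℝ × E3 × E3 => z.2.2 := by fun_prop
  have hk := c_kk2 s η x
  have hc := c_ch2 s η x
  have hq : Continuous fun z : ℝ × E3 × E3 => q z.2.2 := continuous_q.comp hz2
  have c1 : ContinuousOn (fun z : ℝ × E3 × E3 => q z.2.2 * f z.1 z.2.1 z.2.2)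
      (Ioo 0 s ×ˢ univ) := hq.continuousOn.mul hf
  have c2 : ContinuousOn (fun z : ℝ × E3 × E3 => q z.2.2 *
      fderiv ℝ (fun y : ℝ × E3 × E3 => f y.1 y.2.1 y.2.2) z (1, 0))
      (Ioo 0 s ×ˢ univ) := hq.continuousOn.mul hdf
  have c3 : Continuous fun z : ℝ × E3 × E3 => -(η⁻¹ * kk (rr s η x z.1 z.2.1)) :=
    (continuous_const.mul hk).neg
  exact (c3.continuousOn.mul c1).add (hc.continuousOn.mul c2)

/-- the derivative of the localized kinetic energy -/
lemma hasDerivAt_kinT (h : IsClassicalSolution T f E B) {s η : ℝ} (hη : 0 < η) (hs : s < T)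
    (x : E3) {t : ℝ} (ht : t ∈ Ioo 0 s) :
    HasDerivAt (fun t => ∫ z : E3 × E3, ch s η x t z.1 * (q z.2 * f t z.1 z.2))
      (-(η⁻¹ * ∫ z : E3 × E3, kk (rr s η x t z.1) * fp f x t z)
        + ∫ y, ch s η x t y * ⟪E t y, cur f t y⟫) t := by
  have := isAddHaar_prod
  have hs0 : s ∈ Ico 0 T := ⟨(ht.1.trans ht.2).le, hs⟩
  have hsub : Ioo 0 s ⊆ Ioo 0 T := Ioo_subset_Ioo_right hs.le
  have htT : t ∈ Ioo 0 T := hsub ht
  have htT' : t ∈ Ico 0 T := Ioo_subset_Ico_self htT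
  obtain ⟨R, hR⟩ := h.exists_support hs0
  have h1 := hasDerivAt_integral_of_compact (μ := (volume : Measure (E3 × E3))) (a := 0) (b := s)
    (F := fun t (z : E3 × E3) => ch s η x t z.1 * (q z.2 * f t z.1 z.2))
    (F' := fun t (z : E3 × E3) => -(η⁻¹ * kk (rr s η x t z.1)) * (q z.2 * f t z.1 z.2) +
      ch s η x t z.1 * (q z.2
        * fderiv ℝ (fun y : ℝ × E3 × E3 => f y.1 y.2.1 y.2.2) (t, z) (1, 0)))
    (isCompact_KR R) ?_ ?_ ?_ ?_ ht
  · exact h1.congr_deriv (kin_identity h hη hs x ht)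
  · intro r hr z hz
    show ch s η x r z.1 * (q z.2 * f r z.1 z.2) = 0
    rw [hR r (Ioo_subset_Icc_self hr) z hz, mul_zero, mul_zero]
  · intro r hr z
    have hf := hasDerivAt_of_slab h.f_contDiff (hsub hr) z
    exact (hasDerivAt_ch_time s η x r z.1).mul (hf.const_mul (q z.2))
  · intro r hr
    exact ((contDiff_ch_slice hη x hr.2).continuous.comp continuous_fst).mul
      ((continuous_q.comp continuous_snd).mul
      (h.f_slice (Ioo_subset_Ico_self (hsub hr))).continuous)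
  · exact continuousOn_kinF h hs x

lemma norm_dir_le (z : E3) : ‖dir z‖ ≤ 1 := by
  unfold dir
  rw [norm_smul, norm_inv, norm_norm]
  by_cases h : ‖z‖ = 0
  · rw [h]; simp
  · rw [inv_mul_cancel₀ h]

lemma fa_nonneg (E B : ℝ → E3 → E3) (x : E3) (t : ℝ) (y : E3) : 0 ≤ fa E B x t y := by
  unfold fa
  have h1 := abs_real_inner_le_norm (dir (y - x)) (cross (E t y) (B t y))
  have h2 := norm_cross_le (E t y) (B t y)
  have h3 := norm_dir_le (y - x)
  have h4 : ‖dir (y - x)‖ * ‖cross (E t y) (B t y)‖ ≤ ‖E t y‖ * ‖B t y‖ := by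
    calc _ ≤ 1 * ‖cross (E t y) (B t y)‖ := mul_le_mul_of_nonneg_right h3 (norm_nonneg _)
      _ ≤ _ := by rw [one_mul]; exact h2
  have h5 := neg_abs_le ⟪dir (y - x), cross (E t y) (B t y)⟫
  nlinarith only [h1, h4, h5, sq_nonneg (‖E t y‖ - ‖B t y‖)]

lemma al_dir_pos (z v : E3) : 0 < al (dir z) (u v) := by
  unfold al
  exact one_add_inner_u_pos v (dir z) (norm_dir_le z)

lemma fp_nonneg (h : IsClassicalSolution T f E B) (x : E3) {t : ℝ} (ht : t ∈ Ico 0 T)
    (z : E3 × E3) : 0 ≤ fp f x t z := by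
  unfold fp
  exact mul_nonneg (mul_pos (q_pos _) (al_dir_pos _ _)).le (h.f_nonneg t ht _ _)

lemma integrable_kfa (h : IsClassicalSolution T f E B) {s η : ℝ} (hη : 0 < η) (hs : s < T)
    (x : E3) {t : ℝ} (ht : t ∈ Ioo 0 s) :
    Integrable fun y => kk (rr s η x t y) * fa E B x t y := by
  have htT' : t ∈ Ico 0 T := ⟨ht.1.le, ht.2.trans hs⟩
  have hE := (h.E_slice htT').continuous
  have hB := (h.B_slice htT').continuous
  have hkc : Continuous fun y => kk (rr s η x t y) :=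
    continuous_kk.comp (by unfold rr; (clear * -; fun_prop))
  have hkcs : HasCompactSupport fun y => kk (rr s η x t y) :=
    HasCompactSupport.intro (isCompact_closedBall x (s + η)) fun _ hy =>
      kkrr_eq_zero hη ht.1.le hy
  have hen : Continuous fun y => (‖E t y‖ ^ 2 + ‖B t y‖ ^ 2) / 2 :=
    ((hE.norm.pow 2).add (hB.norm.pow 2)).div_const 2
  have hcross : Continuous fun y => cross (E t y) (B t y) :=
    (contDiff_cross (h.E_slice htT') (h.B_slice htT')).continuous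
  have hkd : Continuous fun y => kk (rr s η x t y) * ⟪dir (y - x), cross (E t y) (B t y)⟫ := by
    have h2 : Continuous fun y => ⟪kk (rr s η x t y) • dir (y - x), cross (E t y) (B t y)⟫ :=
      (continuous_kk_dir hη x ht.2).inner hcross
    simpa only [real_inner_smul_left] using h2
  have hc : Continuous fun y => kk (rr s η x t y) * fa E B x t y := by
    have e3 : (fun y => kk (rr s η x t y) * fa E B x t y) =
        fun y => kk (rr s η x t y) * ((‖E t y‖ ^ 2 + ‖B t y‖ ^ 2) / 2) +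
        kk (rr s η x t y) * ⟪dir (y - x), cross (E t y) (B t y)⟫ := by
      funext y
      unfold fa
      ring
    rw [e3]
    exact (hkc.mul hen).add hkd
  exact hc.integrable_of_hasCompactSupport hkcs.mul_right

lemma integrable_kfp (h : IsClassicalSolution T f E B) {s η : ℝ} (hη : 0 < η) (hs : s < T)
    (x : E3) {t : ℝ} (ht : t ∈ Ioo 0 s) :
    Integrable fun z : E3 × E3 => kk (rr s η x t z.1) * fp f x t z := by
  have := isAddHaar_prod
  have htT' : t ∈ Ico 0 T := ⟨ht.1.le, ht.2.trans hs⟩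
  have hfc := h.f_slice htT'
  have hfs := h.hasCompactSupport htT'
  have hk : Continuous fun z : E3 × E3 => kk (rr s η x t z.1) := by
    have hk0 : Continuous fun y => kk (rr s η x t y) :=
      continuous_kk.comp (by unfold rr; (clear * -; fun_prop))
    exact hk0.comp continuous_fst
  have hq : Continuous fun z : E3 × E3 => q z.2 := continuous_q.comp continuous_snd
  have hu : Continuous fun z : E3 × E3 => u z.2 := continuous_u.comp continuous_snd
  have hkd : Continuous fun z : E3 × E3 => kk (rr s η x t z.1) * ⟪dir (z.1 - x), u z.2⟫ := by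
    have h2 : Continuous fun z : E3 × E3 => ⟪kk (rr s η x t z.1) • dir (z.1 - x), u z.2⟫ :=
      ((continuous_kk_dir hη x ht.2).comp continuous_fst).inner hu
    simpa only [real_inner_smul_left] using h2
  have hqf : Continuous fun z : E3 × E3 => q z.2 * f t z.1 z.2 := hq.mul hfc.continuous
  have hc : Continuous fun z : E3 × E3 => kk (rr s η x t z.1) * fp f x t z := by
    have e3 : (fun z : E3 × E3 => kk (rr s η x t z.1) * fp f x t z) =
        fun z => (kk (rr s η x t z.1) + kk (rr s η x t z.1) * ⟪dir (z.1 - x), u z.2⟫) *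
        (q z.2 * f t z.1 z.2) := by
      funext z
      unfold fp al
      rw [real_inner_comm (u z.2)]
      ring
    rw [e3]
    exact (hk.add hkd).mul hqf
  have hs : HasCompactSupport fun z : E3 × E3 => kk (rr s η x t z.1) * fp f x t z := by
    have h1 : HasCompactSupport fun z : E3 × E3 => fp f x t z := by
      unfold fp
      exact hfs.mul_left
    exact h1.mul_left
  exact hc.integrable_of_hasCompactSupport hs

lemma W_le (h : IsClassicalSolution T f E B) (s η : ℝ) (x : E3) {t : ℝ} (ht : t ∈ Ico 0 T) :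
    ENNReal.ofReal ((∫ y, ch s η x t y * ((‖E t y‖ ^ 2 + ‖B t y‖ ^ 2) / 2)) +
      ∫ z : E3 × E3, ch s η x t z.1 * (q z.2 * f t z.1 z.2)) ≤ ENNReal.ofReal (energy0 f E B) := by
  have := isAddHaar_prod
  have hE2 := integrable_norm_sq (h.E_memLp t ht)
  have hB2 := integrable_norm_sq (h.B_memLp t ht)
  have hen : Integrable fun y => (‖E t y‖ ^ 2 + ‖B t y‖ ^ 2) / 2 := (hE2.add hB2).div_const 2
  have h1 : ∫ y, ch s η x t y * ((‖E t y‖ ^ 2 + ‖B t y‖ ^ 2) / 2) ≤
      ∫ y, (‖E t y‖ ^ 2 + ‖B t y‖ ^ 2) / 2 := by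
    refine integral_mono_of_nonneg (ae_of_all _ fun y => mul_nonneg (ps_nonneg _) (by (clear * -; positivity)))
      hen (ae_of_all _ fun y => ?_)
    exact mul_le_of_le_one_left (by (clear * -; positivity)) (ps_le_one _)
  have hi : Integrable fun z : E3 × E3 => q z.2 * f t z.1 z.2 :=
    (((continuous_q.comp continuous_snd).mul (h.f_slice ht).continuous :
      Continuous fun z : E3 × E3 => q z.2 * f t z.1 z.2)).integrable_of_hasCompactSupport
      (HasCompactSupport.mul_left (h.hasCompactSupport ht))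
  have h2 : ∫ z : E3 × E3, ch s η x t z.1 * (q z.2 * f t z.1 z.2) ≤ kin f t := by
    unfold kin
    refine integral_mono_of_nonneg (ae_of_all _ fun z => mul_nonneg (ps_nonneg _)
      (mul_nonneg (q_pos _).le (h.f_nonneg t ht _ _))) hi (ae_of_all _ fun z => ?_)
    exact mul_le_of_le_one_left (mul_nonneg (q_pos _).le (h.f_nonneg t ht _ _)) (ps_le_one _)
  have h3 := h.energy_le ht
  rw [← ofReal_integral_eq_lintegral_ofReal hen (ae_of_all _ fun y => by (clear * -; positivity)),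
    ← ENNReal.ofReal_add (integral_nonneg fun y => by (clear * -; positivity)) (h.kin_nonneg ht)] at h3
  exact (ENNReal.ofReal_le_ofReal (add_le_add h1 h2)).trans h3

lemma flux_layer (h : IsClassicalSolution T f E B) {ta s s' η : ℝ} (hη : 0 < η) (h0 : 0 < ta)
    (h1 : ta < s') (h2 : s' < s) (hs : s < T) (x : E3) :
    (∫⁻ t in Ioc ta s', ∫⁻ y, ENNReal.ofReal (η⁻¹ * (kk (rr s η x t y) * fa E B x t y)))
      ≤ ENNReal.ofReal (energy0 f E B) ∧
    (∫⁻ t in Ioc ta s', ∫⁻ z : E3 × E3,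
      ENNReal.ofReal (η⁻¹ * (kk (rr s η x t z.1) * fp f x t z)))
      ≤ ENNReal.ofReal (energy0 f E B) := by
  set W : ℝ → ℝ := fun t => (∫ y, ch s η x t y * ((‖E t y‖ ^ 2 + ‖B t y‖ ^ 2) / 2)) +
      ∫ z : E3 × E3, ch s η x t z.1 * (q z.2 * f t z.1 z.2) with hW
  set A : ℝ → ℝ := fun t => η⁻¹ * ∫ y, kk (rr s η x t y) * fa E B x t y with hA
  set P : ℝ → ℝ := fun t => η⁻¹ * ∫ z : E3 × E3, kk (rr s η x t z.1) * fp f x t z with hP
  have hd : ∀ t ∈ Ioo 0 s, HasDerivAt (fun t => - W t) (A t + P t) t := by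
    intro t ht
    refine ((hasDerivAt_fenT h hη hs x ht).add (hasDerivAt_kinT h hη hs x ht)).neg.congr_deriv ?_
    simp only [hA, hP]
    ring
  have hηi : 0 < η⁻¹ := inv_pos.2 hη
  have hA0 : ∀ t ∈ Ioo 0 s, 0 ≤ A t := fun t ht =>
    mul_nonneg hηi.le (integral_nonneg fun y => mul_nonneg (kk_nonneg _) (fa_nonneg _ _ _ _ _))
  have hP0 : ∀ t ∈ Ioo 0 s, 0 ≤ P t := fun t ht =>
    mul_nonneg hηi.le (integral_nonneg fun y => mul_nonneg (kk_nonneg _)
      (fp_nonneg h x ⟨ht.1.le, ht.2.trans hs⟩ _))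
  have hsub : Icc ta s' ⊆ Ioo 0 s := fun t ht => ⟨h0.trans_le ht.1, ht.2.trans_lt h2⟩
  have hcont : ContinuousOn (fun t => - W t) (uIcc ta s') := by
    rw [uIcc_of_le h1.le]
    exact fun t ht => (hd t (hsub ht)).continuousAt.continuousWithinAt
  have hint : IntervalIntegrable (fun t => A t + P t) volume ta s' := by
    refine intervalIntegral.intervalIntegrable_deriv_of_nonneg hcont ?_ ?_
    · intro t ht
      rw [min_eq_left h1.le, max_eq_right h1.le] at ht
      exact hd t (hsub (Ioo_subset_Icc_self ht))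
    · intro t ht
      rw [min_eq_left h1.le, max_eq_right h1.le] at ht
      have := hsub (Ioo_subset_Icc_self ht)
      exact add_nonneg (hA0 t this) (hP0 t this)
  have hFTC : ∫ t in ta..s', (A t + P t) = - W s' - (- W ta) := by
    refine intervalIntegral.integral_eq_sub_of_hasDerivAt (f := fun t => - W t) ?_ hint
    intro t ht
    rw [uIcc_of_le h1.le] at ht
    exact hd t (hsub ht)
  have hta : ta ∈ Ico 0 T := ⟨h0.le, (h1.trans h2).trans hs⟩
  have hs' : s' ∈ Ico 0 T := ⟨(h0.trans h1).le, h2.trans hs⟩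
  have hWs' : 0 ≤ W s' := add_nonneg
    (integral_nonneg fun y => mul_nonneg (ps_nonneg _) (by (clear * -; positivity)))
    (integral_nonneg fun z => mul_nonneg (ps_nonneg _)
      (mul_nonneg (q_pos _).le (h.f_nonneg _ hs' _ _)))
  have hmain : ∫⁻ t in Ioc ta s', ENNReal.ofReal (A t + P t) ≤ ENNReal.ofReal (energy0 f E B) := by
    have hint' : IntegrableOn (fun t => A t + P t) (Ioc ta s') := by
      rw [← intervalIntegrable_iff_integrableOn_Ioc_of_le h1.le]
      exact hint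
    have hnn : 0 ≤ᵐ[volume.restrict (Ioc ta s')] fun t => A t + P t := by
      rw [EventuallyLE, ae_restrict_iff' measurableSet_Ioc]
      refine ae_of_all _ fun t ht => ?_
      have := hsub (Ioc_subset_Icc_self ht)
      exact add_nonneg (hA0 t this) (hP0 t this)
    rw [← ofReal_integral_eq_lintegral_ofReal hint' hnn,
      ← intervalIntegral.integral_of_le h1.le, hFTC]
    refine le_trans (ENNReal.ofReal_le_ofReal ?_) (W_le h s η x hta)
    simp only [hW] at hWs' ⊢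
    linarith only [hWs']
  constructor
  · refine le_trans (setLIntegral_mono' measurableSet_Ioc fun t ht => ?_) hmain
    have ht' := hsub (Ioc_subset_Icc_self ht)
    have e1 : ∫⁻ y, ENNReal.ofReal (η⁻¹ * (kk (rr s η x t y) * fa E B x t y)) =
        ENNReal.ofReal (A t) := by
      rw [← ofReal_integral_eq_lintegral_ofReal ((integrable_kfa h hη hs x ht').const_mul _)
        (ae_of_all _ fun y => mul_nonneg hηi.le
          (mul_nonneg (kk_nonneg _) (fa_nonneg _ _ _ _ _))), integral_const_mul]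
    rw [e1]
    exact ENNReal.ofReal_le_ofReal (by linarith only [hP0 t ht'])
  · refine le_trans (setLIntegral_mono' measurableSet_Ioc fun t ht => ?_) hmain
    have ht' := hsub (Ioc_subset_Icc_self ht)
    have e1 : ∫⁻ z : E3 × E3, ENNReal.ofReal (η⁻¹ * (kk (rr s η x t z.1) * fp f x t z)) =
        ENNReal.ofReal (P t) := by
      rw [← ofReal_integral_eq_lintegral_ofReal ((integrable_kfp h hη hs x ht').const_mul _)
        (ae_of_all _ fun y => mul_nonneg hηi.le
          (mul_nonneg (kk_nonneg _) (fp_nonneg h x ⟨ht'.1.le, ht'.2.trans hs⟩ _))),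
        integral_const_mul]
    rw [e1]
    exact ENNReal.ofReal_le_ofReal (by linarith only [hA0 t ht'])

lemma kernel_one {η : ℝ} (hη : 0 < η) (t₀ : ℝ) :
    ∫⁻ t in Ioc t₀ (t₀ + η), ENNReal.ofReal (η⁻¹ * kk ((t - t₀) / η)) = 1 := by
  have hle : t₀ ≤ t₀ + η := by linarith only [hη]
  have hc : Continuous fun t : ℝ => η⁻¹ * kk ((t - t₀) / η) :=
    continuous_const.mul (continuous_kk.comp (by fun_prop))
  have hnn : ∀ t : ℝ, 0 ≤ η⁻¹ * kk ((t - t₀) / η) := fun t =>
    mul_nonneg (inv_pos.2 hη).le (kk_nonneg _)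
  have hd : ∀ t ∈ uIcc t₀ (t₀ + η), HasDerivAt (fun t => - ps ((t - t₀) / η))
      (η⁻¹ * kk ((t - t₀) / η)) t := by
    intro t _
    have h1 : HasDerivAt (fun t : ℝ => (t - t₀) / η) (η⁻¹) t := by
      have := ((hasDerivAt_id t).sub_const t₀).div_const η
      simpa [one_div] using this
    refine (((hasDerivAt_ps _).comp t h1).neg).congr_deriv ?_
    ring
  have h2 := intervalIntegral.integral_eq_sub_of_hasDerivAt hd (hc.intervalIntegrable _ _)
  have h3 : ∫ t in t₀..(t₀ + η), η⁻¹ * kk ((t - t₀) / η) = 1 := by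
    rw [h2]
    have e1 : (t₀ + η - t₀) / η = 1 := by field_simp; ring
    have e2 : (t₀ - t₀) / η = 0 := by simp
    rw [e1, e2, ps_of_one_le le_rfl, ps_of_nonpos le_rfl]
    ring
  rw [intervalIntegral.integral_of_le hle] at h3
  rw [← ofReal_integral_eq_lintegral_ofReal (hc.integrableOn_Ioc) (ae_of_all _ hnn), h3,
    ENNReal.ofReal_one]

/-- Passing to the limit in the smoothed light cone. -/
lemma layer {Y : Type*} [MeasurableSpace Y] {μ : Measure Y} [SFinite μ] {r : Y → ℝ}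
    (hr : Measurable r) {G : ℝ × Y → ℝ≥0∞} (hG : Measurable G) {ta s' s : ℝ}
    (hGc : ∀ y, ∀ t ∈ Ioo ta s', ContinuousAt (fun t => G (t, y)) t) {M : ℝ≥0∞}
    (hM : ∀ η : ℝ, 0 < η → ∫⁻ t in Ioc ta s', ∫⁻ y,
      ENNReal.ofReal (η⁻¹ * kk ((r y - (s - t)) / η)) * G (t, y) ∂μ ≤ M) :
    ∫⁻ y, {y | s - s' < r y ∧ r y < s - ta}.indicator (fun y => G (s - r y, y)) y ∂μ ≤ M := by
  set η : ℕ → ℝ := fun n => 1 / ((n : ℝ) + 1) with hη
  have hη0 : ∀ n, 0 < η n := fun n => by simp only [hη]; positivity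
  have hηlim : Tendsto η atTop (𝓝 0) := tendsto_one_div_add_atTop_nhds_zero_nat
  set H : ℕ → Y → ℝ≥0∞ := fun n y => ∫⁻ t in Ioc ta s',
    ENNReal.ofReal ((η n)⁻¹ * kk ((r y - (s - t)) / η n)) * G (t, y) with hH
  have hker : ∀ n, Measurable fun z : ℝ × Y =>
      ENNReal.ofReal ((η n)⁻¹ * kk ((r z.2 - (s - z.1)) / η n)) * G z := by
    intro n
    refine Measurable.mul ?_ hG
    refine (Measurable.const_mul ?_ _).ennreal_ofReal
    refine continuous_kk.measurable.comp ?_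
    exact ((hr.comp measurable_snd).sub (measurable_const.sub measurable_fst)).div_const _
  have hHm : ∀ n, Measurable (H n) := fun n =>
    Measurable.lintegral_prod_left' (μ := volume.restrict (Ioc ta s')) (hker n)
  have hHM : ∀ n, ∫⁻ y, H n y ∂μ ≤ M := by
    intro n
    refine le_trans (le_of_eq ?_) (hM (η n) (hη0 n))
    simp only [hH]
    exact (lintegral_lintegral_swap (hker n).aemeasurable).symm
  have hfatou : ∫⁻ y, liminf (fun n => H n y) atTop ∂μ ≤ M := by
    refine (lintegral_liminf_le hHm).trans ?_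
    refine (liminf_le_liminf (Eventually.of_forall hHM)).trans ?_
    rw [liminf_const]
  refine le_trans (lintegral_mono fun y => ?_) hfatou
  by_cases hy : y ∈ {y | s - s' < r y ∧ r y < s - ta}
  · rw [indicator_of_mem hy]
    set t₀ : ℝ := s - r y with ht₀
    have h1 : ta < t₀ := by have := hy.2; simp only [ht₀]; linarith only [this]
    have h2 : t₀ < s' := by have := hy.1; simp only [ht₀]; linarith only [this]
    refine le_of_forall_lt fun c hc => ?_
    obtain ⟨c', hc1, hc2⟩ := exists_between hc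
    refine lt_of_lt_of_le hc1 ?_
    have hcont := (hGc y t₀ ⟨h1, h2⟩).eventually (lt_mem_nhds hc2)
    rw [Metric.eventually_nhds_iff] at hcont
    obtain ⟨δ, hδ, hδG⟩ := hcont
    refine le_liminf_of_le (by isBoundedDefault) ?_
    have hev : ∀ᶠ n in atTop, η n < min δ (s' - t₀) :=
      hηlim.eventually (gt_mem_nhds (lt_min hδ (by linarith only [r, s', s, y, t₀, h2])))
    filter_upwards [hev] with n hn
    have hn1 := lt_of_lt_of_le hn (min_le_left _ _)
    have hn2 := lt_of_lt_of_le hn (min_le_right _ _)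
    have hsub : Ioc t₀ (t₀ + η n) ⊆ Ioc ta s' := fun t ht =>
      ⟨h1.trans ht.1, ht.2.trans (by linarith only [hn2])⟩
    calc c' = (∫⁻ t in Ioc t₀ (t₀ + η n),
          ENNReal.ofReal ((η n)⁻¹ * kk ((t - t₀) / η n))) * c' := by
          rw [kernel_one (hη0 n), one_mul]
      _ = ∫⁻ t in Ioc t₀ (t₀ + η n),
          ENNReal.ofReal ((η n)⁻¹ * kk ((t - t₀) / η n)) * c' := by
          rw [lintegral_mul_const]
          refine (Measurable.const_mul ?_ _).ennreal_ofReal
          exact continuous_kk.measurable.comp ((measurable_id.sub_const _).div_const _)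
      _ ≤ ∫⁻ t in Ioc t₀ (t₀ + η n),
          ENNReal.ofReal ((η n)⁻¹ * kk ((r y - (s - t)) / η n)) * G (t, y) := by
          refine setLIntegral_mono' measurableSet_Ioc fun t ht => ?_
          have e1 : r y - (s - t) = t - t₀ := by simp only [ht₀]; ring
          rw [e1]
          refine mul_le_mul_right (le_of_lt (hδG ?_)) _
          rw [Real.dist_eq, abs_of_pos (by linarith only [r, s, η, y, t₀, n, t, ht, ht.1])]
          linarith only [hn1, ht.2]
      _ ≤ H n y := lintegral_mono_set hsub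
  · rw [indicator_of_notMem hy]
    exact bot_le

lemma layer_full {Y : Type*} [MeasurableSpace Y] {μ : Measure Y} [SFinite μ] {r : Y → ℝ}
    (hr : Measurable r) {G : ℝ × Y → ℝ≥0∞} (hG : Measurable G) {ta s : ℝ}
    (hGc : ∀ y, ∀ t ∈ Ioo ta s, ContinuousAt (fun t => G (t, y)) t) {M : ℝ≥0∞}
    (hM : ∀ s' ∈ Ioo ta s, ∀ η : ℝ, 0 < η → ∫⁻ t in Ioc ta s', ∫⁻ y,
      ENNReal.ofReal (η⁻¹ * kk ((r y - (s - t)) / η)) * G (t, y) ∂μ ≤ M) :
    ∫⁻ y in {y | 0 < r y ∧ r y < s - ta}, G (s - r y, y) ∂μ ≤ M := by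
  rcases le_or_gt s ta with hst | hst
  · have : {y | 0 < r y ∧ r y < s - ta} = ∅ := by
      ext y
      simp only [mem_ofPred_eq, mem_empty_iff_false, iff_false, not_and, not_lt]
      intro h
      linarith only [hst, h]
    rw [this]
    simp
  · set A : ℕ → Set Y := fun n => {y | (s - ta) / ((n : ℝ) + 2) < r y ∧ r y < s - ta} with hA
    have hpos : ∀ n : ℕ, 0 < (s - ta) / ((n : ℝ) + 2) := fun n =>
      div_pos (by linarith only [hst]) (by positivity)
    have hunion : {y | 0 < r y ∧ r y < s - ta} = ⋃ n, A n := by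
      ext y
      simp only [hA, mem_ofPred_eq, mem_iUnion]
      constructor
      · rintro ⟨h1, h2⟩
        obtain ⟨n, hn⟩ := exists_nat_gt ((s - ta) / r y)
        refine ⟨n, ?_, h2⟩
        rw [div_lt_iff₀ h1] at hn
        rw [div_lt_iff₀ (by positivity)]
        nlinarith only [h1, hn]
      · rintro ⟨n, h1, h2⟩
        exact ⟨(hpos n).trans h1, h2⟩
    have hmono : Monotone A := by
      intro m n hmn y hy
      refine ⟨lt_of_le_of_lt ?_ hy.1, hy.2⟩
      have : (m : ℝ) ≤ n := by exact_mod_cast hmn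
      exact div_le_div_of_nonneg_left (by linarith only [hst]) (by positivity) (by linarith only [m, n, this])
    have hAm : ∀ n, MeasurableSet (A n) := fun n =>
      (measurableSet_lt measurable_const hr).inter (measurableSet_lt hr measurable_const)
    rw [hunion, setLIntegral_iUnion_of_directed _ hmono.directed_le]
    refine iSup_le fun n => ?_
    set s' : ℝ := s - (s - ta) / ((n : ℝ) + 2) with hs'
    have h1 : s' < s := by have := hpos n; linarith only [this]
    have h2 : ta < s' := by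
      have : (s - ta) / ((n : ℝ) + 2) < s - ta := by
        rw [div_lt_iff₀ (by positivity)]
        have : (0 : ℝ) ≤ n := by positivity
        nlinarith only [hst]
      linarith only [this]
    have h3 := layer hr hG (ta := ta) (s' := s') (s := s)
      (fun y t ht => hGc y t ⟨ht.1, ht.2.trans h1⟩) (hM s' ⟨h2, h1⟩)
    have e1 : {y | s - s' < r y ∧ r y < s - ta} = A n := by
      simp only [hA, hs', sub_sub_cancel]
    rw [e1, lintegral_indicator (hAm n)] at h3
    exact h3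

/-- the truncation of a field to the times in `(0,T)` -/
noncomputable def tr {X Y : Type*} [Zero Y] (T : ℝ) (F : ℝ → X → Y) (t : ℝ) (x : X) : Y :=
  (Ioo 0 T ×ˢ univ : Set (ℝ × X)).indicator (fun z => F z.1 z.2) (t, x)

lemma tr_eq {X Y : Type*} [Zero Y] {T : ℝ} (F : ℝ → X → Y) {t : ℝ} (ht : t ∈ Ioo 0 T) (x : X) :
    tr T F t x = F t x := by
  unfold tr
  rw [indicator_of_mem]
  exact ⟨ht, mem_univ _⟩

lemma measurable_tr {X Y : Type*} [NormedAddCommGroup X] [MeasurableSpace X] [BorelSpace X]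
    [SecondCountableTopology X]
    [NormedAddCommGroup Y] [MeasurableSpace Y] [BorelSpace Y] {T : ℝ} {F : ℝ → X → Y}
    (hF : ContinuousOn (fun z : ℝ × X => F z.1 z.2) (Ioo 0 T ×ˢ univ)) :
    Measurable fun z : ℝ × X => tr T F z.1 z.2 := by
  classical
  have h1 : MeasurableSet (Ioo 0 T ×ˢ univ : Set (ℝ × X)) :=
    measurableSet_Ioo.prod MeasurableSet.univ
  have h2 := hF.measurable_piecewise (g := fun _ => (0 : Y)) continuousOn_const h1
  have e : (fun z : ℝ × X => tr T F z.1 z.2) =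
      (Ioo 0 T ×ˢ univ : Set (ℝ × X)).piecewise (fun z : ℝ × X => F z.1 z.2) (fun _ => 0) := by
    funext z
    simp only [tr, Set.indicator, Set.piecewise]
  rw [e]
  exact h2

lemma measurable_dir : Measurable dir := by
  unfold dir
  exact measurable_norm.inv.smul measurable_id

/-- the truncated density -/
noncomputable def trf (T : ℝ) (f : ℝ → E3 → E3 → ℝ) (t : ℝ) (y v : E3) : ℝ :=
  tr T (fun t (p : E3 × E3) => f t p.1 p.2) t (y, v)

lemma trf_eq {t : ℝ} (ht : t ∈ Ioo 0 T) (y v : E3) : trf T f t y v = f t y v :=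
  tr_eq (fun t (p : E3 × E3) => f t p.1 p.2) ht (y, v)

lemma fp_trf {t : ℝ} (ht : t ∈ Ioo 0 T) (x : E3) (p : E3 × E3) :
    fp (trf T f) x t p = fp f x t p := by
  unfold fp
  rw [trf_eq ht]

lemma continuous_cross2 : Continuous fun p : E3 × E3 => cross p.1 p.2 :=
  (contDiff_cross contDiff_fst contDiff_snd).continuous

lemma inner_cross_swap (a b c : E3) : ⟪a, cross b c⟫ = - ⟪b, cross a c⟫ := by
  simp only [PiLp.inner_apply, Fin.sum_univ_three, cross]
  simp
  ring

lemma norm_sq_cross_le {w b : E3} (hw : ‖w‖ ≤ 1) : ‖cross w b‖ ^ 2 ≤ ‖b‖ ^ 2 := by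
  have h1 := norm_cross_le w b
  have h2 : ‖w‖ * ‖b‖ ≤ ‖b‖ := mul_le_of_le_one_left (norm_nonneg _) hw
  exact pow_le_pow_left₀ (norm_nonneg _) (h1.trans h2) 2

/-- the good field component is controlled by the flux -/
lemma good_le (E B : ℝ → E3 → E3) (x : E3) (t : ℝ) (y : E3) :
    ‖E t y - cross (dir (y - x)) (B t y)‖ ^ 2 ≤ 2 * fa E B x t y := by
  unfold fa
  rw [norm_sub_sq_real]
  have h1 := norm_sq_cross_le (b := B t y) (norm_dir_le (y - x))
  have h2 := inner_cross_swap (E t y) (dir (y - x)) (B t y)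
  linarith only [h1, h2]

lemma measurable_fa (h : IsClassicalSolution T f E B) (x : E3) :
    Measurable fun z : ℝ × E3 => fa (tr T E) (tr T B) x z.1 z.2 := by
  have hE : Measurable fun z : ℝ × E3 => tr T E z.1 z.2 := measurable_tr
    (h.E_contDiff.continuousOn.mono (prod_mono Ioo_subset_Ico_self (subset_refl _)))
  have hB : Measurable fun z : ℝ × E3 => tr T B z.1 z.2 := measurable_tr
    (h.B_contDiff.continuousOn.mono (prod_mono Ioo_subset_Ico_self (subset_refl _)))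
  have hd : Measurable fun z : ℝ × E3 => dir (z.2 - x) :=
    measurable_dir.comp (measurable_snd.sub_const x)
  have hc : Measurable fun z : ℝ × E3 => cross (tr T E z.1 z.2) (tr T B z.1 z.2) :=
    continuous_cross2.measurable.comp (hE.prodMk hB)
  unfold fa
  exact (((hE.norm.pow_const 2).add (hB.norm.pow_const 2)).div_const 2).add (hd.inner hc)

lemma measurable_fp (h : IsClassicalSolution T f E B) (x : E3) :
    Measurable fun z : ℝ × E3 × E3 => fp (trf T f) x z.1 z.2 := by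
  have hf : Measurable fun z : ℝ × E3 × E3 => tr T (fun t (p : E3 × E3) => f t p.1 p.2) z.1 z.2 :=
    measurable_tr (h.f_contDiff.continuousOn.mono
      (prod_mono Ioo_subset_Ico_self (subset_refl _)))
  have hd : Measurable fun z : ℝ × E3 × E3 => dir (z.2.1 - x) :=
    measurable_dir.comp ((measurable_fst.comp measurable_snd).sub_const x)
  have hq : Measurable fun z : ℝ × E3 × E3 => q z.2.2 :=
    continuous_q.measurable.comp (measurable_snd.comp measurable_snd)
  have hu : Measurable fun z : ℝ × E3 × E3 => u z.2.2 :=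
    continuous_u.measurable.comp (measurable_snd.comp measurable_snd)
  unfold fp al
  exact (hq.mul (measurable_const.add (hu.inner hd))).mul hf

lemma field_full (h : IsClassicalSolution T f E B) {ta s : ℝ} (h0 : 0 < ta)
    (hs : s < T) (x : E3) :
    ∫⁻ y in {y | 0 < ‖y - x‖ ∧ ‖y - x‖ < s - ta},
      ENNReal.ofReal (fa (tr T E) (tr T B) x (s - ‖y - x‖) y) ≤ ENNReal.ofReal (energy0 f E B) := by
  refine layer_full (r := fun y : E3 => ‖y - x‖)
    (G := fun z : ℝ × E3 => ENNReal.ofReal (fa (tr T E) (tr T B) x z.1 z.2))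
    (by fun_prop) (measurable_fa h x).ennreal_ofReal ?_ ?_
  · intro y t ht
    have htT : t ∈ Ioo 0 T := ⟨h0.trans ht.1, ht.2.trans hs⟩
    have hev : ∀ᶠ r in 𝓝 t, r ∈ Ioo 0 T := Ioo_mem_nhds htT.1 htT.2
    have hE : ContinuousAt (fun r => E r y) t :=
      (hasDerivAt_of_slab h.E_contDiff htT y).continuousAt
    have hB : ContinuousAt (fun r => B r y) t :=
      (hasDerivAt_of_slab h.B_contDiff htT y).continuousAt
    have hc : ContinuousAt (fun r => cross (E r y) (B r y)) t :=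
      continuous_cross2.continuousAt.comp (hE.prodMk hB)
    have hfa : ContinuousAt (fun r => ENNReal.ofReal (fa E B x r y)) t := by
      refine ENNReal.continuous_ofReal.continuousAt.comp ?_
      unfold fa
      exact (((hE.norm.pow 2).add (hB.norm.pow 2)).div_const 2).add
        (continuousAt_const.inner hc)
    refine hfa.congr ?_
    filter_upwards [hev] with r hr
    unfold fa
    rw [tr_eq E hr, tr_eq B hr]
  · intro s' hs' η hη
    refine le_trans (le_of_eq ?_) (flux_layer h hη h0 hs'.1 hs'.2 hs x).1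
    refine setLIntegral_congr_fun measurableSet_Ioc fun t ht => ?_
    have htT : t ∈ Ioo 0 T := ⟨h0.trans ht.1, ht.2.trans_lt (hs'.2.trans hs)⟩
    refine lintegral_congr fun y => ?_
    have e1 : fa (tr T E) (tr T B) x t y = fa E B x t y := by
      unfold fa
      rw [tr_eq E htT, tr_eq B htT]
    show ENNReal.ofReal (η⁻¹ * kk ((‖y - x‖ - (s - t)) / η)) *
      ENNReal.ofReal (fa (tr T E) (tr T B) x t y) = _
    rw [e1, ← ENNReal.ofReal_mul (mul_nonneg (inv_pos.2 hη).le (kk_nonneg _))]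
    unfold rr
    rw [mul_assoc]

lemma particle_full (h : IsClassicalSolution T f E B) {ta s : ℝ} (h0 : 0 < ta)
    (hs : s < T) (x : E3) :
    ∫⁻ p in {p : E3 × E3 | 0 < ‖p.1 - x‖ ∧ ‖p.1 - x‖ < s - ta},
      ENNReal.ofReal (fp (trf T f) x
        (s - ‖p.1 - x‖) p) ≤ ENNReal.ofReal (energy0 f E B) := by
  have := isAddHaar_prod
  refine layer_full (r := fun p : E3 × E3 => ‖p.1 - x‖)
    (G := fun z : ℝ × E3 × E3 => ENNReal.ofReal
      (fp (trf T f) x z.1 z.2))
    (by (clear * -; fun_prop)) (measurable_fp h x).ennreal_ofReal ?_ ?_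
  · intro p t ht
    have htT : t ∈ Ioo 0 T := ⟨h0.trans ht.1, ht.2.trans hs⟩
    have hev : ∀ᶠ r in 𝓝 t, r ∈ Ioo 0 T := Ioo_mem_nhds htT.1 htT.2
    have hf : ContinuousAt (fun r => f r p.1 p.2) t :=
      (hasDerivAt_of_slab h.f_contDiff htT p).continuousAt
    have hfp : ContinuousAt (fun r => ENNReal.ofReal (fp f x r p)) t := by
      refine ENNReal.continuous_ofReal.continuousAt.comp ?_
      unfold fp
      exact continuousAt_const.mul hf
    refine hfp.congr ?_
    filter_upwards [hev] with r hr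
    rw [fp_trf hr]
  · intro s' hs' η hη
    refine le_trans (le_of_eq ?_) (flux_layer h hη h0 hs'.1 hs'.2 hs x).2
    refine setLIntegral_congr_fun measurableSet_Ioc fun t ht => ?_
    have htT : t ∈ Ioo 0 T := ⟨h0.trans ht.1, ht.2.trans_lt (hs'.2.trans hs)⟩
    refine lintegral_congr fun p => ?_
    have e1 : fp (trf T f) x t p = fp f x t p := fp_trf htT x p
    show ENNReal.ofReal (η⁻¹ * kk ((‖p.1 - x‖ - (s - t)) / η)) *
      ENNReal.ofReal (fp (trf T f) x t p)
        = _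
    rw [e1, ← ENNReal.ofReal_mul (mul_nonneg (inv_pos.2 hη).le (kk_nonneg _))]
    unfold rr
    rw [mul_assoc]

lemma ae_good_z (ρ : ℝ) : ∀ᵐ z : E3, z ≠ 0 ∧ ‖z‖ ≠ ρ := by
  have h1 : ∀ᵐ z : E3, z ≠ 0 := by
    rw [ae_iff]
    simp
  have h2 : ∀ᵐ z : E3, ‖z‖ ≠ ρ := by
    rw [ae_iff]
    have e : {z : E3 | ¬ ‖z‖ ≠ ρ} = Metric.sphere 0 ρ := by
      ext z
      simp
    rw [e]
    exact Measure.addHaar_sphere _ _ _
  filter_upwards [h1, h2] with z a b using ⟨a, b⟩

lemma measurable_particle (h : IsClassicalSolution T f E B) (s : ℝ) (x : E3) :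
    Measurable fun p : E3 × E3 => ENNReal.ofReal (fp (trf T f) x (s - ‖p.1 - x‖) p) := by
  have h1 := measurable_fp h x
  have h2 : Measurable fun p : E3 × E3 => ((s - ‖p.1 - x‖, p) : ℝ × E3 × E3) := by (clear * -; fun_prop)
  exact (h1.comp h2).ennreal_ofReal

end Flux

/-- Energy flux through backward light cones. -/
theorem cone_flux {T : ℝ} {f : ℝ → E3 → E3 → ℝ} {E B : ℝ → E3 → E3}
    (h : IsClassicalSolution T f E B) {ta : ℝ} (h0 : 0 < ta) (h0T : ta < T) :
    ∃ M : ℝ≥0, ∀ s ∈ Ico ta T, ∀ x : E3,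
      coneInt ta T f s x (fun z v => ENNReal.ofReal (q v * al (dir z) (u v))) ≤ M ∧
      ∫⁻ z, (Metric.closedBall (0 : E3) (s - ta)).indicator (fun z => ENNReal.ofReal
        (‖E (s - ‖z‖) (x + z) - cross (dir z) (B (s - ‖z‖) (x + z))‖ ^ 2)) z ≤ M := by
  refine ⟨2 * (energy0 f E B).toNNReal, fun s hs x => ?_⟩
  have hM : ((2 * (energy0 f E B).toNNReal : ℝ≥0) : ℝ≥0∞) = 2 * ENNReal.ofReal (energy0 f E B) := by
    push_cast
    rfl
  rw [hM]
  constructor
  · -- the particle part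
    have h1 := Flux.particle_full h h0 hs.2 x
    have hr : Measurable fun p : E3 × E3 => ‖p.1 - x‖ := by (clear * -; fun_prop)
    have hms : MeasurableSet {p : E3 × E3 | 0 < ‖p.1 - x‖ ∧ ‖p.1 - x‖ < s - ta} :=
      (measurableSet_lt measurable_const hr).inter (measurableSet_lt hr measurable_const)
    rw [← lintegral_indicator hms, Measure.volume_eq_prod, lintegral_prod _
      ((Flux.measurable_particle h s x).indicator hms).aemeasurable] at h1
    rw [← lintegral_add_left_eq_self _ x] at h1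
    refine le_trans ?_ (h1.trans (by rw [two_mul]; exact le_self_add))
    unfold coneInt
    refine lintegral_mono_ae ?_
    filter_upwards [Flux.ae_good_z (s - ta)] with z hz
    refine lintegral_mono fun v => ?_
    have hz0 : 0 < ‖z‖ := norm_pos_iff.2 hz.1
    by_cases hzs : ‖z‖ < s - ta
    · have hmem : (x + z, v) ∈ {p : E3 × E3 | 0 < ‖p.1 - x‖ ∧ ‖p.1 - x‖ < s - ta} := by
        simp only [mem_ofPred_eq, add_sub_cancel_left]
        exact ⟨hz0, hzs⟩
      rw [indicator_of_mem hmem]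
      have ht : s - ‖z‖ ∈ Ioo 0 T := ⟨by linarith only [h0, hzs], by linarith only [hz0, hs.2]⟩
      simp only [add_sub_cancel_left]
      rw [Flux.fp_trf ht]
      unfold fl Flux.fp
      simp only [add_sub_cancel_left]
      rw [if_pos ⟨by linarith only [hzs], ht.2⟩, ← ENNReal.ofReal_mul
        (mul_nonneg (q_pos _).le (Flux.al_dir_pos _ _).le)]
    · have hlt : s - ta < ‖z‖ := lt_of_le_of_ne (not_lt.1 hzs) (Ne.symm hz.2)
      unfold fl
      rw [if_neg (by rintro ⟨a, -⟩; linarith only [ta, s, z, hlt, a]), mul_zero]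
      exact bot_le
  · -- the field part
    have h1 := Flux.field_full h h0 hs.2 x
    have hr : Measurable fun y : E3 => ‖y - x‖ := by (clear * -; fun_prop)
    have hms : MeasurableSet {y : E3 | 0 < ‖y - x‖ ∧ ‖y - x‖ < s - ta} :=
      (measurableSet_lt measurable_const hr).inter (measurableSet_lt hr measurable_const)
    rw [← lintegral_indicator hms, ← lintegral_add_left_eq_self _ x] at h1
    have h2 := mul_le_mul_right h1 2
    rw [← lintegral_const_mul' _ _ (by norm_num)] at h2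
    refine le_trans (lintegral_mono_ae ?_) h2
    filter_upwards [Flux.ae_good_z (s - ta)] with z hz
    have hz0 : 0 < ‖z‖ := norm_pos_iff.2 hz.1
    by_cases hzs : ‖z‖ < s - ta
    · have hmem : x + z ∈ {y : E3 | 0 < ‖y - x‖ ∧ ‖y - x‖ < s - ta} := by
        simp only [mem_ofPred_eq, add_sub_cancel_left]
        exact ⟨hz0, hzs⟩
      have hmem2 : z ∈ Metric.closedBall (0 : E3) (s - ta) := by
        rw [mem_closedBall_zero_iff]
        exact hzs.le
      rw [indicator_of_mem hmem, indicator_of_mem hmem2]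
      have ht : s - ‖z‖ ∈ Ioo 0 T := ⟨by linarith only [h0, hzs], by linarith only [hz0, hs.2]⟩
      simp only [add_sub_cancel_left]
      have e1 : Flux.fa (Flux.tr T E) (Flux.tr T B) x (s - ‖z‖) (x + z) =
          Flux.fa E B x (s - ‖z‖) (x + z) := by
        unfold Flux.fa
        rw [Flux.tr_eq E ht, Flux.tr_eq B ht]
      rw [e1]
      have h3 := Flux.good_le E B x (s - ‖z‖) (x + z)
      rw [add_sub_cancel_left] at h3
      exact ofReal_le_two_mul h3
    · have hlt : s - ta < ‖z‖ := lt_of_le_of_ne (not_lt.1 hzs) (Ne.symm hz.2)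
      rw [indicator_of_notMem (s := Metric.closedBall (0 : E3) (s - ta)) (by
        rw [mem_closedBall_zero_iff, not_le]
        exact hlt)]
      exact bot_le

end Vale.Agent.P107
end
end
end

section

section

attribute [-instance] ProperSMul.toContinuousSMul IsTopologicalTorsor.toContinuousSMul
  IdemSemiring.toCanonicallyOrderedAdd IdemSemiring.toMulLeftMono IdemSemiring.toMulRightMono
  AddQuantale.instAddLeftMono AddQuantale.instAddRightMono Quantale.instMulLeftMono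
  Quantale.instMulRightMono FiniteDimensional.rclike_to_real IsScalarTower.complexToReal
  FiniteDimensional.complexToReal

section

/-!
Kernel bounds K1 and K2 (vector algebra).
-/

open MeasureTheory Set Filter Topology
open scoped RealInnerProductSpace ENNReal NNReal

namespace Vale.Agent.P107

namespace KA

variable {w a b c : E3} {ε e : ℝ}

lemma al_pos (hw : ‖w‖ = 1) (ha : ‖a‖ < 1) : 0 < al w a := by
  have h := abs_real_inner_le_norm a w
  rw [hw, mul_one] at h
  have h2 := abs_le.1 h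
  unfold al
  linarith only [ha, h2.1]

lemma al_le (hw : ‖w‖ = 1) (ha : ‖a‖ < 1) : al w a ≤ 2 := by
  have h := abs_real_inner_le_norm a w
  rw [hw, mul_one] at h
  have h2 := abs_le.1 h
  unfold al
  linarith only [ha, h2.2]

lemma norm_A_le (hw : ‖w‖ = 1) (ha : ‖a‖ < 1) : ‖w + a‖ ≤ √2 * √(al w a) :=
  norm_add_le_sqrt hw ha.le

lemma sqrt2_lt : √2 < 1.42 := by
  rw [Real.sqrt_lt' (by norm_num)]
  norm_num

lemma sqrt2_mul : √2 * √2 = 2 := Real.mul_self_sqrt (by norm_num)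

/-- Bound for `k̂`. -/
lemma khat_le (hw : ‖w‖ = 1) (ha : ‖a‖ < 1) (hb : ‖b‖ < 1) :
    ‖khat w a b‖ ≤ 4 * (√(al w a) * √(al w b)) := by
  have hA := norm_A_le hw ha
  have hB := norm_A_le hw hb
  have h0 := (al_pos hw hb).le
  have h2 := al_le hw hb
  have hs : √(al w b) * √(al w b) = al w b := Real.mul_self_sqrt h0
  have hx := Real.sqrt_nonneg (al w a)
  have hy := Real.sqrt_nonneg (al w b)
  have hy2 : √(al w b) ≤ √2 := Real.sqrt_le_sqrt h2
  have h22 := sqrt2_mul
  have h20 := Real.sqrt_nonneg 2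
  have h3 : |⟪w + b, w + a⟫| ≤ (√2 * √(al w b)) * (√2 * √(al w a)) :=
    (abs_real_inner_le_norm _ _).trans (mul_le_mul hB hA (norm_nonneg _) (by (clear * -; positivity)))
  have h4 : ‖khat w a b‖ ≤ al w b * (√2 * √(al w a)) +
      (√2 * √(al w b)) * (√2 * √(al w a)) := by
    unfold khat
    refine (norm_sub_le _ _).trans (add_le_add ?_ ?_)
    · rw [norm_smul, Real.norm_of_nonneg h0]
      exact mul_le_mul_of_nonneg_left hA h0
    · rw [norm_smul, hw, mul_one, Real.norm_eq_abs]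
      exact h3
  refine h4.trans ?_
  have h5 : al w b ≤ √2 * √(al w b) := by
    calc al w b = √(al w b) * √(al w b) := hs.symm
      _ ≤ √2 * √(al w b) := mul_le_mul_of_nonneg_right hy2 hy
  have h6 : al w b * (√2 * √(al w a)) ≤ (√2 * √(al w b)) * (√2 * √(al w a)) :=
    mul_le_mul_of_nonneg_right h5 (by positivity)
  have h7 : (√2 * √(al w b)) * (√2 * √(al w a)) = 2 * (√(al w a) * √(al w b)) := by
    calc _ = (√2 * √2) * (√(al w a) * √(al w b)) := by ring
      _ = _ := by rw [h22]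
  linarith only [h6, h7]

lemma al_sub (w b c : E3) : al w b - al w c = ⟪b - c, w⟫ := by
  unfold al
  rw [inner_sub_left]
  ring

lemma inner_d (b c : E3) : ⟪b - c, b⟫ = (‖b - c‖ ^ 2 + ‖b‖ ^ 2 - ‖c‖ ^ 2) / 2 := by
  have h := norm_sub_sq_real b (b - c)
  rw [sub_sub_cancel] at h
  rw [real_inner_comm] at h
  linarith only [h]

lemma al_diff (hw : ‖w‖ = 1) (hb : ‖b‖ < 1) (hc : ‖c‖ < 1) (he : 0 < e) (hbc : ‖b - c‖ ≤ e)
    (hb' : 1 - ‖b‖ ^ 2 ≤ e ^ 2) (hc' : 1 - ‖c‖ ^ 2 ≤ e ^ 2) :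
    |al w c - al w b| ≤ √2 * e * √(al w b) + e ^ 2 := by
  have h1 : al w c - al w b = ⟪b - c, b⟫ - ⟪b - c, w + b⟫ := by
    rw [inner_add_right, ← al_sub w b c]
    ring
  rw [h1]
  refine (abs_sub _ _).trans ?_
  have h2 : |⟪b - c, w + b⟫| ≤ e * (√2 * √(al w b)) :=
    (abs_real_inner_le_norm _ _).trans (mul_le_mul hbc (norm_A_le hw hb) (norm_nonneg _) he.le)
  have h3 : |⟪b - c, b⟫| ≤ e ^ 2 := by
    rw [inner_d, abs_le]
    have e1 : ‖b - c‖ ^ 2 ≤ e ^ 2 := pow_le_pow_left₀ (norm_nonneg _) hbc 2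
    have e2 : 0 ≤ ‖b - c‖ ^ 2 := sq_nonneg _
    have e3 : ‖b‖ ^ 2 < 1 := by nlinarith only [hb, norm_nonneg b]
    have e4 : ‖c‖ ^ 2 < 1 := by nlinarith only [hc, norm_nonneg c]
    constructor <;> linarith only [hb', e2, e3, e4, hc', e1]
  linarith only [h2, h3]

lemma al_comp (hw : ‖w‖ = 1) (hb : ‖b‖ < 1) (hbc : ‖b - c‖ ≤ e)
    (hc' : 1 - ‖c‖ ^ 2 ≤ e ^ 2) : al w c ≤ 2 * al w b + 1.5 * e ^ 2 := by
  have h1 : ‖w + c‖ ^ 2 = 1 + ‖c‖ ^ 2 + 2 * (al w c - 1) := by
    rw [norm_add_sq_real, hw, real_inner_comm]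
    unfold al
    ring
  have h2 : ‖w + b‖ ^ 2 ≤ 2 * al w b := norm_add_sq_le hw hb.le
  have h3 : ‖w + c‖ ≤ ‖w + b‖ + e := by
    have : w + c = (w + b) - (b - c) := by abel
    rw [this]
    exact (norm_sub_le _ _).trans (by linarith only [hbc])
  have h4 : ‖w + c‖ ^ 2 ≤ 2 * ‖w + b‖ ^ 2 + 2 * e ^ 2 := by
    have h5 : ‖w + c‖ ^ 2 ≤ (‖w + b‖ + e) ^ 2 := pow_le_pow_left₀ (norm_nonneg _) h3 2
    nlinarith only [h5, sq_nonneg (‖w + b‖ - e)]
  linarith only [hc', h1, h2, h4]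

lemma Dn_pos (hw : ‖w‖ = 1) (ha : ‖a‖ < 1) (hb : ‖b‖ < 1) (hε : 0 < ε) : 0 < Dn ε e w a b := by
  unfold Dn
  have h1 := al_pos hw ha
  have h2 := al_pos hw hb
  (clear * - hε h1 h2; positivity)

lemma Dn_le (hw : ‖w‖ = 1) (ha : ‖a‖ < 1) (hb : ‖b‖ < 1) (hε : 0 < ε) (hbc : ‖b - c‖ ≤ e)
    (hc' : 1 - ‖c‖ ^ 2 ≤ e ^ 2) : Dn ε e w a c ≤ 2.5 * Dn ε e w a b := by
  unfold Dn
  have h1 := al_comp hw hb hbc hc'
  have h2 := al_pos hw ha
  have h3 := al_pos hw hb
  have h4 : al w c + e ^ 2 ≤ 2.5 * (al w b + e ^ 2) := by nlinarith only [h1, h3]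
  nlinarith only [h2, mul_le_mul_of_nonneg_left h4 hε.le]

lemma sqrt_alc_le (hw : ‖w‖ = 1) (hb : ‖b‖ < 1) (he : 0 < e) (hbc : ‖b - c‖ ≤ e)
    (hc' : 1 - ‖c‖ ^ 2 ≤ e ^ 2) : √(al w c) ≤ 1.5 * (√(al w b) + e) := by
  have h1 := al_comp hw hb hbc hc'
  have hy := Real.sqrt_nonneg (al w b)
  have hs : √(al w b) ^ 2 = al w b := Real.sq_sqrt (al_pos hw hb).le
  rw [Real.sqrt_le_left (by positivity)]
  nlinarith only [h1, hs, mul_nonneg hy he.le]

lemma khat_sub (w a b c : E3) :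
    khat w a b - khat w a c = ⟪b - c, w⟫ • (w + a) - ⟪b - c, w + a⟫ • w := by
  have h1 : ⟪w + b, w + a⟫ - ⟪w + c, w + a⟫ = ⟪b - c, w + a⟫ := by
    rw [← inner_sub_left]
    congr 1
    abel
  have h2 := al_sub w b c
  rw [← h1, ← h2]
  unfold khat
  module

lemma khat_sub_le (hw : ‖w‖ = 1) (_ : 0 < e) (hbc : ‖b - c‖ ≤ e) :
    ‖khat w a b - khat w a c‖ ≤ 2 * e * ‖w + a‖ := by
  rw [khat_sub]
  refine (norm_sub_le _ _).trans ?_
  rw [norm_smul, norm_smul, hw, Real.norm_eq_abs, Real.norm_eq_abs]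
  have h1 : |⟪b - c, w⟫| ≤ e := by
    refine (abs_real_inner_le_norm _ _).trans ?_
    rw [hw, mul_one]
    exact hbc
  have h2 : |⟪b - c, w + a⟫| ≤ e * ‖w + a‖ :=
    (abs_real_inner_le_norm _ _).trans (mul_le_mul_of_nonneg_right hbc (norm_nonneg _))
  nlinarith only [h2, mul_le_mul_of_nonneg_right h1 (norm_nonneg (w + a))]

/-- Derivative of `a ↦ khat w a b` in the direction `y`. -/
noncomputable def dk (w b y : E3) : E3 := al w b • y - ⟪w + b, y⟫ • w

lemma khat_line (w a b y : E3) (t : ℝ) : khat w (a + t • y) b = khat w a b + t • dk w b y := by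
  unfold khat dk
  have h1 : w + (a + t • y) = (w + a) + t • y := by abel
  rw [h1, inner_add_right, real_inner_smul_right]
  module

lemma dk_le (hw : ‖w‖ = 1) (hb : ‖b‖ < 1) (y : E3) : ‖dk w b y‖ ≤ 3 * √(al w b) * ‖y‖ := by
  have hB := norm_A_le hw hb
  have h0 := (al_pos hw hb).le
  have h2 := al_le hw hb
  have hs : √(al w b) * √(al w b) = al w b := Real.mul_self_sqrt h0
  have hy := Real.sqrt_nonneg (al w b)
  have hy2 : √(al w b) ≤ √2 := Real.sqrt_le_sqrt h2
  have h22 := sqrt2_lt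
  have h5 : al w b ≤ √2 * √(al w b) := by
    calc al w b = √(al w b) * √(al w b) := hs.symm
      _ ≤ √2 * √(al w b) := mul_le_mul_of_nonneg_right hy2 hy
  have h6 : √2 * √(al w b) ≤ 1.42 * √(al w b) := mul_le_mul_of_nonneg_right h22.le hy
  have h3 : ‖dk w b y‖ ≤ al w b * ‖y‖ + (√2 * √(al w b)) * ‖y‖ := by
    unfold dk
    refine (norm_sub_le _ _).trans (add_le_add ?_ ?_)
    · rw [norm_smul, Real.norm_of_nonneg h0]
    · rw [norm_smul, hw, mul_one, Real.norm_eq_abs]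
      exact (abs_real_inner_le_norm _ _).trans (mul_le_mul_of_nonneg_right hB (norm_nonneg _))
  refine h3.trans ?_
  rw [← add_mul]
  exact mul_le_mul_of_nonneg_right (by linarith only [hy, h5, h6]) (norm_nonneg _)

lemma dk_sub_le (hw : ‖w‖ = 1) (hbc : ‖b - c‖ ≤ e) (y : E3) :
    ‖dk w b y - dk w c y‖ ≤ 2 * e * ‖y‖ := by
  have h1 : dk w b y - dk w c y = ⟪b - c, w⟫ • y - ⟪b - c, y⟫ • w := by
    have h1 : ⟪w + b, y⟫ - ⟪w + c, y⟫ = ⟪b - c, y⟫ := by
      rw [← inner_sub_left]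
      congr 1
      abel
    have h2 := al_sub w b c
    rw [← h1, ← h2]
    unfold dk
    module
  rw [h1]
  refine (norm_sub_le _ _).trans ?_
  rw [norm_smul, norm_smul, hw, Real.norm_eq_abs, Real.norm_eq_abs, mul_one]
  have h1 : |⟪b - c, w⟫| ≤ e := by
    refine (abs_real_inner_le_norm _ _).trans ?_
    rw [hw, mul_one]
    exact hbc
  have h2 : |⟪b - c, y⟫| ≤ e * ‖y‖ :=
    (abs_real_inner_le_norm _ _).trans (mul_le_mul_of_nonneg_right hbc (norm_nonneg _))
  nlinarith only [h2, mul_le_mul_of_nonneg_right h1 (norm_nonneg y)]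

lemma al_line (w a y : E3) (t : ℝ) : al w (a + t • y) = al w a + t * ⟪y, w⟫ := by
  unfold al
  rw [inner_add_left, real_inner_smul_left]
  ring

lemma Dn_line (w a c y : E3) (ε e t : ℝ) :
    Dn ε e w (a + t • y) c = Dn ε e w a c + t * ⟪y, w⟫ := by
  unfold Dn
  rw [al_line]
  ring

/-- The derivative of `Psi` in the direction `y`. -/
noncomputable def dPsi (ε e : ℝ) (w a b c y : E3) : E3 :=
  (-(⟪y, w⟫ / al w a)) • Psi ε e w a b c +
    (al w a)⁻¹ • (dk w b y - al w b • ((ε / Dn ε e w a c) • dk w c y -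
      (ε * ⟪y, w⟫ / Dn ε e w a c ^ 2) • khat w a c))

lemma hasDerivAt_line (hw : ‖w‖ = 1) (ha : ‖a‖ < 1) (hc : ‖c‖ < 1) (hε : 0 < ε) (y : E3) :
    HasDerivAt (fun t : ℝ => Psi ε e w (a + t • y) b c) (dPsi ε e w a b c y) 0 := by
  have hal := (al_pos hw ha).ne'
  have hD := (Dn_pos (e := e) hw ha hc hε).ne'
  have h0 : (fun t : ℝ => Psi ε e w (a + t • y) b c) = fun t : ℝ =>
      (al w a + t * ⟪y, w⟫)⁻¹ • ((khat w a b + t • dk w b y) - al w b •
        ((ε * (Dn ε e w a c + t * ⟪y, w⟫)⁻¹) • (khat w a c + t • dk w c y))) := by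
    ext1 t
    unfold Psi ck
    rw [al_line, Dn_line, khat_line, khat_line, div_eq_mul_inv]
  rw [h0]
  have hl : ∀ p : ℝ, HasDerivAt (fun t : ℝ => p + t * ⟪y, w⟫) ⟪y, w⟫ 0 := by
    intro p
    simpa using ((hasDerivAt_id (0 : ℝ)).mul_const ⟪y, w⟫).const_add p
  have hi : ∀ p : ℝ, p ≠ 0 → HasDerivAt (fun t : ℝ => (p + t * ⟪y, w⟫)⁻¹)
      (-⟪y, w⟫ / p ^ 2) 0 := by
    intro p hp
    have := (hl p).fun_inv (by simpa using hp)
    simpa using this
  have hv : ∀ p q : E3, HasDerivAt (fun t : ℝ => p + t • q) q 0 := by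
    intro p q
    simpa using ((hasDerivAt_id (0 : ℝ)).smul_const q).const_add p
  have h1 := ((hi _ hD).const_mul ε).fun_smul (hv (khat w a c) (dk w c y))
  have h2 := (hv (khat w a b) (dk w b y)).fun_sub (h1.fun_const_smul (al w b))
  have h3 := (hi _ hal).fun_smul h2
  refine h3.congr_deriv ?_
  simp only [zero_mul, add_zero, zero_smul]
  unfold dPsi Psi ck
  generalize khat w a b = k1
  generalize khat w a c = k2
  generalize dk w b y = d1
  generalize dk w c y = d2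
  generalize ⟪y, w⟫ = m
  generalize al w a = p at *
  generalize Dn ε e w a c = D at *
  generalize al w b = r
  match_scalars <;> field_simp <;> ring

lemma differentiableAt_al (w a : E3) : DifferentiableAt ℝ (fun a => al w a) a := by
  unfold al
  exact (differentiableAt_id.inner ℝ (differentiableAt_const w)).const_add 1

lemma differentiableAt_khat (w a b : E3) : DifferentiableAt ℝ (fun a => khat w a b) a := by
  unfold khat
  have h1 : DifferentiableAt ℝ (fun a : E3 => w + a) a := differentiableAt_id.const_add w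
  exact (h1.const_smul (al w b)).sub
    (((differentiableAt_const (w + b)).inner ℝ h1).smul_const w)

lemma differentiableAt_Psi (hw : ‖w‖ = 1) (ha : ‖a‖ < 1) (hc : ‖c‖ < 1) (hε : 0 < ε) :
    DifferentiableAt ℝ (fun a => Psi ε e w a b c) a := by
  have hal := (al_pos hw ha).ne'
  have hD := (Dn_pos (e := e) hw ha hc hε).ne'
  have h1 : DifferentiableAt ℝ (fun a => Dn ε e w a c) a := by
    unfold Dn
    exact (differentiableAt_al w a).add_const _
  have h2 : DifferentiableAt ℝ (fun a => ck ε e w a c) a := by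
    unfold ck
    have h3 : DifferentiableAt ℝ (fun a => ε / Dn ε e w a c) a := by
      simp only [div_eq_mul_inv]
      exact (h1.inv hD).const_mul ε
    exact h3.smul (differentiableAt_khat w a c)
  unfold Psi
  exact ((differentiableAt_al w a).inv hal).smul
    ((differentiableAt_khat w a b).sub (h2.const_smul (al w b)))

lemma fderiv_Psi (hw : ‖w‖ = 1) (hc : ‖c‖ < 1) (hε : 0 < ε) (v F : E3) :
    fderiv ℝ (fun v => Psi ε e w (u v) b c) v F = dPsi ε e w (u v) b c (acc v F) := by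
  have ha := norm_u_lt_one v
  have hP : DifferentiableAt ℝ (fun a => Psi ε e w a b c) (u v) :=
    differentiableAt_Psi hw ha hc hε
  have hu : DifferentiableAt ℝ u v := (hasFDerivAt_u v).differentiableAt
  have h1 : fderiv ℝ (fun v => Psi ε e w (u v) b c) v =
      (fderiv ℝ (fun a => Psi ε e w a b c) (u v)).comp (fderiv ℝ u v) := fderiv_comp v hP hu
  rw [h1, ContinuousLinearMap.comp_apply, fderiv_u_apply]
  have h2 : HasDerivAt (fun t : ℝ => u v + t • acc v F) (acc v F) 0 := by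
    simpa using ((hasDerivAt_id (0 : ℝ)).smul_const (acc v F)).const_add (u v)
  have hP' : HasFDerivAt (fun a => Psi ε e w a b c)
      (fderiv ℝ (fun a => Psi ε e w a b c) (u v)) (u v + (0 : ℝ) • acc v F) := by
    rw [zero_smul, add_zero]
    exact hP.hasFDerivAt
  have h4 : HasDerivAt ((fun a => Psi ε e w a b c) ∘ fun t : ℝ => u v + t • acc v F)
      (fderiv ℝ (fun a => Psi ε e w a b c) (u v) (acc v F)) 0 :=
    HasFDerivAt.comp_hasDerivAt (0 : ℝ) hP' h2
  exact h4.unique (hasDerivAt_line hw ha hc hε (acc v F))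

/-! ### Scalar inequalities -/

/-- The scalar form of `bS`. -/
noncomputable def SB (p y e ε Db : ℝ) : ℝ := y / Db + e / p * (ε * (y ^ 2 + e ^ 2) / Db)

lemma sc_a {p y e ε D Db u1 : ℝ} (hp : 0 < p) (hy : 0 ≤ y) (he : 0 < e) (hε : 0 < ε)
    (hD : 0 < D) (hDb : 0 < Db) (h1 : Db ≤ 2.5 * D)
    (hu : u1 ≤ (p + ε * (1.42 * e * y + 2 * e ^ 2)) / D) :
    p⁻¹ * (u1 * y) ≤ 6.25 * SB p y e ε Db := by
  have h2 : (p + ε * (1.42 * e * y + 2 * e ^ 2)) / D ≤
      2.5 * (p + ε * (1.42 * e * y + 2 * e ^ 2)) / Db := by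
    rw [div_le_div_iff₀ hD hDb]
    have : 0 ≤ p + ε * (1.42 * e * y + 2 * e ^ 2) := by positivity
    nlinarith only [h1, this]
  have h3 : u1 * y ≤ 2.5 * (p + ε * (1.42 * e * y + 2 * e ^ 2)) / Db * y :=
    mul_le_mul_of_nonneg_right (hu.trans h2) hy
  have h4 : 2.5 * (p + ε * (1.42 * e * y + 2 * e ^ 2)) / Db * y ≤
      (2.5 * p * y + 6.25 * (e * (ε * (y ^ 2 + e ^ 2)))) / Db := by
    rw [div_mul_eq_mul_div]
    apply div_le_div_of_nonneg_right _ hDb.le
    have h5 : (1.42 * e * y + 2 * e ^ 2) * y ≤ 2.5 * (e * (y ^ 2 + e ^ 2)) := by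
      nlinarith only [mul_nonneg he.le (sq_nonneg e), mul_nonneg he.le (sq_nonneg y)]
    have h6 := mul_le_mul_of_nonneg_left h5 hε.le
    nlinarith only [h6]
  calc p⁻¹ * (u1 * y) ≤ p⁻¹ * ((2.5 * p * y + 6.25 * (e * (ε * (y ^ 2 + e ^ 2)))) / Db) :=
        mul_le_mul_of_nonneg_left (h3.trans h4) (by positivity)
    _ = 2.5 * (y / Db) + 6.25 * (e / p * (ε * (y ^ 2 + e ^ 2) / Db)) := by
        field_simp
    _ ≤ 6.25 * SB p y e ε Db := by
        unfold SB
        have : 0 ≤ y / Db := by positivity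
        linarith only [this]

lemma sc_b {p y e ε D Db : ℝ} (hp : 0 < p) (hy : 0 ≤ y) (he : 0 < e) (hε : 0 < ε)
    (hD : 0 < D) (hDb : 0 < Db) (h1 : Db ≤ 2.5 * D) :
    p⁻¹ * (y ^ 2 * (ε / D) * e) ≤ 2.5 * SB p y e ε Db := by
  have h2 : ε / D ≤ 2.5 * ε / Db := by
    rw [div_le_div_iff₀ hD hDb]
    nlinarith only [hε, h1]
  calc p⁻¹ * (y ^ 2 * (ε / D) * e) ≤ p⁻¹ * (y ^ 2 * (2.5 * ε / Db) * e) := by (clear * - hp he h2; gcongr)
    _ = 2.5 * (e / p * (ε * y ^ 2 / Db)) := by (clear * - hp he hε hDb; field_simp)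
    _ ≤ 2.5 * (e / p * (ε * (y ^ 2 + e ^ 2) / Db)) := by
        gcongr
        nlinarith only []
    _ ≤ 2.5 * SB p y e ε Db := by
        unfold SB
        have : 0 ≤ y / Db := by positivity
        linarith only [this]

lemma sc_c {p y e ε D Db : ℝ} (hp : 0 < p) (hy : 0 ≤ y) (he : 0 < e) (hε : 0 < ε)
    (hD : 0 < D) (hDb : 0 < Db) (h1 : Db ≤ 2.5 * D) (h2 : ε * y ^ 2 ≤ Db) (h3 : p ≤ D) :
    p⁻¹ * (y ^ 2 * (ε / D ^ 2) * (p * (y + e))) ≤ 6.25 * SB p y e ε Db := by
  have e1 : p⁻¹ * (y ^ 2 * (ε / D ^ 2) * (p * (y + e))) =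
      (ε * y ^ 2 / D) * (1 / D) * y + (ε * y ^ 2) * (1 / D) * (1 / D) * e := by
    field_simp
  have e2 : ε * y ^ 2 / D ≤ 2.5 := by
    rw [div_le_iff₀ hD]
    linarith only [h1, h2]
  have e3 : 1 / D ≤ 2.5 * (1 / Db) := by
    rw [mul_one_div, div_le_div_iff₀ hD hDb]
    linarith only [h1]
  have e4 : 1 / D ≤ 1 / p := one_div_le_one_div_of_le hp h3
  have e5 : (ε * y ^ 2 / D) * (1 / D) * y ≤ 2.5 * (2.5 * (1 / Db)) * y := by (clear * - hy hD e2 e3; gcongr)
  have e6 : (ε * y ^ 2) * (1 / D) * (1 / D) * e ≤ (ε * y ^ 2) * (2.5 * (1 / Db)) * (1 / p) * e := by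
    (clear * - he hε hD hDb e3 e4; gcongr)
  have e7 : (ε * y ^ 2) * (2.5 * (1 / Db)) * (1 / p) * e ≤
      2.5 * (e / p * (ε * (y ^ 2 + e ^ 2) / Db)) := by
    calc _ = 2.5 * (e / p * (ε * y ^ 2 / Db)) := by field_simp
      _ ≤ _ := by
        gcongr
        nlinarith only []
  rw [e1]
  unfold SB
  have e8 : 0 ≤ e / p * (ε * (y ^ 2 + e ^ 2) / Db) := by positivity
  have e9 : 2.5 * (2.5 * (1 / Db)) * y = 6.25 * (y / Db) := by
    rw [div_eq_mul_one_div y Db]
    ring
  linarith only [e5, e6, e7, e8, e9]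

/-- The factor `1 - α₀ h`. -/
lemma one_sub_le (hw : ‖w‖ = 1) (ha : ‖a‖ < 1) (hb : ‖b‖ < 1) (hc : ‖c‖ < 1) (hε : 0 < ε)
    (he : 0 < e) (hbc : ‖b - c‖ ≤ e) (hb' : 1 - ‖b‖ ^ 2 ≤ e ^ 2) (hc' : 1 - ‖c‖ ^ 2 ≤ e ^ 2) :
    |1 - al w b * (ε / Dn ε e w a c)| ≤
      (al w a + ε * (1.42 * e * √(al w b) + 2 * e ^ 2)) / Dn ε e w a c := by
  have hD := Dn_pos (e := e) hw ha hc hε
  have h1 : 1 - al w b * (ε / Dn ε e w a c) =
      (al w a + ε * (al w c - al w b) + ε * e ^ 2) / Dn ε e w a c := by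
    rw [eq_div_iff hD.ne']
    have : (1 - al w b * (ε / Dn ε e w a c)) * Dn ε e w a c = Dn ε e w a c - al w b * ε := by
      (clear * - hD; field_simp)
    rw [this]
    unfold Dn
    ring
  rw [h1, abs_div, abs_of_pos hD]
  apply div_le_div_of_nonneg_right _ hD.le
  have h2 := al_diff hw hb hc he hbc hb' hc'
  have hp := al_pos hw ha
  have hy := Real.sqrt_nonneg (al w b)
  have h3 : √2 * e * √(al w b) ≤ 1.42 * e * √(al w b) := by
    have := sqrt2_lt
    (clear * - he this; gcongr)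
  have h4 : |ε * (al w c - al w b)| ≤ ε * (1.42 * e * √(al w b) + e ^ 2) := by
    rw [abs_mul, abs_of_pos hε]
    exact mul_le_mul_of_nonneg_left (by linarith only [h2, h3]) hε.le
  have h5 : |al w a + ε * (al w c - al w b) + ε * e ^ 2| ≤
      al w a + |ε * (al w c - al w b)| + ε * e ^ 2 := by
    refine (abs_add_le _ _).trans ?_
    have h6 := abs_add_le (al w a) (ε * (al w c - al w b))
    rw [abs_of_pos hp] at h6
    have h7 : |ε * e ^ 2| = ε * e ^ 2 := abs_of_nonneg (by positivity)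
    rw [h7]
    linarith only [h6]
  linarith only [h4, h5]

lemma Psi_le (hw : ‖w‖ = 1) (ha : ‖a‖ < 1) (hb : ‖b‖ < 1) (hc : ‖c‖ < 1) (hε : 0 < ε)
    (he : 0 < e) (hbc : ‖b - c‖ ≤ e) :
    ‖Psi ε e w a b c‖ ≤ (al w a)⁻¹ * (|1 - al w b * (ε / Dn ε e w a c)| *
      (4 * (√(al w a) * √(al w b))) + al w b * (ε / Dn ε e w a c) * (2 * e * (1.42 * √(al w a)))) := by
  have hp := al_pos hw ha
  have hq := al_pos hw hb
  have hD := Dn_pos (e := e) hw ha hc hε
  have h1 : Psi ε e w a b c = (al w a)⁻¹ • ((1 - al w b * (ε / Dn ε e w a c)) • khat w a b +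
      (al w b * (ε / Dn ε e w a c)) • (khat w a b - khat w a c)) := by
    unfold Psi ck
    congr 1
    module
  have hA : ‖w + a‖ ≤ 1.42 * √(al w a) := (norm_A_le hw ha).trans
    (mul_le_mul_of_nonneg_right sqrt2_lt.le (Real.sqrt_nonneg _))
  rw [h1, norm_smul, Real.norm_of_nonneg (by positivity)]
  apply mul_le_mul_of_nonneg_left _ (by positivity)
  refine (norm_add_le _ _).trans (add_le_add ?_ ?_)
  · rw [norm_smul, Real.norm_eq_abs]
    exact mul_le_mul_of_nonneg_left (khat_le hw ha hb) (abs_nonneg _)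
  · rw [norm_smul, Real.norm_of_nonneg (by positivity)]
    apply mul_le_mul_of_nonneg_left _ (by positivity)
    exact (khat_sub_le hw he hbc).trans (mul_le_mul_of_nonneg_left hA (by positivity))

lemma second_le (hw : ‖w‖ = 1) (ha : ‖a‖ < 1) (hb : ‖b‖ < 1) (hc : ‖c‖ < 1) (hε : 0 < ε)
    (he : 0 < e) (hbc : ‖b - c‖ ≤ e) (hc' : 1 - ‖c‖ ^ 2 ≤ e ^ 2) {κ : ℝ} {g : E3}
    (hg : ‖g‖ ≤ κ) (hm : |⟪g, w⟫| ≤ 1.42 * κ * √(al w a)) :
    ‖dk w b g - al w b • ((ε / Dn ε e w a c) • dk w c g -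
      (ε * ⟪g, w⟫ / Dn ε e w a c ^ 2) • khat w a c)‖ ≤
      |1 - al w b * (ε / Dn ε e w a c)| * (3 * √(al w b) * κ) +
        al w b * (ε / Dn ε e w a c) * (2 * e * κ) +
        al w b * (ε / Dn ε e w a c ^ 2) * (8.52 * κ * (al w a * (√(al w b) + e))) := by
  have hp := al_pos hw ha
  have hq := al_pos hw hb
  have hD := Dn_pos (e := e) hw ha hc hε
  have hx := Real.sqrt_nonneg (al w a)
  have hy := Real.sqrt_nonneg (al w b)
  have hκ : 0 ≤ κ := (norm_nonneg g).trans hg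
  have hxx : √(al w a) * √(al w a) = al w a := Real.mul_self_sqrt hp.le
  have h1 : dk w b g - al w b • ((ε / Dn ε e w a c) • dk w c g -
      (ε * ⟪g, w⟫ / Dn ε e w a c ^ 2) • khat w a c) =
      ((1 - al w b * (ε / Dn ε e w a c)) • dk w b g +
      (al w b * (ε / Dn ε e w a c)) • (dk w b g - dk w c g)) +
      (al w b * (ε / Dn ε e w a c ^ 2) * ⟪g, w⟫) • khat w a c := by
    match_scalars <;> ring
  rw [h1]
  refine (norm_add_le _ _).trans (add_le_add ((norm_add_le _ _).trans (add_le_add ?_ ?_)) ?_)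
  · rw [norm_smul, Real.norm_eq_abs]
    apply mul_le_mul_of_nonneg_left _ (abs_nonneg _)
    exact (dk_le hw hb g).trans (mul_le_mul_of_nonneg_left hg (by positivity))
  · rw [norm_smul, Real.norm_of_nonneg (by positivity)]
    apply mul_le_mul_of_nonneg_left _ (by positivity)
    exact (dk_sub_le hw hbc g).trans (mul_le_mul_of_nonneg_left hg (by positivity))
  · rw [norm_smul, norm_mul, Real.norm_of_nonneg (show 0 ≤ al w b * (ε / Dn ε e w a c ^ 2) by
      positivity), Real.norm_eq_abs, mul_assoc]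
    apply mul_le_mul_of_nonneg_left _ (by positivity)
    have h2 : ‖khat w a c‖ ≤ 6 * (√(al w a) * (√(al w b) + e)) := by
      refine (khat_le hw ha hc).trans ?_
      have h3 := sqrt_alc_le hw hb he hbc hc'
      nlinarith only [mul_le_mul_of_nonneg_left h3 hx]
    calc |⟪g, w⟫| * ‖khat w a c‖
        ≤ (1.42 * κ * √(al w a)) * (6 * (√(al w a) * (√(al w b) + e))) :=
          mul_le_mul hm h2 (norm_nonneg _) (by positivity)
      _ = 8.52 * κ * ((√(al w a) * √(al w a)) * (√(al w b) + e)) := by ring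
      _ = 8.52 * κ * (al w a * (√(al w b) + e)) := by rw [hxx]

lemma dPsi_le (hw : ‖w‖ = 1) (ha : ‖a‖ < 1) (hb : ‖b‖ < 1) (hc : ‖c‖ < 1) (hε : 0 < ε)
    (he : 0 < e) (hbc : ‖b - c‖ ≤ e) (hb' : 1 - ‖b‖ ^ 2 ≤ e ^ 2) (hc' : 1 - ‖c‖ ^ 2 ≤ e ^ 2)
    {κ : ℝ} {g : E3} (hg : ‖g‖ ≤ κ) (hm : |⟪g, w⟫| ≤ 1.42 * κ * √(al w a)) :
    ‖dPsi ε e w a b c g‖ ≤ 123 * (κ * SB (al w a) (√(al w b)) e ε (Dn ε e w a b)) := by
  have hp := al_pos hw ha
  have hq := al_pos hw hb
  have hD := Dn_pos (e := e) hw ha hc hε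
  have hDb := Dn_pos (e := e) hw ha hb hε
  have hx := Real.sqrt_nonneg (al w a)
  have hy := Real.sqrt_nonneg (al w b)
  have hκ : 0 ≤ κ := (norm_nonneg g).trans hg
  have hxx : √(al w a) * √(al w a) = al w a := Real.mul_self_sqrt hp.le
  have hyy : √(al w b) ^ 2 = al w b := Real.sq_sqrt hq.le
  have hcb : ‖c - b‖ ≤ e := by rwa [norm_sub_rev]
  have hDD : Dn ε e w a b ≤ 2.5 * Dn ε e w a c := Dn_le hw ha hc hε hcb hb'
  have hu := one_sub_le hw ha hb hc hε he hbc hb' hc'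
  have hA := sc_a hp hy he hε hD hDb hDD hu
  have hB := sc_b (p := al w a) (y := √(al w b)) hp hy he hε hD hDb hDD
  have hC := sc_c (p := al w a) (y := √(al w b)) hp hy he hε hD hDb hDD
    (by
      rw [hyy]
      unfold Dn
      nlinarith only [hp, mul_nonneg hε.le (sq_nonneg e)])
    (by
      unfold Dn
      have := al_pos hw hc
      nlinarith only [mul_nonneg hε.le (sq_nonneg e), mul_pos hε this])
  rw [hyy] at hB hC
  have h1 := Psi_le hw ha hb hc hε he hbc
  have h2 := second_le hw ha hb hc hε he hbc hc' hg hm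
  have hS0 : 0 ≤ SB (al w a) (√(al w b)) e ε (Dn ε e w a b) := by
    unfold SB
    (clear * - hε he hp hq hDb; positivity)
  set S := SB (al w a) (√(al w b)) e ε (Dn ε e w a b) with hS
  set u1 := |1 - al w b * (ε / Dn ε e w a c)| with hu1
  have h3 : ‖dPsi ε e w a b c g‖ ≤ (|⟪g, w⟫| / al w a) * ‖Psi ε e w a b c‖ +
      (al w a)⁻¹ * ‖dk w b g - al w b • ((ε / Dn ε e w a c) • dk w c g -
      (ε * ⟪g, w⟫ / Dn ε e w a c ^ 2) • khat w a c)‖ := by
    unfold dPsi
    refine (norm_add_le _ _).trans (add_le_add ?_ ?_)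
    · rw [norm_smul, norm_neg, norm_div, Real.norm_eq_abs, Real.norm_of_nonneg hp.le]
    · rw [norm_smul, Real.norm_of_nonneg (by positivity)]
  have h4 : (|⟪g, w⟫| / al w a) * ‖Psi ε e w a b c‖ ≤
      κ * (5.68 * ((al w a)⁻¹ * (u1 * √(al w b))) +
        4.0328 * ((al w a)⁻¹ * (al w b * (ε / Dn ε e w a c) * e))) := by
    have e1 : |⟪g, w⟫| / al w a ≤ 1.42 * κ * √(al w a) / al w a :=
      div_le_div_of_nonneg_right hm hp.le
    calc _ ≤ (1.42 * κ * √(al w a) / al w a) * ((al w a)⁻¹ * (u1 *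
          (4 * (√(al w a) * √(al w b))) + al w b * (ε / Dn ε e w a c) *
            (2 * e * (1.42 * √(al w a))))) :=
          mul_le_mul e1 h1 (norm_nonneg _) (by (clear * - hp hκ; positivity))
      _ = ((√(al w a) * √(al w a)) / al w a) * (κ * (5.68 * ((al w a)⁻¹ * (u1 * √(al w b))) +
        4.0328 * ((al w a)⁻¹ * (al w b * (ε / Dn ε e w a c) * e)))) := by ring
      _ = _ := by rw [hxx, div_self hp.ne', one_mul]
  have h5 : (al w a)⁻¹ * ‖dk w b g - al w b • ((ε / Dn ε e w a c) • dk w c g -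
      (ε * ⟪g, w⟫ / Dn ε e w a c ^ 2) • khat w a c)‖ ≤
      κ * (3 * ((al w a)⁻¹ * (u1 * √(al w b))) +
        2 * ((al w a)⁻¹ * (al w b * (ε / Dn ε e w a c) * e)) +
        8.52 * ((al w a)⁻¹ * (al w b * (ε / Dn ε e w a c ^ 2) * (al w a * (√(al w b) + e))))) := by
    refine (mul_le_mul_of_nonneg_left h2 (by positivity)).trans (le_of_eq ?_)
    ring
  refine h3.trans ((add_le_add h4 h5).trans ?_)
  have h6 : κ * (5.68 * ((al w a)⁻¹ * (u1 * √(al w b))) +
        4.0328 * ((al w a)⁻¹ * (al w b * (ε / Dn ε e w a c) * e))) +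
      κ * (3 * ((al w a)⁻¹ * (u1 * √(al w b))) +
        2 * ((al w a)⁻¹ * (al w b * (ε / Dn ε e w a c) * e)) +
        8.52 * ((al w a)⁻¹ * (al w b * (ε / Dn ε e w a c ^ 2) * (al w a * (√(al w b) + e))))) ≤
      κ * (123 * S) := by
    rw [← mul_add]
    apply mul_le_mul_of_nonneg_left _ hκ
    linarith only [hB, hC, hS0, hA]
  refine h6.trans (le_of_eq ?_)
  ring

end KA

open KA

/-- K1. -/
theorem ck_bound : ∃ C : ℝ, 0 < C ∧ ∀ (ε e : ℝ) (w a b c : E3), 0 < ε → ε ≤ 1 → 0 < e → e ≤ 1 →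
    ‖w‖ = 1 → ‖a‖ < 1 → ‖b‖ < 1 → ‖c‖ < 1 → ‖b - c‖ ≤ e → 1 - ‖b‖ ^ 2 ≤ e ^ 2 →
    1 - ‖c‖ ^ 2 ≤ e ^ 2 → ‖ck ε e w a c‖ ≤ C * bC ε e w a b := by
  refine ⟨15, by norm_num, ?_⟩
  intro ε e w a b c hε _ he _ hw ha hb hc hbc hb' hc'
  have hDc : 0 < Dn ε e w a c := Dn_pos hw ha hc hε
  have hDb : 0 < Dn ε e w a b := Dn_pos hw ha hb hε
  have hcb : ‖c - b‖ ≤ e := by rwa [norm_sub_rev]
  have h1 : Dn ε e w a b ≤ 2.5 * Dn ε e w a c := Dn_le hw ha hc hε hcb hb'
  have h2 := khat_le hw ha hc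
  have h3 := sqrt_alc_le hw hb he hbc hc'
  have hx := Real.sqrt_nonneg (al w a)
  have hy := Real.sqrt_nonneg (al w b)
  unfold ck bC
  rw [norm_smul, Real.norm_of_nonneg (by positivity)]
  have h4 : ε / Dn ε e w a c ≤ 2.5 * ε / Dn ε e w a b := by
    rw [div_le_div_iff₀ hDc hDb]
    nlinarith only [hε, h1]
  have h5 : ‖khat w a c‖ ≤ 6 * (√(al w a) * (√(al w b) + e)) := by
    refine h2.trans ?_
    nlinarith only [mul_le_mul_of_nonneg_left h3 hx]
  calc ε / Dn ε e w a c * ‖khat w a c‖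
      ≤ (2.5 * ε / Dn ε e w a b) * (6 * (√(al w a) * (√(al w b) + e))) :=
        mul_le_mul h4 h5 (norm_nonneg _) (by positivity)
    _ = 15 * (ε * √(al w a) * (√(al w b) + e) / Dn ε e w a b) := by ring

/-- K2. -/
theorem Psi_grad_bound : ∃ C : ℝ, 0 < C ∧ ∀ (ε e : ℝ) (w b c v F : E3), 0 < ε → ε ≤ 1 → 0 < e →
    e ≤ 1 → ‖w‖ = 1 → ‖b‖ < 1 → ‖c‖ < 1 → ‖b - c‖ ≤ e → 1 - ‖b‖ ^ 2 ≤ e ^ 2 →
    1 - ‖c‖ ^ 2 ≤ e ^ 2 →
    ‖fderiv ℝ (fun v => Psi ε e w (u v) b c) v F‖
      ≤ C * ((q v)⁻¹ * ‖F‖ * bS ε e w (u v) b) := by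
  refine ⟨123, by norm_num, ?_⟩
  intro ε e w b c v F hε _ he _ hw hb hc hbc hb' hc'
  rw [fderiv_Psi hw hc hε v F]
  have h1 := abs_inner_acc_le v F hw
  have hq := q_pos v
  have h2 : |⟪acc v F, w⟫| ≤ 1.42 * ((q v)⁻¹ * ‖F‖) * √(al w (u v)) := by
    refine h1.trans ?_
    have h3 : √2 * √(1 + ⟪u v, w⟫) ≤ 1.42 * √(1 + ⟪u v, w⟫) :=
      mul_le_mul_of_nonneg_right sqrt2_lt.le (Real.sqrt_nonneg _)
    calc (q v)⁻¹ * (‖F‖ * (√2 * √(1 + ⟪u v, w⟫)))
        ≤ (q v)⁻¹ * (‖F‖ * (1.42 * √(1 + ⟪u v, w⟫))) := by (clear * - hq h3; gcongr)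
      _ = 1.42 * ((q v)⁻¹ * ‖F‖) * √(al w (u v)) := by
        unfold al
        ring
  have h3 := dPsi_le hw (norm_u_lt_one v) hb hc hε he hbc hb' hc' (norm_acc_le v F) h2
  refine h3.trans (le_of_eq ?_)
  unfold SB bS
  rw [Real.sq_sqrt (al_pos hw hb).le]

end Vale.Agent.P107
end
end
end

section

section

attribute [-instance] ProperSMul.toContinuousSMul IsTopologicalTorsor.toContinuousSMul
  IdemSemiring.toCanonicallyOrderedAdd IdemSemiring.toMulLeftMono IdemSemiring.toMulRightMono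
  AddQuantale.instAddLeftMono AddQuantale.instAddRightMono Quantale.instMulLeftMono
  Quantale.instMulRightMono FiniteDimensional.rclike_to_real IsScalarTower.complexToReal
  FiniteDimensional.complexToReal

section

/-!
Cutting off in time: functions which are `C¹` on `[0,T)` multiplied by a function of time which
vanishes for small times.
-/

open MeasureTheory Set Filter Topology
open scoped RealInnerProductSpace ENNReal NNReal

namespace Vale.Agent.P107

/-- The time cutoff. -/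
noncomputable def chi (t₀ s : ℝ) : ℝ := Real.smoothTransition (2 * s / t₀ - 1)

lemma contDiff_chi (t₀ : ℝ) : ContDiff ℝ 2 (chi t₀) := by
  unfold chi
  exact Real.smoothTransition.contDiff.comp (by fun_prop)

lemma chi_eq_zero {t₀ s : ℝ} (h0 : 0 < t₀) (hs : s ≤ t₀ / 2) : chi t₀ s = 0 := by
  unfold chi
  apply Real.smoothTransition.zero_of_nonpos
  have : 2 * s / t₀ ≤ 1 := by
    rw [div_le_one h0]; linarith only [hs]
  linarith only [this]

lemma chi_eq_one {t₀ s : ℝ} (h0 : 0 < t₀) (hs : t₀ ≤ s) : chi t₀ s = 1 := by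
  unfold chi
  apply Real.smoothTransition.one_of_one_le
  have : 2 ≤ 2 * s / t₀ := by
    rw [le_div_iff₀ h0]; linarith only [hs]
  linarith only [this]

lemma chi_nonneg (t₀ s : ℝ) : 0 ≤ chi t₀ s := Real.smoothTransition.nonneg _

lemma chi_le_one (t₀ s : ℝ) : chi t₀ s ≤ 1 := Real.smoothTransition.le_one _

lemma contDiff_deriv_chi (t₀ : ℝ) : ContDiff ℝ 1 (deriv (chi t₀)) := by
  have h := contDiff_chi t₀
  have h2 : (2 : WithTop ℕ∞) = 1 + 1 := by norm_num
  rw [h2, contDiff_succ_iff_deriv] at h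
  exact h.2.2

lemma deriv_chi_early {t₀ s : ℝ} (h0 : 0 < t₀) (hs : s ≤ t₀ / 4) : deriv (chi t₀) s = 0 := by
  have : chi t₀ =ᶠ[𝓝 s] fun _ => 0 := by
    filter_upwards [Iio_mem_nhds (show s < t₀ / 2 by linarith only [h0, hs])] with y hy
    exact chi_eq_zero h0 (le_of_lt hy)
  rw [this.deriv_eq]; simp

lemma deriv_chi_late {t₀ s : ℝ} (h0 : 0 < t₀) (hs : t₀ < s) : deriv (chi t₀) s = 0 := by
  have : chi t₀ =ᶠ[𝓝 s] fun _ => 1 := by
    filter_upwards [Ioi_mem_nhds hs] with y hy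
    exact chi_eq_one h0 (le_of_lt hy)
  rw [this.deriv_eq]; simp

lemma contDiffOn_cut {F : Type*} [NormedAddCommGroup F] [NormedSpace ℝ F] {T η : ℝ} (hη : 0 < η)
    {c : ℝ → ℝ} (hc : ContDiff ℝ 1 c) (hcv : ∀ s ≤ η, c s = 0) {g : ℝ × F → ℝ}
    (hg : ContDiffOn ℝ 1 g (Ico 0 T ×ˢ univ)) :
    ContDiffOn ℝ 1 (fun z => c z.1 * g z) (Iio T ×ˢ univ) := by
  intro z hz
  apply ContDiffAt.contDiffWithinAt
  by_cases h : z.1 < η
  · have : (fun z : ℝ × F => c z.1 * g z) =ᶠ[𝓝 z] fun _ => 0 := by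
      filter_upwards [(isOpen_lt continuous_fst continuous_const).mem_nhds h] with y hy
      rw [hcv y.1 (le_of_lt hy), zero_mul]
    exact contDiffAt_const.congr_of_eventuallyEq this
  · push Not at h
    have hmem : Ico 0 T ×ˢ univ ∈ 𝓝 z := prod_mem_nhds (Ico_mem_nhds (by linarith only [hη, h]) hz.1) univ_mem
    exact (hc.contDiffAt.comp z contDiffAt_fst).mul (hg.contDiffAt hmem)

section fields

variable {T : ℝ} {W : ℝ → E3 → E3}

lemma contDiffOn_comp (hW : ContDiffOn ℝ 1 (fun z : ℝ × E3 => W z.1 z.2) (Ico 0 T ×ˢ univ))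
    (i : Fin 3) : ContDiffOn ℝ 1 (fun z : ℝ × E3 => W z.1 z.2 i) (Ico 0 T ×ˢ univ) :=
  (EuclideanSpace.proj i : E3 →L[ℝ] ℝ).contDiff.comp_contDiffOn hW

lemma late_cut (hW : ContDiffOn ℝ 1 (fun z : ℝ × E3 => W z.1 z.2) (Ico 0 T ×ˢ univ))
    {η : ℝ} (hη : 0 < η) {c : ℝ → ℝ} (hc : ContDiff ℝ 1 c) (hcv : ∀ s ≤ η, c s = 0) (i : Fin 3) :
    Late T (fun p => c p.1 * W p.1 p.2 i) :=
  ⟨contDiffOn_cut hη hc hcv (contDiffOn_comp hW i), η, hη, fun p hp => by
    rw [hcv p.1 hp, zero_mul]⟩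

lemma Ico_prod_mem {F : Type*} [TopologicalSpace F] {p : ℝ × F} (h0 : 0 < p.1) (hT : p.1 < T) :
    Ico 0 T ×ˢ (univ : Set F) ∈ 𝓝 p := prod_mem_nhds (Ico_mem_nhds h0 hT) univ_mem

lemma ptd_cut (hW : ContDiffOn ℝ 1 (fun z : ℝ × E3 => W z.1 z.2) (Ico 0 T ×ˢ univ))
    {c : ℝ → ℝ} (hc : ContDiff ℝ 1 c) {p : ℝ × E3} (h0 : 0 < p.1) (hT : p.1 < T) (i : Fin 3) :
    ptd (fun p => c p.1 * W p.1 p.2 i) p
      = deriv c p.1 * W p.1 p.2 i + c p.1 * (derivWithin (fun s => W s p.2) (Ico 0 T) p.1) i := by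
  have hd : DifferentiableAt ℝ (fun z : ℝ × E3 => W z.1 z.2) p :=
    (hW.contDiffAt (Ico_prod_mem h0 hT)).differentiableAt (by norm_num)
  have hdi : DifferentiableAt ℝ (fun z : ℝ × E3 => W z.1 z.2 i) p :=
    ((contDiffOn_comp hW i).contDiffAt (Ico_prod_mem h0 hT)).differentiableAt (by norm_num)
  have h2 : HasDerivAt (fun s : ℝ => (s, p.2)) ((1 : ℝ), (0 : E3)) p.1 :=
    (hasDerivAt_id _).prodMk (hasDerivAt_const _ _)
  have h3 : HasDerivAt (fun s => W s p.2) (fderiv ℝ (fun z : ℝ × E3 => W z.1 z.2) p (1, 0)) p.1 :=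
    hd.hasFDerivAt.comp_hasDerivAt_of_eq p.1 h2 rfl
  have h4 : derivWithin (fun s => W s p.2) (Ico 0 T) p.1
      = fderiv ℝ (fun z : ℝ × E3 => W z.1 z.2) p (1, 0) := by
    rw [derivWithin_of_mem_nhds (Ico_mem_nhds h0 hT), h3.deriv]
  have h5 : HasDerivAt (fun s => W s p.2 i)
      ((fderiv ℝ (fun z : ℝ × E3 => W z.1 z.2) p (1, 0)) i) p.1 :=
    (EuclideanSpace.proj i : E3 →L[ℝ] ℝ).hasFDerivAt.comp_hasDerivAt p.1 h3
  have h6 : HasDerivAt (fun s => c s * W s p.2 i)
      (deriv c p.1 * W p.1 p.2 i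
        + c p.1 * (fderiv ℝ (fun z : ℝ × E3 => W z.1 z.2) p (1, 0)) i) p.1 :=
    (hc.differentiable (by norm_num) p.1).hasDerivAt.mul h5
  have h7 : DifferentiableAt ℝ (fun p : ℝ × E3 => c p.1 * W p.1 p.2 i) p :=
    ((hc.differentiable (by norm_num) p.1).comp p differentiableAt_fst).mul hdi
  have h8 : HasDerivAt (fun s => c s * W s p.2 i)
      (ptd (fun p => c p.1 * W p.1 p.2 i) p) p.1 :=
    h7.hasFDerivAt.comp_hasDerivAt_of_eq p.1 h2 rfl
  rw [h8.unique h6, h4]

lemma pxd_cut (hW : ContDiffOn ℝ 1 (fun z : ℝ × E3 => W z.1 z.2) (Ico 0 T ×ˢ univ))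
    {c : ℝ → ℝ} (hc : ContDiff ℝ 1 c) {p : ℝ × E3} (h0 : 0 < p.1) (hT : p.1 < T) (i : Fin 3)
    (e : E3) :
    pxd e (fun p => c p.1 * W p.1 p.2 i) p = c p.1 * fderiv ℝ (fun y => W p.1 y i) p.2 e := by
  have hdi : DifferentiableAt ℝ (fun z : ℝ × E3 => W z.1 z.2 i) p :=
    ((contDiffOn_comp hW i).contDiffAt (Ico_prod_mem h0 hT)).differentiableAt (by norm_num)
  have h7 : DifferentiableAt ℝ (fun p : ℝ × E3 => c p.1 * W p.1 p.2 i) p :=
    ((hc.differentiable (by norm_num) p.1).comp p differentiableAt_fst).mul hdi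
  have h2 : HasFDerivAt (fun y : E3 => (p.1, y)) (ContinuousLinearMap.inr ℝ ℝ E3) p.2 :=
    hasFDerivAt_prodMk_right p.1 p.2
  have h3 : HasFDerivAt (fun y => W p.1 y i)
      ((fderiv ℝ (fun z : ℝ × E3 => W z.1 z.2 i) p).comp (ContinuousLinearMap.inr ℝ ℝ E3)) p.2 :=
    HasFDerivAt.comp (g := fun z : ℝ × E3 => W z.1 z.2 i) p.2 hdi.hasFDerivAt h2
  have h4 : HasFDerivAt (fun y => c p.1 * W p.1 y i)
      ((fderiv ℝ (fun p : ℝ × E3 => c p.1 * W p.1 p.2 i) p).comp
        (ContinuousLinearMap.inr ℝ ℝ E3)) p.2 :=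
    HasFDerivAt.comp (g := fun p : ℝ × E3 => c p.1 * W p.1 p.2 i) p.2 h7.hasFDerivAt h2
  have h5 := h4.unique (h3.const_mul (c p.1))
  have h6 := congrArg (fun L : E3 →L[ℝ] ℝ => L e) h5
  rw [h3.fderiv]
  simpa [pxd] using h6

end fields

section density

variable {T : ℝ} {f : ℝ → E3 → E3 → ℝ}

/-- The cut off density. -/
noncomputable def Gcut (c : ℝ → ℝ) (f : ℝ → E3 → E3 → ℝ) (z : ℝ × E3 × E3) : ℝ :=
  c z.1 * f z.1 z.2.1 z.2.2

lemma contDiffOn_Gcut
    (hf : ContDiffOn ℝ 1 (fun z : ℝ × E3 × E3 => f z.1 z.2.1 z.2.2) (Ico 0 T ×ˢ univ))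
    {η : ℝ} (hη : 0 < η) {c : ℝ → ℝ} (hc : ContDiff ℝ 1 c) (hcv : ∀ s ≤ η, c s = 0) :
    ContDiffOn ℝ 1 (Gcut c f) (Iio T ×ˢ univ) :=
  contDiffOn_cut hη hc hcv hf

lemma contDiff_slice (hf : ContDiffOn ℝ 1 (fun z : ℝ × E3 × E3 => f z.1 z.2.1 z.2.2)
    (Ico 0 T ×ˢ univ)) {η : ℝ} (hη : 0 < η) {c : ℝ → ℝ} (hc : ContDiff ℝ 1 c)
    (hcv : ∀ s ≤ η, c s = 0) {p : ℝ × E3} (hp : p.1 < T) :
    ContDiff ℝ 1 (fun v => c p.1 * f p.1 p.2 v) := by
  have h1 : ContDiff ℝ 1 (fun v : E3 => (p.1, p.2, v)) := by fun_prop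
  rw [← contDiffOn_univ] at h1 ⊢
  exact (contDiffOn_Gcut hf hη hc hcv).comp h1 (fun v _ => ⟨hp, mem_univ _⟩)

/-- Time derivative of the density. -/
noncomputable def H1 (c : ℝ → ℝ) (f : ℝ → E3 → E3 → ℝ) (p : ℝ × E3) (v : E3) : ℝ :=
  fderiv ℝ (Gcut c f) (p.1, p.2, v) (1, 0, 0)

/-- Free transport derivative of the density. -/
noncomputable def HS (c : ℝ → ℝ) (f : ℝ → E3 → E3 → ℝ) (p : ℝ × E3) (v : E3) : ℝ :=
  fderiv ℝ (Gcut c f) (p.1, p.2, v) (1, u v, 0)

lemma lateV_H0 (hf : ContDiffOn ℝ 1 (fun z : ℝ × E3 × E3 => f z.1 z.2.1 z.2.2) (Ico 0 T ×ˢ univ))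
    (hs : ∀ t ∈ Ico 0 T, ∃ R : ℝ, ∀ s ∈ Icc 0 t, ∀ x v, f s x v ≠ 0 → ‖x‖ ≤ R ∧ ‖v‖ ≤ R)
    {η : ℝ} (hη : 0 < η) {c : ℝ → ℝ} (hc : ContDiff ℝ 1 c) (hcv : ∀ s ≤ η, c s = 0) :
    LateV T (fun p v => c p.1 * f p.1 p.2 v) := by
  refine ⟨?_, fun p hp v => by rw [hcv p.1 (hp.trans hη.le), zero_mul], fun t ht => ?_⟩
  · have h1 := (contDiffOn_Gcut hf hη hc hcv).continuousOn
    have h2 : ContinuousOn (fun z : (ℝ × E3) × E3 => (z.1.1, z.1.2, z.2))
      ((Iio T ×ˢ univ) ×ˢ univ) := by fun_prop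
    exact h1.comp h2 (fun z hz => ⟨hz.1.1, mem_univ _⟩)
  · by_cases ht0 : t < 0
    · exact ⟨0, fun p hp v _ => by rw [hcv p.1 (by linarith only [hη, ht0, hp]), zero_mul]⟩
    · push Not at ht0
      obtain ⟨R, hR⟩ := hs t ⟨ht0, ht⟩
      refine ⟨R, fun p hp v hv => ?_⟩
      by_cases hp0 : p.1 ≤ 0
      · rw [hcv p.1 (by linarith only [hη, hp0]), zero_mul]
      · push Not at hp0
        by_contra hne
        have hne' : f p.1 p.2 v ≠ 0 := fun h => hne (by rw [h, mul_zero])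
        linarith only [hv, (hR p.1 ⟨hp0.le, hp⟩ p.2 v hne').2]

lemma lateV_fderiv
    (hf : ContDiffOn ℝ 1 (fun z : ℝ × E3 × E3 => f z.1 z.2.1 z.2.2) (Ico 0 T ×ˢ univ))
    (hs : ∀ t ∈ Ico 0 T, ∃ R : ℝ, ∀ s ∈ Icc 0 t, ∀ x v, f s x v ≠ 0 → ‖x‖ ≤ R ∧ ‖v‖ ≤ R)
    {η : ℝ} (hη : 0 < η) {c : ℝ → ℝ} (hc : ContDiff ℝ 1 c) (hcv : ∀ s ≤ η, c s = 0)
    {d : E3 → ℝ × E3 × E3} (hd : Continuous d) :
    LateV T (fun p v => fderiv ℝ (Gcut c f) (p.1, p.2, v) (d v)) := by
  have hG := contDiffOn_Gcut hf hη hc hcv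
  have hopen : IsOpen (Iio T ×ˢ (univ : Set (E3 × E3))) := isOpen_Iio.prod isOpen_univ
  have h0 := lateV_H0 hf hs hη hc hcv
  refine ⟨?_, fun p hp v => ?_, fun t ht => ?_⟩
  · have h1 := hG.continuousOn_fderiv_of_isOpen hopen (le_refl 1)
    have h2 : ContinuousOn (fun z : (ℝ × E3) × E3 => (z.1.1, z.1.2, z.2))
      ((Iio T ×ˢ univ) ×ˢ univ) := by fun_prop
    have h3 := h1.comp h2 (fun z hz => ⟨hz.1.1, mem_univ _⟩)
    exact h3.clm_apply (hd.comp continuous_snd).continuousOn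
  · have : Gcut c f =ᶠ[𝓝 (p.1, p.2, v)] fun _ => 0 := by
      have hmem : {y : ℝ × E3 × E3 | y.1 < η} ∈ 𝓝 (p.1, p.2, v) :=
        (isOpen_lt continuous_fst continuous_const).mem_nhds (by
          simp only [mem_ofPred_eq]; linarith only [hη, hp])
      filter_upwards [hmem] with y hy
      simp only [Gcut, hcv y.1 (le_of_lt hy), zero_mul]
    rw [this.fderiv_eq]; simp
  · obtain ⟨t', htt', ht'T⟩ := exists_between ht
    obtain ⟨R, hR⟩ := h0.supp t' ht'T
    refine ⟨R, fun p hp v hv => ?_⟩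
    have : Gcut c f =ᶠ[𝓝 (p.1, p.2, v)] fun _ => 0 := by
      have hm1 : {y : ℝ × E3 × E3 | y.1 < t'} ∈ 𝓝 (p.1, p.2, v) :=
        (isOpen_lt continuous_fst continuous_const).mem_nhds (by
          simp only [mem_ofPred_eq]; linarith only [htt', hp])
      have hm2 : {y : ℝ × E3 × E3 | R < ‖y.2.2‖} ∈ 𝓝 (p.1, p.2, v) :=
        (isOpen_lt continuous_const (by fun_prop)).mem_nhds (by
          simp only [mem_ofPred_eq]; linarith)
      filter_upwards [hm1, hm2] with y hy1 hy2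
      exact hR (y.1, y.2.1) (le_of_lt hy1) y.2.2 hy2
    rw [this.fderiv_eq]; simp

lemma LateV.hasDerivAt_integral {H H' : ℝ × E3 → E3 → ℝ} (h : LateV T H) (h' : LateV T H')
    (hd : ∀ v, ∀ p ∈ Iio T ×ˢ (univ : Set E3), HasDerivAt (fun s => H (s, p.2) v) (H' p v) p.1)
    (p : ℝ × E3) (hp : p ∈ Iio T ×ˢ (univ : Set E3)) :
    HasDerivAt (fun s => ∫ v, H (s, p.2) v) (∫ v, H' p v) p.1 := by
  have hp1 : p.1 < T := hp.1
  obtain ⟨t', htt', ht'T⟩ := exists_between hp1
  obtain ⟨D, hD0, hD⟩ := h'.exists_bound ht'T ‖p.2‖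
  obtain ⟨R, hR⟩ := h.supp t' ht'T
  obtain ⟨R', hR'⟩ := h'.supp t' ht'T
  have hcont : ∀ {K : ℝ × E3 → E3 → ℝ}, LateV T K → ∀ s < T, Continuous fun v => K (s, p.2) v := by
    intro K hK s hs
    have h1 : Continuous fun v : E3 => (((s, p.2), v) : (ℝ × E3) × E3) := by fun_prop
    exact hK.cont.comp_continuous h1 (fun v => ⟨⟨hs, mem_univ _⟩, mem_univ _⟩)
  have hcs : HasCompactSupport fun v => H (p.1, p.2) v := by
    refine HasCompactSupport.intro (isCompact_closedBall (0 : E3) R) fun v hv => ?_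
    refine hR (p.1, p.2) htt'.le v ?_
    simpa using hv
  have hb : Integrable ((Metric.closedBall (0 : E3) R').indicator (fun _ : E3 => D)) := by
    rw [integrable_indicator_iff measurableSet_closedBall]
    exact integrableOn_const measure_closedBall_lt_top.ne
  have key := hasDerivAt_integral_of_dominated_loc_of_deriv_le (μ := (volume : Measure E3))
    (F := fun (s : ℝ) (v : E3) => H (s, p.2) v) (F' := fun (s : ℝ) (v : E3) => H' (s, p.2) v)
    (s := Iio t') (x₀ := p.1)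
    (bound := (Metric.closedBall (0 : E3) R').indicator (fun _ : E3 => D))
    (Iio_mem_nhds htt') ?_ ?_ ?_ ?_ hb ?_
  · exact key.2
  · filter_upwards [Iio_mem_nhds htt'] with s hs
    exact (hcont h s (lt_trans hs ht'T)).aestronglyMeasurable
  · exact (hcont h p.1 hp1).integrable_of_hasCompactSupport hcs
  · exact (hcont h' p.1 hp1).aestronglyMeasurable
  · refine ae_of_all _ fun v s hs => ?_
    by_cases hv : v ∈ Metric.closedBall (0 : E3) R'
    · rw [indicator_of_mem hv, Real.norm_eq_abs]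
      have h2 := hD s (le_of_lt hs) p.2 le_rfl 0 v
      simpa [rp] using h2
    · rw [indicator_of_notMem hv]
      rw [Metric.mem_closedBall, dist_zero_right, not_le] at hv
      rw [hR' (s, p.2) (le_of_lt hs) v hv, norm_zero]
  · refine ae_of_all _ fun v s hs => ?_
    exact hd v (s, p.2) ⟨lt_trans hs ht'T, mem_univ _⟩

/-- For each velocity, the cut off density is late, and its derivatives are those of `Gcut`. -/
lemma late_H0 (hf : ContDiffOn ℝ 1 (fun z : ℝ × E3 × E3 => f z.1 z.2.1 z.2.2) (Ico 0 T ×ˢ univ))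
    {η : ℝ} (hη : 0 < η) {c : ℝ → ℝ} (hc : ContDiff ℝ 1 c) (hcv : ∀ s ≤ η, c s = 0) (v : E3) :
    Late T (fun p => c p.1 * f p.1 p.2 v) := by
  refine ⟨?_, η, hη, fun p hp => by rw [hcv p.1 hp, zero_mul]⟩
  have h1 : ContDiffOn ℝ 1 (fun p : ℝ × E3 => (p.1, p.2, v)) (Iio T ×ˢ univ) := by fun_prop
  exact (contDiffOn_Gcut hf hη hc hcv).comp h1 (fun p hp => ⟨hp.1, mem_univ _⟩)

lemma hasFDerivAt_slice
    (hf : ContDiffOn ℝ 1 (fun z : ℝ × E3 × E3 => f z.1 z.2.1 z.2.2) (Ico 0 T ×ˢ univ))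
    {η : ℝ} (hη : 0 < η) {c : ℝ → ℝ} (hc : ContDiff ℝ 1 c) (hcv : ∀ s ≤ η, c s = 0) (v : E3)
    {p : ℝ × E3} (hp : p ∈ Iio T ×ˢ (univ : Set E3)) (d : ℝ × E3) :
    fderiv ℝ (fun p : ℝ × E3 => c p.1 * f p.1 p.2 v) p d
      = fderiv ℝ (Gcut c f) (p.1, p.2, v) (d.1, d.2, 0) := by
  have hopen : IsOpen (Iio T ×ˢ (univ : Set (E3 × E3))) := isOpen_Iio.prod isOpen_univ
  have h1 : DifferentiableAt ℝ (Gcut c f) (p.1, p.2, v) :=
    ((contDiffOn_Gcut hf hη hc hcv).contDiffAt
      (hopen.mem_nhds ⟨hp.1, mem_univ _⟩)).differentiableAt (by norm_num)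
  have h2 : HasFDerivAt (fun p : ℝ × E3 => (p.1, p.2, v))
      ((ContinuousLinearMap.fst ℝ ℝ E3).prod ((ContinuousLinearMap.snd ℝ ℝ E3).prod 0)) p :=
    hasFDerivAt_fst.prodMk (hasFDerivAt_snd.prodMk (hasFDerivAt_const _ _))
  have h3 : HasFDerivAt (fun p : ℝ × E3 => c p.1 * f p.1 p.2 v)
      ((fderiv ℝ (Gcut c f) (p.1, p.2, v)).comp
        ((ContinuousLinearMap.fst ℝ ℝ E3).prod ((ContinuousLinearMap.snd ℝ ℝ E3).prod 0))) p :=
    HasFDerivAt.comp (g := Gcut c f) p h1.hasFDerivAt h2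
  rw [h3.fderiv]
  rfl

end density

end Vale.Agent.P107
end
end
end

section

section

attribute [-instance] ProperSMul.toContinuousSMul IsTopologicalTorsor.toContinuousSMul
  IdemSemiring.toCanonicallyOrderedAdd IdemSemiring.toMulLeftMono IdemSemiring.toMulRightMono
  AddQuantale.instAddLeftMono AddQuantale.instAddRightMono Quantale.instMulLeftMono
  Quantale.instMulRightMono FiniteDimensional.rclike_to_real IsScalarTower.complexToReal
  FiniteDimensional.complexToReal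

section

/-!
The Glassey-Strauss representation of the electric field of a classical solution.
-/

open MeasureTheory Set Filter Topology
open scoped RealInnerProductSpace ENNReal NNReal

namespace Vale.Agent.P107

variable {T : ℝ} {f : ℝ → E3 → E3 → ℝ} {E B : ℝ → E3 → E3}

lemma deriv_cut_zero {η : ℝ} {c : ℝ → ℝ} (hcv : ∀ s ≤ η, c s = 0) {s : ℝ} (hs : s < η) :
    deriv c s = 0 := by
  have : c =ᶠ[𝓝 s] fun _ => 0 := by
    filter_upwards [Iio_mem_nhds hs] with y hy
    exact hcv y (le_of_lt hy)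
  rw [this.deriv_eq]; simp

/-- The free transport derivative of the cut off density, by the Vlasov equation. -/
lemma HS_eq (h : IsClassicalSolution T f E B) {η : ℝ} (hη : 0 < η) {c : ℝ → ℝ}
    (hc : ContDiff ℝ 1 c) (hcv : ∀ s ≤ η, c s = 0) {p : ℝ × E3} (hp : p.1 < T) (v : E3) :
    HS c f p v = deriv c p.1 * f p.1 p.2 v
      - fderiv ℝ (fun w => c p.1 * f p.1 p.2 w) v (lor (E p.1 p.2) (B p.1 p.2) v) := by
  by_cases h0 : p.1 ≤ 0
  · have h1 : Gcut c f =ᶠ[𝓝 (p.1, p.2, v)] fun _ => 0 := by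
      have hmem : {y : ℝ × E3 × E3 | y.1 < η} ∈ 𝓝 (p.1, p.2, v) :=
        (isOpen_lt continuous_fst continuous_const).mem_nhds (by
          simp only [mem_ofPred_eq]; linarith only [hη, h0])
      filter_upwards [hmem] with y hy
      simp only [Gcut, hcv y.1 (le_of_lt hy), zero_mul]
    have h2 : c p.1 = 0 := hcv _ (by linarith only [hη, h0])
    have h3 : deriv c p.1 = 0 := deriv_cut_zero hcv (by linarith only [η, hη, p, h0])
    have h4 : (fun w => c p.1 * f p.1 p.2 w) = fun _ => 0 := by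
      ext w; rw [h2, zero_mul]
    rw [HS, h1.fderiv_eq, h3, h4]
    simp
  · push Not at h0
    have hF : DifferentiableAt ℝ (fun z : ℝ × E3 × E3 => f z.1 z.2.1 z.2.2) (p.1, p.2, v) :=
      (h.f_contDiff.contDiffAt (Ico_prod_mem (F := E3 × E3) h0 hp)).differentiableAt (by norm_num)
    set L := fderiv ℝ (fun z : ℝ × E3 × E3 => f z.1 z.2.1 z.2.2) (p.1, p.2, v) with hL
    have hcd : HasFDerivAt (fun z : ℝ × E3 × E3 => c z.1)
        ((ContinuousLinearMap.toSpanSingleton ℝ (deriv c p.1)).comp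
          (ContinuousLinearMap.fst ℝ ℝ (E3 × E3))) (p.1, p.2, v) := by
      have h1 : HasFDerivAt c (ContinuousLinearMap.toSpanSingleton ℝ (deriv c p.1)) p.1 :=
        (hc.differentiable (by norm_num) p.1).hasDerivAt.hasFDerivAt
      exact HasFDerivAt.comp (g := c) ((p.1, p.2, v) : ℝ × E3 × E3) h1 hasFDerivAt_fst
    have hG : HasFDerivAt (Gcut c f) _ (p.1, p.2, v) := hcd.mul hF.hasFDerivAt
    have e1 : HasDerivAt (fun s => f s p.2 v) (L (1, 0, 0)) p.1 := by
      have h2 : HasDerivAt (fun s : ℝ => (s, p.2, v)) ((1 : ℝ), (0 : E3), (0 : E3)) p.1 :=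
        (hasDerivAt_id _).prodMk (hasDerivAt_const _ _)
      exact hF.hasFDerivAt.comp_hasDerivAt_of_eq p.1 h2 rfl
    have e2 : HasFDerivAt (fun y => f p.1 y v)
        (L.comp ((0 : E3 →L[ℝ] ℝ).prod ((ContinuousLinearMap.id ℝ E3).prod 0))) p.2 := by
      have h2 : HasFDerivAt (fun y : E3 => (p.1, y, v))
          ((0 : E3 →L[ℝ] ℝ).prod ((ContinuousLinearMap.id ℝ E3).prod 0)) p.2 :=
        (hasFDerivAt_const _ _).prodMk ((hasFDerivAt_id _).prodMk (hasFDerivAt_const _ _))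
      exact HasFDerivAt.comp (g := fun z : ℝ × E3 × E3 => f z.1 z.2.1 z.2.2) p.2
        hF.hasFDerivAt h2
    have e3 : HasFDerivAt (fun w => f p.1 p.2 w)
        (L.comp ((0 : E3 →L[ℝ] ℝ).prod ((0 : E3 →L[ℝ] E3).prod (ContinuousLinearMap.id ℝ E3))))
        v := by
      have h2 : HasFDerivAt (fun w : E3 => (p.1, p.2, w))
          ((0 : E3 →L[ℝ] ℝ).prod ((0 : E3 →L[ℝ] E3).prod (ContinuousLinearMap.id ℝ E3))) v :=
        (hasFDerivAt_const _ _).prodMk ((hasFDerivAt_const _ _).prodMk (hasFDerivAt_id _))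
      exact HasFDerivAt.comp (g := fun z : ℝ × E3 × E3 => f z.1 z.2.1 z.2.2) v
        hF.hasFDerivAt h2
    have hvl := h.vlasov p.1 ⟨h0.le, hp⟩ p.2 v
    rw [derivWithin_of_mem_nhds (Ico_mem_nhds h0 hp), e1.deriv, e2.fderiv, e3.fderiv] at hvl
    have e4 := (e3.const_mul (c p.1)).fderiv
    rw [HS, hG.fderiv, e4]
    simp only [ContinuousLinearMap.comp_apply, ContinuousLinearMap.prod_apply,
      ContinuousLinearMap.id_apply, zero_apply, add_apply, smul_apply,
      smul_eq_mul, ContinuousLinearMap.toSpanSingleton_apply, ContinuousLinearMap.coe_fst'] at hvl ⊢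
    have hlor : lor (E p.1 p.2) (B p.1 p.2) v = E p.1 p.2 + cross (u v) (B p.1 p.2) := rfl
    rw [hlor]
    have hsplit : ((1 : ℝ), u v, (0 : E3)) = ((1 : ℝ), (0 : E3), (0 : E3)) + (0, u v, 0) := by
      simp
    have hLs : L (1, u v, 0) = L (1, 0, 0) + L (0, u v, 0) := by
      rw [hsplit, map_add]
    rw [← hL, hLs]
    have : L (1, 0, 0) + L (0, u v, 0) = - L (0, 0, E p.1 p.2 + cross (u v) (B p.1 p.2)) := by
      linarith only [hvl]
    rw [this]
    ring

lemma curl_cyc (F : E3 → E3) (x : E3) (i : Fin 3) :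
    (curl F x) i = pd (i + 1) (fun y => F y (i + 2)) x - pd (i + 2) (fun y => F y (i + 1)) x := by
  fin_cases i <;> simp [curl]

lemma slice_compact (h : IsClassicalSolution T f E B) {t : ℝ} (ht : t ∈ Ico 0 T) (x : E3) :
    HasCompactSupport fun v => f t x v := by
  obtain ⟨R, hR⟩ := h.compact_support t ht
  refine HasCompactSupport.intro (isCompact_closedBall (0 : E3) R) fun v hv => ?_
  by_contra hne
  rw [Metric.mem_closedBall, dist_zero_right, not_le] at hv
  linarith only [hv, (hR t ⟨ht.1, le_rfl⟩ x v hne).2]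

lemma slice_continuous (h : IsClassicalSolution T f E B) {t : ℝ} (ht : t ∈ Ico 0 T) (x : E3) :
    Continuous fun v => f t x v := by
  have h1 : Continuous fun v : E3 => (t, x, v) := by fun_prop
  exact h.f_contDiff.continuousOn.comp_continuous h1 (fun v => ⟨ht, mem_univ _⟩)

lemma cur_apply (h : IsClassicalSolution T f E B) {t : ℝ} (ht : t ∈ Ico 0 T) (x : E3)
    (i : Fin 3) : (cur f t x) i = ∫ v, (u v) i * f t x v := by
  have hint : Integrable fun v => f t x v • u v :=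
    ((slice_continuous h ht x).smul cont_u).integrable_of_hasCompactSupport
      (slice_compact h ht x).smul_right
  have := (EuclideanSpace.proj i : E3 →L[ℝ] ℝ).integral_comp_comm hint
  unfold cur
  have h2 : (∫ v, f t x v • u v) i = (EuclideanSpace.proj i : E3 →L[ℝ] ℝ) (∫ v, f t x v • u v) :=
    rfl
  rw [h2, ← this]
  congr 1
  ext v
  simp [mul_comm]

/-- The Maxwell system for the cut off fields. -/
theorem maxwellLate (h : IsClassicalSolution T f E B) {t₀ : ℝ} (h0 : 0 < t₀) :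
    MaxwellLate T (fun i p => chi t₀ p.1 * E p.1 p.2 i) (fun i p => chi t₀ p.1 * B p.1 p.2 i)
      (fun i p => (∫ v, (u v) i * (chi t₀ p.1 * f p.1 p.2 v))
        - deriv (chi t₀) p.1 * E p.1 p.2 i)
      (fun i p => - (deriv (chi t₀) p.1 * B p.1 p.2 i))
      (fun i p => (∫ v, (u v) i * H1 (chi t₀) f p v)
        - ptd (fun p => deriv (chi t₀) p.1 * E p.1 p.2 i) p)
      (fun i p => - ptd (fun p => deriv (chi t₀) p.1 * B p.1 p.2 i) p)
      (fun p => ∫ v, chi t₀ p.1 * f p.1 p.2 v)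
      (fun p => ∫ v, H1 (chi t₀) f p v) := by
  have hη2 : 0 < t₀ / 2 := by linarith only [h0]
  have hη4 : 0 < t₀ / 4 := by linarith only [h0]
  have hc : ContDiff ℝ 1 (chi t₀) := (contDiff_chi t₀).of_le (by norm_num)
  have hc' : ContDiff ℝ 1 (deriv (chi t₀)) := contDiff_deriv_chi t₀
  have hcv : ∀ s ≤ t₀ / 2, chi t₀ s = 0 := fun s hs => chi_eq_zero h0 hs
  have hcv' : ∀ s ≤ t₀ / 4, deriv (chi t₀) s = 0 := fun s hs => deriv_chi_early h0 hs
  have hu : ∀ i : Fin 3, Continuous fun v : E3 => (u v) i := fun i =>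
    (EuclideanSpace.proj i : E3 →L[ℝ] ℝ).continuous.comp cont_u
  have LE := fun i => late_cut h.E_contDiff hη2 hc hcv i
  have LB := fun i => late_cut h.B_contDiff hη2 hc hcv i
  have LE' := fun i => late_cut h.E_contDiff hη4 hc' hcv' i
  have LB' := fun i => late_cut h.B_contDiff hη4 hc' hcv' i
  have V0 := lateV_H0 h.f_contDiff h.compact_support hη2 hc hcv
  have V1 : LateV T (H1 (chi t₀) f) :=
    lateV_fderiv h.f_contDiff h.compact_support hη2 hc hcv (d := fun _ => (1, 0, 0))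
      continuous_const
  have d0 : ∀ v, ∀ p ∈ Iio T ×ˢ (univ : Set E3),
      HasDerivAt (fun s => chi t₀ s * f s p.2 v) (H1 (chi t₀) f p v) p.1 := by
    intro v p hp
    have hl := late_H0 h.f_contDiff hη2 hc hcv v
    have h1 := hl.hasDerivAt_ptd p hp
    have h2 : ptd (fun p : ℝ × E3 => chi t₀ p.1 * f p.1 p.2 v) p = H1 (chi t₀) f p v := by
      unfold ptd H1
      rw [hasFDerivAt_slice h.f_contDiff hη2 hc hcv v hp]
    rw [h2] at h1
    exact h1
  have CJ : ∀ i, LateC T (fun p => (∫ v, (u v) i * (chi t₀ p.1 * f p.1 p.2 v))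
        - deriv (chi t₀) p.1 * E p.1 p.2 i) := fun i =>
    (V0.mul_right (hu i)).lateC_integral.sub (LE' i).lateC
  refine ⟨LE, LB, CJ, fun i => (LB' i).lateC.neg, V0.lateC_integral,
    fun i => (V1.mul_right (hu i)).lateC_integral.sub (LE' i).ptd_lateC,
    fun i => (LB' i).ptd_lateC.neg, V1.lateC_integral, ?_, ?_, ?_, ?_, ?_, ?_⟩
  · intro i p hp
    refine HasDerivAt.sub ?_ ?_
    · refine (V0.mul_right (hu i)).hasDerivAt_integral (V1.mul_right (hu i)) ?_ p hp
      intro v p hp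
      exact (d0 v p hp).const_mul _
    · exact (LE' i).hasDerivAt_ptd p hp
  · intro i p hp
    exact ((LB' i).hasDerivAt_ptd p hp).neg
  · intro p hp
    exact V0.hasDerivAt_integral V1 d0 p hp
  · intro i p hp
    by_cases hp0 : p.1 ≤ 0
    · rw [(CJ i).vanish p hp0]
      simp only [ptd, pxd]
      rw [(LE i).fderiv_eq_zero p hp0, (LB _).fderiv_eq_zero p hp0, (LB _).fderiv_eq_zero p hp0]
      simp
    · push Not at hp0
      have hpT : p.1 < T := hp.1
      rw [ptd_cut h.E_contDiff hc hp0 hpT, pxd_cut h.B_contDiff hc hp0 hpT,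
        pxd_cut h.B_contDiff hc hp0 hpT]
      have ha := h.ampere p.1 ⟨hp0.le, hpT⟩ p.2
      have ha2 : derivWithin (fun s => E s p.2) (Ico 0 T) p.1
          = curl (B p.1) p.2 - cur f p.1 p.2 := by
        have := sub_eq_iff_eq_add.1 ha
        rw [this]; abel
      rw [ha2, PiLp.sub_apply, cur_apply h ⟨hp0.le, hpT⟩, curl_cyc]
      have hI : ∫ v, (u v) i * (chi t₀ p.1 * f p.1 p.2 v)
          = chi t₀ p.1 * ∫ v, (u v) i * f p.1 p.2 v := by
        rw [← integral_const_mul]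
        congr 1
        ext v
        ring
      rw [hI]
      simp only [pd]
      ring
  · intro i p hp
    by_cases hp0 : p.1 ≤ 0
    · rw [show - (deriv (chi t₀) p.1 * B p.1 p.2 i) = 0 by
        rw [hcv' p.1 (by linarith only [h0, hp0]), zero_mul, neg_zero]]
      simp only [ptd, pxd]
      rw [(LB i).fderiv_eq_zero p hp0, (LE _).fderiv_eq_zero p hp0, (LE _).fderiv_eq_zero p hp0]
      simp
    · push Not at hp0
      have hpT : p.1 < T := hp.1
      rw [ptd_cut h.B_contDiff hc hp0 hpT, pxd_cut h.E_contDiff hc hp0 hpT,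
        pxd_cut h.E_contDiff hc hp0 hpT]
      have ha := h.faraday p.1 ⟨hp0.le, hpT⟩ p.2
      have ha2 : derivWithin (fun s => B s p.2) (Ico 0 T) p.1 = - curl (E p.1) p.2 :=
        eq_neg_of_add_eq_zero_left ha
      rw [ha2, PiLp.neg_apply, curl_cyc]
      simp only [pd]
      ring
  · intro p hp
    by_cases hp0 : p.1 ≤ 0
    · rw [V0.lateC_integral.vanish p hp0]
      simp only [pxd]
      rw [(LE _).fderiv_eq_zero p hp0, (LE _).fderiv_eq_zero p hp0, (LE _).fderiv_eq_zero p hp0]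
      simp
    · push Not at hp0
      have hpT : p.1 < T := hp.1
      rw [pxd_cut h.E_contDiff hc hp0 hpT, pxd_cut h.E_contDiff hc hp0 hpT,
        pxd_cut h.E_contDiff hc hp0 hpT]
      have hg := h.gauss p.1 ⟨hp0.le, hpT⟩ p.2
      unfold div rho at hg
      rw [Fin.sum_univ_three] at hg
      rw [integral_const_mul, ← hg]
      simp only [pd]
      ring

/-- The contribution of the cutoff to the representation. -/
noncomputable def Dterm (t₀ : ℝ) (E B : ℝ → E3 → E3) (t : ℝ) (x : E3) (i j k : Fin 3) : ℝ :=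
  - br t x k1 (ptd (fun p => deriv (chi t₀) p.1 * E p.1 p.2 i))
    - br t x (k3 j) (fun p => deriv (chi t₀) p.1 * B p.1 p.2 k)
    + br t x (k3 k) (fun p => deriv (chi t₀) p.1 * B p.1 p.2 j)
    - br t x (k2l j) (ptd (fun p => deriv (chi t₀) p.1 * B p.1 p.2 k))
    + br t x (k2l k) (ptd (fun p => deriv (chi t₀) p.1 * B p.1 p.2 j))

end Vale.Agent.P107
end
end
end

section

section

attribute [-instance] ProperSMul.toContinuousSMul IsTopologicalTorsor.toContinuousSMul
  IdemSemiring.toCanonicallyOrderedAdd IdemSemiring.toMulLeftMono IdemSemiring.toMulRightMono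
  AddQuantale.instAddLeftMono AddQuantale.instAddRightMono Quantale.instMulLeftMono
  Quantale.instMulRightMono FiniteDimensional.rclike_to_real IsScalarTower.complexToReal
  FiniteDimensional.complexToReal

section

/-!
The bound on the electric field which follows from the Glassey-Strauss representation.
-/

open MeasureTheory Set Filter Topology
open scoped RealInnerProductSpace ENNReal NNReal

namespace Vale.Agent.P107

section early

variable {T t₀ : ℝ}

lemma early_br_bound (ht₀ : t₀ < T) {A : ℝ × E3 → ℝ} (hA : LateC T A)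
    (hE : ∀ p : ℝ × E3, t₀ < p.1 → A p = 0) {κ : E3 → ℝ} (hκ : Ker κ) (R : ℝ) :
    ∃ C, 0 ≤ C ∧ ∀ t < T, ∀ x : E3, ‖x‖ ≤ R → |br t x κ A| ≤ C := by
  have hcomp : IsCompact (Icc 0 t₀ ×ˢ Metric.closedBall (0 : E3) (R + T)) :=
    isCompact_Icc.prod (isCompact_closedBall _ _)
  obtain ⟨D, hD⟩ := hcomp.exists_bound_of_continuousOn (f := A) (hA.continuousOn.mono (by
    intro p hp
    exact ⟨lt_of_le_of_lt hp.1.2 ht₀, mem_univ _⟩))
  obtain ⟨C, hC0, hC⟩ := hκ.bound' T
  have hbint : Integrable ((Metric.closedBall (0 : E3) T).indicator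
      (fun z : E3 => C * (‖z‖⁻¹) ^ 2 * max D 0)) := by
    refine integrable_kernel (R := T) (C := C * max D 0) ?_ ?_ ?_
    · refine (Measurable.indicator ?_ measurableSet_closedBall).aestronglyMeasurable
      fun_prop
    · intro z
      by_cases hz : z ∈ Metric.closedBall (0 : E3) T
      · rw [indicator_of_mem hz, abs_of_nonneg (by (clear * - hC0; positivity))]
        linarith only []
      · rw [indicator_of_notMem hz, abs_zero]; (clear * - hC0; positivity)
    · intro z hz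
      rw [indicator_of_notMem]
      simpa using hz
  refine ⟨∫ z, (Metric.closedBall (0 : E3) T).indicator
      (fun z : E3 => C * (‖z‖⁻¹) ^ 2 * max D 0) z, ?_, fun t ht x hx => ?_⟩
  · exact integral_nonneg fun z => indicator_nonneg (fun _ _ => by (clear * - hC0; positivity)) _
  · unfold br
    rw [← Real.norm_eq_abs]
    refine norm_integral_le_of_norm_le hbint (ae_of_all _ fun z => ?_)
    have hnn : 0 ≤ (Metric.closedBall (0 : E3) T).indicator
      (fun z : E3 => C * (‖z‖⁻¹) ^ 2 * max D 0) z :=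
      indicator_nonneg (fun _ _ => by (clear * - hC0; positivity)) _
    by_cases h1 : t - ‖z‖ ≤ 0
    · rw [hA.vanish (rp t x z) h1, mul_zero, norm_zero]; exact hnn
    by_cases h2 : t₀ < t - ‖z‖
    · rw [hE (rp t x z) h2, mul_zero, norm_zero]; exact hnn
    push Not at h1 h2
    have hz : ‖z‖ ≤ T := by linarith only [ht, h1]
    rw [indicator_of_mem (by simpa using hz), norm_mul]
    have h3 := hC z hz
    have h4 : ‖A (rp t x z)‖ ≤ max D 0 := by
      refine (hD (rp t x z) ⟨⟨h1.le, h2⟩, ?_⟩).trans (le_max_left _ _)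
      simp only [rp, Metric.mem_closedBall, dist_zero_right]
      refine (norm_add_le _ _).trans ?_
      linarith only [ht, hx, h1]
    rw [Real.norm_eq_abs]
    (clear * - hC0 h3 h4; gcongr)

lemma early_kerV_bound (ht₀ : t₀ < T) {H : ℝ × E3 → E3 → ℝ} (hH : LateV T H)
    (hE : ∀ p : ℝ × E3, t₀ < p.1 → ∀ v, H p v = 0) {κ : E3 → E3 → ℝ} (hκ : KerV κ) (R : ℝ) :
    ∃ C, 0 ≤ C ∧ ∀ t < T, ∀ x : E3, ‖x‖ ≤ R →
      |∫ z, ∫ v, κ v z * H (rp t x z) v| ≤ C := by
  obtain ⟨R', hR'⟩ := hH.supp t₀ ht₀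
  have hcomp : IsCompact ((Icc 0 t₀ ×ˢ Metric.closedBall (0 : E3) (R + T)) ×ˢ
      Metric.closedBall (0 : E3) R') :=
    (isCompact_Icc.prod (isCompact_closedBall _ _)).prod (isCompact_closedBall _ _)
  obtain ⟨D, hD⟩ := hcomp.exists_bound_of_continuousOn
    (f := fun z : (ℝ × E3) × E3 => H z.1 z.2) (hH.cont.mono (by
    intro p hp
    exact ⟨⟨lt_of_le_of_lt hp.1.1.2 ht₀, mem_univ _⟩, mem_univ _⟩))
  obtain ⟨C, hC⟩ := hκ.bound R'
  have hb2 : Integrable ((Metric.closedBall (0 : E3) R').indicator (fun _ : E3 => (1 : ℝ))) := by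
    rw [integrable_indicator_iff measurableSet_closedBall]
    exact integrableOn_const measure_closedBall_lt_top.ne
  set V : ℝ := ∫ v, (Metric.closedBall (0 : E3) R').indicator (fun _ : E3 => (1 : ℝ)) v with hV
  have hV0 : 0 ≤ V := integral_nonneg fun v => indicator_nonneg (fun _ _ => zero_le_one) _
  have hbint : Integrable ((Metric.closedBall (0 : E3) T).indicator
      (fun z : E3 => |C| * (1 + |T|) * max D 0 * V * (‖z‖⁻¹) ^ 2)) := by
    refine integrable_kernel (R := T) (C := |C| * (1 + |T|) * max D 0 * V) ?_ ?_ ?_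
    · refine (Measurable.indicator ?_ measurableSet_closedBall).aestronglyMeasurable
      fun_prop
    · intro z
      by_cases hz : z ∈ Metric.closedBall (0 : E3) T
      · rw [indicator_of_mem hz, abs_of_nonneg (by (clear * - hV0; positivity))]
      · rw [indicator_of_notMem hz, abs_zero]; (clear * - hV0; positivity)
    · intro z hz
      rw [indicator_of_notMem]
      simpa using hz
  refine ⟨∫ z, (Metric.closedBall (0 : E3) T).indicator
      (fun z : E3 => |C| * (1 + |T|) * max D 0 * V * (‖z‖⁻¹) ^ 2) z, ?_, fun t ht x hx => ?_⟩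
  · exact integral_nonneg fun z => indicator_nonneg (fun _ _ => by (clear * - hV0; positivity)) _
  · rw [← Real.norm_eq_abs]
    refine norm_integral_le_of_norm_le hbint (ae_of_all _ fun z => ?_)
    have hnn : 0 ≤ (Metric.closedBall (0 : E3) T).indicator
      (fun z : E3 => |C| * (1 + |T|) * max D 0 * V * (‖z‖⁻¹) ^ 2) z :=
      indicator_nonneg (fun _ _ => by (clear * - hV0; positivity)) _
    by_cases h1 : t - ‖z‖ ≤ 0
    · have : ∀ v, κ v z * H (rp t x z) v = 0 := fun v => by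
        rw [hH.vanish (rp t x z) h1, mul_zero]
      simp only [this, integral_zero, norm_zero]; exact hnn
    by_cases h2 : t₀ < t - ‖z‖
    · have : ∀ v, κ v z * H (rp t x z) v = 0 := fun v => by
        rw [hE (rp t x z) h2, mul_zero]
      simp only [this, integral_zero, norm_zero]; exact hnn
    push Not at h1 h2
    have hz : ‖z‖ ≤ T := by linarith only [ht, h1]
    rw [indicator_of_mem (by simpa using hz)]
    have h5 : ‖z‖⁻¹ ≤ |T| * (‖z‖⁻¹) ^ 2 := by
      rcases eq_or_ne z 0 with h0 | h0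
      · rw [h0]; simp
      · have hpos : 0 < ‖z‖ := norm_pos_iff.2 h0
        have : ‖z‖ * (‖z‖⁻¹) ^ 2 ≤ |T| * (‖z‖⁻¹) ^ 2 := by
          gcongr
          exact hz.trans (le_abs_self T)
        calc ‖z‖⁻¹ = ‖z‖ * (‖z‖⁻¹) ^ 2 := by field_simp
          _ ≤ _ := this
    have hb3 : Integrable (fun v => (|C| * (1 + |T|) * (‖z‖⁻¹) ^ 2 * max D 0)
        * (Metric.closedBall (0 : E3) R').indicator (fun _ : E3 => (1 : ℝ)) v) :=
      hb2.const_mul _
    have h6 : ‖∫ v, κ v z * H (rp t x z) v‖ ≤ ∫ v, (|C| * (1 + |T|) * (‖z‖⁻¹) ^ 2 * max D 0)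
        * (Metric.closedBall (0 : E3) R').indicator (fun _ : E3 => (1 : ℝ)) v := by
      refine norm_integral_le_of_norm_le hb3 (ae_of_all _ fun v => ?_)
      by_cases hv : v ∈ Metric.closedBall (0 : E3) R'
      · rw [indicator_of_mem hv, mul_one, norm_mul]
        have h4 : ‖H (rp t x z) v‖ ≤ max D 0 := by
          refine (hD (rp t x z, v) ⟨⟨⟨h1.le, h2⟩, ?_⟩, hv⟩).trans (le_max_left _ _)
          simp only [rp, Metric.mem_closedBall, dist_zero_right]
          refine (norm_add_le _ _).trans ?_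
          linarith only [ht, hx, h1]
        have h7 : ‖κ v z‖ ≤ |C| * (1 + |T|) * (‖z‖⁻¹) ^ 2 := by
          rw [Real.norm_eq_abs]
          calc |κ v z| ≤ C * ((‖z‖⁻¹) ^ 2 + ‖z‖⁻¹) := hC v (by simpa using hv) z
            _ ≤ |C| * ((‖z‖⁻¹) ^ 2 + ‖z‖⁻¹) := by gcongr; exact le_abs_self C
            _ ≤ |C| * ((‖z‖⁻¹) ^ 2 + |T| * (‖z‖⁻¹) ^ 2) := by (clear * - h5; gcongr)
            _ = _ := by ring
        (clear * - h4 h7; gcongr)
      · rw [indicator_of_notMem hv, mul_zero]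
        rw [Metric.mem_closedBall, dist_zero_right, not_le] at hv
        rw [hR' (rp t x z) h2 v hv, mul_zero, norm_zero]
    refine h6.trans (le_of_eq ?_)
    rw [integral_const_mul]
    ring

lemma ptd_early {A : ℝ × E3 → ℝ} (hE : ∀ p : ℝ × E3, t₀ < p.1 → A p = 0) (p : ℝ × E3)
    (hp : t₀ < p.1) : ptd A p = 0 := by
  have : A =ᶠ[𝓝 p] fun _ => 0 := by
    filter_upwards [(isOpen_lt continuous_const continuous_fst).mem_nhds hp] with y hy
    exact hE y hy
  unfold ptd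
  rw [this.fderiv_eq]; simp

end early

lemma norm_lor_le (E₀ B₀ v : E3) : ‖lor E₀ B₀ v‖ ≤ ‖E₀‖ + ‖B₀‖ := by
  unfold lor
  refine (norm_add_le _ _).trans ?_
  gcongr
  refine (norm_cross_le _ _).trans ?_
  calc ‖u v‖ * ‖B₀‖ ≤ 1 * ‖B₀‖ := by gcongr; exact (norm_u_lt_one v).le
    _ = _ := one_mul _

lemma sph_pos : 0 < sph.real univ := by
  rw [Measure.toSphere_real_apply_univ, finrank_euclideanSpace_fin]
  have h1 : 0 < (volume : Measure E3).real (Metric.ball 0 1) :=
    ENNReal.toReal_pos (Metric.measure_ball_pos _ _ one_pos).ne' measure_ball_lt_top.ne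
  positivity

lemma abs_component_le_one {U : E3} (hU : ‖U‖ ≤ 1) (i : Fin 3) : |U i| ≤ 1 :=
  (abs_component_le U i).trans hU

end Vale.Agent.P107
end
end
end

section

section

attribute [-instance] ProperSMul.toContinuousSMul IsTopologicalTorsor.toContinuousSMul
  IdemSemiring.toCanonicallyOrderedAdd IdemSemiring.toMulLeftMono IdemSemiring.toMulRightMono
  AddQuantale.instAddLeftMono AddQuantale.instAddRightMono Quantale.instMulLeftMono
  Quantale.instMulRightMono FiniteDimensional.rclike_to_real IsScalarTower.complexToReal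
  FiniteDimensional.complexToReal

section

/-!
Kernels for the representation of the momentum along a characteristic.
-/

open MeasureTheory Set Filter Topology
open scoped RealInnerProductSpace ENNReal NNReal

namespace Vale.Agent.P107

/-- The kernel of the momentum correction, `R⁻¹ c_i`. -/
noncomputable def kc (ε e : ℝ) (c : E3) (i : Fin 3) (a z : E3) : ℝ :=
  ‖z‖⁻¹ * (ck ε e (dir z) a c) i

/-- `R⁻¹ (α₀/α) c_i`. -/
noncomputable def kcr (ε e : ℝ) (b c : E3) (i : Fin 3) (a z : E3) : ℝ :=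
  (al (dir z) b / al (dir z) a) * kc ε e c i a z

/-- The divergence of `R⁻¹ c_i y`, where `y = b - (α₀/α) a`. -/
noncomputable def kd (ε e : ℝ) (b c : E3) (i : Fin 3) (a z : E3) : ℝ :=
  (‖z‖⁻¹) ^ 2 * (dck ε e (dir z) a c (yperp (dir z) a b)
      + ((1 - ⟪a, b⟫) / al (dir z) a - al (dir z) b * (1 - ‖a‖ ^ 2) / al (dir z) a ^ 2)
        • ck ε e (dir z) a c) i

end Vale.Agent.P107
end
end
end
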