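import Mathlib
import Vale.Agent.P107.Bdl.B1
import Vale.Agent.P255.Ode

set_option linter.all false

section

section

attribute [-instance] ProperSMul.toContinuousSMul IsTopologicalTorsor.toContinuousSMul
  IdemSemiring.toCanonicallyOrderedAdd IdemSemiring.toMulLeftMono IdemSemiring.toMulRightMono
  AddQuantale.instAddLeftMono AddQuantale.instAddRightMono Quantale.instMulLeftMono
  Quantale.instMulRightMono FiniteDimensional.rclike_to_real IsScalarTower.complexToReal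
  FiniteDimensional.complexToReal

section

/-!
Representation of the Lorentz force `E + b × B` by retarded integrals.
-/

open MeasureTheory Set Filter Topology
open scoped RealInnerProductSpace ENNReal NNReal

namespace Vale.Agent.P107

variable {T : ℝ} {f : ℝ → E3 → E3 → ℝ} {E B : ℝ → E3 → E3}

/-! ### Phase space brackets -/

/-- The phase space bracket. -/
noncomputable def bv (t : ℝ) (x : E3) (κ : E3 → E3 → ℝ) (H : ℝ × E3 → E3 → ℝ) : ℝ :=
  ∫ z, ∫ v, κ v z * H (rp t x z) v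

lemma bv_eq {κ : E3 → E3 → ℝ} (hκ : KerV κ) {H : ℝ × E3 → E3 → ℝ} (h : LateV T H) {t : ℝ}
    (ht : t < T) (x : E3) :
    bv t x κ H = ∫ w : E3 × E3, κ w.1 w.2 * H (rp t x w.2) w.1 ∂(volume.prod volume) :=
  (integral_prod_symm _ (hκ.integrable h ht x)).symm

lemma KerV.congr {κ κ' : E3 → E3 → ℝ} (hκ : KerV κ) (hm : Measurable (fun w : E3 × E3 => κ' w.1 w.2))
    (h0 : ∀ v, κ' v 0 = 0) (h : ∀ v, ∀ z ≠ 0, κ' v z = κ v z) : KerV κ' := by
  refine ⟨hm, fun R => ?_⟩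
  obtain ⟨C, hC⟩ := hκ.bound R
  refine ⟨C, fun v hv z => ?_⟩
  rcases eq_or_ne z 0 with rfl | hz
  · rw [h0 v]; simp
  · rw [h v z hz]; exact hC v hv z

lemma KerV.add {κ κ' : E3 → E3 → ℝ} (h : KerV κ) (h' : KerV κ') :
    KerV (fun v z => κ v z + κ' v z) := by
  refine ⟨h.measurable.add h'.measurable, fun R => ?_⟩
  obtain ⟨C, hC⟩ := h.bound R
  obtain ⟨C', hC'⟩ := h'.bound R
  refine ⟨C + C', fun v hv z => ?_⟩
  calc |κ v z + κ' v z| ≤ |κ v z| + |κ' v z| := abs_add_le _ _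
    _ ≤ C * ((‖z‖⁻¹) ^ 2 + ‖z‖⁻¹) + C' * ((‖z‖⁻¹) ^ 2 + ‖z‖⁻¹) := add_le_add (hC v hv z) (hC' v hv z)
    _ = _ := by ring

lemma KerV.mul_v {κ : E3 → E3 → ℝ} (h : KerV κ) {g : E3 → ℝ} (hg : Continuous g) :
    KerV (fun v z => g v * κ v z) := by
  refine ⟨(hg.measurable.comp measurable_fst).mul h.measurable, fun R => ?_⟩
  obtain ⟨C, hC⟩ := h.bound R
  obtain ⟨D, hD⟩ := (isCompact_closedBall (0 : E3) R).exists_bound_of_continuousOn hg.continuousOn
  refine ⟨|D| * C, fun v hv z => ?_⟩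
  have h1 : |g v| ≤ |D| := (hD v (by simpa using hv)).trans (le_abs_self D)
  rw [abs_mul]
  calc |g v| * |κ v z| ≤ |D| * (C * ((‖z‖⁻¹) ^ 2 + ‖z‖⁻¹)) :=
        mul_le_mul h1 (hC v hv z) (abs_nonneg _) (abs_nonneg _)
    _ = _ := by ring

lemma KerV.const_mul {κ : E3 → E3 → ℝ} (h : KerV κ) (g : ℝ) :
    KerV (fun v z => g * κ v z) := h.mul_v (g := fun _ => g) continuous_const

lemma KerV.sub {κ κ' : E3 → E3 → ℝ} (h : KerV κ) (h' : KerV κ') :
    KerV (fun v z => κ v z - κ' v z) := by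
  have := h.add (h'.const_mul (-1))
  simpa [sub_eq_add_neg] using this

lemma bv_congr {κ κ' : E3 → E3 → ℝ} {H : ℝ × E3 → E3 → ℝ} {t : ℝ} (x : E3)
    (h : ∀ v, ∀ z ≠ 0, κ' v z = κ v z) : bv t x κ' H = bv t x κ H := by
  unfold bv
  refine integral_congr_ae ?_
  filter_upwards [ae_ne_zero] with z hz
  simp only [h _ z hz]

lemma bv_add {κ κ' : E3 → E3 → ℝ} (hκ : KerV κ) (hκ' : KerV κ') {H : ℝ × E3 → E3 → ℝ}
    (h : LateV T H) {t : ℝ} (ht : t < T) (x : E3) :
    bv t x (fun v z => κ v z + κ' v z) H = bv t x κ H + bv t x κ' H := by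
  rw [bv_eq hκ h ht x, bv_eq hκ' h ht x, bv_eq (hκ.add hκ') h ht x,
    ← integral_add (hκ.integrable h ht x) (hκ'.integrable h ht x)]
  congr 1
  ext w; ring

lemma bv_sub {κ κ' : E3 → E3 → ℝ} (hκ : KerV κ) (hκ' : KerV κ') {H : ℝ × E3 → E3 → ℝ}
    (h : LateV T H) {t : ℝ} (ht : t < T) (x : E3) :
    bv t x (fun v z => κ v z - κ' v z) H = bv t x κ H - bv t x κ' H := by
  rw [bv_eq hκ h ht x, bv_eq hκ' h ht x, bv_eq (hκ.sub hκ') h ht x,
    ← integral_sub (hκ.integrable h ht x) (hκ'.integrable h ht x)]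
  congr 1
  ext w; ring

lemma bv_const_mul {κ : E3 → E3 → ℝ} {H : ℝ × E3 → E3 → ℝ} {t : ℝ} (x : E3) (g : ℝ) :
    bv t x (fun v z => g * κ v z) H = g * bv t x κ H := by
  unfold bv
  simp_rw [mul_assoc, integral_const_mul]

/-! ### The magnetic field -/

lemma ptd_neg (G : ℝ × E3 → ℝ) (p : ℝ × E3) : ptd (fun p => - G p) p = - ptd G p := by
  unfold ptd
  rw [show (fun p => - G p) = - G from rfl, fderiv_neg]
  rfl

lemma pxd_neg (e : E3) (G : ℝ × E3 → ℝ) (p : ℝ × E3) :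
    pxd e (fun p => - G p) p = - pxd e G p := by
  unfold pxd
  rw [show (fun p => - G p) = - G from rfl, fderiv_neg]
  rfl

lemma Late.neg {G : ℝ × E3 → ℝ} (h : Late T G) : Late T (fun p => - G p) := by
  obtain ⟨η, hη, hv⟩ := h.vanish
  exact ⟨h.contDiffOn.neg, η, hη, fun p hp => by rw [hv p hp, neg_zero]⟩

/-- Duality. -/
lemma MaxwellLate.dual {E B J M J' M' : Fin 3 → ℝ × E3 → ℝ} {R R' : ℝ × E3 → ℝ}
    (h : MaxwellLate T E B J M J' M' R R')
    (hdiv : ∀ p ∈ Iio T ×ˢ (univ : Set E3),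
      0 = pxd (ee 0) (B 0) p + pxd (ee 1) (B 1) p + pxd (ee 2) (B 2) p) :
    MaxwellLate T B (fun i p => - E i p) M (fun i p => - J i p) M' (fun i p => - J' i p)
      (fun _ => 0) (fun _ => 0) := by
  refine ⟨h.hB, fun i => (h.hE i).neg, h.hM, fun i => (h.hJ i).neg, ?_, h.hM',
    fun i => (h.hJ' i).neg, ?_, h.dM, fun i p hp => (h.dJ i p hp).neg, ?_, ?_, ?_, hdiv⟩
  · exact ⟨continuousOn_const, fun _ _ => rfl⟩
  · exact ⟨continuousOn_const, fun _ _ => rfl⟩
  · intro p _; exact hasDerivAt_const _ _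
  · intro i p hp
    rw [h.faraday i p hp, pxd_neg, pxd_neg]
    ring
  · intro i p hp
    rw [ptd_neg, h.ampere i p hp]
    ring

/-- Jefimenko's formula for the magnetic field. -/
theorem MaxwellLate.jefimenkoB {E B J M J' M' : Fin 3 → ℝ × E3 → ℝ} {R R' : ℝ × E3 → ℝ}
    (h : MaxwellLate T E B J M J' M' R R')
    (hdiv : ∀ p ∈ Iio T ×ˢ (univ : Set E3),
      0 = pxd (ee 0) (B 0) p + pxd (ee 1) (B 1) p + pxd (ee 2) (B 2) p)
    {t : ℝ} (ht : t < T) (x : E3) (i j k : Fin 3) (hj : j = i + 1) (hk : k = i + 2) :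
    sph.real univ * B i (t, x) = br t x (k3 j) (J k) - br t x (k3 k) (J j)
      + br t x (k2l j) (J' k) - br t x (k2l k) (J' j) - br t x k1 (M' i) := by
  have h1 := (h.dual hdiv).jefimenko ht x i j k hj hk
  have e0 : ∀ κ, br t x κ (fun _ => 0) = 0 := by
    intro κ; unfold br; simp
  rw [e0, e0, br_neg, br_neg, br_neg, br_neg] at h1
  linarith only [h1]

lemma div_cut (h : IsClassicalSolution T f E B) {t₀ : ℝ} (h0 : 0 < t₀) :
    ∀ p ∈ Iio T ×ˢ (univ : Set E3),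
      0 = pxd (ee 0) (fun p => chi t₀ p.1 * B p.1 p.2 0) p
        + pxd (ee 1) (fun p => chi t₀ p.1 * B p.1 p.2 1) p
        + pxd (ee 2) (fun p => chi t₀ p.1 * B p.1 p.2 2) p := by
  have hη2 : 0 < t₀ / 2 := by linarith only [h0]
  have hc : ContDiff ℝ 1 (chi t₀) := (contDiff_chi t₀).of_le (by norm_num)
  have hcv : ∀ s ≤ t₀ / 2, chi t₀ s = 0 := fun s hs => chi_eq_zero h0 hs
  have LB := fun i => late_cut h.B_contDiff hη2 hc hcv i
  intro p hp
  by_cases hp0 : p.1 ≤ 0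
  · simp only [pxd]
    rw [(LB _).fderiv_eq_zero p hp0, (LB _).fderiv_eq_zero p hp0, (LB _).fderiv_eq_zero p hp0]
    simp
  · push Not at hp0
    have hpT : p.1 < T := hp.1
    rw [pxd_cut h.B_contDiff hc hp0 hpT, pxd_cut h.B_contDiff hc hp0 hpT,
      pxd_cut h.B_contDiff hc hp0 hpT]
    have hg := h.gauss_mag p.1 ⟨hp0.le, hpT⟩ p.2
    unfold div at hg
    rw [Fin.sum_univ_three] at hg
    simp only [pd] at hg
    rw [← mul_add, ← mul_add, hg, mul_zero]

/-! ### The Glassey-Strauss decomposition with weights -/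

/-- The cut off density. -/
noncomputable def F0 (t₀ : ℝ) (f : ℝ → E3 → E3 → ℝ) (p : ℝ × E3) (v : E3) : ℝ :=
  chi t₀ p.1 * f p.1 p.2 v

lemma lateV_F0 (h : IsClassicalSolution T f E B) {t₀ : ℝ} (h0 : 0 < t₀) : LateV T (F0 t₀ f) :=
  lateV_H0 h.f_contDiff h.compact_support (by linarith only [h0] : 0 < t₀ / 2)
    ((contDiff_chi t₀).of_le (by norm_num)) (fun _ hs => chi_eq_zero h0 hs)

lemma lateV_H1 (h : IsClassicalSolution T f E B) {t₀ : ℝ} (h0 : 0 < t₀) :
    LateV T (H1 (chi t₀) f) :=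
  lateV_fderiv h.f_contDiff h.compact_support (by linarith only [h0] : 0 < t₀ / 2)
    ((contDiff_chi t₀).of_le (by norm_num)) (fun _ hs => chi_eq_zero h0 hs)
    (d := fun _ => (1, 0, 0)) continuous_const

lemma lateV_HS (h : IsClassicalSolution T f E B) {t₀ : ℝ} (h0 : 0 < t₀) :
    LateV T (HS (chi t₀) f) :=
  lateV_fderiv h.f_contDiff h.compact_support (by linarith only [h0] : 0 < t₀ / 2)
    ((contDiff_chi t₀).of_le (by norm_num)) (fun _ hs => chi_eq_zero h0 hs)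
    (d := fun v => (1, u v, 0)) (continuous_const.prodMk (cont_u.prodMk continuous_const))

lemma late_F0 (h : IsClassicalSolution T f E B) {t₀ : ℝ} (h0 : 0 < t₀) (v : E3) :
    Late T (fun p => F0 t₀ f p v) :=
  late_H0 h.f_contDiff (by linarith only [h0] : 0 < t₀ / 2)
    ((contDiff_chi t₀).of_le (by norm_num)) (fun _ hs => chi_eq_zero h0 hs) v

lemma ptd_F0 (h : IsClassicalSolution T f E B) {t₀ : ℝ} (h0 : 0 < t₀) (v : E3) {p : ℝ × E3}
    (hp : p ∈ Iio T ×ˢ (univ : Set E3)) :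
    ptd (fun p => F0 t₀ f p v) p = H1 (chi t₀) f p v := by
  unfold ptd H1 F0
  rw [hasFDerivAt_slice h.f_contDiff (by linarith only [h0] : 0 < t₀ / 2)
    ((contDiff_chi t₀).of_le (by norm_num)) (fun _ hs => chi_eq_zero h0 hs) v hp]

lemma pxd_F0 (h : IsClassicalSolution T f E B) {t₀ : ℝ} (h0 : 0 < t₀) (v : E3) {p : ℝ × E3}
    (hp : p ∈ Iio T ×ˢ (univ : Set E3)) (e : E3) :
    pxd e (fun p => F0 t₀ f p v) p = fderiv ℝ (Gcut (chi t₀) f) (p.1, p.2, v) (0, e, 0) := by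
  unfold pxd F0
  rw [hasFDerivAt_slice h.f_contDiff (by linarith only [h0] : 0 < t₀ / 2)
    ((contDiff_chi t₀).of_le (by norm_num)) (fun _ hs => chi_eq_zero h0 hs) v hp]

lemma DF0 (h : IsClassicalSolution T f E B) {t₀ : ℝ} (h0 : 0 < t₀) (v : E3) {p : ℝ × E3}
    (hp : p ∈ Iio T ×ˢ (univ : Set E3)) (b : E3) :
    ptd (fun p => F0 t₀ f p v) p + pxd b (fun p => F0 t₀ f p v) p
      = fderiv ℝ (Gcut (chi t₀) f) (p.1, p.2, v) (1, b, 0) := by
  rw [ptd_F0 h h0 v hp, pxd_F0 h h0 v hp, H1, ← map_add]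
  simp

lemma SF0 (h : IsClassicalSolution T f E B) {t₀ : ℝ} (h0 : 0 < t₀) (v : E3) {p : ℝ × E3}
    (hp : p ∈ Iio T ×ˢ (univ : Set E3)) :
    ptd (fun p => F0 t₀ f p v) p + pxd (u v) (fun p => F0 t₀ f p v) p = HS (chi t₀) f p v :=
  DF0 h h0 v hp (u v)

lemma cont_ui (i : Fin 3) : Continuous fun v : E3 => (u v) i :=
  (EuclideanSpace.proj i : E3 →L[ℝ] ℝ).continuous.comp cont_u

/-- The Glassey-Strauss decomposition with a weight. -/
lemma wGS (h : IsClassicalSolution T f E B) {t₀ : ℝ} (h0 : 0 < t₀) {t : ℝ} (ht : t < T) (x : E3)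
    (i : Fin 3) {m : E3 → ℝ} (hm : Continuous m) :
    br t x (k3 i) (fun p => ∫ v, m v * F0 t₀ f p v)
      + br t x (k2l i) (fun p => ∫ v, m v * H1 (chi t₀) f p v)
      + br t x k1 (fun p => ∫ v, (u v) i * (m v * H1 (chi t₀) f p v))
    = bv t x (fun v z => m v * kT (u v) i z) (F0 t₀ f)
      + bv t x (fun v z => m v * kS (u v) i z) (HS (chi t₀) f) := by
  have V0 := (lateV_F0 h h0).mul_right hm
  have V1 := (lateV_H1 h h0).mul_right hm
  have VS := (lateV_HS h h0).mul_right hm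
  have hL : ∀ v, Late T (fun p => m v * F0 t₀ f p v) := by
    intro v
    obtain ⟨η, hη, hv⟩ := (late_F0 h h0 v).vanish
    exact ⟨contDiffOn_const.mul (late_F0 h h0 v).contDiffOn, η, hη,
      fun p hp => by rw [hv p hp, mul_zero]⟩
  have hd : ∀ v, ∀ p ∈ Iio T ×ˢ (univ : Set E3), ∀ d : ℝ × E3,
      fderiv ℝ (fun p => m v * F0 t₀ f p v) p d = m v * fderiv ℝ (fun p => F0 t₀ f p v) p d := by
    intro v p hp d
    have h1 : DifferentiableAt ℝ (fun p => F0 t₀ f p v) p :=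
      ((late_F0 h h0 v).contDiffOn.differentiableOn (by norm_num)).differentiableAt
        ((isOpen_dom T).mem_nhds hp)
    rw [fderiv_const_mul h1]
    rfl
  have h1 := GS_representation V0 V1 VS hL
    (fun v p hp => by
      unfold ptd
      rw [hd v p hp]
      rw [← ptd_F0 h h0 v hp]; rfl)
    (fun v p hp => by
      unfold ptd pxd
      rw [hd v p hp, hd v p hp, ← SF0 h h0 v hp]
      unfold ptd pxd
      ring) ht x i
  rw [h1]
  unfold bv
  congr 1
  · congr 1; ext z; congr 1; ext v; ring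
  · congr 1; ext z; congr 1; ext v; ring

/-- The electric field. -/
theorem reprE (h : IsClassicalSolution T f E B) {t₀ : ℝ} (h0 : 0 < t₀) {t : ℝ}
    (ht0 : t₀ ≤ t) (ht : t < T) (x : E3) (i j k : Fin 3) (hj : j = i + 1) (hk : k = i + 2) :
    - (sph.real univ * E t x i) = bv t x (fun v z => kT (u v) i z) (F0 t₀ f)
      + bv t x (fun v z => kS (u v) i z) (HS (chi t₀) f) + Dterm t₀ E B t x i j k := by
  have hη4 : 0 < t₀ / 4 := by linarith only [h0]
  have LE' := fun i => late_cut h.E_contDiff hη4 (contDiff_deriv_chi t₀)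
    (fun s hs => deriv_chi_early h0 hs) i
  have hJ := (maxwellLate h h0).jefimenko ht x i j k hj hk
  simp only [chi_eq_one h0 ht0, one_mul] at hJ
  have hJ2 : br t x k1 (fun p => (∫ v, (u v) i * H1 (chi t₀) f p v)
      - ptd (fun p => deriv (chi t₀) p.1 * E p.1 p.2 i) p)
      = br t x k1 (fun p => ∫ v, (u v) i * H1 (chi t₀) f p v)
        - br t x k1 (ptd (fun p => deriv (chi t₀) p.1 * E p.1 p.2 i)) :=
    br_sub ker_k1 ((lateV_H1 h h0).mul_right (cont_ui i)).lateC_integral (LE' i).ptd_lateC ht x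
  rw [hJ2, br_neg, br_neg, br_neg, br_neg] at hJ
  have hGS := wGS h h0 ht x i (m := fun _ => 1) continuous_const
  simp only [one_mul] at hGS
  unfold Dterm
  unfold F0 at hGS ⊢
  linarith only [hJ, hGS]

/-- The contribution of the cutoff to the magnetic field. -/
noncomputable def DtermB (t₀ : ℝ) (E B : ℝ → E3 → E3) (t : ℝ) (x : E3) (i j k : Fin 3) : ℝ :=
  br t x k1 (ptd (fun p => deriv (chi t₀) p.1 * B p.1 p.2 i))
    - br t x (k3 j) (fun p => deriv (chi t₀) p.1 * E p.1 p.2 k)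
    + br t x (k3 k) (fun p => deriv (chi t₀) p.1 * E p.1 p.2 j)
    - br t x (k2l j) (ptd (fun p => deriv (chi t₀) p.1 * E p.1 p.2 k))
    + br t x (k2l k) (ptd (fun p => deriv (chi t₀) p.1 * E p.1 p.2 j))

/-- The magnetic field. -/
theorem reprB (h : IsClassicalSolution T f E B) {t₀ : ℝ} (h0 : 0 < t₀) {t : ℝ}
    (ht0 : t₀ ≤ t) (ht : t < T) (x : E3) (i j k : Fin 3) (hj : j = i + 1) (hk : k = i + 2) :
    sph.real univ * B t x i
      = bv t x (fun v z => (u v) k * kT (u v) j z) (F0 t₀ f)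
      - bv t x (fun v z => (u v) j * kT (u v) k z) (F0 t₀ f)
      + (bv t x (fun v z => (u v) k * kS (u v) j z) (HS (chi t₀) f)
      - bv t x (fun v z => (u v) j * kS (u v) k z) (HS (chi t₀) f)) + DtermB t₀ E B t x i j k := by
  have hη4 : 0 < t₀ / 4 := by linarith only [h0]
  have LE' := fun i => late_cut h.E_contDiff hη4 (contDiff_deriv_chi t₀)
    (fun s hs => deriv_chi_early h0 hs) i
  have hJ := (maxwellLate h h0).jefimenkoB (div_cut h h0) ht x i j k hj hk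
  simp only [chi_eq_one h0 ht0, one_mul] at hJ
  have s1 : ∀ (l m : Fin 3), br t x (k3 l) (fun p => (∫ v, (u v) m * (chi t₀ p.1 * f p.1 p.2 v))
        - deriv (chi t₀) p.1 * E p.1 p.2 m)
      = br t x (k3 l) (fun p => ∫ v, (u v) m * (chi t₀ p.1 * f p.1 p.2 v))
        - br t x (k3 l) (fun p => deriv (chi t₀) p.1 * E p.1 p.2 m) := fun l m =>
    br_sub (ker_k3 l) ((lateV_F0 h h0).mul_right (cont_ui m)).lateC_integral (LE' m).lateC ht x
  have s2 : ∀ (l m : Fin 3), br t x (k2l l) (fun p => (∫ v, (u v) m * H1 (chi t₀) f p v)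
      - ptd (fun p => deriv (chi t₀) p.1 * E p.1 p.2 m) p)
      = br t x (k2l l) (fun p => ∫ v, (u v) m * H1 (chi t₀) f p v)
        - br t x (k2l l) (ptd (fun p => deriv (chi t₀) p.1 * E p.1 p.2 m)) := fun l m =>
    br_sub (ker_k2l l) ((lateV_H1 h h0).mul_right (cont_ui m)).lateC_integral (LE' m).ptd_lateC ht x
  rw [s1, s1, s2, s2, br_neg] at hJ
  have g1 := wGS h h0 ht x j (m := fun v => (u v) k) (cont_ui k)
  have g2 := wGS h h0 ht x k (m := fun v => (u v) j) (cont_ui j)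
  have e1 : br t x k1 (fun p => ∫ v, (u v) j * ((u v) k * H1 (chi t₀) f p v))
      = br t x k1 (fun p => ∫ v, (u v) k * ((u v) j * H1 (chi t₀) f p v)) := by
    congr 1
    ext p
    congr 1
    ext v
    ring
  rw [e1] at g1
  unfold DtermB
  unfold F0 at g1 g2 ⊢
  linarith only [hJ, g1, g2]

end Vale.Agent.P107
end
end
end

section

section

attribute [-instance] ProperSMul.toContinuousSMul IsTopologicalTorsor.toContinuousSMul
  IdemSemiring.toCanonicallyOrderedAdd IdemSemiring.toMulLeftMono IdemSemiring.toMulRightMono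
  AddQuantale.instAddLeftMono AddQuantale.instAddRightMono Quantale.instMulLeftMono
  Quantale.instMulRightMono FiniteDimensional.rclike_to_real IsScalarTower.complexToReal
  FiniteDimensional.complexToReal

section

/-!
Covering of `(s, z, v)` space by cells, and countable additivity of `pathInt`.
-/

open MeasureTheory Set Filter Topology
open scoped RealInnerProductSpace ENNReal NNReal

namespace Vale.Agent.P107

open Vale.Agent.P107.Ar

variable {T : ℝ} {f : ℝ → E3 → E3 → ℝ} {E B : ℝ → E3 → E3}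

/-! ### Measurability and additivity -/

/-- Joint measurability of a kernel. -/
def MK (g : ℝ → E3 → E3 → ℝ≥0∞) : Prop := Measurable fun y : ℝ × E3 × E3 => g y.1 y.2.1 y.2.2

lemma measurable_flX (h : IsClassicalSolution T f E B) {ta : ℝ} (h0 : 0 < ta) {X : ℝ → E3}
    (hX : Continuous X) :
    Measurable fun y : ℝ × E3 × E3 => fl ta T f (y.1 - ‖y.2.1‖) (X y.1 + y.2.1) y.2.2 := by
  have hc : Continuous fun y : ℝ × E3 × E3 =>
      ((y.1 - ‖y.2.1‖, X y.1 + y.2.1, y.2.2) : ℝ × E3 × E3) := by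
    have : Continuous fun y : ℝ × E3 × E3 => X y.1 := hX.comp continuous_fst
    (clear * - hX; fun_prop)
  exact (measurable_fl h h0).comp hc.measurable

lemma pathInt_mono_ae {ta : ℝ} {X : ℝ → E3} {t₁ t₂ : ℝ} {g g' : ℝ → E3 → E3 → ℝ≥0∞} (V₀ : ℝ → E3)
    (H : ∀ s ∈ Icc t₁ t₂, ∀ z : E3, z ≠ 0 → ∀ v : E3, v ≠ V₀ s →
      fl ta T f (s - ‖z‖) (X s + z) v ≠ 0 → g s z v ≤ g' s z v) :
    pathInt ta T f X t₁ t₂ g ≤ pathInt ta T f X t₁ t₂ g' := by
  unfold pathInt coneInt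
  refine setLIntegral_mono' measurableSet_Icc fun s hs => ?_
  have hz : ∀ᵐ z : E3, z ≠ 0 := by
    rw [ae_iff]
    simp
  refine lintegral_mono_ae ?_
  filter_upwards [hz] with z hz
  have hv : ∀ᵐ v : E3, v ≠ V₀ s := by
    rw [ae_iff]
    simp
  refine lintegral_mono_ae ?_
  filter_upwards [hv] with v hv
  by_cases h0 : fl ta T f (s - ‖z‖) (X s + z) v = 0
  · rw [h0, mul_zero, mul_zero]
  · gcongr
    exact H s hs z hz v hv h0

lemma pathInt_congr_path {ta : ℝ} {X X' : ℝ → E3} {t₁ t₂ : ℝ} {g g' : ℝ → E3 → E3 → ℝ≥0∞}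
    (hX : ∀ s ∈ Icc t₁ t₂, X s = X' s)
    (H : ∀ s ∈ Icc t₁ t₂, ∀ z v : E3,
      fl ta T f (s - ‖z‖) (X s + z) v ≠ 0 → g s z v = g' s z v) :
    pathInt ta T f X t₁ t₂ g = pathInt ta T f X' t₁ t₂ g' := by
  unfold pathInt coneInt
  refine setLIntegral_congr_fun measurableSet_Icc fun s hs => ?_
  refine lintegral_congr fun z => lintegral_congr fun v => ?_
  rw [← hX s hs]
  by_cases h0 : fl ta T f (s - ‖z‖) (X s + z) v = 0
  · rw [h0, mul_zero, mul_zero]
  · rw [H s hs z v h0]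

lemma MK.tsum {ι : Type*} [Countable ι] {g : ι → ℝ → E3 → E3 → ℝ≥0∞} (hg : ∀ i, MK (g i)) :
    MK (fun s z v => ∑' i, g i s z v) := Measurable.tsum hg

lemma MK.indicator {c : Set (ℝ × E3 × E3)} (hc : MeasurableSet c) {g : ℝ → E3 → E3 → ℝ≥0∞}
    (hg : MK g) : MK (fun s z v => c.indicator (fun y => g y.1 y.2.1 y.2.2) (s, z, v)) := by
  unfold MK
  exact Measurable.indicator hg hc

lemma MK.ite {P : Prop} [Decidable P] {g : ℝ → E3 → E3 → ℝ≥0∞} (hg : MK g) :
    MK (fun s z v => if P then g s z v else 0) := by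
  by_cases hP : P
  · simp only [if_pos hP]; exact hg
  · simp only [if_neg hP]; exact measurable_const

lemma measurable_inner_int (h : IsClassicalSolution T f E B) {ta : ℝ} (h0 : 0 < ta) {X : ℝ → E3}
    (hX : Continuous X) {g : ℝ → E3 → E3 → ℝ≥0∞} (hg : MK g) :
    Measurable fun p : ℝ × E3 => ∫⁻ v, g p.1 p.2 v * fl ta T f (p.1 - ‖p.2‖) (X p.1 + p.2) v := by
  have h1 : Measurable fun y : ℝ × E3 × E3 =>
      g y.1 y.2.1 y.2.2 * fl ta T f (y.1 - ‖y.2.1‖) (X y.1 + y.2.1) y.2.2 :=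
    Measurable.mul hg (measurable_flX h h0 hX)
  have h2 : Measurable fun r : (ℝ × E3) × E3 =>
      g r.1.1 r.1.2 r.2 * fl ta T f (r.1.1 - ‖r.1.2‖) (X r.1.1 + r.1.2) r.2 :=
    h1.comp ((measurable_fst.comp measurable_fst).prodMk
      ((measurable_snd.comp measurable_fst).prodMk measurable_snd))
  exact h2.lintegral_prod_right'

lemma pathInt_tsum (h : IsClassicalSolution T f E B) {ta : ℝ} (h0 : 0 < ta) {X : ℝ → E3}
    (hX : Continuous X) {t₁ t₂ : ℝ} {ι : Type*} [Countable ι] {g : ι → ℝ → E3 → E3 → ℝ≥0∞}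
    (hg : ∀ i, MK (g i)) :
    pathInt ta T f X t₁ t₂ (fun s z v => ∑' i, g i s z v) =
      ∑' i, pathInt ta T f X t₁ t₂ (g i) := by
  unfold pathInt coneInt
  have hfl := measurable_flX h h0 hX
  have hin : ∀ i, Measurable fun p : ℝ × E3 =>
      ∫⁻ v, g i p.1 p.2 v * fl ta T f (p.1 - ‖p.2‖) (X p.1 + p.2) v :=
    fun i => measurable_inner_int h h0 hX (hg i)
  have e1 : ∀ (s : ℝ) (z : E3),
      ∫⁻ v, (∑' i, g i s z v) * fl ta T f (s - ‖z‖) (X s + z) v =
        ∑' i, ∫⁻ v, g i s z v * fl ta T f (s - ‖z‖) (X s + z) v := by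
    intro s z
    simp only [← ENNReal.tsum_mul_right]
    rw [lintegral_tsum]
    intro i
    have h1 : Measurable fun v : E3 => g i s z v * fl ta T f (s - ‖z‖) (X s + z) v :=
      (Measurable.mul (hg i) hfl).comp (measurable_const.prodMk
        (measurable_const.prodMk measurable_id) : Measurable fun v : E3 => (s, z, v))
    exact h1.aemeasurable
  simp only [e1]
  have e2 : ∀ s : ℝ, ∫⁻ z, ∑' i, ∫⁻ v, g i s z v * fl ta T f (s - ‖z‖) (X s + z) v =
      ∑' i, ∫⁻ z, ∫⁻ v, g i s z v * fl ta T f (s - ‖z‖) (X s + z) v := by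
    intro s
    rw [lintegral_tsum]
    intro i
    have h1 : Measurable fun z : E3 => ∫⁻ v, g i s z v * fl ta T f (s - ‖z‖) (X s + z) v :=
      (hin i).comp (measurable_const.prodMk measurable_id : Measurable fun z : E3 => (s, z))
    exact h1.aemeasurable
  simp only [e2]
  rw [lintegral_tsum]
  intro i
  exact ((hin i).lintegral_prod_right').aemeasurable

lemma pathInt_add (h : IsClassicalSolution T f E B) {ta : ℝ} (h0 : 0 < ta) {X : ℝ → E3}
    (hX : Continuous X) {t₁ t₂ : ℝ} {g g' : ℝ → E3 → E3 → ℝ≥0∞} (hg : MK g) (hg' : MK g') :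
    pathInt ta T f X t₁ t₂ (fun s z v => g s z v + g' s z v) =
      pathInt ta T f X t₁ t₂ g + pathInt ta T f X t₁ t₂ g' := by
  have h1 := pathInt_tsum h h0 hX (t₁ := t₁) (t₂ := t₂)
    (g := fun b : Bool => cond b g g') (fun b => by cases b <;> assumption)
  simp only [tsum_bool, cond_false, cond_true] at h1
  rw [add_comm (pathInt ta T f X t₁ t₂ g), ← h1]
  congr 1
  funext s z v
  exact add_comm _ _

lemma pathInt_const_mul {ta : ℝ} {X : ℝ → E3} {t₁ t₂ : ℝ} {g : ℝ → E3 → E3 → ℝ≥0∞} {c : ℝ≥0∞}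
    (hc : c ≠ ∞) :
    pathInt ta T f X t₁ t₂ (fun s z v => c * g s z v) = c * pathInt ta T f X t₁ t₂ g := by
  unfold pathInt coneInt
  simp only [mul_assoc, lintegral_const_mul' c _ hc]

/-! ### Covering by cells -/

lemma u_inj {v v' : E3} (h : u v = u v') : v = v' := by
  have h1 := norm_u_sq v
  have h2 := norm_u_sq v'
  rw [h, h2, inv_inj] at h1
  have h3 : q v' = q v := by
    have := q_pos v
    have := q_pos v'
    nlinarith
  rw [← q_smul_u v, ← q_smul_u v', h, h3]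

lemma exists_shellI {T₁ : ℝ} (hT : 0 < T₁) {z : E3} (hz : z ≠ 0) (hz1 : ‖z‖ ≤ T₁) :
    ∃ k : ℕ, shellI T₁ k z := by
  have hz0 : 0 < ‖z‖ := norm_pos_iff.2 hz
  obtain ⟨k, h1, h2⟩ := exists_nat_pow_near_of_lt_one (x := ‖z‖ / T₁) (y := 1 / 2)
    (by positivity) (by rw [div_le_one hT]; exact hz1) (by norm_num) (by norm_num)
  refine ⟨k, ?_, ?_⟩
  · rw [lt_div_iff₀ hT] at h1
    linarith only [h1]
  · rw [div_le_iff₀ hT] at h2
    linarith only [h2]

lemma exists_alI {x : ℝ} (hx : 0 < x) (hx2 : x ≤ 2) : ∃ m : ℕ, alI m x := by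
  obtain ⟨k, h1, h2⟩ := exists_nat_pow_near_of_lt_one (x := x / 2) (y := 1 / 4)
    (by positivity) (by linarith only [hx2]) (by norm_num) (by norm_num)
  exact ⟨k, by linarith only [h1], by linarith only [h2]⟩

lemma exists_phI {x : ℝ} (hx : 0 < x) (hx2 : x ≤ 2) : ∃ n : ℕ, phI n x := by
  obtain ⟨k, h1, h2⟩ := exists_nat_pow_near_of_lt_one (x := x / 2) (y := 1 / 2)
    (by positivity) (by linarith only [hx2]) (by norm_num) (by norm_num)
  exact ⟨k, by linarith only [h1], by linarith only [h2]⟩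

lemma exists_qI {p : ℕ} {x : ℝ} (hx : 0 < x) (hx2 : x ≤ 2 ^ p) : ∃ i : ℕ, qI p i x := by
  have hp : (0:ℝ) < 2 ^ p := by positivity
  obtain ⟨k, h1, h2⟩ := exists_nat_pow_near_of_lt_one (x := x / 2 ^ p) (y := 1 / 2)
    (by positivity) (by rw [div_le_one hp]; exact hx2) (by norm_num) (by norm_num)
  refine ⟨k, ?_, ?_⟩
  · rw [lt_div_iff₀ hp] at h1
    unfold qq
    rw [pow_succ, one_div, inv_pow] at h1
    have e : (2:ℝ) ^ p / 2 ^ k / 2 = (2 ^ k)⁻¹ * (1 / 2) * 2 ^ p := by ring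
    rw [e]
    simpa using h1
  · rw [div_le_iff₀ hp] at h2
    unfold qq
    rw [one_div, inv_pow] at h2
    rw [div_eq_mul_inv, mul_comm]
    exact h2

lemma norm_dir {z : E3} (hz : z ≠ 0) : ‖dir z‖ = 1 := by
  unfold dir
  rw [norm_smul, norm_inv, norm_norm, inv_mul_cancel₀ (norm_ne_zero_iff.2 hz)]

lemma fl_ne_zero {ta : ℝ} {τ : ℝ} {x v : E3} (hf : fl ta T f τ x v ≠ 0) :
    ta ≤ τ ∧ τ < T ∧ f τ x v ≠ 0 := by
  unfold fl at hf
  by_cases hc : ta ≤ τ ∧ τ < T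
  · rw [if_pos hc] at hf
    refine ⟨hc.1, hc.2, fun h0 => hf ?_⟩
    rw [h0, ENNReal.ofReal_zero]
  · rw [if_neg hc] at hf
    exact absurd rfl hf

/-- Every relevant point lies in a cell. -/
theorem cover {t₀ th c₁ : ℝ} {p j : ℕ} {X V : ℝ → E3} {t₁ t₂ : ℝ}
    (hc : Ctx T f E B t₀ th c₁ p j X V t₁ t₂) {s : ℝ} (hs : s ∈ Icc t₁ t₂) {z v : E3}
    (hz : z ≠ 0) (hv : v ≠ V s) (hf : fl (t₀ / 2) T f (s - ‖z‖) (X s + z) v ≠ 0) :
    ∃ k m i : ℕ,
      (∃ l : ℕ, m + 4 ≤ l ∧ (s, z, v) ∈ cellAN (max T 1) p V t₁ t₂ k m l i) ∨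
      (∃ l : ℕ, l + 4 ≤ m ∧ (s, z, v) ∈ cellAN (max T 1) p V t₁ t₂ k m l i) ∨
      (∃ n : ℕ, (s, z, v) ∈ cellD (max T 1) p V t₁ t₂ k m n i) := by
  obtain ⟨f1, f2, f3⟩ := fl_ne_zero hf
  have ht₀ := hc.ht₀
  have hz0 : 0 < ‖z‖ := norm_pos_iff.2 hz
  have hT1 : T ≤ max T 1 := le_max_left _ _
  have hT0 : 0 < max T 1 := lt_of_lt_of_le one_pos (le_max_right _ _)
  have hsT : s < T := lt_of_le_of_lt (hs.2.trans hc.h2) hc.hth
  have hzT : ‖z‖ ≤ max T 1 := by linarith only [f1, ht₀, hT1, hsT]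
  obtain ⟨k, hk⟩ := exists_shellI hT0 hz hzT
  have hw := norm_dir hz
  obtain ⟨m, hm⟩ := exists_alI (KA.al_pos hw (norm_u_lt_one (V s)))
    (KA.al_le hw (norm_u_lt_one (V s)))
  obtain ⟨l, hl⟩ := exists_alI (KA.al_pos hw (norm_u_lt_one v)) (KA.al_le hw (norm_u_lt_one v))
  have hq : q v ≤ 2 ^ p := hc.hP (s - ‖z‖) ⟨by linarith only [f1, ht₀], by linarith only [hz0, hs.2, hc.h2]⟩ _ _ f3
  obtain ⟨i, hi⟩ := exists_qI (q_pos v) hq
  refine ⟨k, m, i, ?_⟩
  rcases le_or_gt (m + 4) l with h1 | h1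
  · exact Or.inl ⟨l, h1, hs, hk, hm, hl, hi⟩
  rcases le_or_gt (l + 4) m with h2 | h2
  · exact Or.inr (Or.inl ⟨l, h2, hs, hk, hm, hl, hi⟩)
  right; right
  have hne : 0 < ‖u v - u (V s)‖ := by
    rw [norm_pos_iff, sub_ne_zero]
    exact fun he => hv (u_inj he)
  have hle : ‖u v - u (V s)‖ ≤ 2 := by
    have := norm_sub_le (u v) (u (V s))
    have a1 := norm_u_lt_one v
    have a2 := norm_u_lt_one (V s)
    linarith only [this, a1, a2]
  obtain ⟨n, hn⟩ := exists_phI hne hle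
  exact ⟨n, hs, hk, hm, ⟨l, by omega, by omega, hl⟩, hn, hi⟩

/-! ### Continuous extension of the path, measurability of the cells -/

lemma exists_ext {t₀ th c₁ : ℝ} {p j : ℕ} {X V : ℝ → E3} {t₁ t₂ : ℝ}
    (hc : Ctx T f E B t₀ th c₁ p j X V t₁ t₂) :
    ∃ X' V' : ℝ → E3, Continuous X' ∧ Continuous V' ∧ (∀ s ∈ Icc t₁ t₂, X s = X' s) ∧
      (∀ s ∈ Icc t₁ t₂, V s = V' s) := by
  have hproj : Continuous fun s : ℝ => ((projIcc t₁ t₂ hc.h12 s : Icc t₁ t₂) : ℝ) :=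
    continuous_subtype_val.comp continuous_projIcc
  have hval : ∀ s ∈ Icc t₁ t₂, ((projIcc t₁ t₂ hc.h12 s : Icc t₁ t₂) : ℝ) = s := fun s hs => by
    rw [projIcc_of_mem hc.h12 hs]
  have hXc : ContinuousOn X (Icc t₁ t₂) := fun s hs => (hc.hchar.hX s hs).continuousWithinAt
  have hVc : ContinuousOn V (Icc t₁ t₂) := fun s hs => (hc.hchar.hV s hs).continuousWithinAt
  exact ⟨fun s => X (projIcc t₁ t₂ hc.h12 s), fun s => V (projIcc t₁ t₂ hc.h12 s),
    hXc.comp_continuous hproj fun s => (projIcc t₁ t₂ hc.h12 s).2,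
    hVc.comp_continuous hproj fun s => (projIcc t₁ t₂ hc.h12 s).2,
    fun s hs => by simp only [hval s hs], fun s hs => by simp only [hval s hs]⟩

lemma cellAN_congr {T₁ : ℝ} {p : ℕ} {V V' : ℝ → E3} {t₁ t₂ : ℝ}
    (hV : ∀ s ∈ Icc t₁ t₂, V s = V' s) (k m l i : ℕ) :
    cellAN T₁ p V t₁ t₂ k m l i = cellAN T₁ p V' t₁ t₂ k m l i := by
  ext y
  unfold cellAN
  simp only [mem_ofPred_eq]
  refine and_congr_right fun hy => ?_
  rw [hV _ hy]

lemma cellD_congr {T₁ : ℝ} {p : ℕ} {V V' : ℝ → E3} {t₁ t₂ : ℝ}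
    (hV : ∀ s ∈ Icc t₁ t₂, V s = V' s) (k m n i : ℕ) :
    cellD T₁ p V t₁ t₂ k m n i = cellD T₁ p V' t₁ t₂ k m n i := by
  ext y
  unfold cellD
  simp only [mem_ofPred_eq]
  refine and_congr_right fun hy => ?_
  rw [hV _ hy]

lemma measurable_al0 {V : ℝ → E3} (hV : Continuous V) :
    Measurable fun y : ℝ × E3 × E3 => al (dir y.2.1) (u (V y.1)) := by
  unfold al
  exact measurable_const.add (((continuous_u.comp hV).measurable.comp measurable_fst).inner
    (Flux.measurable_dir.comp (measurable_fst.comp measurable_snd)))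

lemma measurable_al1 : Measurable fun y : ℝ × E3 × E3 => al (dir y.2.1) (u y.2.2) := by
  unfold al
  exact measurable_const.add ((continuous_u.measurable.comp (measurable_snd.comp
    measurable_snd)).inner (Flux.measurable_dir.comp (measurable_fst.comp measurable_snd)))

lemma measurable_q2 : Measurable fun y : ℝ × E3 × E3 => q y.2.2 :=
  continuous_q.measurable.comp (measurable_snd.comp measurable_snd)

lemma measurable_rel {V : ℝ → E3} (hV : Continuous V) :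
    Measurable fun y : ℝ × E3 × E3 => ‖u y.2.2 - u (V y.1)‖ :=
  ((continuous_u.measurable.comp (measurable_snd.comp measurable_snd)).sub
    ((continuous_u.comp hV).measurable.comp measurable_fst)).norm

lemma measurableSet_shellI (T₁ : ℝ) (k : ℕ) : MeasurableSet {z : E3 | shellI T₁ k z} :=
  (measurableSet_lt measurable_const measurable_norm).inter
    (measurableSet_le measurable_norm measurable_const)

lemma measurableSet_alI (m : ℕ) : MeasurableSet {x : ℝ | alI m x} :=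
  (measurableSet_lt measurable_const measurable_id).inter
    (measurableSet_le measurable_id measurable_const)

lemma measurableSet_phI (n : ℕ) : MeasurableSet {x : ℝ | phI n x} :=
  (measurableSet_lt measurable_const measurable_id).inter
    (measurableSet_le measurable_id measurable_const)

lemma measurableSet_qI (p i : ℕ) : MeasurableSet {x : ℝ | qI p i x} :=
  (measurableSet_lt measurable_const measurable_id).inter
    (measurableSet_le measurable_id measurable_const)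

lemma measurableSet_cellAN' {T₁ : ℝ} {p : ℕ} {V : ℝ → E3} (hV : Continuous V) {t₁ t₂ : ℝ}
    (k m l i : ℕ) : MeasurableSet (cellAN T₁ p V t₁ t₂ k m l i) := by
  refine (measurableSet_Icc.preimage measurable_fst).inter ?_
  refine ((measurableSet_shellI T₁ k).preimage (measurable_fst.comp measurable_snd)).inter ?_
  refine ((measurableSet_alI m).preimage (measurable_al0 hV)).inter ?_
  exact ((measurableSet_alI l).preimage measurable_al1).inter
    ((measurableSet_qI p i).preimage measurable_q2)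

lemma measurableSet_cellD' {T₁ : ℝ} {p : ℕ} {V : ℝ → E3} (hV : Continuous V) {t₁ t₂ : ℝ}
    (k m n i : ℕ) : MeasurableSet (cellD T₁ p V t₁ t₂ k m n i) := by
  refine (measurableSet_Icc.preimage measurable_fst).inter ?_
  refine ((measurableSet_shellI T₁ k).preimage (measurable_fst.comp measurable_snd)).inter ?_
  refine ((measurableSet_alI m).preimage (measurable_al0 hV)).inter ?_
  refine MeasurableSet.inter ?_ (((measurableSet_phI n).preimage (measurable_rel hV)).inter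
    ((measurableSet_qI p i).preimage measurable_q2))
  have e : {y : ℝ × E3 × E3 | ∃ l : ℕ, l ≤ m + 3 ∧ m ≤ l + 3 ∧ alI l (al (dir y.2.1) (u y.2.2))} =
      ⋃ l : ℕ, {y : ℝ × E3 × E3 | l ≤ m + 3 ∧ m ≤ l + 3 ∧ alI l (al (dir y.2.1) (u y.2.2))} := by
    ext y
    simp only [mem_ofPred_eq, mem_iUnion]
  have h1 : MeasurableSet
      {y : ℝ × E3 × E3 | ∃ l : ℕ, l ≤ m + 3 ∧ m ≤ l + 3 ∧ alI l (al (dir y.2.1) (u y.2.2))} := by
    rw [e]
    refine MeasurableSet.iUnion fun l => ?_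
    exact (MeasurableSet.const _).inter ((MeasurableSet.const _).inter
      ((measurableSet_alI l).preimage measurable_al1))
  exact h1

lemma measurableSet_cellAN {t₀ th c₁ : ℝ} {p j : ℕ} {X V : ℝ → E3} {t₁ t₂ : ℝ}
    (hc : Ctx T f E B t₀ th c₁ p j X V t₁ t₂) (T₁ : ℝ) (p' k m l i : ℕ) :
    MeasurableSet (cellAN T₁ p' V t₁ t₂ k m l i) := by
  obtain ⟨X', V', -, hV', -, hVV⟩ := exists_ext hc
  rw [cellAN_congr hVV]
  exact measurableSet_cellAN' hV' k m l i

lemma measurableSet_cellD {t₀ th c₁ : ℝ} {p j : ℕ} {X V : ℝ → E3} {t₁ t₂ : ℝ}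
    (hc : Ctx T f E B t₀ th c₁ p j X V t₁ t₂) (T₁ : ℝ) (p' k m n i : ℕ) :
    MeasurableSet (cellD T₁ p' V t₁ t₂ k m n i) := by
  obtain ⟨X', V', -, hV', -, hVV⟩ := exists_ext hc
  rw [cellD_congr hVV]
  exact measurableSet_cellD' hV' k m n i

/-! ### The sum over cells -/

/-- `pathInt` over a cell. -/
noncomputable def cellInt (ta T : ℝ) (f : ℝ → E3 → E3 → ℝ) (X : ℝ → E3) (t₁ t₂ : ℝ)
    (c : Set (ℝ × E3 × E3)) (g : ℝ → E3 → E3 → ℝ≥0∞) : ℝ≥0∞ :=
  pathInt ta T f X t₁ t₂ (fun s z v => c.indicator (fun _ => g s z v) (s, z, v))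

lemma indicator_le_tsum4 {a : ℝ≥0∞} {F : ℕ → ℕ → ℕ → ℕ → ℝ≥0∞} (k m l i : ℕ)
    (ha : a ≤ F k m l i) : a ≤ ∑' (k : ℕ) (m : ℕ) (l : ℕ) (i : ℕ), F k m l i := by
  have h1 : F k m l i ≤ ∑' i, F k m l i := ENNReal.le_tsum i
  have h2 : ∑' i, F k m l i ≤ ∑' l, ∑' i, F k m l i := ENNReal.le_tsum (f := fun l => ∑' i, F k m l i) l
  have h3 : ∑' l, ∑' i, F k m l i ≤ ∑' m, ∑' l, ∑' i, F k m l i :=
    ENNReal.le_tsum (f := fun m => ∑' l, ∑' i, F k m l i) m
  have h4 : ∑' m, ∑' l, ∑' i, F k m l i ≤ ∑' k, ∑' m, ∑' l, ∑' i, F k m l i :=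
    ENNReal.le_tsum (f := fun k => ∑' m, ∑' l, ∑' i, F k m l i) k
  exact ha.trans (h1.trans (h2.trans (h3.trans h4)))

open Classical in
/-- The kernel integral is bounded by the sum of the integrals over the cells. -/
theorem cover_le (h : IsClassicalSolution T f E B) {t₀ th c₁ : ℝ} {p j : ℕ} {X V : ℝ → E3}
    {t₁ t₂ : ℝ} (hc : Ctx T f E B t₀ th c₁ p j X V t₁ t₂) {g : ℝ → E3 → E3 → ℝ≥0∞} (hg : MK g) :
    pathInt (t₀ / 2) T f X t₁ t₂ g ≤
      (∑' (k : ℕ) (m : ℕ) (l : ℕ) (i : ℕ), if m + 4 ≤ l then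
        cellInt (t₀ / 2) T f X t₁ t₂ (cellAN (max T 1) p V t₁ t₂ k m l i) g else 0) +
      (∑' (k : ℕ) (m : ℕ) (l : ℕ) (i : ℕ), if l + 4 ≤ m then
        cellInt (t₀ / 2) T f X t₁ t₂ (cellAN (max T 1) p V t₁ t₂ k m l i) g else 0) +
      (∑' (k : ℕ) (m : ℕ) (n : ℕ) (i : ℕ),
        cellInt (t₀ / 2) T f X t₁ t₂ (cellD (max T 1) p V t₁ t₂ k m n i) g) := by
  have ht₀ := hc.ht₀
  have hta : 0 < t₀ / 2 := by linarith only [ht₀]
  obtain ⟨X', V', hX', hV', hXX, hVV⟩ := exists_ext hc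
  have hcAN : ∀ k m l i, MeasurableSet (cellAN (max T 1) p V t₁ t₂ k m l i) := fun k m l i =>
    measurableSet_cellAN hc _ _ _ _ _ _
  have hcD : ∀ k m n i, MeasurableSet (cellD (max T 1) p V t₁ t₂ k m n i) := fun k m l i =>
    measurableSet_cellD hc _ _ _ _ _ _
  set gA : ℕ → ℕ → ℕ → ℕ → ℝ → E3 → E3 → ℝ≥0∞ := fun k m l i s z v => if m + 4 ≤ l then
    (cellAN (max T 1) p V t₁ t₂ k m l i).indicator (fun _ => g s z v) (s, z, v) else 0 with hgA
  set gN : ℕ → ℕ → ℕ → ℕ → ℝ → E3 → E3 → ℝ≥0∞ := fun k m l i s z v => if l + 4 ≤ m then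
    (cellAN (max T 1) p V t₁ t₂ k m l i).indicator (fun _ => g s z v) (s, z, v) else 0 with hgN
  set gD : ℕ → ℕ → ℕ → ℕ → ℝ → E3 → E3 → ℝ≥0∞ := fun k m n i s z v =>
    (cellD (max T 1) p V t₁ t₂ k m n i).indicator (fun _ => g s z v) (s, z, v) with hgD
  have mA : ∀ k m l i, MK (gA k m l i) := fun k m l i => MK.ite (MK.indicator (hcAN k m l i) hg)
  have mN : ∀ k m l i, MK (gN k m l i) := fun k m l i => MK.ite (MK.indicator (hcAN k m l i) hg)
  have mD : ∀ k m l i, MK (gD k m l i) := fun k m l i => MK.indicator (hcD k m l i) hg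
  have s4 : ∀ G : ℕ → ℕ → ℕ → ℕ → ℝ → E3 → E3 → ℝ≥0∞, (∀ k m l i, MK (G k m l i)) →
      MK (fun s z v => ∑' (k : ℕ) (m : ℕ) (l : ℕ) (i : ℕ), G k m l i s z v) := fun G hG =>
    MK.tsum fun k => MK.tsum fun m => MK.tsum fun l => MK.tsum fun i => hG k m l i
  have p4 : ∀ G : ℕ → ℕ → ℕ → ℕ → ℝ → E3 → E3 → ℝ≥0∞, (∀ k m l i, MK (G k m l i)) →
      pathInt (t₀ / 2) T f X' t₁ t₂ (fun s z v => ∑' (k : ℕ) (m : ℕ) (l : ℕ) (i : ℕ),
        G k m l i s z v) =
      ∑' (k : ℕ) (m : ℕ) (l : ℕ) (i : ℕ), pathInt (t₀ / 2) T f X' t₁ t₂ (G k m l i) := by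
    intro G hG
    rw [pathInt_tsum h hta hX' (g := fun k s z v => ∑' (m : ℕ) (l : ℕ) (i : ℕ), G k m l i s z v)
      (fun k => MK.tsum fun m => MK.tsum fun l => MK.tsum fun i => hG k m l i)]
    refine tsum_congr fun k => ?_
    rw [pathInt_tsum h hta hX' (g := fun m s z v => ∑' (l : ℕ) (i : ℕ), G k m l i s z v)
      (fun m => MK.tsum fun l => MK.tsum fun i => hG k m l i)]
    refine tsum_congr fun m => ?_
    rw [pathInt_tsum h hta hX' (g := fun l s z v => ∑' (i : ℕ), G k m l i s z v)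
      (fun l => MK.tsum fun i => hG k m l i)]
    refine tsum_congr fun l => ?_
    rw [pathInt_tsum h hta hX' (g := fun i s z v => G k m l i s z v) (fun i => hG k m l i)]
  have e1 : ∀ G : ℝ → E3 → E3 → ℝ≥0∞, pathInt (t₀ / 2) T f X t₁ t₂ G =
      pathInt (t₀ / 2) T f X' t₁ t₂ G := fun G =>
    pathInt_congr_path hXX (fun _ _ _ _ _ => rfl)
  have hmain : pathInt (t₀ / 2) T f X t₁ t₂ g ≤ pathInt (t₀ / 2) T f X t₁ t₂ (fun s z v =>
      ((∑' (k : ℕ) (m : ℕ) (l : ℕ) (i : ℕ), gA k m l i s z v) +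
      (∑' (k : ℕ) (m : ℕ) (l : ℕ) (i : ℕ), gN k m l i s z v)) +
      ∑' (k : ℕ) (m : ℕ) (l : ℕ) (i : ℕ), gD k m l i s z v) := by
    refine pathInt_mono_ae V fun s hs z hz v hv hf => ?_
    obtain ⟨k, m, i, ⟨l, hl, hmem⟩ | ⟨l, hl, hmem⟩ | ⟨n, hmem⟩⟩ := cover hc hs hz hv hf
    · refine le_trans ?_ (le_self_add.trans le_self_add)
      refine indicator_le_tsum4 k m l i ?_
      simp only [hgA]
      rw [if_pos hl, indicator_of_mem hmem]
    · refine le_trans ?_ (le_add_self.trans le_self_add)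
      refine indicator_le_tsum4 k m l i ?_
      simp only [hgN]
      rw [if_pos hl, indicator_of_mem hmem]
    · refine le_trans ?_ le_add_self
      refine indicator_le_tsum4 k m n i ?_
      simp only [hgD]
      rw [indicator_of_mem hmem]
  have mAN : MK (fun s z v => (∑' (k : ℕ) (m : ℕ) (l : ℕ) (i : ℕ), gA k m l i s z v) +
      (∑' (k : ℕ) (m : ℕ) (l : ℕ) (i : ℕ), gN k m l i s z v)) :=
    Measurable.add (s4 gA mA) (s4 gN mN)
  refine hmain.trans ?_
  rw [e1, pathInt_add h hta hX' mAN (s4 gD mD), pathInt_add h hta hX' (s4 gA mA) (s4 gN mN),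
    p4 gA mA, p4 gN mN, p4 gD mD]
  have zero : pathInt (t₀ / 2) T f X' t₁ t₂ (fun _ _ _ => 0) = 0 := by
    unfold pathInt coneInt
    simp
  gcongr with k m l i k m l i k m n i
  · by_cases hl : m + 4 ≤ l
    · rw [if_pos hl]
      unfold cellInt
      rw [e1]
      simp only [hgA, if_pos hl]
      exact le_rfl
    · simp only [hgA, if_neg hl]
      exact zero.le
  · by_cases hl : l + 4 ≤ m
    · rw [if_pos hl]
      unfold cellInt
      rw [e1]
      simp only [hgN, if_pos hl]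
      exact le_rfl
    · simp only [hgN, if_neg hl]
      exact zero.le
  · unfold cellInt
    rw [e1]

end Vale.Agent.P107
end
end
end

section

section

attribute [-instance] ProperSMul.toContinuousSMul IsTopologicalTorsor.toContinuousSMul
  IdemSemiring.toCanonicallyOrderedAdd IdemSemiring.toMulLeftMono IdemSemiring.toMulRightMono
  AddQuantale.instAddLeftMono AddQuantale.instAddRightMono Quantale.instMulLeftMono
  Quantale.instMulRightMono FiniteDimensional.rclike_to_real IsScalarTower.complexToReal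
  FiniteDimensional.complexToReal

section

/-!
Rotation of a unit vector to a basis vector, and integrals of products of functions of the
coordinates on `E3`.
-/

open MeasureTheory Set Filter Topology
open scoped RealInnerProductSpace ENNReal NNReal

namespace Vale.Agent.P107

lemma exists_rot {ω : E3} (hω : ‖ω‖ = 1) :
    ∃ L : E3 ≃ₗᵢ[ℝ] E3, L (EuclideanSpace.single 0 (1 : ℝ)) = ω :=
  ⟨(ℝ ∙ (EuclideanSpace.single 0 (1 : ℝ) - ω))ᗮ.reflection,
    Submodule.reflection_sub (by simp [hω])⟩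

/-- Integrals of products over the coordinates. -/
lemma lintegral_E3_prod {g : Fin 3 → ℝ → ℝ≥0∞} (hg : ∀ i, Measurable (g i)) :
    ∫⁻ v : E3, g 0 (v 0) * (g 1 (v 1) * g 2 (v 2))
      = (∫⁻ s, g 0 s) * ((∫⁻ s, g 1 s) * ∫⁻ s, g 2 s) := by
  have h0 := hg 0
  have h1 := hg 1
  have h2 := hg 2
  have e1 : ∫⁻ v : E3, g 0 (v 0) * (g 1 (v 1) * g 2 (v 2))
      = ∫⁻ w : Fin 3 → ℝ, g 0 (w 0) * (g 1 (w 1) * g 2 (w 2)) :=
    (PiLp.volume_preserving_ofLp (Fin 3)).lintegral_comp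
      (f := fun w : Fin 3 → ℝ => g 0 (w 0) * (g 1 (w 1) * g 2 (w 2)))
      (by fun_prop)
  have e2 : ∫⁻ w : Fin 3 → ℝ, g 0 (w 0) * (g 1 (w 1) * g 2 (w 2))
      = ∫⁻ p : ℝ × (Fin 2 → ℝ), g 0 p.1 * (g 1 (p.2 0) * g 2 (p.2 1)) :=
    (volume_preserving_piFinSuccAbove (fun _ : Fin 3 => ℝ) 0).lintegral_comp
      (f := fun p : ℝ × (Fin 2 → ℝ) => g 0 p.1 * (g 1 (p.2 0) * g 2 (p.2 1)))
      (by fun_prop)
  have e3 : ∫⁻ p : ℝ × (Fin 2 → ℝ), g 0 p.1 * (g 1 (p.2 0) * g 2 (p.2 1))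
      = (∫⁻ s, g 0 s) * ∫⁻ w : Fin 2 → ℝ, g 1 (w 0) * g 2 (w 1) := by
    rw [Measure.volume_eq_prod]
    exact lintegral_prod_mul (f := g 0) (g := fun w : Fin 2 → ℝ => g 1 (w 0) * g 2 (w 1))
      h0.aemeasurable (by (clear * - hg h2; fun_prop))
  have e4 : ∫⁻ w : Fin 2 → ℝ, g 1 (w 0) * g 2 (w 1) = ∫⁻ p : ℝ × ℝ, g 1 p.1 * g 2 p.2 :=
    (volume_preserving_finTwoArrow ℝ).lintegral_comp (f := fun p : ℝ × ℝ => g 1 p.1 * g 2 p.2)
      (by fun_prop)
  have e5 : ∫⁻ p : ℝ × ℝ, g 1 p.1 * g 2 p.2 = (∫⁻ s, g 1 s) * ∫⁻ s, g 2 s := by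
    rw [Measure.volume_eq_prod]
    exact lintegral_prod_mul h1.aemeasurable h2.aemeasurable
  rw [e1, e2, e3, e4, e5]

end Vale.Agent.P107
end
end
end

section

section

attribute [-instance] ProperSMul.toContinuousSMul IsTopologicalTorsor.toContinuousSMul
  IdemSemiring.toCanonicallyOrderedAdd IdemSemiring.toMulLeftMono IdemSemiring.toMulRightMono
  AddQuantale.instAddLeftMono AddQuantale.instAddRightMono Quantale.instMulLeftMono
  Quantale.instMulRightMono FiniteDimensional.rclike_to_real IsScalarTower.complexToReal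
  FiniteDimensional.complexToReal

section

/-!
Volumes of cells, and elementary global bounds (modules Vo and F0).
-/

open MeasureTheory Set Filter Topology
open scoped RealInnerProductSpace ENNReal NNReal

namespace Vale.Agent.P107

/-! ### Volumes -/

lemma vol_box {A r : ℝ} (hA : 0 ≤ A) (hr : 0 ≤ r) :
    volume {y : E3 | |y 0| ≤ A ∧ |y 1| ≤ r ∧ |y 2| ≤ r} ≤ ENNReal.ofReal (8 * (A * r ^ 2)) := by
  set g : Fin 3 → ℝ → ℝ≥0∞ := ![(Icc (-A) A).indicator 1, (Icc (-r) r).indicator 1,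
    (Icc (-r) r).indicator 1] with hg
  have hgm : ∀ i, Measurable (g i) := by
    intro i
    fin_cases i <;>
      exact measurable_one.indicator measurableSet_Icc
  have h1 : volume {y : E3 | |y 0| ≤ A ∧ |y 1| ≤ r ∧ |y 2| ≤ r}
      ≤ ∫⁻ v : E3, g 0 (v 0) * (g 1 (v 1) * g 2 (v 2)) := by
    have hm : MeasurableSet {y : E3 | |y 0| ≤ A ∧ |y 1| ≤ r ∧ |y 2| ≤ r} := by
      have e0 : Measurable fun y : E3 => |y 0| := by fun_prop
      have e1 : Measurable fun y : E3 => |y 1| := by fun_prop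
      have e2 : Measurable fun y : E3 => |y 2| := by fun_prop
      exact (measurableSet_le e0 measurable_const).inter
        ((measurableSet_le e1 measurable_const).inter (measurableSet_le e2 measurable_const))
    rw [← lintegral_indicator_one hm]
    refine lintegral_mono fun y => ?_
    by_cases hy : y ∈ {y : E3 | |y 0| ≤ A ∧ |y 1| ≤ r ∧ |y 2| ≤ r}
    · have h0 : y 0 ∈ Icc (-A) A := abs_le.1 hy.1
      have h1 : y 1 ∈ Icc (-r) r := abs_le.1 hy.2.1
      have h2 : y 2 ∈ Icc (-r) r := abs_le.1 hy.2.2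
      simp only [hg, Matrix.cons_val_zero, Matrix.cons_val_one, Matrix.cons_val, Pi.one_apply,
        indicator_of_mem hy, indicator_of_mem h0, indicator_of_mem h1, indicator_of_mem h2]
      simp
    · rw [indicator_of_notMem hy]
      exact bot_le
  refine h1.trans ?_
  rw [lintegral_E3_prod hgm]
  simp only [hg, Matrix.cons_val_zero, Matrix.cons_val_one, Matrix.cons_val,
    lintegral_indicator_one measurableSet_Icc, Real.volume_Icc]
  rw [← ENNReal.ofReal_mul (by linarith only [hr]), ← ENNReal.ofReal_mul (by linarith only [hA])]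
  exact ENNReal.ofReal_le_ofReal (le_of_eq (by ring))

lemma vol_cyl {n : E3} (hn : ‖n‖ = 1) {A r2 : ℝ} (hA : 0 ≤ A) (hr : 0 ≤ r2) :
    volume {x : E3 | |⟪x, n⟫| ≤ A ∧ ‖x‖ ^ 2 - ⟪x, n⟫ ^ 2 ≤ r2}
      ≤ ENNReal.ofReal (8 * (A * r2)) := by
  obtain ⟨L, hL⟩ := exists_rot hn
  have hm : MeasurableSet {x : E3 | |⟪x, n⟫| ≤ A ∧ ‖x‖ ^ 2 - ⟪x, n⟫ ^ 2 ≤ r2} := by
    have e0 : Measurable fun x : E3 => |⟪x, n⟫| := by fun_prop
    have e1 : Measurable fun x : E3 => ‖x‖ ^ 2 - ⟪x, n⟫ ^ 2 := by (clear * -; fun_prop)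
    exact (measurableSet_le e0 measurable_const).inter (measurableSet_le e1 measurable_const)
  rw [← L.measurePreserving.measure_preimage hm.nullMeasurableSet]
  have hs : (0 : ℝ) ≤ √r2 := Real.sqrt_nonneg _
  have hb := vol_box hA hs
  rw [Real.sq_sqrt hr] at hb
  refine (measure_mono ?_).trans hb
  intro y hy
  have hy' : |⟪L y, n⟫| ≤ A ∧ ‖L y‖ ^ 2 - ⟪L y, n⟫ ^ 2 ≤ r2 := hy
  have h0 : ⟪L y, n⟫ = y 0 := by
    rw [← hL, L.inner_map_map, EuclideanSpace.inner_single_right]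
    simp
  have h1 : ‖L y‖ ^ 2 = y 0 ^ 2 + y 1 ^ 2 + y 2 ^ 2 := by
    rw [L.norm_map, EuclideanSpace.norm_sq_eq, Fin.sum_univ_three]
    simp only [Real.norm_eq_abs, sq_abs]
  rw [h0, h1] at hy'
  refine ⟨hy'.1, ?_, ?_⟩
  · exact Real.abs_le_sqrt (by nlinarith only [hy'.2])
  · exact Real.abs_le_sqrt (by nlinarith only [hy'.2])

lemma exists_unit_dir (b : E3) : ∃ n : E3, ‖n‖ = 1 ∧ b = ‖b‖ • n := by
  by_cases hb : b = 0
  · exact ⟨EuclideanSpace.single 0 1, by simp, by simp [hb]⟩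
  · have hb' : ‖b‖ ≠ 0 := norm_ne_zero_iff.2 hb
    refine ⟨‖b‖⁻¹ • b, ?_, ?_⟩
    · rw [norm_smul, norm_inv, norm_norm, inv_mul_cancel₀ hb']
    · rw [smul_smul, mul_inv_cancel₀ hb', one_smul]

theorem vol_shell : ∃ C : ℝ≥0, ∀ (b : E3), ‖b‖ ≤ 1 → ∀ R ξ : ℝ, 0 < R → 0 ≤ ξ →
    volume {z : E3 | z ≠ 0 ∧ ‖z‖ ≤ R ∧ al (dir z) b ≤ ξ} ≤ C * ENNReal.ofReal (R ^ 3 * ξ) := by
  refine ⟨16, fun b hb R ξ hR hξ => ?_⟩
  obtain ⟨n, hn, hbn⟩ := exists_unit_dir b
  refine (measure_mono ?_).trans ((vol_cyl hn (A := R) (r2 := 2 * (ξ * R ^ 2)) hR.le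
    (by positivity)).trans (le_of_eq ?_))
  · rintro z ⟨hz0, hzR, hz⟩
    have hzp : 0 < ‖z‖ := norm_pos_iff.2 hz0
    have h1 : |⟪z, n⟫| ≤ ‖z‖ := abs_inner_le_of_norm_le_one z n hn.le
    have h1' := abs_le.1 h1
    have h2 : ‖z‖ + ‖b‖ * ⟪z, n⟫ ≤ ξ * ‖z‖ := by
      have h3 : al (dir z) b = 1 + ‖z‖⁻¹ * (‖b‖ * ⟪z, n⟫) := by
        unfold al dir
        rw [real_inner_smul_right]
        congr 2
        conv_lhs => rw [hbn]
        rw [real_inner_smul_left, real_inner_comm]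
      rw [h3] at hz
      have h4 : (1 + ‖z‖⁻¹ * (‖b‖ * ⟪z, n⟫)) * ‖z‖ ≤ ξ * ‖z‖ :=
        mul_le_mul_of_nonneg_right hz hzp.le
      have h5 : (1 + ‖z‖⁻¹ * (‖b‖ * ⟪z, n⟫)) * ‖z‖ = ‖z‖ + ‖b‖ * ⟪z, n⟫ := by
        (clear * - hz0; field_simp)
      linarith only [h4, h5]
    refine ⟨h1.trans hzR, ?_⟩
    have hb0 := norm_nonneg b
    by_cases hc : ⟪z, n⟫ ≤ 0
    · have h6 : ‖z‖ + ⟪z, n⟫ ≤ ξ * ‖z‖ := by nlinarith only [hb, h2, hc]
      have h7 : (‖z‖ + ⟪z, n⟫) * (‖z‖ - ⟪z, n⟫) ≤ (ξ * ‖z‖) * (2 * ‖z‖) := by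
        apply mul_le_mul h6 (by linarith only [h1']) (by linarith only [h1']) (by positivity)
      have h8 : ‖z‖ ^ 2 ≤ R ^ 2 := by (clear * - hz0 hzR; gcongr)
      nlinarith only [hξ, h7, h8]
    · push Not at hc
      have h6 : 0 ≤ ‖b‖ * ⟪z, n⟫ := by (clear * - hc; positivity)
      have h7 : 1 ≤ ξ := by
        by_contra hlt
        push Not at hlt
        nlinarith only [hzp, h2, h6, hlt]
      have h8 : ‖z‖ ^ 2 ≤ R ^ 2 := by gcongr
      nlinarith only [h7, h8]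
  · rw [show ((16 : ℝ≥0) : ℝ≥0∞) = ENNReal.ofReal 16 by simp, ← ENNReal.ofReal_mul (by norm_num)]
    congr 1
    ring

theorem vol_mom : ∃ C : ℝ≥0, ∀ (w : E3), ‖w‖ = 1 → ∀ Q ξ : ℝ, 0 < Q → 0 ≤ ξ →
    volume {v : E3 | q v ≤ Q ∧ al w (u v) ≤ ξ} ≤ C * ENNReal.ofReal (Q ^ 3 * ξ) := by
  refine ⟨16, fun w hw Q ξ hQ hξ => ?_⟩
  refine (measure_mono ?_).trans ((vol_cyl hw (A := Q) (r2 := 2 * (ξ * Q ^ 2)) hQ.le
    (by positivity)).trans (le_of_eq ?_))
  · rintro v ⟨hvQ, hv⟩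
    have hq := q_pos v
    have hq2 := q_sq v
    have h0 := norm_lt_q v
    have h1 : |⟪v, w⟫| ≤ ‖v‖ := abs_inner_le_of_norm_le_one v w hw.le
    have h1' := abs_le.1 h1
    have h2 : q v + ⟪v, w⟫ ≤ ξ * q v := by
      unfold al at hv
      rw [one_add_inner_u_eq, div_le_iff₀ hq] at hv
      exact hv
    refine ⟨(h1.trans h0.le).trans hvQ, ?_⟩
    have h3 : (q v + ⟪v, w⟫) * (q v - ⟪v, w⟫) ≤ (ξ * q v) * (2 * q v) := by
      apply mul_le_mul h2 (by linarith only [h0, h1']) (by linarith only [h0, h1']) (by positivity)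
    have h4 : q v ^ 2 ≤ Q ^ 2 := by (clear * - hvQ hq; gcongr)
    nlinarith only [hξ, hq2, h3, h4]
  · rw [show ((16 : ℝ≥0) : ℝ≥0∞) = ENNReal.ofReal 16 by simp, ← ENNReal.ofReal_mul (by norm_num)]
    congr 1
    ring

theorem vol_rel : ∃ C : ℝ≥0, ∀ (b : E3) (Q φ : ℝ), 0 < Q → 0 ≤ φ →
    volume {v : E3 | q v ≤ Q ∧ ‖u v - b‖ ≤ φ} ≤ C * ENNReal.ofReal (Q ^ 3 * φ ^ 2) := by
  refine ⟨8, fun b Q φ hQ hφ => ?_⟩
  obtain ⟨n, hn, hbn⟩ := exists_unit_dir b
  refine (measure_mono ?_).trans ((vol_cyl hn (A := Q) (r2 := (Q * φ) ^ 2) hQ.le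
    (by positivity)).trans (le_of_eq ?_))
  · rintro v ⟨hvQ, hv⟩
    have hq := q_pos v
    have h0 := norm_lt_q v
    have h1 : |⟪v, n⟫| ≤ ‖v‖ := abs_inner_le_of_norm_le_one v n hn.le
    refine ⟨(h1.trans h0.le).trans hvQ, ?_⟩
    set s : ℝ := q v * ‖b‖ with hs
    have h2 : v - s • n = q v • (u v - b) := by
      rw [smul_sub, q_smul_u]
      congr 1
      conv_rhs => rw [hbn]
      rw [smul_smul]
    have h3 : ‖v - s • n‖ ≤ Q * φ := by
      rw [h2, norm_smul, Real.norm_of_nonneg hq.le]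
      exact mul_le_mul hvQ hv (norm_nonneg _) hQ.le
    have h4 : ‖v - s • n‖ ^ 2 = ‖v‖ ^ 2 - 2 * (s * ⟪v, n⟫) + s ^ 2 := by
      rw [norm_sub_sq_real, real_inner_smul_right, norm_smul, hn, Real.norm_eq_abs, mul_one,
        sq_abs]
    have h5 : ‖v - s • n‖ ^ 2 ≤ (Q * φ) ^ 2 := by (clear * - h3; gcongr)
    nlinarith only [h4, h5, sq_nonneg (s - ⟪v, n⟫)]
  · rw [show ((8 : ℝ≥0) : ℝ≥0∞) = ENNReal.ofReal 8 by simp, ← ENNReal.ofReal_mul (by norm_num)]
    congr 1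
    ring

/-! ### Global bounds -/

theorem exists_sup_bound {T : ℝ} {f : ℝ → E3 → E3 → ℝ} {E B : ℝ → E3 → E3}
    (h : IsClassicalSolution T f E B) {ta : ℝ} (h0 : 0 < ta) (h0T : ta < T) :
    ∃ F₀ : ℝ≥0, ∀ t ∈ Ico ta T, ∀ x v, f t x v ≤ F₀ := by
  have hta : ta ∈ Ico 0 T := ⟨h0.le, h0T⟩
  obtain ⟨R, hR⟩ := h.compact_support ta hta
  have hcont : Continuous fun y : E3 × E3 => f ta y.1 y.2 := by
    have hc := h.f_contDiff.continuousOn
    have : ContinuousOn (fun y : E3 × E3 => f ta y.1 y.2) univ :=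
      hc.comp (f := fun y : E3 × E3 => (ta, y)) (by fun_prop) (fun y _ => ⟨hta, mem_univ _⟩)
    exact continuousOn_univ.1 this
  obtain ⟨M, hM⟩ := (isCompact_closedBall (0 : E3 × E3) R).exists_bound_of_continuousOn
    hcont.continuousOn
  refine ⟨M.toNNReal, fun t ht x v => ?_⟩
  obtain ⟨X, V, -, -, hXt, hVt, -, -, hf⟩ := exists_characteristic h h0 ht.1 ht.2 x v
  have h1 : f ta (X ta) (V ta) = f t x v := hf ta ⟨le_refl _, ht.1⟩
  rw [← h1]
  by_cases h2 : f ta (X ta) (V ta) = 0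
  · rw [h2]
    exact NNReal.coe_nonneg _
  · have h3 := hR ta ⟨h0.le, le_refl _⟩ _ _ h2
    refine le_trans ?_ (Real.le_coe_toNNReal M)
    refine (le_abs_self _).trans (hM (X ta, V ta) ?_)
    rw [mem_closedBall_zero_iff, Prod.norm_def]
    exact max_le h3.1 h3.2

/-- The supports stay in a fixed ball in `x`. -/
theorem exists_x_bound {T : ℝ} {f : ℝ → E3 → E3 → ℝ} {E B : ℝ → E3 → E3}
    (h : IsClassicalSolution T f E B) {ta : ℝ} (h0 : 0 < ta) (h0T : ta < T) :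
    ∃ R₀ : ℝ, ∀ t ∈ Ico ta T, ∀ x v, f t x v ≠ 0 → ‖x‖ ≤ R₀ := by
  have hta : ta ∈ Ico 0 T := ⟨h0.le, h0T⟩
  obtain ⟨R, hR⟩ := h.compact_support ta hta
  refine ⟨R + (T - ta), fun t ht x v hfx => ?_⟩
  obtain ⟨X, V, -, -, hXt, hVt, hX, -, hf⟩ := exists_characteristic h h0 ht.1 ht.2 x v
  have h1 : f ta (X ta) (V ta) = f t x v := hf ta ⟨le_refl _, ht.1⟩
  have h3 := hR ta ⟨h0.le, le_refl _⟩ (X ta) (V ta) (by rw [h1]; exact hfx)
  have h4 := (convex_Icc ta t).norm_image_sub_le_of_norm_hasDerivWithin_le (C := 1) hX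
      (fun r _ => (norm_u_lt_one _).le) (left_mem_Icc.2 ht.1) (right_mem_Icc.2 ht.1)
  rw [hXt, one_mul, Real.norm_of_nonneg (by linarith only [ht.1])] at h4
  have h5 : ‖x‖ ≤ ‖X ta‖ + ‖x - X ta‖ := by
    calc ‖x‖ = ‖X ta + (x - X ta)‖ := by rw [add_sub_cancel]
      _ ≤ _ := norm_add_le _ _
  linarith only [h4, h5, h3.1, ht.2]

end Vale.Agent.P107
end
end
end

section

section

attribute [-instance] ProperSMul.toContinuousSMul IsTopologicalTorsor.toContinuousSMul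
  IdemSemiring.toCanonicallyOrderedAdd IdemSemiring.toMulLeftMono IdemSemiring.toMulRightMono
  AddQuantale.instAddLeftMono AddQuantale.instAddRightMono Quantale.instMulLeftMono
  Quantale.instMulRightMono FiniteDimensional.rclike_to_real IsScalarTower.complexToReal
  FiniteDimensional.complexToReal

section

/-!
Masses of cells: volume, flux and slice bounds; empty cells.
-/

open MeasureTheory Set Filter Topology
open scoped RealInnerProductSpace ENNReal NNReal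

namespace Vale.Agent.P107

open Vale.Agent.P107.Ar

variable {T : ℝ} {f : ℝ → E3 → E3 → ℝ} {E B : ℝ → E3 → E3}

namespace MB

lemma inv_le_al (v w : E3) (hw : ‖w‖ = 1) : 1 / (2 * q v ^ 2) ≤ al w (u v) := by
  have h1 := inv_le_q_add_inner v w hw.le
  have hq := q_pos v
  unfold al
  rw [one_add_inner_u_eq, div_le_div_iff₀ (by positivity) hq]
  rw [inv_le_iff_one_le_mul₀ (by positivity)] at h1
  nlinarith only [h1, hq]

lemma norm_dir_add_le (v w : E3) (hw : ‖w‖ = 1) : ‖w + u v‖ ≤ √(2 * al w (u v)) := by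
  apply Real.le_sqrt_of_sq_le
  have h1 : ‖w + u v‖ ^ 2 = ‖w‖ ^ 2 + 2 * ⟪w, u v⟫ + ‖u v‖ ^ 2 := norm_add_sq_real w (u v)
  have h2 := norm_u_lt_one v
  have h3 : ‖u v‖ ^ 2 ≤ 1 := by nlinarith only [h2, norm_nonneg (u v)]
  unfold al
  rw [h1, hw, real_inner_comm]
  linarith only [h3]

lemma qq_pos (p i : ℕ) : 0 < qq p i := by unfold qq; positivity

lemma qq_eq {p i : ℕ} (hi : i ≤ p) : qq p i = 2 ^ (p - i) := by
  unfold qq
  rw [pow_sub₀ _ (by norm_num) hi]
  rfl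

lemma le_of_one_le_qq {p i : ℕ} (h : 1 ≤ qq p i) : i ≤ p := by
  by_contra hlt
  push Not at hlt
  unfold qq at h
  rw [le_div_iff₀ (by positivity), one_mul] at h
  have : (2 : ℝ) ^ p < 2 ^ i := pow_lt_pow_right₀ (by norm_num) hlt
  linarith only [h, this]

lemma exp_le_of_al {p i l c : ℕ} (hi : i ≤ p) {x Q : ℝ} (hQ0 : 0 < Q)
    (h1 : 1 / (2 * Q ^ 2) ≤ x) (h2 : x ≤ 2 * (1 / 4) ^ l)
    (hQ : Q ≤ 2 ^ c * qq p i) : l ≤ p - i + (c + 1) := by
  by_contra hlt
  push Not at hlt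
  have hq := qq_pos p i
  have h3 : 1 / (2 * (2 ^ c * qq p i) ^ 2) ≤ 2 * (1 / 4 : ℝ) ^ l := by
    refine le_trans ?_ (h1.trans h2)
    apply one_div_le_one_div_of_le (by positivity)
    gcongr
  rw [qq_eq hi, ← pow_add, ← pow_mul, div_le_iff₀ (by positivity)] at h3
  have h4 : (1 / 4 : ℝ) ^ l ≤ (1 / 4 : ℝ) ^ (p - i + (c + 1) + 1) :=
    pow_le_pow_of_le_one (by norm_num) (by norm_num) hlt
  have h5 : (2 : ℝ) ^ ((c + (p - i)) * 2) = 4 ^ (c + (p - i)) := by
    rw [mul_comm, pow_mul]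
    norm_num
  rw [h5] at h3
  have h6 : (1 / 4 : ℝ) ^ (p - i + (c + 1) + 1) * 4 ^ (c + (p - i)) = 1 / 16 := by
    rw [show p - i + (c + 1) + 1 = (c + (p - i)) + 2 by omega, pow_add, div_pow, one_pow]
    field_simp
    norm_num
  have h7 : (0 : ℝ) < 4 ^ (c + (p - i)) := by positivity
  nlinarith only [h3, h6, mul_le_mul_of_nonneg_right h4 h7.le]

end MB

open MB

/-- M1c. Empty cells. -/
theorem mass_zero (h : IsClassicalSolution T f E B) {t₀ : ℝ} (h0 : 0 < t₀) (h0T : t₀ < T) :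
    ∀ (th c₁ : ℝ) (p j : ℕ) (X V : ℝ → E3) (t₁ t₂ : ℝ),
      Ctx T f E B t₀ th c₁ p j X V t₁ t₂ → ∀ k m l i n : ℕ,
      (¬ (i ≤ p ∧ m ≤ p - j + 3 ∧ l ≤ p - i + 1) →
        cellAN (max T 1) p V t₁ t₂ k m l i = ∅) ∧
      (¬ rD p j i m n → cellD (max T 1) p V t₁ t₂ k m n i = ∅) := by
  intro th c₁ p j X V t₁ t₂ hc k m l i n
  have hjp : j ≤ p := by have := hc.hj; omega
  have hT1 : 0 < max T 1 := by positivity
  have hz0 : ∀ z : E3, shellI (max T 1) k z → z ≠ 0 := by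
    intro z hz h0
    have h1 := hz.1
    rw [h0, norm_zero] at h1
    have : 0 < max T 1 * (1 / 2 : ℝ) ^ (k + 1) := by positivity
    linarith only [h1, this]
  have hi : ∀ v, qI p i (q v) → i ≤ p := by
    intro v hv
    exact le_of_one_le_qq ((one_le_q v).trans hv.2)
  have hm : ∀ s ∈ Icc t₁ t₂, ∀ z : E3, z ≠ 0 → alI m (al (dir z) (u (V s))) → m ≤ p - j + 3 := by
    intro s hs z hz h1
    have h2 := inv_le_al (V s) (dir z) (norm_dir hz)
    refine exp_le_of_al (c := 2) hjp (q_pos (V s)) h2 h1.2 ?_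
    have := (hc.hq s hs).2
    norm_num
    exact this
  have hl : ∀ v, ∀ l : ℕ, ∀ z : E3, z ≠ 0 → qI p i (q v) → alI l (al (dir z) (u v)) →
      l ≤ p - i + 1 := by
    intro v l z hz hv h1
    have h2 := inv_le_al v (dir z) (norm_dir hz)
    refine exp_le_of_al (c := 0) (hi v hv) (q_pos v) h2 h1.2 ?_
    have := hv.2
    simpa using this
  constructor
  · intro hne
    rw [eq_empty_iff_forall_notMem]
    rintro ⟨s, z, v⟩ ⟨hs, hz, h1, h2, h3⟩
    simp only at hs hz h1 h2 h3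
    exact hne ⟨hi v h3, hm s hs z (hz0 z hz) h1, hl v l z (hz0 z hz) h3 h2⟩
  · intro hne
    rw [eq_empty_iff_forall_notMem]
    rintro ⟨s, z, v⟩ ⟨hs, hz, h1, ⟨l', hl1, hl2, h2⟩, h4, h3⟩
    simp only at hs hz h1 h2 h3 h4
    have hw := norm_dir (hz0 z hz)
    refine hne ⟨?_, hi v h3, hm s hs z (hz0 z hz) h1, ?_⟩
    · have h5 := norm_dir_add_le v (dir z) hw
      have h6 := norm_dir_add_le (V s) (dir z) hw
      have h7 : ‖u v - u (V s)‖ ≤ ‖dir z + u v‖ + ‖dir z + u (V s)‖ := by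
        have : u v - u (V s) = (dir z + u v) - (dir z + u (V s)) := by abel
        rw [this]
        exact norm_sub_le _ _
      have hpm : (0 : ℝ) < (1 / 2) ^ m := by positivity
      have hm4 : (1 / 4 : ℝ) ^ m = ((1 / 2) ^ m) ^ 2 := by
        rw [← pow_mul, mul_comm, pow_mul]
        norm_num
      have h8 : al (dir z) (u v) ≤ 128 * ((1 / 2 : ℝ) ^ m) ^ 2 := by
        refine h2.2.trans ?_
        rw [← hm4]
        have h9 : (1 / 4 : ℝ) ^ (l' + 3) ≤ (1 / 4 : ℝ) ^ m :=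
          pow_le_pow_of_le_one (by norm_num) (by norm_num) hl2
        rw [pow_add] at h9
        linarith only [h9]
      have h9 : √(2 * al (dir z) (u v)) ≤ 16 * (1 / 2) ^ m := by
        rw [Real.sqrt_le_left (by positivity)]
        nlinarith only [h8]
      have h10 : √(2 * al (dir z) (u (V s))) ≤ 2 * (1 / 2) ^ m := by
        rw [Real.sqrt_le_left (by positivity)]
        have := h1.2
        rw [hm4] at this
        nlinarith only [this]
      have h11 := h4.1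
      by_contra hlt
      push Not at hlt
      have h12 : (1 / 2 : ℝ) ^ m ≤ (1 / 2 : ℝ) ^ (n + 5) :=
        pow_le_pow_of_le_one (by norm_num) (by norm_num) hlt
      have h13 : (0 : ℝ) < (1 / 2) ^ n := by positivity
      rw [pow_add] at h12
      rw [pow_succ] at h11
      nlinarith only [h5, h6, h7, hpm, h9, h10, h11, h12]
    · have := hl v l' z (hz0 z hz) h3 h2
      omega

namespace MB

lemma fl_le {ta : ℝ} {F₀ : ℝ≥0} (hF : ∀ t ∈ Ico ta T, ∀ x v, f t x v ≤ F₀) (τ : ℝ) (x v : E3) :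
    fl ta T f τ x v ≤ F₀ := by
  unfold fl
  split_ifs with h1
  · exact ENNReal.ofReal_le_of_le_toReal (by simpa using hF τ h1 x v)
  · exact bot_le

lemma mass_le_vol {ta : ℝ} {F₀ : ℝ≥0} (hF : ∀ t ∈ Ico ta T, ∀ x v, f t x v ≤ F₀)
    (X : ℝ → E3) (t₁ t₂ : ℝ) (c : Set (ℝ × E3 × E3)) (A : ℝ → Set E3) (ν μ' : ℝ≥0∞)
    (hA : ∀ s ∈ Icc t₁ t₂, ∀ z v, (s, z, v) ∈ c → z ∈ A s)
    (hν : ∀ s ∈ Icc t₁ t₂, ∀ z ∈ A s, volume {v | (s, z, v) ∈ c} ≤ ν)
    (hμ : ∀ s ∈ Icc t₁ t₂, volume (A s) ≤ μ') :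
    mass ta T f X t₁ t₂ c ≤ F₀ * ν * μ' * ENNReal.ofReal (t₂ - t₁) := by
  unfold mass pathInt coneInt
  calc ∫⁻ s in Icc t₁ t₂, ∫⁻ z, ∫⁻ v, c.indicator (fun _ => 1) (s, z, v)
          * fl ta T f (s - ‖z‖) (X s + z) v
      ≤ ∫⁻ s in Icc t₁ t₂, F₀ * ν * μ' := by
        refine setLIntegral_mono' measurableSet_Icc fun s hs => ?_
        calc ∫⁻ z, ∫⁻ v, c.indicator (fun _ => 1) (s, z, v) * fl ta T f (s - ‖z‖) (X s + z) v
            ≤ ∫⁻ z, (A s).indicator (fun _ => F₀ * ν) z := by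
              refine lintegral_mono fun z => ?_
              by_cases hz : z ∈ A s
              · rw [indicator_of_mem hz]
                calc ∫⁻ v, c.indicator (fun _ => 1) (s, z, v) * fl ta T f (s - ‖z‖) (X s + z) v
                    ≤ ∫⁻ v, {v | (s, z, v) ∈ c}.indicator (fun _ => (F₀ : ℝ≥0∞)) v := by
                      refine lintegral_mono fun v => ?_
                      by_cases hv : (s, z, v) ∈ c
                      · rw [indicator_of_mem hv, indicator_of_mem (by exact hv), one_mul]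
                        exact fl_le hF _ _ _
                      · rw [indicator_of_notMem hv, zero_mul]
                        exact bot_le
                  _ ≤ F₀ * volume {v | (s, z, v) ∈ c} := lintegral_indicator_const_le _ _
                  _ ≤ F₀ * ν := by
                      gcongr
                      exact hν s hs z hz
              · rw [indicator_of_notMem hz]
                refine le_of_eq ?_
                rw [lintegral_eq_zero_iff' ?_]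
                · refine ae_of_all _ fun v => ?_
                  simp only [Pi.zero_apply]
                  rw [indicator_of_notMem (fun hv => hz (hA s hs z v hv)), zero_mul]
                · have : (fun v => c.indicator (fun _ => (1 : ℝ≥0∞)) (s, z, v)
                      * fl ta T f (s - ‖z‖) (X s + z) v) = fun _ => 0 := by
                    funext v
                    rw [indicator_of_notMem (fun hv => hz (hA s hs z v hv)), zero_mul]
                  rw [this]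
                  exact aemeasurable_const
          _ ≤ F₀ * ν * volume (A s) := lintegral_indicator_const_le _ _
          _ ≤ F₀ * ν * μ' := by
              gcongr
              exact hμ s hs
    _ = F₀ * ν * μ' * ENNReal.ofReal (t₂ - t₁) := by
        rw [setLIntegral_const, Real.volume_Icc]

lemma mass_le_flux {ta : ℝ} {M : ℝ≥0} (hM : ∀ s ∈ Ico ta T, ∀ x : E3,
      coneInt ta T f s x (fun z v => ENNReal.ofReal (q v * al (dir z) (u v))) ≤ M)
    (X : ℝ → E3) {t₁ t₂ : ℝ} (ht₁ : ta ≤ t₁) (ht₂ : t₂ < T) (c : Set (ℝ × E3 × E3)) {K : ℝ}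
    (hK : 0 ≤ K)
    (hc : ∀ s ∈ Icc t₁ t₂, ∀ z v, (s, z, v) ∈ c → 1 ≤ K * (q v * al (dir z) (u v))) :
    mass ta T f X t₁ t₂ c ≤ ENNReal.ofReal K * M * ENNReal.ofReal (t₂ - t₁) := by
  unfold mass pathInt
  calc ∫⁻ s in Icc t₁ t₂, coneInt ta T f s (X s) (fun z v => c.indicator (fun _ => 1) (s, z, v))
      ≤ ∫⁻ s in Icc t₁ t₂, ENNReal.ofReal K * M := by
        refine setLIntegral_mono' measurableSet_Icc fun s hs => ?_
        refine le_trans ?_ (mul_le_mul_right (hM s ⟨ht₁.trans hs.1, hs.2.trans_lt ht₂⟩ (X s)) _)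
        unfold coneInt
        rw [← lintegral_const_mul' _ _ ENNReal.ofReal_ne_top]
        refine lintegral_mono fun z => ?_
        rw [← lintegral_const_mul' _ _ ENNReal.ofReal_ne_top]
        refine lintegral_mono fun v => ?_
        simp only
        rw [← mul_assoc, ← ENNReal.ofReal_mul hK]
        by_cases hv : (s, z, v) ∈ c
        · rw [indicator_of_mem hv]
          gcongr
          rw [← ENNReal.ofReal_one]
          exact ENNReal.ofReal_le_ofReal (hc s hs z v hv)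
        · rw [indicator_of_notMem hv, zero_mul]
          exact bot_le
    _ = ENNReal.ofReal K * M * ENNReal.ofReal (t₂ - t₁) := by
        rw [setLIntegral_const, Real.volume_Icc]

lemma slice_energy {ta : ℝ} (h0 : 0 ≤ ta) {M : ℝ≥0} (hM : ∀ t ∈ Ico 0 T,
      ∫⁻ x, ∫⁻ v, ENNReal.ofReal (q v * f t x v) ≤ M) {Q : ℝ} (hQ : 0 < Q) (τ : ℝ) :
    ∫⁻ y, ∫⁻ v, {v | Q < q v}.indicator (fun _ => 1) v * fl ta T f τ y v
      ≤ ENNReal.ofReal Q⁻¹ * M := by
  by_cases hτ : ta ≤ τ ∧ τ < T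
  · refine le_trans ?_ (mul_le_mul_right (hM τ ⟨h0.trans hτ.1, hτ.2⟩) _)
    rw [← lintegral_const_mul' _ _ ENNReal.ofReal_ne_top]
    refine lintegral_mono fun y => ?_
    rw [← lintegral_const_mul' _ _ ENNReal.ofReal_ne_top]
    refine lintegral_mono fun v => ?_
    by_cases hv : Q < q v
    · rw [indicator_of_mem (by exact hv), one_mul]
      unfold fl
      rw [if_pos hτ, ENNReal.ofReal_mul (q_pos v).le, ← mul_assoc,
        ← ENNReal.ofReal_mul (by positivity)]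
      refine le_mul_of_one_le_left bot_le ?_
      rw [← ENNReal.ofReal_one]
      refine ENNReal.ofReal_le_ofReal ?_
      rw [inv_mul_eq_div, le_div_iff₀ hQ, one_mul]
      exact hv.le
    · rw [indicator_of_notMem (by exact hv), zero_mul]
      exact bot_le
  · have : ∀ y v, {v | Q < q v}.indicator (fun _ => (1 : ℝ≥0∞)) v * fl ta T f τ y v = 0 := by
      intro y v
      unfold fl
      rw [if_neg hτ, mul_zero]
    simp only [this, lintegral_zero]
    exact bot_le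

lemma measurable_q : Measurable q := by
  unfold q
  fun_prop

lemma mass_le_slice (h : IsClassicalSolution T f E B) {ta : ℝ} (h0 : 0 < ta) {M : ℝ≥0}
    (hM : ∀ t ∈ Ico 0 T, ∫⁻ x, ∫⁻ v, ENNReal.ofReal (q v * f t x v) ≤ M)
    {X V : ℝ → E3} {t₁ t₂ : ℝ} (h12 : t₁ ≤ t₂) (hch : IsChar E B X V t₁ t₂)
    (c : Set (ℝ × E3 × E3)) {K Q R : ℝ}
    (hK : 0 ≤ K) (hQ : 0 < Q) (hR : 0 < R)
    (hc : ∀ s ∈ Icc t₁ t₂, ∀ z v, (s, z, v) ∈ c → 1 ≤ K * al (dir z) (u (V s)) ∧
      R / 2 < ‖z‖ ∧ ‖z‖ ≤ R ∧ Q < q v) :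
    mass ta T f X t₁ t₂ c ≤ ENNReal.ofReal K * (ENNReal.ofReal Q⁻¹ * M)
      * ENNReal.ofReal (t₂ - t₁ + R / 2) := by
  set G : ℝ → E3 → ℝ≥0∞ := fun τ y =>
    ∫⁻ v, {v | Q < q v}.indicator (fun _ => 1) v * fl ta T f τ y v with hG
  have hGm : Measurable (Function.uncurry G) := by
    have h1 : Measurable fun r : (ℝ × E3) × E3 =>
        {v | Q < q v}.indicator (fun _ => (1 : ℝ≥0∞)) r.2 * fl ta T f r.1.1 r.1.2 r.2 := by
      refine Measurable.mul ?_ ?_
      · have hs : MeasurableSet {v : E3 | Q < q v} := measurableSet_lt measurable_const measurable_q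
        exact (measurable_const.indicator hs).comp measurable_snd
      · exact (measurable_fl h h0).comp ((measurable_fst.comp measurable_fst).prodMk
          ((measurable_snd.comp measurable_fst).prodMk measurable_snd))
    exact h1.lintegral_prod_right'
  have hVc : ContinuousOn V (Icc t₁ t₂) := fun s hs => (hch.hV s hs).continuousWithinAt
  have huc : Continuous u := by
    have hqc : Continuous q := by unfold q; fun_prop
    unfold u
    exact (hqc.inv₀ fun v => (q_pos v).ne').smul continuous_id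
  have hst := shell_transfer h12 hch.hX (huc.comp_continuousOn hVc)
    (fun s _ => norm_u_lt_one (V s)) hR G hGm
  unfold mass pathInt coneInt
  calc ∫⁻ s in Icc t₁ t₂, ∫⁻ z, ∫⁻ v, c.indicator (fun _ => 1) (s, z, v)
          * fl ta T f (s - ‖z‖) (X s + z) v
      ≤ ∫⁻ s in Icc t₁ t₂, ENNReal.ofReal K * ∫⁻ z, {z : E3 | R / 2 < ‖z‖ ∧ ‖z‖ ≤ R}.indicator
          (fun z => ENNReal.ofReal (al (dir z) (u (V s))) * G (s - ‖z‖) (X s + z)) z := by
        refine setLIntegral_mono' measurableSet_Icc fun s hs => ?_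
        rw [← lintegral_const_mul' _ _ ENNReal.ofReal_ne_top]
        refine lintegral_mono fun z => ?_
        by_cases hz : R / 2 < ‖z‖ ∧ ‖z‖ ≤ R
        · simp only
          rw [indicator_of_mem (by exact hz), ← mul_assoc, hG,
            ← ENNReal.ofReal_mul hK]
          simp only
          rw [← lintegral_const_mul' _ _ ENNReal.ofReal_ne_top]
          refine lintegral_mono fun v => ?_
          by_cases hv : (s, z, v) ∈ c
          · obtain ⟨h1, -, -, h2⟩ := hc s hs z v hv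
            rw [indicator_of_mem hv, ← mul_assoc, indicator_of_mem (by exact h2), mul_one]
            gcongr
            rw [← ENNReal.ofReal_one]
            exact ENNReal.ofReal_le_ofReal h1
          · rw [indicator_of_notMem hv, zero_mul]
            exact bot_le
        · have : ∀ v, c.indicator (fun _ => (1 : ℝ≥0∞)) (s, z, v)
              * fl ta T f (s - ‖z‖) (X s + z) v = 0 := by
            intro v
            rw [indicator_of_notMem, zero_mul]
            intro hv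
            obtain ⟨-, h1, h2, -⟩ := hc s hs z v hv
            exact hz ⟨h1, h2⟩
          simp only [this, lintegral_zero]
          exact bot_le
    _ = ENNReal.ofReal K * ∫⁻ s in Icc t₁ t₂, ∫⁻ z,
          {z : E3 | R / 2 < ‖z‖ ∧ ‖z‖ ≤ R}.indicator
          (fun z => ENNReal.ofReal (al (dir z) (u (V s))) * G (s - ‖z‖) (X s + z)) z := by
        rw [lintegral_const_mul' _ _ ENNReal.ofReal_ne_top]
    _ ≤ ENNReal.ofReal K * ∫⁻ τ in Icc (t₁ - R) (t₂ - R / 2), ∫⁻ y, G τ y := by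
        (clear * - hst; gcongr)
    _ ≤ ENNReal.ofReal K * ∫⁻ τ in Icc (t₁ - R) (t₂ - R / 2), ENNReal.ofReal Q⁻¹ * M := by
        gcongr with τ
        exact slice_energy h0.le hM hQ τ
    _ = ENNReal.ofReal K * (ENNReal.ofReal Q⁻¹ * M) * ENNReal.ofReal (t₂ - t₁ + R / 2) := by
        rw [setLIntegral_const, Real.volume_Icc, ← mul_assoc]
        congr 2
        ring

end MB

/-- M1a. Volume, flux and slice bounds. -/
theorem mass_basic (h : IsClassicalSolution T f E B) {t₀ : ℝ} (h0 : 0 < t₀) (h0T : t₀ < T) :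
    ∃ C : ℝ≥0, ∀ (th c₁ : ℝ) (p j : ℕ) (X V : ℝ → E3) (t₁ t₂ : ℝ),
      Ctx T f E B t₀ th c₁ p j X V t₁ t₂ → ∀ k m l i n : ℕ,
      (mass (t₀ / 2) T f X t₁ t₂ (cellAN (max T 1) p V t₁ t₂ k m l i)
          ≤ C * ENNReal.ofReal (dl c₁ p j * (1 / 8) ^ k * (1 / 4) ^ m * (1 / 4) ^ l * qq p i ^ 3) ∧
        mass (t₀ / 2) T f X t₁ t₂ (cellAN (max T 1) p V t₁ t₂ k m l i)
          ≤ C * ENNReal.ofReal (dl c₁ p j * 4 ^ l / qq p i) ∧
        mass (t₀ / 2) T f X t₁ t₂ (cellAN (max T 1) p V t₁ t₂ k m l i)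
          ≤ C * ENNReal.ofReal ((dl c₁ p j + (1 / 2) ^ k) * 4 ^ m / qq p i)) ∧
      (mass (t₀ / 2) T f X t₁ t₂ (cellD (max T 1) p V t₁ t₂ k m n i)
          ≤ C * ENNReal.ofReal (dl c₁ p j * (1 / 8) ^ k * (1 / 4) ^ m * (1 / 4) ^ n * qq p i ^ 3) ∧
        mass (t₀ / 2) T f X t₁ t₂ (cellD (max T 1) p V t₁ t₂ k m n i)
          ≤ C * ENNReal.ofReal (dl c₁ p j * 4 ^ m / qq p i) ∧
        mass (t₀ / 2) T f X t₁ t₂ (cellD (max T 1) p V t₁ t₂ k m n i)
          ≤ C * ENNReal.ofReal ((dl c₁ p j + (1 / 2) ^ k) * 4 ^ m / qq p i)) := by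
  have hta : 0 < t₀ / 2 := by linarith only [h0]
  have htaT : t₀ / 2 < T := by linarith only [h0, h0T]
  obtain ⟨F₀, hF⟩ := exists_sup_bound h hta htaT
  obtain ⟨M, hM⟩ := cone_flux h hta htaT
  obtain ⟨Me, hMe⟩ := energy_bound (h0.trans h0T) h
  obtain ⟨Cs, hCs⟩ := vol_shell
  obtain ⟨Cm, hCm⟩ := vol_mom
  obtain ⟨Cr, hCr⟩ := vol_rel
  set T₁ : ℝ := max T 1 with hT₁
  have hT1 : 1 ≤ T₁ := le_max_right _ _
  have hTp : 0 < T₁ := by linarith only [hT1]
  refine ⟨F₀ * (Cm + Cr) * Cs * 8 * T₁.toNNReal ^ 3 + 256 * M + 4 * Me * T₁.toNNReal, ?_⟩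
  intro th c₁ p j X V t₁ t₂ hc k m l i n
  have hVol : (F₀ : ℝ) * (Cm + Cr) * Cs * 8 * T₁ ^ 3
      ≤ ((F₀ * (Cm + Cr) * Cs * 8 * T₁.toNNReal ^ 3 + 256 * M + 4 * Me * T₁.toNNReal : ℝ≥0) : ℝ) := by
    push_cast
    rw [Real.coe_toNNReal _ hTp.le]
    have : (0 : ℝ) ≤ 256 * (M : ℝ) + 4 * Me * T₁ := by (clear * - T; positivity)
    linarith only [this]
  have hFl : 256 * (M : ℝ)
      ≤ ((F₀ * (Cm + Cr) * Cs * 8 * T₁.toNNReal ^ 3 + 256 * M + 4 * Me * T₁.toNNReal : ℝ≥0) : ℝ) := by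
    push_cast
    rw [Real.coe_toNNReal _ hTp.le]
    have : (0 : ℝ) ≤ (F₀ : ℝ) * (Cm + Cr) * Cs * 8 * T₁ ^ 3 + 4 * Me * T₁ := by (clear * - T; positivity)
    linarith only [this]
  have hSl : 4 * (Me : ℝ) * T₁
      ≤ ((F₀ * (Cm + Cr) * Cs * 8 * T₁.toNNReal ^ 3 + 256 * M + 4 * Me * T₁.toNNReal : ℝ≥0) : ℝ) := by
    push_cast
    rw [Real.coe_toNNReal _ hTp.le]
    have : (0 : ℝ) ≤ (F₀ : ℝ) * (Cm + Cr) * Cs * 8 * T₁ ^ 3 + 256 * M := by (clear * - T; positivity)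
    linarith only [this]
  generalize (F₀ * (Cm + Cr) * Cs * 8 * T₁.toNNReal ^ 3 + 256 * M + 4 * Me * T₁.toNNReal : ℝ≥0)
    = C at *
  have hdl : 0 < dl c₁ p j := by
    have := hc.hc₁
    unfold dl
    (clear * - this; positivity)
  have hlen := hc.hlen
  have h12 := hc.h12
  have hqi := qq_pos p i
  have hR : 0 < T₁ * (1 / 2 : ℝ) ^ k := by positivity
  have hR2 : T₁ * (1 / 2 : ℝ) ^ k / 2 = T₁ * (1 / 2 : ℝ) ^ (k + 1) := by ring
  have hz0 : ∀ z : E3, shellI T₁ k z → z ≠ 0 := by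
    intro z hz h0
    have h1 := hz.1
    rw [h0, norm_zero] at h1
    have : 0 < T₁ * (1 / 2 : ℝ) ^ (k + 1) := by positivity
    linarith only [hR, hR2, h1]
  have ht1 : t₀ / 2 ≤ t₁ := by have := hc.ht₁; linarith only [h0, this]
  have ht2 : t₂ < T := hc.h2.trans_lt hc.hth
  have hM' := fun s hs x => (hM s hs x).1
  have hMe' := fun t ht => (hMe t ht).2.2
  set A : ℝ → Set E3 := fun s =>
    {z | z ≠ 0 ∧ ‖z‖ ≤ T₁ * (1 / 2) ^ k ∧ al (dir z) (u (V s)) ≤ 2 * (1 / 4) ^ m} with hA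
  have hAv : ∀ s ∈ Icc t₁ t₂, volume (A s)
      ≤ Cs * ENNReal.ofReal ((T₁ * (1 / 2) ^ k) ^ 3 * (2 * (1 / 4) ^ m)) :=
    fun s _ => hCs (u (V s)) (norm_u_lt_one (V s)).le _ _ hR (by positivity)
  have h8 : (1 / 8 : ℝ) ^ k = ((1 / 2) ^ k) ^ 3 := by
    rw [← pow_mul, mul_comm, pow_mul]
    norm_num
  have h4n : (1 / 4 : ℝ) ^ n = ((1 / 2) ^ n) ^ 2 := by
    rw [← pow_mul, mul_comm, pow_mul]
    norm_num
  have hinv4 : ∀ a : ℕ, (1 / 4 : ℝ) ^ a * 4 ^ a = 1 := by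
    intro a
    rw [← mul_pow]
    norm_num
  -- slices
  have hslice : ∀ c : Set (ℝ × E3 × E3), (∀ s ∈ Icc t₁ t₂, ∀ z v, (s, z, v) ∈ c →
      shellI T₁ k z ∧ alI m (al (dir z) (u (V s))) ∧ qI p i (q v)) →
      mass (t₀ / 2) T f X t₁ t₂ c
        ≤ C * ENNReal.ofReal ((dl c₁ p j + (1 / 2) ^ k) * 4 ^ m / qq p i) := by
    intro c hcc
    have h1 := mass_le_slice h hta hMe' h12 hc.hchar c (K := 4 ^ (m + 1) / 2) (Q := qq p i / 2)
      (R := T₁ * (1 / 2) ^ k) (by positivity) (by positivity) hR (by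
        intro s hs z v hv
        obtain ⟨g1, g2, g3⟩ := hcc s hs z v hv
        refine ⟨?_, by rw [hR2]; exact g1.1, g1.2, g3.1⟩
        have g4 := g2.1
        have g5 := hinv4 (m + 1)
        have g6 : (0 : ℝ) < 4 ^ (m + 1) := by positivity
        nlinarith only [g4, g5, g6])
    refine h1.trans ?_
    rw [← ENNReal.ofReal_coe_nnreal, ← ENNReal.ofReal_coe_nnreal (p := C),
      ← ENNReal.ofReal_mul (by positivity), ← ENNReal.ofReal_mul (by positivity),
      ← ENNReal.ofReal_mul (by (clear * - hqi; positivity)), ← ENNReal.ofReal_mul (by (clear * -; positivity))]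
    refine ENNReal.ofReal_le_ofReal ?_
    have g1 : (4 : ℝ) ^ (m + 1) / 2 * ((qq p i / 2)⁻¹ * Me) * (t₂ - t₁ + T₁ * (1 / 2) ^ k / 2)
        = 4 * Me * (t₂ - t₁ + T₁ * (1 / 2) ^ k / 2) * 4 ^ m / qq p i := by
      rw [pow_succ]
      (clear * - hqi; field_simp)
    rw [g1]
    have g2 : t₂ - t₁ + T₁ * (1 / 2) ^ k / 2 ≤ T₁ * (dl c₁ p j + (1 / 2) ^ k) := by
      have g3 : (0 : ℝ) < (1 / 2) ^ k := by positivity
      nlinarith only [hlen, hR, mul_nonneg (sub_nonneg.2 hT1) hdl.le]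
    calc 4 * (Me : ℝ) * (t₂ - t₁ + T₁ * (1 / 2) ^ k / 2) * 4 ^ m / qq p i
        ≤ 4 * (Me : ℝ) * (T₁ * (dl c₁ p j + (1 / 2) ^ k)) * 4 ^ m / qq p i := by (clear * - hqi g2; gcongr)
      _ = (4 * Me * T₁) * ((dl c₁ p j + (1 / 2) ^ k) * 4 ^ m / qq p i) := by ring
      _ ≤ C * ((dl c₁ p j + (1 / 2) ^ k) * 4 ^ m / qq p i) := by (clear * - hSl hdl hqi; gcongr)
  -- fluxes
  have hflux : ∀ (c : Set (ℝ × E3 × E3)) (a b : ℕ), a ≤ b + 3 → (∀ s ∈ Icc t₁ t₂, ∀ z v,
      (s, z, v) ∈ c → (∃ a' : ℕ, a' ≤ a ∧ alI a' (al (dir z) (u v))) ∧ qI p i (q v)) →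
      mass (t₀ / 2) T f X t₁ t₂ c ≤ C * ENNReal.ofReal (dl c₁ p j * 4 ^ b / qq p i) := by
    intro c a b hab hcc
    have h1 := mass_le_flux hM' X ht1 ht2 c (K := 4 ^ (b + 4) / qq p i) (by positivity) (by
        intro s hs z v hv
        obtain ⟨⟨a', ha', g2⟩, g3⟩ := hcc s hs z v hv
        have g4 : 2 * (1 / 4 : ℝ) ^ (b + 4) ≤ al (dir z) (u v) := by
          refine le_trans ?_ g2.1.le
          have : (1 / 4 : ℝ) ^ (b + 4) ≤ (1 / 4 : ℝ) ^ (a' + 1) :=
            pow_le_pow_of_le_one (by norm_num) (by norm_num) (by omega)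
          linarith only [this]
        have g5 := hinv4 (b + 4)
        have g6 : (0 : ℝ) < 4 ^ (b + 4) := by positivity
        have g7 : (qq p i / 2) * (2 * (1 / 4 : ℝ) ^ (b + 4)) ≤ q v * al (dir z) (u v) := by
          have := q_pos v
          have := g3.1
          gcongr
        calc (1 : ℝ) = 4 ^ (b + 4) / qq p i * ((qq p i / 2) * (2 * (1 / 4 : ℝ) ^ (b + 4))) := by
              field_simp
              linarith only [g5]
          _ ≤ _ := by (clear * - hqi g7; gcongr))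
    refine h1.trans ?_
    rw [← ENNReal.ofReal_coe_nnreal, ← ENNReal.ofReal_coe_nnreal (p := C),
      ← ENNReal.ofReal_mul (by positivity), ← ENNReal.ofReal_mul (by (clear * - hqi; positivity)),
      ← ENNReal.ofReal_mul (by positivity)]
    refine ENNReal.ofReal_le_ofReal ?_
    calc (4 : ℝ) ^ (b + 4) / qq p i * M * (t₂ - t₁)
        ≤ (4 : ℝ) ^ (b + 4) / qq p i * M * dl c₁ p j := by (clear * - hlen hqi; gcongr)
      _ = (256 * M) * (dl c₁ p j * 4 ^ b / qq p i) := by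
          rw [pow_add]
          ring
      _ ≤ C * (dl c₁ p j * 4 ^ b / qq p i) := by (clear * - hFl hdl hqi; gcongr)
  -- volumes
  have hvol : ∀ (c : Set (ℝ × E3 × E3)) (D : ℝ≥0) (x : ℝ), D ≤ Cm + Cr → 0 ≤ x →
      (∀ s ∈ Icc t₁ t₂, ∀ z v, (s, z, v) ∈ c →
        shellI T₁ k z ∧ alI m (al (dir z) (u (V s)))) →
      (∀ s ∈ Icc t₁ t₂, ∀ z, z ≠ 0 →
        volume {v | (s, z, v) ∈ c} ≤ D * ENNReal.ofReal (qq p i ^ 3 * (4 * x))) →
      mass (t₀ / 2) T f X t₁ t₂ c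
        ≤ C * ENNReal.ofReal (dl c₁ p j * (1 / 8) ^ k * (1 / 4) ^ m * x * qq p i ^ 3) := by
    intro c D x hD hx hcc hvv
    have h1 := mass_le_vol hF X t₁ t₂ c A _ _
      (fun s hs z v hv => by
        obtain ⟨g1, g2⟩ := hcc s hs z v hv
        exact ⟨hz0 z g1, g1.2, g2.2⟩)
      (fun s hs z hz => hvv s hs z hz.1) hAv
    refine h1.trans ?_
    simp only [← ENNReal.ofReal_coe_nnreal]
    rw [← ENNReal.ofReal_mul (by positivity), ← ENNReal.ofReal_mul (by positivity),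
      ← ENNReal.ofReal_mul (by positivity), ← ENNReal.ofReal_mul (by (clear * - hqi hx; positivity)),
      ← ENNReal.ofReal_mul (by (clear * - T hqi hx; positivity)), ← ENNReal.ofReal_mul (by positivity)]
    refine ENNReal.ofReal_le_ofReal ?_
    have hD' : (D : ℝ) ≤ Cm + Cr := by exact_mod_cast hD
    calc (F₀ : ℝ) * (D * (qq p i ^ 3 * (4 * x)))
          * (Cs * ((T₁ * (1 / 2) ^ k) ^ 3 * (2 * (1 / 4) ^ m))) * (t₂ - t₁)
        ≤ (F₀ : ℝ) * ((Cm + Cr) * (qq p i ^ 3 * (4 * x)))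
          * (Cs * ((T₁ * (1 / 2) ^ k) ^ 3 * (2 * (1 / 4) ^ m))) * dl c₁ p j := by (clear * - T hlen h12 hqi hx hD'; gcongr)
      _ = (F₀ * (Cm + Cr) * Cs * 8 * T₁ ^ 3)
          * (dl c₁ p j * ((1 / 2) ^ k) ^ 3 * (1 / 4) ^ m * x * qq p i ^ 3) := by ring
      _ ≤ C * (dl c₁ p j * (1 / 8) ^ k * (1 / 4) ^ m * x * qq p i ^ 3) := by
          rw [h8]
          (clear * - hVol hdl hqi hx; gcongr)
  refine ⟨⟨?_, ?_, ?_⟩, ?_, ?_, ?_⟩
  · refine hvol _ Cm ((1 / 4) ^ l) (by simp) (by positivity) ?_ ?_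
    · rintro s hs z v ⟨-, g1, g2, -, -⟩
      exact ⟨g1, g2⟩
    · intro s hs z hz
      refine (measure_mono ?_).trans ((hCm (dir z) (norm_dir hz) (qq p i) (2 * (1 / 4) ^ l) hqi
        (by positivity)).trans ?_)
      · rintro v ⟨-, -, -, g3, g4⟩
        exact ⟨g4.2, g3.2⟩
      · gcongr
        norm_num
  · refine hflux _ l l (by omega) ?_
    rintro s hs z v ⟨-, -, -, g3, g4⟩
    exact ⟨⟨l, le_rfl, g3⟩, g4⟩
  · refine hslice _ ?_
    rintro s hs z v ⟨-, g1, g2, -, g4⟩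
    exact ⟨g1, g2, g4⟩
  · refine hvol _ Cr ((1 / 4) ^ n) (by simp) (by positivity) ?_ ?_
    · rintro s hs z v ⟨-, g1, g2, -, -, -⟩
      exact ⟨g1, g2⟩
    · intro s hs z hz
      refine (measure_mono ?_).trans ((hCr (u (V s)) (qq p i) (2 * (1 / 2) ^ n) hqi
        (by positivity)).trans ?_)
      · rintro v ⟨-, -, -, -, g3, g4⟩
        exact ⟨g4.2, g3.2⟩
      · gcongr
        rw [h4n, mul_pow]
        norm_num
  · refine hflux _ (m + 3) m le_rfl ?_
    rintro s hs z v ⟨-, -, -, ⟨l', g1, -, g3⟩, -, g4⟩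
    exact ⟨⟨l', g1, g3⟩, g4⟩
  · refine hslice _ ?_
    rintro s hs z v ⟨-, g1, g2, -, -, g4⟩
    exact ⟨g1, g2, g4⟩

end Vale.Agent.P107
end
end
end

section

section

attribute [-instance] ProperSMul.toContinuousSMul IsTopologicalTorsor.toContinuousSMul
  IdemSemiring.toCanonicallyOrderedAdd IdemSemiring.toMulLeftMono IdemSemiring.toMulRightMono
  AddQuantale.instAddLeftMono AddQuantale.instAddRightMono Quantale.instMulLeftMono
  Quantale.instMulRightMono FiniteDimensional.rclike_to_real IsScalarTower.complexToReal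
  FiniteDimensional.complexToReal

section

/-!
Module M2T, part 3: the T part of the kernel integral, from the mass bounds of the cells.
-/

open MeasureTheory Set Filter Topology
open scoped RealInnerProductSpace ENNReal NNReal

namespace Vale.Agent.P107

open Vale.Agent.P107.Ar

variable {T : ℝ} {f : ℝ → E3 → E3 → ℝ} {E B : ℝ → E3 → E3}

lemma dT_tA_nonneg (p j i m l : ℕ) : 0 ≤ tA p j i m l := by
  have h1 := dT_ee_pos p j
  have h2 := dT_qq_pos p i
  have h3 : 0 < DD p j m l := by unfold DD; positivity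
  unfold tA
  positivity

lemma dT_tN_nonneg (p j i m l : ℕ) : 0 ≤ tN p j i m l := by
  have h1 := dT_ee_pos p j
  have h2 := dT_qq_pos p i
  unfold tN
  positivity

lemma dT_tD_nonneg (p j i m n : ℕ) : 0 ≤ tD p j i m n := by
  have h1 := dT_ee_pos p j
  have h2 := dT_qq_pos p i
  have h3 := dT_qq_pos p j
  unfold tD
  split_ifs <;> positivity

/-- The factor `|z|⁻²` on a shell. -/
lemma dT_shell {T₁ : ℝ} (hT : 1 ≤ T₁) {k : ℕ} {z : E3} (hz : shellI T₁ k z) :
    (‖z‖⁻¹) ^ 2 ≤ 4 * 4 ^ k := by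
  have h1 : (1 / 2 : ℝ) ^ (k + 1) < ‖z‖ := by
    refine lt_of_le_of_lt ?_ hz.1
    have : (0 : ℝ) < (1 / 2) ^ (k + 1) := by positivity
    nlinarith only [hT, this]
  have h0 : (0 : ℝ) < (1 / 2) ^ (k + 1) := by positivity
  have h2 : ‖z‖⁻¹ ≤ ((1 / 2 : ℝ) ^ (k + 1))⁻¹ := by gcongr
  have h3 : 0 ≤ ‖z‖⁻¹ := by positivity
  calc (‖z‖⁻¹) ^ 2 ≤ (((1 / 2 : ℝ) ^ (k + 1))⁻¹) ^ 2 := by (clear * - h2; gcongr)
    _ = 4 * 4 ^ k := by
      rw [← inv_pow, ← pow_mul, mul_comm (k + 1) 2, pow_mul]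
      norm_num
      ring

lemma dT_ofReal {T₁ : ℝ} (hT : 1 ≤ T₁) {k : ℕ} {z : E3} (hz : shellI T₁ k z) {K t : ℝ}
    (ht : 0 ≤ t) (hK : K ≤ 10000 * t) :
    ENNReal.ofReal ((‖z‖⁻¹) ^ 2 * K) ≤ ENNReal.ofReal (40000 * (4 ^ k * t)) := by
  apply ENNReal.ofReal_le_ofReal
  calc (‖z‖⁻¹) ^ 2 * K ≤ (‖z‖⁻¹) ^ 2 * (10000 * t) :=
        mul_le_mul_of_nonneg_left hK (by positivity)
    _ ≤ (4 * 4 ^ k) * (10000 * t) := mul_le_mul_of_nonneg_right (dT_shell hT hz) (by positivity)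
    _ = 40000 * (4 ^ k * t) := by ring

/-- One family of cells. -/
lemma dT_family {ta : ℝ} (h : IsClassicalSolution T f E B) (h0 : 0 < ta) {X : ℝ → E3} {t₁ t₂ : ℝ}
    (h12 : t₁ ≤ t₂) (hX : ContinuousOn X (Icc t₁ t₂))
    (r : ℕ → ℕ → ℕ → ℕ → Prop) [∀ k m l i, Decidable (r k m l i)] (t n : ℕ → ℕ → ℕ → ℕ → ℝ)
    (ht : ∀ k m l i, 0 ≤ t k m l i) (S : ℕ → ℕ → ℕ → ℕ → Set (ℝ × E3 × E3))
    (hS : ∀ k m l i, MeasurableSet (S k m l i)) {C : ℝ≥0}
    (hmass : ∀ k m l i, r k m l i →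
      mass ta T f X t₁ t₂ (S k m l i) ≤ C * ENNReal.ofReal (n k m l i)) :
    pathInt ta T f X t₁ t₂ (fun s z v => ∑' (k : ℕ) (m : ℕ) (l : ℕ) (i : ℕ),
        (if r k m l i then ENNReal.ofReal (40000 * (4 ^ k * t k m l i)) else 0)
          * (S k m l i).indicator (fun _ => (1 : ℝ≥0∞)) (s, z, v))
      ≤ (40000 * C : ℝ≥0) * ∑' (k : ℕ) (m : ℕ) (l : ℕ) (i : ℕ), if r k m l i then
          ENNReal.ofReal (4 ^ k * t k m l i * n k m l i) else 0 := by
  rw [dT_pathInt_cells h h0 h12 hX _ S hS]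
  rw [← ENNReal.tsum_mul_left]
  refine ENNReal.tsum_le_tsum fun k => ?_
  rw [← ENNReal.tsum_mul_left]
  refine ENNReal.tsum_le_tsum fun m => ?_
  rw [← ENNReal.tsum_mul_left]
  refine ENNReal.tsum_le_tsum fun l => ?_
  rw [← ENNReal.tsum_mul_left]
  refine ENNReal.tsum_le_tsum fun i => ?_
  by_cases hr : r k m l i
  · rw [if_pos hr, if_pos hr]
    have h4 : (0 : ℝ) ≤ 4 ^ k * t k m l i := mul_nonneg (by positivity) (ht k m l i)
    calc ENNReal.ofReal (40000 * (4 ^ k * t k m l i)) * mass ta T f X t₁ t₂ (S k m l i)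
        ≤ ENNReal.ofReal (40000 * (4 ^ k * t k m l i)) * (C * ENNReal.ofReal (n k m l i)) := by
          gcongr
          exact hmass k m l i hr
      _ = (40000 * C : ℝ≥0) * ENNReal.ofReal (4 ^ k * t k m l i * n k m l i) := by
          rw [ENNReal.ofReal_mul (by norm_num : (0 : ℝ) ≤ 40000), ENNReal.ofReal_mul h4]
          have h5 : ENNReal.ofReal 40000 = ((40000 : ℝ≥0) : ℝ≥0∞) := by
            rw [ENNReal.ofReal]
            norm_num
          rw [h5]
          push_cast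
          ring
  · rw [if_neg hr, if_neg hr, zero_mul, mul_zero]

lemma dT_add3 {ta : ℝ} (h : IsClassicalSolution T f E B) (h0 : 0 < ta) {X V : ℝ → E3} {t₁ t₂ : ℝ}
    (h12 : t₁ ≤ t₂) (hX : ContinuousOn X (Icc t₁ t₂)) {G₁ G₂ G₃ : ℝ × E3 × E3 → ℝ≥0∞}
    (m₁ : Measurable G₁) (m₂ : Measurable G₂) (m₃ : Measurable G₃) {a b c : ℝ≥0∞}
    (ha : pathInt ta T f X t₁ t₂ (fun s z v => G₁ (s, z, v)) ≤ a)
    (hb : pathInt ta T f X t₁ t₂ (fun s z v => G₂ (s, z, v)) ≤ b)
    (hc : pathInt ta T f X t₁ t₂ (fun s z v => G₃ (s, z, v)) ≤ c) {g : ℝ → E3 → E3 → ℝ≥0∞}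
    (H : ∀ s ∈ Icc t₁ t₂, ∀ z : E3, z ≠ 0 → ∀ v : E3, v ≠ V s →
      fl ta T f (s - ‖z‖) (X s + z) v ≠ 0 → g s z v ≤ G₁ (s, z, v) + G₂ (s, z, v) + G₃ (s, z, v)) :
    pathInt ta T f X t₁ t₂ g ≤ a + b + c := by
  refine le_trans ?_ (add_le_add (add_le_add ha hb) hc)
  rw [← dT_pathInt_add h h0 h12 hX m₁ m₂,
    ← dT_pathInt_add h h0 h12 hX (G := fun y => G₁ y + G₂ y) (m₁.add m₂) m₃]
  exact pathInt_mono_ae V H

open Classical in
/-- M2T, from the mass bounds. -/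
theorem decompT_of (h : IsClassicalSolution T f E B) {t₀ : ℝ} (h0 : 0 < t₀) (h0T : t₀ < T)
    (hmass : ∃ (C : ℝ≥0) (p₀ : ℕ), ∀ (th c₁ : ℝ) (p j : ℕ) (X V : ℝ → E3) (t₁ t₂ : ℝ), p₀ ≤ p →
      Ctx T f E B t₀ th c₁ p j X V t₁ t₂ → ∀ k m l i n : ℕ,
      (m + 4 ≤ l → mass (t₀ / 2) T f X t₁ t₂ (cellAN (max T 1) p V t₁ t₂ k m l i)
          ≤ C * ENNReal.ofReal (nA c₁ p j i k m l)) ∧
      (l + 4 ≤ m → mass (t₀ / 2) T f X t₁ t₂ (cellAN (max T 1) p V t₁ t₂ k m l i)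
          ≤ C * ENNReal.ofReal (nN c₁ p j i k m l)) ∧
      (m ≤ n + 4 → mass (t₀ / 2) T f X t₁ t₂ (cellD (max T 1) p V t₁ t₂ k m n i)
          ≤ C * ENNReal.ofReal (nD c₁ p j i k m n))) :
    ∃ (C : ℝ≥0) (p₀ : ℕ), ∀ (th c₁ : ℝ) (p j : ℕ) (X V : ℝ → E3) (t₁ t₂ : ℝ), p₀ ≤ p →
      Ctx T f E B t₀ th c₁ p j X V t₁ t₂ →
      pathInt (t₀ / 2) T f X t₁ t₂ (kerT j (Ar.ee p j) V)
        ≤ C * (∑' (k : ℕ) (m : ℕ) (l : ℕ) (i : ℕ), if rA p j i m l then
            ENNReal.ofReal (4 ^ k * tA p j i m l * nA c₁ p j i k m l) else 0)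
        + C * (∑' (k : ℕ) (m : ℕ) (l : ℕ) (i : ℕ), if rN p j i m l then
            ENNReal.ofReal (4 ^ k * tN p j i m l * nN c₁ p j i k m l) else 0)
        + C * (∑' (k : ℕ) (m : ℕ) (n : ℕ) (i : ℕ), if rD p j i m n then
            ENNReal.ofReal (4 ^ k * tD p j i m n * nD c₁ p j i k m n) else 0) := by
  obtain ⟨C, p₀, hC⟩ := hmass
  refine ⟨40000 * C, p₀, ?_⟩
  intro th c₁ p j X V t₁ t₂ hp hc
  have hXc : ContinuousOn X (Icc t₁ t₂) := fun s hs => (hc.hchar.hX s hs).continuousWithinAt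
  have hVc : ContinuousOn V (Icc t₁ t₂) := fun s hs => (hc.hchar.hV s hs).continuousWithinAt
  have hta : 0 < t₀ / 2 := by linarith only [h0]
  have hM := hC th c₁ p j X V t₁ t₂ hp hc
  have hZ := mass_zero h h0 h0T th c₁ p j X V t₁ t₂ hc
  have hT1 : (1 : ℝ) ≤ max T 1 := le_max_right _ _
  have hAN : ∀ k m l i, MeasurableSet (cellAN (max T 1) p V t₁ t₂ k m l i) :=
    fun k m l i => dT_meas_cellAN hc.h12 hVc _ _ _ _ _ _
  have hD : ∀ k m n i, MeasurableSet (cellD (max T 1) p V t₁ t₂ k m n i) :=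
    fun k m n i => dT_meas_cellD hc.h12 hVc _ _ _ _ _ _
  have hA := dT_family h hta hc.h12 hXc (fun _ m l i => rA p j i m l)
    (fun _ m l i => tA p j i m l) (fun k m l i => nA c₁ p j i k m l)
    (fun _ m l i => dT_tA_nonneg p j i m l)
    (fun k m l i => cellAN (max T 1) p V t₁ t₂ k m l i) hAN (C := C)
    (fun k m l i hr => (hM k m l i 0).1 hr.1)
  have hN := dT_family h hta hc.h12 hXc (fun _ m l i => rN p j i m l)
    (fun _ m l i => tN p j i m l) (fun k m l i => nN c₁ p j i k m l)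
    (fun _ m l i => dT_tN_nonneg p j i m l)
    (fun k m l i => cellAN (max T 1) p V t₁ t₂ k m l i) hAN (C := C)
    (fun k m l i hr => (hM k m l i 0).2.1 hr.1)
  have hDD := dT_family h hta hc.h12 hXc (fun _ m n i => rD p j i m n)
    (fun _ m n i => tD p j i m n) (fun k m n i => nD c₁ p j i k m n)
    (fun _ m n i => dT_tD_nonneg p j i m n)
    (fun k m n i => cellD (max T 1) p V t₁ t₂ k m n i) hD (C := C)
    (fun k m n i hr => (hM k m 0 i n).2.2 hr.1)
  refine dT_add3 (V := V) h hta hc.h12 hXc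
    (dT_meas_cells (fun k m l i => if rA p j i m l then
      ENNReal.ofReal (40000 * (4 ^ k * tA p j i m l)) else 0) _ hAN)
    (dT_meas_cells (fun k m l i => if rN p j i m l then
      ENNReal.ofReal (40000 * (4 ^ k * tN p j i m l)) else 0) _ hAN)
    (dT_meas_cells (fun k m n i => if rD p j i m n then
      ENNReal.ofReal (40000 * (4 ^ k * tD p j i m n)) else 0) _ hD) hA hN hDD ?_
  intro s hs z hz v hv hfl
  have hw : ‖dir z‖ = 1 := by
    unfold dir
    rw [norm_smul, norm_inv, norm_norm, inv_mul_cancel₀ (norm_ne_zero_iff.2 hz)]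
  obtain ⟨k, m, i, ⟨l, hl, hy⟩ | ⟨l, hl, hy⟩ | ⟨n, hy⟩⟩ := cover hc hs hz hv hfl
  · have hr : rA p j i m l := by
      refine ⟨hl, ?_⟩
      by_contra hcon
      rw [(hZ k m l i 0).1 hcon] at hy
      exact hy
    have h1 := dT_ker_A (j := j) hw hy.2.2.2.2 hy.2.2.1 hy.2.2.2.1 hl
    have h2 := dT_ofReal hT1 hy.2.1 (dT_tA_nonneg p j i m l) h1
    have h3 := dT_le_cells (c := fun k m l i => if rA p j i m l then
      ENNReal.ofReal (40000 * (4 ^ k * tA p j i m l)) else 0) hy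
    simp only [if_pos hr] at h3
    calc kerT j (Ar.ee p j) V s z v ≤ _ := h2
      _ ≤ _ := h3
      _ ≤ _ := le_trans le_self_add le_self_add
  · have hr : rN p j i m l := by
      refine ⟨hl, ?_⟩
      by_contra hcon
      rw [(hZ k m l i 0).1 hcon] at hy
      exact hy
    have h1 := dT_ker_N (j := j) hw hy.2.2.2.2 hy.2.2.1 hy.2.2.2.1 hl
    have h2 := dT_ofReal hT1 hy.2.1 (dT_tN_nonneg p j i m l) h1
    have h3 := dT_le_cells (c := fun k m l i => if rN p j i m l then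
      ENNReal.ofReal (40000 * (4 ^ k * tN p j i m l)) else 0) hy
    simp only [if_pos hr] at h3
    calc kerT j (Ar.ee p j) V s z v ≤ _ := h2
      _ ≤ _ := h3
      _ ≤ _ := le_trans le_add_self le_self_add
  · have hr : rD p j i m n := by
      by_contra hcon
      rw [(hZ k m 0 i n).2 hcon] at hy
      exact hy
    obtain ⟨hs', hzk, hm, ⟨l, hl1, hl2, hl⟩, hn, hq⟩ := hy
    have h1 := dT_ker_D (j := j) hw hq (hc.hq s hs).1 hm hl hl1 hl2 hn
    have h2 := dT_ofReal hT1 hzk (dT_tD_nonneg p j i m n) h1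
    have h3 := dT_le_cells (c := fun k m n i => if rD p j i m n then
      ENNReal.ofReal (40000 * (4 ^ k * tD p j i m n)) else 0)
      (S := fun k m n i => cellD (max T 1) p V t₁ t₂ k m n i) (y := (s, z, v)) (k := k) (m := m)
      (l := n) (i := i) ⟨hs', hzk, hm, ⟨l, hl1, hl2, hl⟩, hn, hq⟩
    simp only [if_pos hr] at h3
    calc kerT j (Ar.ee p j) V s z v ≤ _ := h2
      _ ≤ _ := h3
      _ ≤ _ := le_add_self

end Vale.Agent.P107
end
end
end

section

section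

attribute [-instance] ProperSMul.toContinuousSMul IsTopologicalTorsor.toContinuousSMul
  IdemSemiring.toCanonicallyOrderedAdd IdemSemiring.toMulLeftMono IdemSemiring.toMulRightMono
  AddQuantale.instAddLeftMono AddQuantale.instAddRightMono Quantale.instMulLeftMono
  Quantale.instMulRightMono FiniteDimensional.rclike_to_real IsScalarTower.complexToReal
  FiniteDimensional.complexToReal

section

/-!
Combination of the mass bounds of cells.
-/

open MeasureTheory Set Filter Topology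
open scoped RealInnerProductSpace ENNReal NNReal

namespace Vale.Agent.P107

open Vale.Agent.P107.Ar

variable {T : ℝ} {f : ℝ → E3 → E3 → ℝ} {E B : ℝ → E3 → E3}

lemma le_mul_ofReal_min {M : ℝ≥0∞} {C : ℝ≥0} {x y : ℝ} (hx : M ≤ C * ENNReal.ofReal x)
    (hy : M ≤ C * ENNReal.ofReal y) : M ≤ C * ENNReal.ofReal (min x y) := by
  rcases min_choice x y with h | h <;> rw [h] <;> assumption

lemma le_mul_of_le_coe {M N : ℝ≥0∞} {C C' : ℝ≥0} (hC : C ≤ C') (h : M ≤ C * N) :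
    M ≤ C' * N := by
  refine h.trans ?_
  have : (C : ℝ≥0∞) ≤ C' := by exact_mod_cast hC
  gcongr

/-- M1 from M1a and M1b. -/
theorem mass_le_of {t₀ : ℝ}
    (hbasic : ∃ C : ℝ≥0, ∀ (th c₁ : ℝ) (p j : ℕ) (X V : ℝ → E3) (t₁ t₂ : ℝ),
      Ctx T f E B t₀ th c₁ p j X V t₁ t₂ → ∀ k m l i n : ℕ,
      (mass (t₀ / 2) T f X t₁ t₂ (cellAN (max T 1) p V t₁ t₂ k m l i)
          ≤ C * ENNReal.ofReal (dl c₁ p j * (1 / 8) ^ k * (1 / 4) ^ m * (1 / 4) ^ l * qq p i ^ 3) ∧
        mass (t₀ / 2) T f X t₁ t₂ (cellAN (max T 1) p V t₁ t₂ k m l i)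
          ≤ C * ENNReal.ofReal (dl c₁ p j * 4 ^ l / qq p i) ∧
        mass (t₀ / 2) T f X t₁ t₂ (cellAN (max T 1) p V t₁ t₂ k m l i)
          ≤ C * ENNReal.ofReal ((dl c₁ p j + (1 / 2) ^ k) * 4 ^ m / qq p i)) ∧
      (mass (t₀ / 2) T f X t₁ t₂ (cellD (max T 1) p V t₁ t₂ k m n i)
          ≤ C * ENNReal.ofReal (dl c₁ p j * (1 / 8) ^ k * (1 / 4) ^ m * (1 / 4) ^ n * qq p i ^ 3) ∧
        mass (t₀ / 2) T f X t₁ t₂ (cellD (max T 1) p V t₁ t₂ k m n i)
          ≤ C * ENNReal.ofReal (dl c₁ p j * 4 ^ m / qq p i) ∧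
        mass (t₀ / 2) T f X t₁ t₂ (cellD (max T 1) p V t₁ t₂ k m n i)
          ≤ C * ENNReal.ofReal ((dl c₁ p j + (1 / 2) ^ k) * 4 ^ m / qq p i)))
    (hstay : ∃ (C : ℝ≥0) (p₀ : ℕ), ∀ (th c₁ : ℝ) (p j : ℕ) (X V : ℝ → E3) (t₁ t₂ : ℝ), p₀ ≤ p →
      Ctx T f E B t₀ th c₁ p j X V t₁ t₂ → ∀ k m l i n : ℕ,
      (m + 4 ≤ l → gd p j i ((1 / 2) ^ m) →
        mass (t₀ / 2) T f X t₁ t₂ (cellAN (max T 1) p V t₁ t₂ k m l i)
          ≤ C * ENNReal.ofReal (8 ^ m * (1 / 2) ^ k * KK c₁ p j i k / qq p i)) ∧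
      (l + 4 ≤ m → gd p j i ((1 / 2) ^ l) →
        mass (t₀ / 2) T f X t₁ t₂ (cellAN (max T 1) p V t₁ t₂ k m l i)
          ≤ C * ENNReal.ofReal (4 ^ m * 2 ^ l * (1 / 2) ^ k * KK c₁ p j i k / qq p i)) ∧
      (m ≤ n + 4 → gd p j i ((1 / 2) ^ n) →
        mass (t₀ / 2) T f X t₁ t₂ (cellD (max T 1) p V t₁ t₂ k m n i)
          ≤ C * ENNReal.ofReal (2 ^ m * 4 ^ n * (1 / 2) ^ k * KK c₁ p j i k / qq p i))) :
    ∃ (C : ℝ≥0) (p₀ : ℕ), ∀ (th c₁ : ℝ) (p j : ℕ) (X V : ℝ → E3) (t₁ t₂ : ℝ), p₀ ≤ p →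
      Ctx T f E B t₀ th c₁ p j X V t₁ t₂ → ∀ k m l i n : ℕ,
      (m + 4 ≤ l → mass (t₀ / 2) T f X t₁ t₂ (cellAN (max T 1) p V t₁ t₂ k m l i)
          ≤ C * ENNReal.ofReal (nA c₁ p j i k m l)) ∧
      (l + 4 ≤ m → mass (t₀ / 2) T f X t₁ t₂ (cellAN (max T 1) p V t₁ t₂ k m l i)
          ≤ C * ENNReal.ofReal (nN c₁ p j i k m l)) ∧
      (m ≤ n + 4 → mass (t₀ / 2) T f X t₁ t₂ (cellD (max T 1) p V t₁ t₂ k m n i)
          ≤ C * ENNReal.ofReal (nD c₁ p j i k m n)) := by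
  obtain ⟨C₁, hb⟩ := hbasic
  obtain ⟨C₂, p₀, hs⟩ := hstay
  refine ⟨max C₁ C₂, p₀, fun th c₁ p j X V t₁ t₂ hp hctx k m l i n => ?_⟩
  obtain ⟨⟨a1, a2, a3⟩, ⟨d1, d2, d3⟩⟩ := hb th c₁ p j X V t₁ t₂ hctx k m l i n
  obtain ⟨s1, s2, s3⟩ := hs th c₁ p j X V t₁ t₂ hp hctx k m l i n
  have l1 : C₁ ≤ max C₁ C₂ := le_max_left _ _
  have l2 : C₂ ≤ max C₁ C₂ := le_max_right _ _
  refine ⟨fun hml => ?_, fun hlm => ?_, fun hmn => ?_⟩
  · unfold nA
    refine le_mul_ofReal_min (le_mul_ofReal_min (le_mul_of_le_coe l1 a1) (le_mul_of_le_coe l1 a2))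
      (le_mul_ofReal_min (le_mul_of_le_coe l1 a3) ?_)
    split_ifs with hg
    · exact le_mul_of_le_coe l2 (s1 hml hg)
    · exact le_mul_of_le_coe l1 a3
  · unfold nN
    refine le_mul_ofReal_min (le_mul_ofReal_min (le_mul_of_le_coe l1 a1) (le_mul_of_le_coe l1 a2))
      (le_mul_ofReal_min (le_mul_of_le_coe l1 a3) ?_)
    split_ifs with hg
    · exact le_mul_of_le_coe l2 (s2 hlm hg)
    · exact le_mul_of_le_coe l1 a3
  · unfold nD
    refine le_mul_ofReal_min (le_mul_ofReal_min (le_mul_of_le_coe l1 d1) (le_mul_of_le_coe l1 d2))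
      (le_mul_ofReal_min (le_mul_of_le_coe l1 d3) ?_)
    split_ifs with hg
    · exact le_mul_of_le_coe l2 (s3 hmn hg)
    · exact le_mul_of_le_coe l1 d3

end Vale.Agent.P107
end
end
end

section

section

attribute [-instance] ProperSMul.toContinuousSMul IsTopologicalTorsor.toContinuousSMul
  IdemSemiring.toCanonicallyOrderedAdd IdemSemiring.toMulLeftMono IdemSemiring.toMulRightMono
  AddQuantale.instAddLeftMono AddQuantale.instAddRightMono Quantale.instMulLeftMono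
  Quantale.instMulRightMono FiniteDimensional.rclike_to_real IsScalarTower.complexToReal
  FiniteDimensional.complexToReal

section

/-!
The stay lemma: a source path which is seen at a small angle by a subluminal test path, while the
two velocities differ, is seen during a short time only.
-/

open MeasureTheory Set Filter Topology
open scoped RealInnerProductSpace ENNReal NNReal

namespace Vale.Agent.P107

namespace StayAux

lemma path_lt' {X U : ℝ → E3} {a b : ℝ}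
    (hX : ∀ s ∈ Icc a b, HasDerivWithinAt X (U s) (Icc a b) s)
    (hU : ContinuousOn U (Icc a b)) (hU1 : ∀ s ∈ Icc a b, ‖U s‖ < 1)
    {s s' : ℝ} (hs : s ∈ Icc a b) (hs' : s' ∈ Icc a b) (h : s < s') :
    ‖X s' - X s‖ < s' - s := by
  have hsub : Icc s s' ⊆ Icc a b := Icc_subset_Icc hs.1 hs'.2
  obtain ⟨m, hm, hmax⟩ := (isCompact_Icc (a := s) (b := s')).exists_isMaxOn
    ⟨s, left_mem_Icc.2 h.le⟩ (hU.norm.mono hsub)
  have hb : ∀ x ∈ Icc s s', ‖X x - X s‖ ≤ ‖U m‖ * (x - s) := by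
    refine norm_image_sub_le_of_norm_deriv_le_segment' (f' := U) ?_ ?_
    · intro x hx
      exact (hX x (hsub hx)).mono hsub
    · intro x hx
      exact hmax ⟨hx.1, hx.2.le⟩
  have h1 := hb s' (right_mem_Icc.2 h.le)
  have h2 : ‖U m‖ * (s' - s) < 1 * (s' - s) := by
    have := hU1 m (hsub hm)
    have h3 : 0 < s' - s := by linarith only [h]
    (clear * - h this; gcongr)
  linarith only [h1, h2]

lemma path_err {X U : ℝ → E3} {a b η : ℝ}
    (hX : ∀ s ∈ Icc a b, HasDerivWithinAt X (U s) (Icc a b) s)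
    {s s' : ℝ} (hs : s ∈ Icc a b) (hs' : s' ∈ Icc a b) (h : s ≤ s')
    (hη : ∀ r ∈ Icc s s', ‖U r - U s‖ ≤ η) :
    ‖X s' - X s - (s' - s) • U s‖ ≤ η * (s' - s) := by
  have hsub : Icc s s' ⊆ Icc a b := Icc_subset_Icc hs.1 hs'.2
  have hb : ∀ x ∈ Icc s s', ‖(X x - x • U s) - (X s - s • U s)‖ ≤ η * (x - s) := by
    refine norm_image_sub_le_of_norm_deriv_le_segment' (f := fun x => X x - x • U s)
      (f' := fun x => U x - (1 : ℝ) • U s) ?_ ?_
    · intro x hx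
      exact ((hX x (hsub hx)).mono hsub).sub
        ((hasDerivWithinAt_id x (Icc s s')).smul_const (U s))
    · intro x hx
      rw [one_smul]
      exact hη x ⟨hx.1, hx.2.le⟩
  have h1 := hb s' (right_mem_Icc.2 h)
  have h2 : X s' - X s - (s' - s) • U s = (X s' - s' • U s) - (X s - s • U s) := by
    rw [sub_smul]; abel
  rw [h2]
  exact h1

lemma norm_dir_add_sq {z b : E3} (hz : z ≠ 0) :
    ‖dir z + b‖ ^ 2 = 2 * al (dir z) b - (1 - ‖b‖ ^ 2) := by
  have h1 : ‖dir z‖ = 1 := by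
    unfold dir
    rw [norm_smul, norm_inv, norm_norm, inv_mul_cancel₀ (norm_ne_zero_iff.2 hz)]
  rw [norm_add_sq_real, h1]
  unfold al
  rw [real_inner_comm]
  ring

/-- the norm of `z + |z| b`. -/
lemma norm_add_smul_le {z b : E3} {ξ R : ℝ} (hz : z ≠ 0) (hzR : ‖z‖ ≤ R) (hb : ‖b‖ < 1)
    (hξ : al (dir z) b ≤ ξ) : ‖z + ‖z‖ • b‖ ≤ R * √(2 * ξ) := by
  have h1 : z + ‖z‖ • b = ‖z‖ • (dir z + b) := by
    unfold dir
    rw [smul_add, smul_smul, mul_inv_cancel₀ (norm_ne_zero_iff.2 hz), one_smul]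
  have h2 : ‖dir z + b‖ ≤ √(2 * ξ) := by
    apply Real.le_sqrt_of_sq_le
    rw [norm_dir_add_sq hz]
    nlinarith only [hb, hξ, norm_nonneg b]
  rw [h1, norm_smul, norm_norm]
  exact mul_le_mul hzR h2 (norm_nonneg _) ((norm_nonneg _).trans hzR)

end StayAux

open StayAux

theorem stay {X V U : ℝ → E3} {X₀ U₀ : ℝ → E3} {a b t₁ t₂ : ℝ} (hab : a ≤ b) (h12 : t₁ ≤ t₂)
    (hX : ∀ s ∈ Icc a b, HasDerivWithinAt X (U s) (Icc a b) s)
    (hU : ContinuousOn U (Icc a b)) (hU1 : ∀ s ∈ Icc a b, ‖U s‖ < 1)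
    (hX₀ : ∀ s ∈ Icc t₁ t₂, HasDerivWithinAt X₀ (U₀ s) (Icc t₁ t₂) s)
    (hU₀ : ContinuousOn U₀ (Icc t₁ t₂)) (hU₀1 : ∀ s ∈ Icc t₁ t₂, ‖U₀ s‖ < 1)
    {G G₀ : ℝ → ℝ} {Γ Γ₀ φ ξ R : ℝ} (hφ : 0 < φ) (hξ : 0 ≤ ξ) (hR : 0 < R)
    (hG : MonotoneOn G (Icc a b)) (hGt : G b - G a ≤ Γ)
    (hGU : ∀ s ∈ Icc a b, ∀ s' ∈ Icc a b, s ≤ s' → G s' - G s ≤ 1 → ‖U s' - U s‖ ≤ φ / 4)
    (hG₀ : MonotoneOn G₀ (Icc t₁ t₂)) (hG₀t : G₀ t₂ - G₀ t₁ ≤ Γ₀)
    (hGU₀ : ∀ s ∈ Icc t₁ t₂, ∀ s' ∈ Icc t₁ t₂, s ≤ s' → G₀ s' - G₀ s ≤ 1 →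
      ‖U₀ s' - U₀ s‖ ≤ φ / 4) :
    volume {τ | τ ∈ Icc a b ∧ ∃ t ∈ Icc t₁ t₂, ‖X τ - X₀ t‖ = t - τ ∧ 0 < t - τ ∧ t - τ ≤ R ∧
        al (dir (X τ - X₀ t)) (U₀ t) ≤ ξ ∧ φ ≤ ‖U τ - U₀ t‖}
      ≤ ENNReal.ofReal ((2 + Γ + Γ₀) * (R * (8 * √ξ / φ + 4))) := by
  set S : Set ℝ := {τ | τ ∈ Icc a b ∧ ∃ t ∈ Icc t₁ t₂, ‖X τ - X₀ t‖ = t - τ ∧ 0 < t - τ ∧
    t - τ ≤ R ∧ al (dir (X τ - X₀ t)) (U₀ t) ≤ ξ ∧ φ ≤ ‖U τ - U₀ t‖} with hS
  have hSab : ∀ τ ∈ S, τ ∈ Icc a b := fun τ h => h.1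
  have hex : ∀ τ ∈ S, ∃ t ∈ Icc t₁ t₂, ‖X τ - X₀ t‖ = t - τ ∧ 0 < t - τ ∧
    t - τ ≤ R ∧ al (dir (X τ - X₀ t)) (U₀ t) ≤ ξ ∧ φ ≤ ‖U τ - U₀ t‖ := fun τ h => h.2
  choose! tt htt hn hpos hleR hal hdiff using hex
  -- monotonicity of the reception time
  have hmono : ∀ τ₁ ∈ S, ∀ τ₂ ∈ S, τ₁ < τ₂ → tt τ₁ < tt τ₂ := by
    intro τ₁ h₁ τ₂ h₂ hlt
    by_contra hcon
    push Not at hcon
    have e1 := path_lt' hX hU hU1 (hSab _ h₁) (hSab _ h₂) hlt
    have e2 : ‖X₀ (tt τ₁) - X₀ (tt τ₂)‖ ≤ tt τ₁ - tt τ₂ := by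
      rcases hcon.eq_or_lt with he | hl
      · rw [he]; simp
      · exact (path_lt' hX₀ hU₀ hU₀1 (htt _ h₂) (htt _ h₁) hl).le
    have e3 : ‖X τ₁ - X₀ (tt τ₁)‖ ≤ ‖X τ₂ - X₀ (tt τ₂)‖ + ‖X τ₂ - X τ₁‖
        + ‖X₀ (tt τ₁) - X₀ (tt τ₂)‖ := by
      have : X τ₁ - X₀ (tt τ₁) = (X τ₂ - X₀ (tt τ₂)) - (X τ₂ - X τ₁)
          - (X₀ (tt τ₁) - X₀ (tt τ₂)) := by abel
      rw [this]
      exact (norm_sub_le _ _).trans (add_le_add_left (norm_sub_le _ _) _)
    rw [hn _ h₁, hn _ h₂] at e3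
    linarith only [e1, e2, e3]
  have hmono' : ∀ τ₁ ∈ S, ∀ τ₂ ∈ S, τ₁ ≤ τ₂ → tt τ₁ ≤ tt τ₂ := by
    intro τ₁ h₁ τ₂ h₂ hle
    rcases hle.eq_or_lt with he | hl
    · rw [he]
    · exact (hmono _ h₁ _ h₂ hl).le
  -- the level function
  set H : ℝ → ℝ := fun τ => G τ + G₀ (tt τ) - (G a + G₀ t₁) with hH
  have hamem : a ∈ Icc a b := left_mem_Icc.2 hab
  have hbmem : b ∈ Icc a b := right_mem_Icc.2 hab
  have h1mem : t₁ ∈ Icc t₁ t₂ := left_mem_Icc.2 h12
  have h2mem : t₂ ∈ Icc t₁ t₂ := right_mem_Icc.2 h12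
  have hH0 : ∀ τ ∈ S, 0 ≤ H τ := by
    intro τ h
    have e1 := hG hamem (hSab _ h) (hSab _ h).1
    have e2 := hG₀ h1mem (htt _ h) (htt _ h).1
    simp only [hH]; linarith only [e1, e2]
  have hHle : ∀ τ ∈ S, H τ ≤ Γ + Γ₀ := by
    intro τ h
    have e1 := hG (hSab _ h) hbmem (hSab _ h).2
    have e2 := hG₀ (htt _ h) h2mem (htt _ h).2
    simp only [hH]; linarith only [a, b, t₁, t₂, G, G₀, Γ, Γ₀, hGt, hG₀t, tt, τ, e1, e2]
  have hΓ : 0 ≤ Γ := by
    have := hG hamem hbmem hab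
    linarith only [hGt, this]
  have hΓ₀ : 0 ≤ Γ₀ := by
    have := hG₀ h1mem h2mem h12
    linarith only [hG₀t, this]
  set ℓ : ℝ := R * (8 * √ξ / φ + 4) with hℓ
  have hℓ0 : 0 ≤ ℓ := by (clear * - φ ξ R hφ hR; positivity)
  -- the main estimate
  have key : ∀ τ₁ ∈ S, ∀ τ₂ ∈ S, τ₁ ≤ τ₂ → H τ₂ - H τ₁ ≤ 1 → τ₂ - τ₁ ≤ ℓ := by
    intro τ₁ h₁ τ₂ h₂ hle hHd
    have ht := hmono' _ h₁ _ h₂ hle
    have g1 := hG (hSab _ h₁) (hSab _ h₂) hle
    have g2 := hG₀ (htt _ h₁) (htt _ h₂) ht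
    have hg1 : G τ₂ - G τ₁ ≤ 1 := by simp only [hH] at hHd; linarith only [g2, hHd]
    have hg2 : G₀ (tt τ₂) - G₀ (tt τ₁) ≤ 1 := by simp only [hH] at hHd; linarith only [g1, hHd]
    have err1 : ‖X τ₂ - X τ₁ - (τ₂ - τ₁) • U τ₁‖ ≤ φ / 4 * (τ₂ - τ₁) := by
      refine path_err hX (hSab _ h₁) (hSab _ h₂) hle ?_
      intro r hr
      have hrm : r ∈ Icc a b := ⟨(hSab _ h₁).1.trans hr.1, hr.2.trans (hSab _ h₂).2⟩
      refine hGU _ (hSab _ h₁) _ hrm hr.1 ?_
      have := hG hrm (hSab _ h₂) hr.2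
      linarith only [hHd, g2, this]
    have hpt : ∀ r ∈ Icc (tt τ₁) (tt τ₂), ‖U₀ r - U₀ (tt τ₁)‖ ≤ φ / 4 := by
      intro r hr
      have hrm : r ∈ Icc t₁ t₂ := ⟨(htt _ h₁).1.trans hr.1, hr.2.trans (htt _ h₂).2⟩
      refine hGU₀ _ (htt _ h₁) _ hrm hr.1 ?_
      have := hG₀ hrm (htt _ h₂) hr.2
      linarith only [hHd, g1, this]
    have err2 : ‖X₀ (tt τ₂) - X₀ (tt τ₁) - (tt τ₂ - tt τ₁) • U₀ (tt τ₁)‖
        ≤ φ / 4 * (tt τ₂ - tt τ₁) := path_err hX₀ (htt _ h₁) (htt _ h₂) ht hpt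
    set z₁ := X τ₁ - X₀ (tt τ₁) with hz₁
    set z₂ := X τ₂ - X₀ (tt τ₂) with hz₂
    have hz₁0 : z₁ ≠ 0 := by
      rw [← norm_pos_iff, hn _ h₁]; exact hpos _ h₁
    have hz₂0 : z₂ ≠ 0 := by
      rw [← norm_pos_iff, hn _ h₂]; exact hpos _ h₂
    have hz₁R : ‖z₁‖ ≤ R := by rw [hn _ h₁]; exact hleR _ h₁
    have hz₂R : ‖z₂‖ ≤ R := by rw [hn _ h₂]; exact hleR _ h₂
    have b1 : ‖z₁ + ‖z₁‖ • U₀ (tt τ₁)‖ ≤ R * √(2 * ξ) :=
      norm_add_smul_le hz₁0 hz₁R (hU₀1 _ (htt _ h₁)) (hal _ h₁)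
    have b2 : ‖z₂ + ‖z₂‖ • U₀ (tt τ₂)‖ ≤ R * √(2 * ξ) :=
      norm_add_smul_le hz₂0 hz₂R (hU₀1 _ (htt _ h₂)) (hal _ h₂)
    have b3 : ‖z₂ + ‖z₂‖ • U₀ (tt τ₁)‖ ≤ R * √(2 * ξ) + R * (φ / 4) := by
      have e : z₂ + ‖z₂‖ • U₀ (tt τ₁)
          = (z₂ + ‖z₂‖ • U₀ (tt τ₂)) - ‖z₂‖ • (U₀ (tt τ₂) - U₀ (tt τ₁)) := by
        rw [smul_sub]; abel
      rw [e]
      refine (norm_sub_le _ _).trans (add_le_add b2 ?_)
      rw [norm_smul, norm_norm]
      exact mul_le_mul hz₂R (hpt _ (right_mem_Icc.2 ht)) (norm_nonneg _) hR.le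
    have hdt : tt τ₂ - tt τ₁ = (τ₂ - τ₁) + ‖z₂‖ - ‖z₁‖ := by
      rw [hn _ h₁, hn _ h₂]; ring
    have hdt' : tt τ₂ - tt τ₁ ≤ (τ₂ - τ₁) + R := by
      rw [hdt]
      have := norm_nonneg z₁
      linarith only [hz₂R, this]
    have ident : (τ₂ - τ₁) • (U τ₁ - U₀ (tt τ₁))
        = (z₂ + ‖z₂‖ • U₀ (tt τ₁)) - (z₁ + ‖z₁‖ • U₀ (tt τ₁))
          - (X τ₂ - X τ₁ - (τ₂ - τ₁) • U τ₁)
          + (X₀ (tt τ₂) - X₀ (tt τ₁) - (tt τ₂ - tt τ₁) • U₀ (tt τ₁)) := by
      rw [hdt, hz₁, hz₂]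
      module
    have hΔ : 0 ≤ τ₂ - τ₁ := by linarith only [hle]
    have hnorm : (τ₂ - τ₁) * φ ≤ (R * √(2 * ξ) + R * (φ / 4)) + R * √(2 * ξ)
        + φ / 4 * (τ₂ - τ₁) + φ / 4 * (tt τ₂ - tt τ₁) := by
      calc (τ₂ - τ₁) * φ ≤ (τ₂ - τ₁) * ‖U τ₁ - U₀ (tt τ₁)‖ :=
            mul_le_mul_of_nonneg_left (hdiff _ h₁) hΔ
        _ = ‖(τ₂ - τ₁) • (U τ₁ - U₀ (tt τ₁))‖ := by
            rw [norm_smul, Real.norm_of_nonneg hΔ]
        _ ≤ _ := by
            rw [ident]
            refine (norm_add_le _ _).trans (add_le_add ?_ err2)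
            refine (norm_sub_le _ _).trans (add_le_add ?_ err1)
            exact (norm_sub_le _ _).trans (add_le_add b3 b1)
    have hsq : √(2 * ξ) ≤ 2 * √ξ := by
      rw [Real.sqrt_mul (by norm_num)]
      have : √(2 : ℝ) ≤ 2 := by
        rw [Real.sqrt_le_left (by norm_num)]; norm_num
      exact mul_le_mul_of_nonneg_right this (Real.sqrt_nonneg _)
    have h8 : (τ₂ - τ₁) * φ ≤ 8 * (R * √ξ) + R * φ := by
      have h9 : R * √(2 * ξ) ≤ R * (2 * √ξ) := mul_le_mul_of_nonneg_left hsq hR.le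
      have h10 : φ / 4 * (tt τ₂ - tt τ₁) ≤ φ / 4 * ((τ₂ - τ₁) + R) :=
        mul_le_mul_of_nonneg_left hdt' (by positivity)
      nlinarith only [hnorm, h9, h10]
    have h11 : (τ₂ - τ₁) ≤ (8 * (R * √ξ) + R * φ) / φ := by
      rw [le_div_iff₀ hφ]; exact h8
    refine h11.trans ?_
    have h12' : (8 * (R * √ξ) + R * φ) / φ = R * (8 * √ξ / φ + 1) := by
      (clear * - hφ hR; field_simp)
    rw [h12', hℓ]
    have : 8 * √ξ / φ + 1 ≤ 8 * √ξ / φ + 4 := by linarith only []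
    exact mul_le_mul_of_nonneg_left this hR.le
  -- the covering
  set N : ℕ := ⌊Γ + Γ₀⌋₊ + 1 with hN
  have hcover : S ⊆ ⋃ k ∈ Finset.range N, {τ | τ ∈ S ∧ ⌊H τ⌋₊ = k} := by
    intro τ h
    simp only [mem_iUnion, Finset.mem_range]
    refine ⟨⌊H τ⌋₊, ?_, h, rfl⟩
    have := Nat.floor_le_floor (hHle _ h)
    omega
  have hpiece : ∀ k : ℕ, volume {τ | τ ∈ S ∧ ⌊H τ⌋₊ = k} ≤ ENNReal.ofReal ℓ := by
    intro k
    refine (Real.volume_le_diam _).trans ?_
    refine Metric.ediam_le ?_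
    intro x hx y hy
    rw [edist_dist]
    apply ENNReal.ofReal_le_ofReal
    have aux : ∀ τ₁ τ₂, (τ₁ ∈ S ∧ ⌊H τ₁⌋₊ = k) → (τ₂ ∈ S ∧ ⌊H τ₂⌋₊ = k) → τ₁ ≤ τ₂ →
        τ₂ - τ₁ ≤ ℓ := by
      intro τ₁ τ₂ h₁ h₂ hle
      refine key _ h₁.1 _ h₂.1 hle ?_
      have f1 := Nat.floor_le (hH0 _ h₁.1)
      have f2 := Nat.lt_floor_add_one (H τ₂)
      rw [h₁.2] at f1
      rw [h₂.2] at f2
      linarith only [f1, f2]
    rw [Real.dist_eq]
    rcases le_total x y with hxy | hxy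
    · rw [abs_of_nonpos (by linarith only [hxy])]
      have := aux x y hx hy hxy
      linarith only [this]
    · rw [abs_of_nonneg (by linarith only [hxy])]
      exact aux y x hy hx hxy
  calc volume S ≤ volume (⋃ k ∈ Finset.range N, {τ | τ ∈ S ∧ ⌊H τ⌋₊ = k}) :=
        measure_mono hcover
    _ ≤ ∑ k ∈ Finset.range N, volume {τ | τ ∈ S ∧ ⌊H τ⌋₊ = k} :=
        measure_biUnion_finset_le _ _
    _ ≤ ∑ _k ∈ Finset.range N, ENNReal.ofReal ℓ := Finset.sum_le_sum fun k _ => hpiece k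
    _ = (N : ℝ≥0∞) * ENNReal.ofReal ℓ := by
        rw [Finset.sum_const, Finset.card_range, nsmul_eq_mul]
    _ = ENNReal.ofReal (N * ℓ) := by
        rw [ENNReal.ofReal_mul (p := (N : ℝ)) (Nat.cast_nonneg N), ENNReal.ofReal_natCast]
    _ ≤ ENNReal.ofReal ((2 + Γ + Γ₀) * ℓ) := by
        apply ENNReal.ofReal_le_ofReal
        refine mul_le_mul_of_nonneg_right ?_ hℓ0
        rw [hN]
        push_cast
        have := Nat.floor_le (by linarith only [hΓ, hΓ₀] : 0 ≤ Γ + Γ₀)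
        linarith only [this]

end Vale.Agent.P107
end
end
end

section

section

attribute [-instance] ProperSMul.toContinuousSMul IsTopologicalTorsor.toContinuousSMul
  IdemSemiring.toCanonicallyOrderedAdd IdemSemiring.toMulLeftMono IdemSemiring.toMulRightMono
  AddQuantale.instAddLeftMono AddQuantale.instAddRightMono Quantale.instMulLeftMono
  Quantale.instMulRightMono FiniteDimensional.rclike_to_real IsScalarTower.complexToReal
  FiniteDimensional.complexToReal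

section

/-!
Liouville's theorem for the Vlasov characteristics and the counting lemma (module Lv).

Maps which do not increase the measure of preimages, Euler schemes, the drift and the kick of the
splitting scheme, Liouville's theorem for Lorentz fields with Lipschitz coefficients, and the
counting lemma.
-/

open MeasureTheory Set Filter Topology
open scoped RealInnerProductSpace ENNReal NNReal

namespace Vale.Agent.P107

/-- Measurable maps whose push-forward of `μ` is at most `μ`. -/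
def NonExp {Z : Type*} [MeasurableSpace Z] (μ : Measure Z) (Ψ : Z → Z) : Prop :=
  Measurable Ψ ∧ ∀ A, MeasurableSet A → μ (Ψ ⁻¹' A) ≤ μ A

section nonexp

variable {Z : Type*} [MeasurableSpace Z] {μ : Measure Z}

lemma NonExp.id : NonExp μ (fun z => z) := ⟨measurable_id, fun _ _ => le_of_eq rfl⟩

lemma NonExp.comp {g h : Z → Z} (hg : NonExp μ g) (hh : NonExp μ h) :
    NonExp μ (fun z => g (h z)) := by
  refine ⟨hg.1.comp hh.1, fun A hA => ?_⟩
  exact (hh.2 _ (hg.1 hA)).trans (hg.2 A hA)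

lemma NonExp.lintegral_le {Ψ : Z → Z} (h : NonExp μ Ψ) {F : Z → ℝ≥0∞} (hF : Measurable F) :
    ∫⁻ z, F (Ψ z) ∂μ ≤ ∫⁻ z, F z ∂μ := by
  rw [← lintegral_map hF h.1]
  refine lintegral_mono' ?_ le_rfl
  refine Measure.le_iff.2 fun A hA => ?_
  rw [Measure.map_apply h.1 hA]
  exact h.2 A hA

end nonexp

/-- Limits of nonexpanding maps. -/
lemma nonExp_of_tendsto {Y : Type*} [TopologicalSpace Y] [TopologicalSpace.PseudoMetrizableSpace Y]
    [MeasurableSpace Y] [BorelSpace Y]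
    {μ : Measure Y} [μ.OuterRegular] {S : Y → Y}
    {Ψ : ℕ → Y → Y} (hΨ : ∀ᶠ N in atTop, NonExp μ (Ψ N))
    (hlim : ∀ z, Tendsto (fun N => Ψ N z) atTop (𝓝 (S z))) : NonExp μ S := by
  obtain ⟨N₀, hN₀⟩ := eventually_atTop.1 hΨ
  set Φ : ℕ → Y → Y := fun N => Ψ (N + N₀) with hΦ
  have hΦm : ∀ N, NonExp μ (Φ N) := fun N => hN₀ _ (Nat.le_add_left _ _)
  have hΦlim : ∀ z, Tendsto (fun N => Φ N z) atTop (𝓝 (S z)) := fun z =>
    (hlim z).comp (tendsto_add_atTop_nat N₀)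
  have hS : Measurable S :=
    measurable_of_tendsto_metrizable (fun N => (hΦm N).1) (tendsto_pi_nhds.2 hΦlim)
  have hopen : ∀ O : Set Y, IsOpen O → μ (S ⁻¹' O) ≤ μ O := by
    intro O hO
    have h1 : μ (S ⁻¹' O) = ∫⁻ z, (S ⁻¹' O).indicator 1 z ∂μ := by
      rw [lintegral_indicator_one (hS hO.measurableSet)]
    rw [h1]
    have h2 : ∀ z, (S ⁻¹' O).indicator (1 : Y → ℝ≥0∞) z ≤
        liminf (fun N => (Φ N ⁻¹' O).indicator (1 : Y → ℝ≥0∞) z) atTop := by
      intro z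
      by_cases hz : S z ∈ O
      · have h3 : ∀ᶠ N in atTop, Φ N z ∈ O := (hΦlim z).eventually (hO.mem_nhds hz)
        have h4 : ∀ᶠ N in atTop, (1 : ℝ≥0∞) ≤ (Φ N ⁻¹' O).indicator (1 : Y → ℝ≥0∞) z := by
          filter_upwards [h3] with N hN
          have : z ∈ Φ N ⁻¹' O := hN
          simp [this]
        have h5 : (S ⁻¹' O).indicator (1 : Y → ℝ≥0∞) z = 1 := by
          have : z ∈ S ⁻¹' O := hz
          simp [this]
        rw [h5]
        exact le_liminf_of_le (by isBoundedDefault) h4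
      · have h5 : (S ⁻¹' O).indicator (1 : Y → ℝ≥0∞) z = 0 := by
          have : z ∉ S ⁻¹' O := hz
          simp [this]
        rw [h5]; exact zero_le
    calc ∫⁻ z, (S ⁻¹' O).indicator 1 z ∂μ
        ≤ ∫⁻ z, liminf (fun N => (Φ N ⁻¹' O).indicator (1 : Y → ℝ≥0∞) z) atTop ∂μ :=
          lintegral_mono h2
      _ ≤ liminf (fun N => ∫⁻ z, (Φ N ⁻¹' O).indicator (1 : Y → ℝ≥0∞) z ∂μ) atTop := by
          apply lintegral_liminf_le
          intro N
          exact measurable_one.indicator ((hΦm N).1 hO.measurableSet)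
      _ ≤ liminf (fun _ : ℕ => μ O) atTop := by
          refine liminf_le_liminf (Eventually.of_forall fun N => ?_)
          rw [lintegral_indicator_one ((hΦm N).1 hO.measurableSet)]
          exact (hΦm N).2 O hO.measurableSet
      _ = μ O := by simp
  refine ⟨hS, fun A _ => ?_⟩
  rw [Set.measure_eq_iInf_isOpen A μ]
  refine le_iInf₂ fun O hAO => le_iInf fun hO => ?_
  exact (measure_mono (preimage_mono hAO)).trans (hopen O hO)

/-! ### Fibrewise maps -/

section fibre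

variable {X Y : Type*} [MeasurableSpace X] [MeasurableSpace Y] {μ : Measure X} {ν : Measure Y}
  [SFinite ν]

lemma nonExp_snd {g : X → Y → Y} (hg : Measurable fun z : X × Y => g z.1 z.2)
    (h : ∀ x, NonExp ν (g x)) : NonExp (μ.prod ν) (fun z : X × Y => (z.1, g z.1 z.2)) := by
  have hm : Measurable (fun z : X × Y => (z.1, g z.1 z.2)) := measurable_fst.prodMk hg
  refine ⟨hm, fun A hA => ?_⟩
  rw [Measure.prod_apply (hm hA), Measure.prod_apply hA]
  refine lintegral_mono fun x => ?_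
  exact (h x).2 _ (measurable_prodMk_left hA)

lemma nonExp_fst [SFinite μ] {g : Y → X → X} (hg : Measurable fun z : X × Y => g z.2 z.1)
    (h : ∀ y, NonExp μ (g y)) : NonExp (μ.prod ν) (fun z : X × Y => (g z.2 z.1, z.2)) := by
  have hm : Measurable (fun z : X × Y => (g z.2 z.1, z.2)) := hg.prodMk measurable_snd
  refine ⟨hm, fun A hA => ?_⟩
  rw [Measure.prod_apply_symm (hm hA), Measure.prod_apply_symm hA]
  refine lintegral_mono fun y => ?_
  exact (h y).2 _ (measurable_prodMk_right hA)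

end fibre

/-! ### Euler schemes -/

/-- Iteration of the step maps `Ψ r` at the times `0, h, 2h, ...`. -/
def scheme {Z : Type*} (Ψ : ℝ → Z → Z) (h : ℝ) : ℕ → Z → Z
  | 0 => fun z => z
  | k + 1 => fun z => Ψ (k * h) (scheme Ψ h k z)

lemma scheme_nonExp {Z : Type*} [MeasurableSpace Z] {μ : Measure Z} {Ψ : ℝ → Z → Z} {h L : ℝ}
    (hh : 0 ≤ h) (hΨ : ∀ r ∈ Icc 0 L, NonExp μ (Ψ r)) (k : ℕ) (hk : k * h ≤ L) :
    NonExp μ (scheme Ψ h k) := by
  induction k with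
  | zero => exact NonExp.id
  | succ k ih =>
    have hk' : (k : ℝ) * h ≤ L := by
      push_cast at hk
      nlinarith only [hh, hk]
    change NonExp μ (fun z => Ψ (k * h) (scheme Ψ h k z))
    exact NonExp.comp (hΨ (k * h) ⟨by positivity, hk'⟩) (ih hk')

section euler

variable {Y : Type*} [NormedAddCommGroup Y] [NormedSpace ℝ Y]

theorem scheme_error {F : ℝ → Y → Y} {K K₂ M h L : ℝ} (hK : 0 ≤ K) (hK₂ : 0 ≤ K₂) (hM : 0 ≤ M)
    (hF : ∀ r ∈ Icc 0 L, ∀ z z', ‖F r z - F r z'‖ ≤ K * ‖z - z'‖) {γ : ℝ → Y}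
    (hγ : ∀ r ∈ Icc 0 L, ∀ r' ∈ Icc 0 L, r ≤ r' →
      ‖γ r' - γ r - (r' - r) • F r (γ r)‖ ≤ K₂ * (r' - r) ^ 2)
    (hh : 0 ≤ h) {Ψ : ℝ → Y → Y}
    (hΨ : ∀ r ∈ Icc 0 L, ∀ z, ‖Ψ r z - z - h • F r z‖ ≤ M * h ^ 2) (k : ℕ) (hk : k * h ≤ L) :
    ‖scheme Ψ h k (γ 0) - γ (k * h)‖ ≤ (M + K₂) * h ^ 2 * k * (1 + K * h) ^ k := by
  induction k with
  | zero => simp [scheme]
  | succ k ih =>
    have hk' : (k : ℝ) * h ≤ L := by
      push_cast at hk; nlinarith only [hh, hk]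
    have ih := ih hk'
    have hkm : (k : ℝ) * h ∈ Icc 0 L := ⟨by positivity, hk'⟩
    set Zk := scheme Ψ h k (γ 0) with hZk
    have e0 : scheme Ψ h (k + 1) (γ 0) = Ψ (k * h) Zk := rfl
    rw [e0]
    have e1 : ((k + 1 : ℕ) : ℝ) * h = k * h + h := by push_cast; ring
    rw [e1] at hk ⊢
    have h2 := hγ (k * h) hkm (k * h + h) ⟨by (clear * - hh; positivity), hk⟩ (by linarith only [hh])
    rw [add_sub_cancel_left] at h2
    have h3 := hF (k * h) hkm Zk (γ (k * h))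
    have e2 : Ψ (k * h) Zk - γ (k * h + h) = (Ψ (k * h) Zk - Zk - h • F (k * h) Zk) -
        (γ (k * h + h) - γ (k * h) - h • F (k * h) (γ (k * h))) +
        (Zk - γ (k * h)) + h • (F (k * h) Zk - F (k * h) (γ (k * h))) := by
      rw [smul_sub]; abel
    have h4 : ‖Ψ (k * h) Zk - γ (k * h + h)‖ ≤ M * h ^ 2 + K₂ * h ^ 2 + ‖Zk - γ (k * h)‖ +
        h * (K * ‖Zk - γ (k * h)‖) := by
      rw [e2]
      refine (norm_add_le _ _).trans ?_
      refine add_le_add ((norm_add_le _ _).trans (add_le_add ((norm_sub_le _ _).trans ?_) le_rfl)) ?_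
      · exact add_le_add (hΨ _ hkm _) h2
      · rw [norm_smul, Real.norm_eq_abs, abs_of_nonneg hh]
        exact mul_le_mul_of_nonneg_left h3 hh
    refine h4.trans ?_
    set D := (M + K₂) * h ^ 2 with hD
    have hD0 : 0 ≤ D := by (clear * - K₂ M h hK₂ hM; positivity)
    have hq' : 1 ≤ (1 + (K : ℝ) * h) := by
      have : 0 ≤ (K : ℝ) * h := by positivity
      linarith only [this]
    have hq : 1 ≤ (1 + (K : ℝ) * h) ^ k := one_le_pow₀ hq'
    have e3 : M * h ^ 2 + K₂ * h ^ 2 = D := by rw [hD]; ring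
    rw [e3]
    calc D + ‖Zk - γ (k * h)‖ + h * (K * ‖Zk - γ (k * h)‖)
        = D + (1 + K * h) * ‖Zk - γ (k * h)‖ := by ring
      _ ≤ D * (1 + K * h) ^ (k + 1) + (1 + K * h) * (D * k * (1 + K * h) ^ k) := by
          refine add_le_add ?_ (mul_le_mul_of_nonneg_left ih (by linarith only [hq']))
          have : 1 ≤ (1 + (K : ℝ) * h) ^ (k + 1) := one_le_pow₀ hq'
          nlinarith only [hD0, this]
      _ = D * ((k + 1 : ℕ) : ℝ) * (1 + K * h) ^ (k + 1) := by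
          push_cast; ring

theorem scheme_tendsto {F : ℝ → Y → Y} {K K₂ M L : ℝ} (hK : 0 ≤ K) (hK₂ : 0 ≤ K₂) (hM : 0 ≤ M)
    (hL : 0 ≤ L)
    (hF : ∀ r ∈ Icc 0 L, ∀ z z', ‖F r z - F r z'‖ ≤ K * ‖z - z'‖) {γ : ℝ → Y}
    (hγ : ∀ r ∈ Icc 0 L, ∀ r' ∈ Icc 0 L, r ≤ r' →
      ‖γ r' - γ r - (r' - r) • F r (γ r)‖ ≤ K₂ * (r' - r) ^ 2)
    {Ψ : ℝ → ℝ → Y → Y}
    (hΨ : ∀ h, 0 ≤ h → ∀ r ∈ Icc 0 L, ∀ z, ‖Ψ h r z - z - h • F r z‖ ≤ M * h ^ 2) :
    Tendsto (fun N : ℕ => scheme (Ψ (L / N)) (L / N) N (γ 0)) atTop (𝓝 (γ L)) := by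
  rw [tendsto_iff_norm_sub_tendsto_zero]
  refine squeeze_zero' (g := fun N : ℕ => ((M + K₂) * L ^ 2 * Real.exp (K * L)) / N)
    (Eventually.of_forall fun _ => norm_nonneg _) ?_ ?_
  · filter_upwards [eventually_gt_atTop 0] with N hN
    have hN' : (0 : ℝ) < N := by exact_mod_cast hN
    have h1 := scheme_error hK hK₂ hM hF hγ (h := L / N) (by positivity) (Ψ := Ψ (L / N))
      (hΨ _ (by positivity)) N (by rw [mul_div_cancel₀ _ hN'.ne'])
    rw [mul_div_cancel₀ _ hN'.ne'] at h1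
    refine h1.trans ?_
    have h2 : (1 + (K : ℝ) * (L / N)) ^ N ≤ Real.exp (K * L) := by
      have h3 : 1 + (K : ℝ) * (L / N) ≤ Real.exp (K * (L / N)) := by
        rw [add_comm]; exact Real.add_one_le_exp _
      calc (1 + (K : ℝ) * (L / N)) ^ N ≤ (Real.exp (K * (L / N))) ^ N := by
            apply pow_le_pow_left₀ (by (clear * - hK hL hN; positivity)) h3
        _ = Real.exp (K * L) := by
            rw [← Real.exp_nat_mul]; congr 1; (clear * - hN; field_simp)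
    calc (M + K₂) * (L / N) ^ 2 * N * (1 + K * (L / N)) ^ N
        ≤ (M + K₂) * (L / N) ^ 2 * N * Real.exp (K * L) := by
          apply mul_le_mul_of_nonneg_left h2 (by positivity)
      _ = (M + K₂) * L ^ 2 * Real.exp (K * L) / N := by (clear * - hN; field_simp)
  · exact tendsto_const_div_atTop_nhds_zero_nat _

end euler

lemma norm_u_sub_le (v w : E3) : ‖u v - u w‖ ≤ ‖v - w‖ := by
  have h := (convex_univ (𝕜 := ℝ) (E := E3)).norm_image_sub_le_of_norm_hasFDerivWithin_le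
    (f := u) (C := 1) (fun x _ => (hasFDerivAt_u x).hasFDerivWithinAt) (fun x _ => ?_)
    (mem_univ w) (mem_univ v)
  · rwa [one_mul] at h
  · refine ContinuousLinearMap.opNorm_le_bound _ zero_le_one fun F => ?_
    have h1 := fderiv_u_apply x F
    rw [(hasFDerivAt_u x).fderiv] at h1
    rw [h1]
    refine (norm_acc_le x F).trans ?_
    have h2 : (q x)⁻¹ ≤ 1 := inv_le_one_of_one_le₀ (one_le_q x)
    exact mul_le_mul_of_nonneg_right h2 (norm_nonneg _)

lemma cross_sub_left (a b c : E3) : cross (a - b) c = cross a c - cross b c := by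
  ext k
  simp only [cross_apply, PiLp.sub_apply]
  ring

lemma cross_add_left (a b c : E3) : cross (a + b) c = cross a c + cross b c := by
  ext k
  simp only [cross_apply, PiLp.add_apply]
  ring

lemma cross_sub_right (a b c : E3) : cross a (b - c) = cross a b - cross a c := by
  ext k
  simp only [cross_apply, PiLp.sub_apply]
  ring

lemma cross_smul_left (r : ℝ) (a b : E3) : cross (r • a) b = r • cross a b := by
  ext k
  simp only [cross_apply, PiLp.smul_apply, smul_eq_mul]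
  ring

lemma cross_smul_right (r : ℝ) (a b : E3) : cross a (r • b) = r • cross a b := by
  ext k
  simp only [cross_apply, PiLp.smul_apply, smul_eq_mul]
  ring

/-- `a ↦ a × β` as a continuous linear map. -/
noncomputable def crossL (β : E3) : E3 →L[ℝ] E3 :=
  LinearMap.toContinuousLinearMap
    { toFun := fun a => cross a β
      map_add' := fun a b => cross_add_left a b β
      map_smul' := fun r a => cross_smul_left r a β }

@[simp] lemma crossL_apply (β a : E3) : crossL β a = cross a β := rfl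

/-- The derivative of the kick. -/
noncomputable def kickD (β : E3) (h : ℝ) (v : E3) : E3 →L[ℝ] E3 :=
  ContinuousLinearMap.id ℝ E3 - h • (crossL β).comp
    ((q v)⁻¹ • (ContinuousLinearMap.id ℝ E3 - (innerSL ℝ (u v)).smulRight (u v)))

lemma hasFDerivAt_kick (e β : E3) (h : ℝ) (v : E3) :
    HasFDerivAt (fun v => v - h • lor e β v) (kickD β h v) v := by
  have h1 : HasFDerivAt (fun v => crossL β (u v)) ((crossL β).comp
      ((q v)⁻¹ • (ContinuousLinearMap.id ℝ E3 - (innerSL ℝ (u v)).smulRight (u v)))) v :=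
    (crossL β).hasFDerivAt.comp v (hasFDerivAt_u v)
  exact (hasFDerivAt_id v).sub ((h1.const_add e).const_smul h)

lemma det_kickD (β : E3) (h : ℝ) (v : E3) :
    (kickD β h v).det
      = 1 + h ^ 2 * ((q v)⁻¹) ^ 2 * ((1 - ‖u v‖ ^ 2) * ‖β‖ ^ 2 + ⟪u v, β⟫ ^ 2) := by
  rw [ContinuousLinearMap.det,
    ← LinearMap.det_toMatrix (EuclideanSpace.basisFun (Fin 3) ℝ).toBasis, Matrix.det_fin_three]
  rw [EuclideanSpace.norm_sq_eq, EuclideanSpace.norm_sq_eq]
  simp only [LinearMap.toMatrix_apply, kickD, OrthonormalBasis.coe_toBasis,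
    EuclideanSpace.basisFun_apply, OrthonormalBasis.coe_toBasis_repr_apply,
    EuclideanSpace.basisFun_repr, ContinuousLinearMap.coe_coe, sub_apply,
    smul_apply, ContinuousLinearMap.comp_apply, crossL_apply, ContinuousLinearMap.id_apply,
    ContinuousLinearMap.smulRight_apply, innerSL_apply_apply, PiLp.sub_apply, PiLp.smul_apply,
    cross_apply, smul_eq_mul, Fin.sum_univ_three, Real.norm_eq_abs, sq_abs,
    PiLp.inner_apply]
  simp
  ring

lemma one_le_det_kickD (β : E3) (h : ℝ) (v : E3) : 1 ≤ (kickD β h v).det := by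
  rw [det_kickD]
  have h1 := norm_u_lt_one v
  have h2 : 0 ≤ 1 - ‖u v‖ ^ 2 := by nlinarith only [h1, norm_nonneg (u v)]
  have h3 : 0 ≤ (1 - ‖u v‖ ^ 2) * ‖β‖ ^ 2 + ⟪u v, β⟫ ^ 2 := by positivity
  have h4 : 0 ≤ h ^ 2 * ((q v)⁻¹) ^ 2 * ((1 - ‖u v‖ ^ 2) * ‖β‖ ^ 2 + ⟪u v, β⟫ ^ 2) := by
    (clear * - h2; positivity)
  linarith only [h4]

lemma nonExp_kick (e β : E3) (h : ℝ) (hh : |h| * ‖β‖ < 1) :
    NonExp volume (fun v => v - h • lor e β v) := by
  have hc : Continuous fun v => v - h • lor e β v :=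
    continuous_id.sub ((contDiff_lor e β).continuous.const_smul h)
  have hinj : Function.Injective fun v => v - h • lor e β v := by
    intro v w hvw
    by_contra hne
    have h1 : v - w = h • cross (u v - u w) β := by
      have h2 : v - h • lor e β v = w - h • lor e β w := hvw
      rw [cross_sub_left, smul_sub]
      unfold lor at h2
      rw [smul_add, smul_add] at h2
      rw [sub_eq_sub_iff_add_eq_add] at h2 ⊢
      rw [← sub_eq_zero] at h2 ⊢
      rw [← h2]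
      abel
    have h3 : ‖v - w‖ ≤ |h| * ‖β‖ * ‖v - w‖ := by
      calc ‖v - w‖ = |h| * ‖cross (u v - u w) β‖ := by
            conv_lhs => rw [h1]
            rw [norm_smul, Real.norm_eq_abs]
        _ ≤ |h| * (‖v - w‖ * ‖β‖) := by
            gcongr
            exact (norm_cross_le _ _).trans (by gcongr; exact norm_u_sub_le v w)
        _ = _ := by ring
    have h4 : 0 < ‖v - w‖ := norm_pos_iff.2 (sub_ne_zero.2 hne)
    nlinarith only [hh, h3, h4]
  refine ⟨hc.measurable, fun A hA => ?_⟩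
  set κ : E3 → E3 := fun v => v - h • lor e β v with hκ
  have hm : MeasurableSet (κ ⁻¹' A) := hc.measurable hA
  calc volume (κ ⁻¹' A) = ∫⁻ _ in κ ⁻¹' A, 1 := by rw [setLIntegral_one]
    _ ≤ ∫⁻ v in κ ⁻¹' A, ENNReal.ofReal |(kickD β h v).det| := by
        refine lintegral_mono fun v => ?_
        rw [← ENNReal.ofReal_one]
        exact ENNReal.ofReal_le_ofReal ((one_le_det_kickD β h v).trans (le_abs_self _))
    _ = volume (κ '' (κ ⁻¹' A)) :=
        lintegral_abs_det_fderiv_eq_addHaar_image volume hm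
          (fun v _ => (hasFDerivAt_kick e β h v).hasFDerivWithinAt) hinj.injOn
    _ ≤ volume A := measure_mono (image_preimage_subset _ _)

/-- The drift. -/
lemma nonExp_drift (h : ℝ) :
    NonExp ((volume : Measure E3).prod (volume : Measure E3))
      (fun z : E3 × E3 => (z.1 - h • u z.2, z.2)) := by
  refine nonExp_fst (g := fun v x => x - h • u v) ?_ fun v => ?_
  · exact measurable_fst.sub ((contDiff_uu.continuous.measurable.comp measurable_snd).const_smul h)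
  · refine ⟨measurable_id.sub_const _, fun A hA => ?_⟩
    simp_rw [sub_eq_add_neg]
    rw [measure_preimage_add_right]

section part2

/-- Bounded Lipschitz coefficients on `[a, b]`. -/
structure LipField (e β : ℝ → E3 → E3) (a b K : ℝ) : Prop where
  K_nonneg : 0 ≤ K
  e_le : ∀ t ∈ Icc a b, ∀ x, ‖e t x‖ ≤ K
  b_le : ∀ t ∈ Icc a b, ∀ x, ‖β t x‖ ≤ K
  e_lip : ∀ t ∈ Icc a b, ∀ t' ∈ Icc a b, ∀ x x', ‖e t x - e t' x'‖ ≤ K * (|t - t'| + ‖x - x'‖)
  b_lip : ∀ t ∈ Icc a b, ∀ t' ∈ Icc a b, ∀ x x', ‖β t x - β t' x'‖ ≤ K * (|t - t'| + ‖x - x'‖)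

/-- The phase space field. -/
noncomputable def fieldG (e β : ℝ → E3 → E3) (t : ℝ) (z : E3 × E3) : E3 × E3 :=
  (u z.2, lor (e t z.1) (β t z.1) z.2)

/-- Trajectories of `fieldG`. -/
def Traj (e β : ℝ → E3 → E3) (a b : ℝ) (α : ℝ → E3 × E3) : Prop :=
  ∀ t ∈ Icc a b, HasDerivWithinAt α (fieldG e β t (α t)) (Icc a b) t

variable {e β : ℝ → E3 → E3} {a b K : ℝ}

lemma LipField.norm_le (H : LipField e β a b K) {t : ℝ} (ht : t ∈ Icc a b) (z : E3 × E3) :
    ‖fieldG e β t z‖ ≤ 1 + 2 * K := by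
  have hK := H.K_nonneg
  rw [Prod.norm_def]
  refine max_le ?_ ?_
  · have := (norm_u_lt_one z.2).le
    change ‖u z.2‖ ≤ _
    linarith only [hK, this]
  · change ‖e t z.1 + cross (u z.2) (β t z.1)‖ ≤ _
    refine (norm_add_le _ _).trans ?_
    have h1 := H.e_le t ht z.1
    have h2 := (norm_cross_le (u z.2) (β t z.1)).trans
      (mul_le_mul (norm_u_lt_one z.2).le (H.b_le t ht z.1) (norm_nonneg _) zero_le_one)
    linarith only [h1, h2]

lemma LipField.lip (H : LipField e β a b K) {t t' : ℝ} (ht : t ∈ Icc a b) (ht' : t' ∈ Icc a b)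
    (z z' : E3 × E3) :
    ‖fieldG e β t z - fieldG e β t' z'‖ ≤ (1 + 3 * K) * (|t - t'| + ‖z - z'‖) := by
  have hK := H.K_nonneg
  have h1 : ‖z.1 - z'.1‖ ≤ ‖z - z'‖ := norm_fst_le (z - z')
  have h2 : ‖z.2 - z'.2‖ ≤ ‖z - z'‖ := norm_snd_le (z - z')
  have h0 : 0 ≤ |t - t'| := abs_nonneg _
  have h3 := norm_nonneg (z - z')
  rw [Prod.norm_def]
  refine max_le ?_ ?_
  · change ‖u z.2 - u z'.2‖ ≤ _
    refine (norm_u_sub_le _ _).trans (h2.trans ?_)
    nlinarith only [hK, h0, h3]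
  · change ‖(e t z.1 + cross (u z.2) (β t z.1)) - (e t' z'.1 + cross (u z'.2) (β t' z'.1))‖ ≤ _
    have e1 : (e t z.1 + cross (u z.2) (β t z.1)) - (e t' z'.1 + cross (u z'.2) (β t' z'.1))
        = (e t z.1 - e t' z'.1) + cross (u z.2 - u z'.2) (β t z.1)
          + cross (u z'.2) (β t z.1 - β t' z'.1) := by
      rw [cross_sub_left, cross_sub_right]
      abel
    rw [e1]
    refine (norm_add_le _ _).trans ?_
    have k1 := H.e_lip t ht t' ht' z.1 z'.1
    have k2 := H.b_lip t ht t' ht' z.1 z'.1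
    have k3 : ‖cross (u z.2 - u z'.2) (β t z.1)‖ ≤ ‖z - z'‖ * K :=
      (norm_cross_le _ _).trans (mul_le_mul ((norm_u_sub_le _ _).trans h2) (H.b_le t ht z.1)
        (norm_nonneg _) (norm_nonneg _))
    have k4 : ‖cross (u z'.2) (β t z.1 - β t' z'.1)‖ ≤ 1 * (K * (|t - t'| + ‖z.1 - z'.1‖)) :=
      (norm_cross_le _ _).trans (mul_le_mul (norm_u_lt_one _).le k2 (norm_nonneg _) zero_le_one)
    have k5 : K * (|t - t'| + ‖z.1 - z'.1‖) ≤ K * (|t - t'| + ‖z - z'‖) := by (clear * - hK h1; gcongr)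
    have k6 := norm_add_le (e t z.1 - e t' z'.1) (cross (u z.2 - u z'.2) (β t z.1))
    have k7 : ‖z - z'‖ * K ≤ K * (|t - t'| + ‖z - z'‖) := by nlinarith only [hK, h0]
    have k8 : 0 ≤ |t - t'| + ‖z - z'‖ := by (clear * -; positivity)
    nlinarith only [h0, h3, k1, k3, k4, k5, k6, k7]

lemma Traj.norm_sub_le (H : LipField e β a b K) {α : ℝ → E3 × E3} (hα : Traj e β a b α)
    {s s' : ℝ} (hs : s ∈ Icc a b) (hs' : s' ∈ Icc a b) :
    ‖α s' - α s‖ ≤ (1 + 2 * K) * |s' - s| := by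
  have := (convex_Icc a b).norm_image_sub_le_of_norm_hasDerivWithin_le (C := 1 + 2 * K) hα
    (fun t ht => H.norm_le ht _) hs hs'
  rwa [Real.norm_eq_abs] at this

/-- The local error of the exact trajectories. -/
lemma Traj.local_error (H : LipField e β a b K) {α : ℝ → E3 × E3} (hα : Traj e β a b α)
    {s s' : ℝ} (hs : s ∈ Icc a b) (hs' : s' ∈ Icc a b) :
    ‖α s' - α s - (s' - s) • fieldG e β s (α s)‖
      ≤ ((1 + 3 * K) * (1 + (1 + 2 * K))) * (s' - s) ^ 2 := by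
  have hK := H.K_nonneg
  have hsub : uIcc s s' ⊆ Icc a b := (ordConnected_Icc (a := a) (b := b)).uIcc_subset hs hs'
  have h1 : ∀ σ ∈ uIcc s s', HasDerivWithinAt (fun σ => α σ - (σ - s) • fieldG e β s (α s))
      (fieldG e β σ (α σ) - fieldG e β s (α s)) (uIcc s s') σ := by
    intro σ hσ
    have h2 : HasDerivWithinAt (fun σ : ℝ => (σ - s) • fieldG e β s (α s))
        ((1 : ℝ) • fieldG e β s (α s)) (uIcc s s') σ :=
      ((hasDerivWithinAt_id σ _).sub_const s).smul_const _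
    rw [one_smul] at h2
    exact ((hα σ (hsub hσ)).mono hsub).sub h2
  have h2 : ∀ σ ∈ uIcc s s', ‖fieldG e β σ (α σ) - fieldG e β s (α s)‖
      ≤ ((1 + 3 * K) * (1 + (1 + 2 * K))) * |s' - s| := by
    intro σ hσ
    have k1 := H.lip (hsub hσ) hs (α σ) (α s)
    have k2 := hα.norm_sub_le H hs (hsub hσ)
    have k3 : |σ - s| ≤ |s' - s| := abs_sub_left_of_mem_uIcc hσ
    have k4 : 0 ≤ |σ - s| := abs_nonneg _
    calc _ ≤ (1 + 3 * K) * (|σ - s| + ‖α σ - α s‖) := k1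
      _ ≤ (1 + 3 * K) * (|s' - s| + (1 + 2 * K) * |s' - s|) := by
          have : (1 + 2 * K) * |σ - s| ≤ (1 + 2 * K) * |s' - s| := by (clear * - hK k3; gcongr)
          gcongr
          linarith only [k2, this]
      _ = _ := by ring
  have h3 := (convex_uIcc s s').norm_image_sub_le_of_norm_hasDerivWithin_le h1 h2
    left_mem_uIcc right_mem_uIcc
  simp only [sub_self, zero_smul, sub_zero] at h3
  have e1 : α s' - (s' - s) • fieldG e β s (α s) - α s
      = α s' - α s - (s' - s) • fieldG e β s (α s) := by abel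
  rw [e1] at h3
  refine h3.trans (le_of_eq ?_)
  rw [Real.norm_eq_abs, mul_assoc, ← sq_abs (s' - s)]
  ring

/-- One step of the splitting scheme, backwards from time `s`. -/
noncomputable def stepB (e β : ℝ → E3 → E3) (h s : ℝ) (z : E3 × E3) : E3 × E3 :=
  (z.1 - h • u z.2, z.2 - h • lor (e s (z.1 - h • u z.2)) (β s (z.1 - h • u z.2)) z.2)

lemma LipField.step_error (H : LipField e β a b K) {h s : ℝ} (hh : 0 ≤ h) (hs : s ∈ Icc a b)
    (z : E3 × E3) : ‖stepB e β h s z - z - h • (- fieldG e β s z)‖ ≤ (1 + 3 * K) * h ^ 2 := by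
  have hK := H.K_nonneg
  set z' : E3 × E3 := (z.1 - h • u z.2, z.2) with hz'
  have e1 : stepB e β h s z - z - h • (- fieldG e β s z)
      = (0, - (h • ((fieldG e β s z').2 - (fieldG e β s z).2))) := by
    ext1
    · simp [stepB, fieldG]
    · simp only [stepB, fieldG, hz', Prod.snd_sub, Prod.snd_neg, Prod.smul_snd, smul_sub, smul_neg]
      abel
  rw [e1, Prod.norm_def]
  have h1 := H.lip hs hs z' z
  rw [sub_self, abs_zero, zero_add] at h1
  have h2 : ‖z' - z‖ ≤ h := by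
    rw [Prod.norm_def]
    refine max_le ?_ ?_
    · simp only [hz', Prod.fst_sub, sub_sub_cancel_left, norm_neg, norm_smul,
        Real.norm_of_nonneg hh]
      exact mul_le_of_le_one_right hh (norm_u_lt_one _).le
    · simpa [hz'] using hh
  have h3 : ‖(fieldG e β s z').2 - (fieldG e β s z).2‖ ≤ (1 + 3 * K) * h :=
    (norm_snd_le (fieldG e β s z' - fieldG e β s z)).trans (h1.trans (by (clear * - hK h2; gcongr)))
  refine max_le ?_ ?_
  · rw [norm_zero]; (clear * - hK; positivity)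
  · rw [norm_neg, norm_smul, Real.norm_of_nonneg hh]
    nlinarith only [hh, h3]

lemma continuous_cross2 : Continuous fun p : E3 × E3 => cross p.1 p.2 := by
  unfold cross
  fun_prop

lemma LipField.continuous_e (H : LipField e β a b K) {t : ℝ} (ht : t ∈ Icc a b) :
    Continuous (e t) := by
  have : LipschitzWith K.toNNReal (e t) := by
    refine LipschitzWith.of_dist_le_mul fun x y => ?_
    have := H.e_lip t ht t ht x y
    rw [sub_self, abs_zero, zero_add] at this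
    rwa [dist_eq_norm, dist_eq_norm, Real.coe_toNNReal _ H.K_nonneg]
  exact this.continuous

lemma LipField.continuous_b (H : LipField e β a b K) {t : ℝ} (ht : t ∈ Icc a b) :
    Continuous (β t) := by
  have : LipschitzWith K.toNNReal (β t) := by
    refine LipschitzWith.of_dist_le_mul fun x y => ?_
    have := H.b_lip t ht t ht x y
    rw [sub_self, abs_zero, zero_add] at this
    rwa [dist_eq_norm, dist_eq_norm, Real.coe_toNNReal _ H.K_nonneg]
  exact this.continuous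

lemma LipField.stepB_nonExp (H : LipField e β a b K) {h s : ℝ} (hh : 0 ≤ h) (hhK : h * K < 1)
    (hs : s ∈ Icc a b) :
    NonExp ((volume : Measure E3).prod (volume : Measure E3)) (stepB e β h s) := by
  have h1 : NonExp ((volume : Measure E3).prod (volume : Measure E3))
      (fun z : E3 × E3 => (z.1, z.2 - h • lor (e s z.1) (β s z.1) z.2)) := by
    refine nonExp_snd (g := fun x v => v - h • lor (e s x) (β s x) v) ?_ fun x => ?_
    · apply Continuous.measurable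
      refine continuous_snd.sub (Continuous.const_smul ?_ h)
      have c1 : Continuous fun z : E3 × E3 => u z.2 := contDiff_uu.continuous.comp continuous_snd
      have c2 : Continuous fun z : E3 × E3 => β s z.1 := (H.continuous_b hs).comp continuous_fst
      have c3 : Continuous fun z : E3 × E3 => e s z.1 := (H.continuous_e hs).comp continuous_fst
      exact c3.add (continuous_cross2.comp (c1.prodMk c2))
    · apply nonExp_kick
      rw [abs_of_nonneg hh]
      exact (mul_le_mul_of_nonneg_left (H.b_le s hs x) hh).trans_lt hhK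
  have h2 := NonExp.comp h1 (nonExp_drift h)
  exact h2

/-- Liouville's theorem (one inequality): the map `α(τ) ↦ α(a)` is nonexpanding. -/
theorem LipField.back_nonExp (H : LipField e β a b K) {τ : ℝ} (hτ : τ ∈ Icc a b)
    {A : E3 × E3 → ℝ → E3 × E3} (hA : ∀ z, Traj e β a b (A z)) (hAτ : ∀ z, A z τ = z) :
    NonExp ((volume : Measure E3).prod (volume : Measure E3)) (fun z => A z a) := by
  have hK := H.K_nonneg
  have hL : 0 ≤ τ - a := sub_nonneg.2 hτ.1
  have ha : a ∈ Icc a b := ⟨le_rfl, hτ.1.trans hτ.2⟩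
  have hmem : ∀ r ∈ Icc 0 (τ - a), τ - r ∈ Icc a b := fun r hr =>
    ⟨by linarith only [hr.2], by linarith only [hr.1, hτ.2]⟩
  have key : ∀ z, Tendsto (fun N : ℕ => scheme (fun r => stepB e β ((τ - a) / N) (τ - r))
      ((τ - a) / N) N z) atTop (𝓝 (A z a)) := by
    intro z
    have h1 := scheme_tendsto (F := fun r z => - fieldG e β (τ - r) z) (K := 1 + 3 * K)
      (K₂ := (1 + 3 * K) * (1 + (1 + 2 * K))) (M := 1 + 3 * K) (L := τ - a)
      (γ := fun r => A z (τ - r)) (Ψ := fun h r => stepB e β h (τ - r))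
      (by positivity) (by positivity) (by positivity) hL ?_ ?_ ?_
    · simpa only [sub_zero, hAτ, sub_sub_cancel] using h1
    · intro r hr z z'
      have := H.lip (hmem r hr) (hmem r hr) z z'
      rw [sub_self, abs_zero, zero_add] at this
      rw [neg_sub_neg, norm_sub_rev]
      exact this
    · intro r hr r' hr' _
      have := (hA z).local_error H (hmem r hr) (hmem r' hr')
      have e1 : (τ - r' - (τ - r)) = -(r' - r) := by ring
      rw [e1, neg_sq, neg_smul] at this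
      simpa only [smul_neg] using this
    · intro h hh r hr z
      exact H.step_error hh (hmem r hr) z
  refine nonExp_of_tendsto ?_ key
  have hlim : Tendsto (fun N : ℕ => (τ - a) / (N : ℝ) * K) atTop (𝓝 (0 * K)) :=
    (tendsto_const_div_atTop_nhds_zero_nat (τ - a)).mul_const K
  rw [zero_mul] at hlim
  filter_upwards [hlim.eventually (gt_mem_nhds one_pos), eventually_gt_atTop 0] with N hN hN0
  have hN' : (0 : ℝ) < N := by exact_mod_cast hN0
  refine scheme_nonExp (L := τ - a) (by (clear * - hL hN0; positivity)) (fun r hr => ?_) N ?_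
  · exact H.stepB_nonExp (by (clear * - hL hN0; positivity)) hN (hmem r hr)
  · rw [mul_div_cancel₀ _ hN'.ne']

end part2

section part3

variable {T : ℝ} {f : ℝ → E3 → E3 → ℝ} {E B : ℝ → E3 → E3}

/-- Cut-off coefficients are bounded and Lipschitz. -/
lemma exists_cut_lip {F : ℝ → E3 → E3}
    (hF : ContDiffOn ℝ 1 (fun z : ℝ × E3 => F z.1 z.2) (Ico 0 T ×ˢ univ))
    {χ : E3 → ℝ} (hχ : ContDiff ℝ 1 χ) {R : ℝ} (hR : ∀ x, R ≤ ‖x‖ → χ x = 0)
    {a b : ℝ} (ha : 0 < a) (hb : b < T) :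
    ∃ K : ℝ, 0 ≤ K ∧ (∀ t ∈ Icc a b, ∀ x, ‖χ x • F t x‖ ≤ K) ∧
      ∀ t ∈ Icc a b, ∀ t' ∈ Icc a b, ∀ x x',
        ‖χ x • F t x - χ x' • F t' x'‖ ≤ K * (|t - t'| + ‖x - x'‖) := by
  have hsub : Icc a b ⊆ Ioo 0 T := fun s hs => ⟨ha.trans_le hs.1, hs.2.trans_lt hb⟩
  set G : ℝ × E3 → E3 := fun z => χ z.2 • F z.1 z.2 with hG
  have hGc : ContDiffOn ℝ 1 G (Ioo 0 T ×ˢ univ) :=
    (hχ.comp contDiff_snd).contDiffOn.smul (hF.mono (prod_mono Ioo_subset_Ico_self le_rfl))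
  have hopen : IsOpen (Ioo 0 T ×ˢ (univ : Set E3)) := isOpen_Ioo.prod isOpen_univ
  have hK : IsCompact (Icc a b ×ˢ Metric.closedBall (0 : E3) (R + 1)) :=
    isCompact_Icc.prod (isCompact_closedBall _ _)
  have hKsub : Icc a b ×ˢ Metric.closedBall (0 : E3) (R + 1) ⊆ Ioo 0 T ×ˢ univ :=
    prod_mono hsub (subset_univ _)
  obtain ⟨K₁, hK₁⟩ := hK.exists_bound_of_continuousOn (hGc.continuousOn.mono hKsub)
  obtain ⟨K₂, hK₂⟩ := hK.exists_bound_of_continuousOn
    ((hGc.continuousOn_fderiv_of_isOpen hopen (by norm_num)).mono hKsub)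
  have hout : ∀ z : ℝ × E3, R < ‖z.2‖ → fderiv ℝ G z = 0 := by
    intro z hz
    have h1 : G =ᶠ[𝓝 z] fun _ => 0 := by
      have h2 : {z : ℝ × E3 | R < ‖z.2‖} ∈ 𝓝 z :=
        (isOpen_lt continuous_const (continuous_norm.comp continuous_snd)).mem_nhds hz
      filter_upwards [h2] with y hy
      simp only [hG]
      rw [hR y.2 (le_of_lt hy), zero_smul]
    rw [h1.fderiv_eq]
    simp
  have hb1 : ∀ z ∈ Icc a b ×ˢ (univ : Set E3), ‖fderiv ℝ G z‖ ≤ max K₁ K₂ ⊔ 0 := by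
    intro z hz
    rcases le_or_gt ‖z.2‖ R with h | h
    · exact (hK₂ z ⟨hz.1, by rw [mem_closedBall_zero_iff]; linarith only [h]⟩).trans
        ((le_max_right _ _).trans (le_max_left _ _))
    · rw [hout z h, norm_zero]
      exact le_max_right _ _
  refine ⟨max K₁ K₂ ⊔ 0, le_max_right _ _, ?_, ?_⟩
  · intro t ht x
    rcases le_or_gt ‖x‖ R with h | h
    · exact (hK₁ (t, x) ⟨ht, by
        change x ∈ Metric.closedBall (0 : E3) (R + 1)
        rw [mem_closedBall_zero_iff]; linarith only [h]⟩).trans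
        ((le_max_left _ _).trans (le_max_left _ _))
    · rw [hR x h.le, zero_smul, norm_zero]
      exact le_max_right _ _
  · intro t ht t' ht' x x'
    have h1 := ((convex_Icc a b).prod (convex_univ (𝕜 := ℝ) (E := E3))
      ).norm_image_sub_le_of_norm_hasFDerivWithin_le (f := G) (f' := fderiv ℝ G)
      (fun z hz => (((hGc.contDiffAt (hopen.mem_nhds ⟨hsub hz.1, hz.2⟩)).differentiableAt
        (by norm_num)).hasFDerivAt).hasFDerivWithinAt) hb1
      (⟨ht', mem_univ _⟩ : (t', x') ∈ Icc a b ×ˢ (univ : Set E3))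
      (⟨ht, mem_univ _⟩ : (t, x) ∈ Icc a b ×ˢ (univ : Set E3))
    refine h1.trans ?_
    refine mul_le_mul_of_nonneg_left ?_ (le_max_right _ _)
    rw [Prod.norm_def]
    refine max_le ?_ ?_
    · change ‖t - t'‖ ≤ _
      rw [Real.norm_eq_abs]
      linarith only [norm_nonneg (x - x')]
    · change ‖x - x'‖ ≤ _
      linarith only [abs_nonneg (t - t')]

/-- The cut-off field is of Lorentz type, its trajectories exist, and it agrees with the true
field for `‖x‖ ≤ ρ`. -/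
lemma exists_cut_field (h : IsClassicalSolution T f E B) {a b : ℝ} (ha : 0 < a) (hb : b < T)
    (ρ : ℝ) :
    ∃ (e β : ℝ → E3 → E3) (K : ℝ), LipField e β a b K ∧
      (∀ t x, ‖x‖ ≤ ρ → e t x = E t x ∧ β t x = B t x) ∧
      ∀ τ ∈ Icc a b, ∀ z, ∃ α, Traj e β a b α ∧ α τ = z := by
  have hsub : Icc a b ⊆ Ioo 0 T := fun s hs => ⟨ha.trans_le hs.1, hs.2.trans_lt hb⟩
  have hsub' : Ioo 0 T ⊆ Ico 0 T := Ioo_subset_Ico_self
  let χ : ContDiffBump (0 : E3) := ⟨|ρ| + 1, |ρ| + 2, by positivity, by linarith only []⟩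
  have hχ : ContDiff ℝ 1 χ := χ.contDiff
  have hχ0 : ∀ x, |ρ| + 2 ≤ ‖x‖ → χ x = 0 := fun x hx => χ.zero_of_le_dist (by simpa using hx)
  obtain ⟨K₁, h10, h11, h12⟩ := exists_cut_lip h.E_contDiff hχ hχ0 ha hb
  obtain ⟨K₂, h20, h21, h22⟩ := exists_cut_lip h.B_contDiff hχ hχ0 ha hb
  set e : ℝ → E3 → E3 := fun t x => χ x • E t x with he
  set β : ℝ → E3 → E3 := fun t x => χ x • B t x with hβ
  have hL : LipField e β a b (max K₁ K₂) := by
    refine ⟨le_max_of_le_left h10, fun t ht x => (h11 t ht x).trans (le_max_left _ _),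
      fun t ht x => (h21 t ht x).trans (le_max_right _ _), fun t ht t' ht' x x' => ?_,
      fun t ht t' ht' x x' => ?_⟩
    · refine (h12 t ht t' ht' x x').trans ?_
      gcongr
      exact le_max_left _ _
    · refine (h22 t ht t' ht' x x').trans ?_
      gcongr
      exact le_max_right _ _
  refine ⟨e, β, max K₁ K₂, hL, fun t x hx => ?_, fun τ hτ z => ?_⟩
  · have : χ x = 1 := by
      apply χ.one_of_mem_closedBall
      rw [mem_closedBall_zero_iff]
      change ‖x‖ ≤ |ρ| + 1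
      linarith only [hx, le_abs_self ρ]
    simp [he, hβ, this]
  · have hG : ∀ t (z : E3 × E3), fieldG e β t z
        = (u z.2, χ z.1 • (E t z.1 + cross (u z.2) (B t z.1))) := by
      intro t z
      simp only [fieldG, lor, he, hβ, cross_smul_right, smul_add]
    have hGc : ContDiffOn ℝ 1 (fun y : ℝ × E3 × E3 => fieldG e β y.1 y.2) (Ioo 0 T ×ˢ univ) := by
      have hmap : MapsTo (fun y : ℝ × E3 × E3 => (y.1, y.2.1)) (Ioo 0 T ×ˢ univ)
          (Ico 0 T ×ˢ univ) := fun y hy => ⟨hsub' hy.1, mem_univ _⟩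
      have hE : ContDiffOn ℝ 1 (fun y : ℝ × E3 × E3 => E y.1 y.2.1) (Ioo 0 T ×ˢ univ) :=
        h.E_contDiff.comp (f := fun y : ℝ × E3 × E3 => (y.1, y.2.1)) (by fun_prop) hmap
      have hB : ContDiffOn ℝ 1 (fun y : ℝ × E3 × E3 => B y.1 y.2.1) (Ioo 0 T ×ˢ univ) :=
        h.B_contDiff.comp (f := fun y : ℝ × E3 × E3 => (y.1, y.2.1)) (by fun_prop) hmap
      have hu : ContDiffOn ℝ 1 (fun y : ℝ × E3 × E3 => u y.2.2) (Ioo 0 T ×ˢ univ) :=
        (u_contDiff.comp (contDiff_snd.comp contDiff_snd)).contDiffOn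
      have hc : ContDiffOn ℝ 1 (fun y : ℝ × E3 × E3 => cross (u y.2.2) (B y.1 y.2.1))
          (Ioo 0 T ×ˢ univ) := by
        rw [contDiffOn_euclidean] at hu hB ⊢
        intro i
        have h0 := hu 0
        have h1 := hu 1
        have h2 := hu 2
        have k0 := hB 0
        have k1 := hB 1
        have k2 := hB 2
        fin_cases i
        · exact (h1.mul k2).sub (h2.mul k1)
        · exact (h2.mul k0).sub (h0.mul k2)
        · exact (h0.mul k1).sub (h1.mul k0)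
      simp only [hG]
      refine hu.prodMk ?_
      exact ContDiffOn.smul (hχ.comp (contDiff_fst.comp contDiff_snd)).contDiffOn (hE.add hc)
    have hGL : ∀ t ∈ Icc a b, ∀ z, ‖fieldG e β t z‖ ≤ ((1 + 2 * max K₁ K₂).toNNReal : ℝ≥0) :=
      fun t ht z => (hL.norm_le ht z).trans (Real.le_coe_toNNReal _)
    obtain ⟨α, hα, hα'⟩ := exists_solution_of_bounded ha hb hGc hGL ⟨τ, hτ⟩ z
    exact ⟨α, hα', hα⟩

/-- Uniqueness and Lipschitz dependence, forward in time. -/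
lemma Traj.dist_le {e β : ℝ → E3 → E3} {a b K : ℝ} (H : LipField e β a b K)
    {α α' : ℝ → E3 × E3} (hα : Traj e β a b α) (hα' : Traj e β a b α') {t : ℝ}
    (ht : t ∈ Icc a b) :
    dist (α t) (α' t) ≤ dist (α a) (α' a) * Real.exp ((1 + 3 * K) * (t - a)) := by
  have hK := H.K_nonneg
  have hd : ∀ {γ : ℝ → E3 × E3}, Traj e β a b γ → ∀ t ∈ Ico a b,
      HasDerivWithinAt γ (fieldG e β t (γ t)) (Ici t) t := by
    intro γ hγ t ht
    refine (hγ t ⟨ht.1, ht.2.le⟩).mono_of_mem_nhdsWithin ?_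
    exact mem_of_superset (Icc_mem_nhdsGE ht.2) (Icc_subset_Icc_left ht.1)
  have := dist_le_of_trajectories_ODE_of_mem (v := fieldG e β) (s := fun _ => univ)
    (K := (1 + 3 * K).toNNReal) (f := α) (g := α') (a := a) (b := b) (δ := dist (α a) (α' a))
    (fun t ht => ?_) (fun t ht => (hα t ht).continuousWithinAt) (hd hα) (fun _ _ => mem_univ _)
    (fun t ht => (hα' t ht).continuousWithinAt) (hd hα') (fun _ _ => mem_univ _) le_rfl t ht
  · rwa [Real.coe_toNNReal _ (by positivity)] at this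
  · refine LipschitzOnWith.of_dist_le_mul fun z _ z' _ => ?_
    rw [dist_eq_norm, dist_eq_norm, Real.coe_toNNReal _ (by positivity)]
    have := H.lip (Ico_subset_Icc_self ht) (Ico_subset_Icc_self ht) z z'
    rwa [sub_self, abs_zero, zero_add] at this

/-- Module Lv. Liouville's theorem and counting. -/
theorem counting {T : ℝ} {f : ℝ → E3 → E3 → ℝ} {E B : ℝ → E3 → E3}
    (h : IsClassicalSolution T f E B) (hT : 0 < T) :
    ∃ M : ℝ≥0, ∀ a b : ℝ, 0 < a → a ≤ b → b < T → ∀ S : Set (ℝ × E3 × E3), MeasurableSet S →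
      ∀ (ℓ : ℝ≥0∞) (Q : ℝ), 0 < Q →
      (∀ X V : ℝ → E3, IsChar E B X V a b → f a (X a) (V a) ≠ 0 →
        volume {τ | τ ∈ Icc a b ∧ (τ, X τ, V τ) ∈ S} ≤ ℓ ∧
        ((∃ τ ∈ Icc a b, (τ, X τ, V τ) ∈ S) → Q ≤ q (V a))) →
      ∫⁻ τ in Icc a b, ∫⁻ x, ∫⁻ v, S.indicator (fun _ => ENNReal.ofReal (f τ x v)) (τ, x, v)
        ≤ ℓ * M * ENNReal.ofReal Q⁻¹ := by
  obtain ⟨M, hM⟩ := energy_bound hT h
  refine ⟨M, fun a b ha hab hb S hS ℓ Q hQ hchar => ?_⟩
  have hsub : Icc a b ⊆ Ico 0 T := fun s hs => ⟨(ha.trans_le hs.1).le, hs.2.trans_lt hb⟩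
  have haab : a ∈ Icc a b := ⟨le_rfl, hab⟩
  -- the support
  obtain ⟨R, hR⟩ := h.compact_support b ⟨(ha.trans_le hab).le, hb⟩
  have hsupp : ∀ s ∈ Icc a b, ∀ x v, R < ‖x‖ → f s x v = 0 := by
    intro s hs x v hx
    by_contra hne
    have := (hR s ⟨(ha.trans_le hs.1).le, hs.2⟩ x v hne).1
    linarith only [hx, this]
  obtain ⟨e, β, K, hF, hagree, hex⟩ := exists_cut_field h ha hb (R + 2 * (b - a))
  have hK := hF.K_nonneg
  choose A hA hAτ using hex
  -- forward flow from time `a`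
  set Φ : ℝ → E3 × E3 → E3 × E3 := fun τ z => A a haab z (projIcc a b hab τ) with hΦ
  have hΦe : ∀ τ ∈ Icc a b, ∀ z, Φ τ z = A a haab z τ := by
    intro τ hτ z
    simp only [hΦ, projIcc_of_mem hab hτ]
  have hΦc : Continuous fun y : ℝ × (E3 × E3) => Φ y.1 y.2 := by
    have h1 := continuous_prod_of_continuous_lipschitzWith (fun y : (E3 × E3) × ℝ => Φ y.2 y.1)
      (Real.exp ((1 + 3 * K) * (b - a))).toNNReal ?_ ?_
    · exact h1.comp continuous_swap
    · intro z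
      have hc : ContinuousOn (A a haab z) (Icc a b) := fun t ht =>
        (hA a haab z t ht).continuousWithinAt
      exact (continuousOn_iff_continuous_domRestrict.1 hc).comp continuous_projIcc
    · intro τ
      refine LipschitzWith.of_dist_le_mul fun z z' => ?_
      set t : ℝ := (projIcc a b hab τ : ℝ) with ht
      have htm : t ∈ Icc a b := (projIcc a b hab τ).2
      have := (hA a haab z).dist_le hF (hA a haab z') htm
      rw [hAτ, hAτ] at this
      rw [Real.coe_toNNReal _ (Real.exp_pos _).le, mul_comm]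
      refine this.trans ?_
      gcongr
      exact htm.2
  -- the forward flow inverts the backward flow
  have hinv : ∀ τ (hτ : τ ∈ Icc a b) z, Φ τ (A τ hτ z a) = z := by
    intro τ hτ z
    rw [hΦe τ hτ]
    have := (hA a haab (A τ hτ z a)).dist_le hF (hA τ hτ z) hτ
    rw [hAτ, hAτ, dist_self, zero_mul] at this
    exact dist_le_zero.1 this
  -- position of the trajectories
  have hpos : ∀ z, ∀ τ ∈ Icc a b, ‖(A a haab z τ).1 - z.1‖ ≤ b - a := by
    intro z τ hτ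
    have h1 : ∀ s ∈ Icc a b, HasDerivWithinAt (fun s => (A a haab z s).1)
        (u (A a haab z s).2) (Icc a b) s := fun s hs => (hA a haab z s hs).fst
    have h2 := (convex_Icc a b).norm_image_sub_le_of_norm_hasDerivWithin_le (C := 1) h1
      (fun s _ => (norm_u_lt_one _).le) haab hτ
    rw [hAτ, one_mul, Real.norm_eq_abs] at h2
    refine h2.trans ?_
    rw [abs_of_nonneg (by linarith only [hτ.1])]
    linarith only [hτ.2]
  -- true characteristics
  have hchar' : ∀ z : E3 × E3, ‖z.1‖ ≤ R + (b - a) →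
      IsChar E B (fun s => (A a haab z s).1) (fun s => (A a haab z s).2) a b := by
    intro z hz
    refine ⟨fun s hs => (hA a haab z s hs).fst, fun s hs => ?_⟩
    have h1 : HasDerivWithinAt (fun s => (A a haab z s).2)
        (lor (e s (A a haab z s).1) (β s (A a haab z s).1) (A a haab z s).2) (Icc a b) s :=
      (hA a haab z s hs).snd
    have h2 : ‖(A a haab z s).1‖ ≤ R + 2 * (b - a) := by
      have h3 := hpos z s hs
      have h4 := norm_le_norm_add_norm_sub' (A a haab z s).1 z.1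
      linarith only [hz, h3, h4]
    rw [(hagree s _ h2).1, (hagree s _ h2).2] at h1
    exact h1
  have hconst : ∀ z, ∀ τ ∈ Icc a b, f τ (Φ τ z).1 (Φ τ z).2 = f a z.1 z.2 := by
    intro z τ hτ
    rw [hΦe τ hτ]
    rcases le_or_gt ‖z.1‖ (R + (b - a)) with hz | hz
    · have h1 := h.const_along ha hb (hchar' z hz).hX (hchar' z hz).hV hτ haab
      simp only [hAτ] at h1
      exact h1
    · have h3 := hpos z τ hτ
      have h4 := norm_le_norm_add_norm_sub (A a haab z τ).1 z.1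
      rw [hsupp τ hτ _ _ (by linarith only [hz, h3, h4]), hsupp a haab _ _ (by linarith only [hab, hz])]
  -- the integrand
  set g : ℝ × (E3 × E3) → ℝ≥0∞ := fun y =>
    ENNReal.ofReal (f (projIcc a b hab y.1) y.2.1 y.2.2) with hg
  have hgm : Measurable g := by
    apply Measurable.ennreal_ofReal
    apply Continuous.measurable
    have h1 : Continuous fun y : ℝ × (E3 × E3) => ((projIcc a b hab y.1 : ℝ), y.2) :=
      ((continuous_subtype_val.comp continuous_projIcc).comp continuous_fst).prodMk continuous_snd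
    exact h.f_contDiff.continuousOn.comp_continuous h1
      (fun y => ⟨hsub (projIcc a b hab y.1).2, mem_univ _⟩)
  have hge : ∀ τ ∈ Icc a b, ∀ z : E3 × E3, g (τ, z) = ENNReal.ofReal (f τ z.1 z.2) := by
    intro τ hτ z
    simp only [hg, projIcc_of_mem hab hτ]
  set G : ℝ × (E3 × E3) → ℝ≥0∞ := S.indicator g with hGdef
  have hGm : Measurable G := hgm.indicator hS
  have e1 : ∫⁻ τ in Icc a b, ∫⁻ x, ∫⁻ v, S.indicator (fun _ => ENNReal.ofReal (f τ x v)) (τ, x, v)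
      = ∫⁻ τ in Icc a b, ∫⁻ z, G (τ, z) ∂((volume : Measure E3).prod (volume : Measure E3)) := by
    refine setLIntegral_congr_fun measurableSet_Icc fun τ hτ => ?_
    have hGτ : Measurable fun z : E3 × E3 => G (τ, z) :=
      hGm.comp (measurable_const.prodMk measurable_id)
    rw [lintegral_prod _ hGτ.aemeasurable]
    refine lintegral_congr fun x => lintegral_congr fun v => ?_
    simp only [hGdef, indicator]
    split_ifs
    · exact (hge τ hτ (x, v)).symm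
    · rfl
  rw [e1]
  -- Liouville
  have e2 : ∫⁻ τ in Icc a b, ∫⁻ z, G (τ, z) ∂((volume : Measure E3).prod (volume : Measure E3))
      ≤ ∫⁻ τ in Icc a b, ∫⁻ z, G (τ, Φ τ z) ∂((volume : Measure E3).prod (volume : Measure E3)) := by
    refine setLIntegral_mono' measurableSet_Icc fun τ hτ => ?_
    have h1 := (hF.back_nonExp hτ (hA τ hτ) (hAτ τ hτ)).lintegral_le
      (F := fun z => G (τ, Φ τ z)) (hGm.comp (measurable_const.prodMk
        (hΦc.comp (continuous_const.prodMk continuous_id)).measurable))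
    refine le_trans (le_of_eq ?_) h1
    refine lintegral_congr fun z => ?_
    rw [hinv]
  refine e2.trans ?_
  have hGΦ : Measurable fun y : ℝ × (E3 × E3) => G (y.1, Φ y.1 y.2) :=
    hGm.comp (measurable_fst.prodMk hΦc.measurable)
  rw [lintegral_lintegral_swap (f := fun τ z => G (τ, Φ τ z)) hGΦ.aemeasurable]
  -- bound for each trajectory
  have e3 : ∀ z : E3 × E3, ∫⁻ τ in Icc a b, G (τ, Φ τ z)
      ≤ ℓ * ENNReal.ofReal Q⁻¹ * ENNReal.ofReal (q z.2 * f a z.1 z.2) := by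
    intro z
    have h1 : ∫⁻ τ in Icc a b, G (τ, Φ τ z)
        = ∫⁻ τ in Icc a b, {τ | (τ, Φ τ z) ∈ S}.indicator
            (fun _ => ENNReal.ofReal (f a z.1 z.2)) τ := by
      refine setLIntegral_congr_fun measurableSet_Icc fun τ hτ => ?_
      by_cases hm : (τ, Φ τ z) ∈ S
      · rw [hGdef, indicator_of_mem hm, indicator_of_mem (show τ ∈ {τ | (τ, Φ τ z) ∈ S} from hm),
          hge τ hτ, hconst z τ hτ]
      · rw [hGdef, indicator_of_notMem hm,
          indicator_of_notMem (show τ ∉ {τ | (τ, Φ τ z) ∈ S} from hm)]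
    have hSm : MeasurableSet {τ | (τ, Φ τ z) ∈ S} := by
      have hc : Continuous fun τ => (τ, Φ τ z) :=
        continuous_id.prodMk (hΦc.comp (continuous_id.prodMk continuous_const))
      exact hc.measurable hS
    rw [h1, lintegral_indicator hSm, setLIntegral_const, Measure.restrict_apply hSm]
    by_cases hf0 : f a z.1 z.2 = 0
    · rw [hf0, ENNReal.ofReal_zero, zero_mul]
      exact zero_le
    have hz : ‖z.1‖ ≤ R + (b - a) := by
      have := (hR a ⟨ha.le, hab⟩ _ _ hf0).1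
      linarith only [hab, this]
    obtain ⟨k1, k2⟩ := hchar _ _ (hchar' z hz) (by simpa only [hAτ] using hf0)
    have hset : {τ | (τ, Φ τ z) ∈ S} ∩ Icc a b
        = {τ | τ ∈ Icc a b ∧ (τ, (A a haab z τ).1, (A a haab z τ).2) ∈ S} := by
      ext τ
      simp only [mem_inter_iff, mem_ofPred_eq]
      constructor
      · rintro ⟨h2, h3⟩
        rw [hΦe τ h3] at h2
        exact ⟨h3, h2⟩
      · rintro ⟨h3, h2⟩
        rw [hΦe τ h3]
        exact ⟨h2, h3⟩
    rw [hset]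
    by_cases hne : ∃ τ ∈ Icc a b, (τ, (A a haab z τ).1, (A a haab z τ).2) ∈ S
    · have h5 := k2 hne
      simp only [hAτ] at h5
      have hfn : 0 ≤ f a z.1 z.2 := h.f_nonneg a (hsub haab) _ _
      have h6 : ENNReal.ofReal (f a z.1 z.2)
          ≤ ENNReal.ofReal Q⁻¹ * ENNReal.ofReal (q z.2 * f a z.1 z.2) := by
        rw [← ENNReal.ofReal_mul (by positivity)]
        refine ENNReal.ofReal_le_ofReal ?_
        rw [← mul_assoc]
        refine le_mul_of_one_le_left hfn ?_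
        rw [inv_mul_eq_div, one_le_div hQ]
        exact h5
      calc ENNReal.ofReal (f a z.1 z.2) * _
          ≤ (ENNReal.ofReal Q⁻¹ * ENNReal.ofReal (q z.2 * f a z.1 z.2)) * ℓ := by (clear * - k1 h6; gcongr)
        _ = _ := by ring
    · have h7 : {τ | τ ∈ Icc a b ∧ (τ, (A a haab z τ).1, (A a haab z τ).2) ∈ S} = ∅ := by
        ext τ
        simp only [mem_ofPred_eq, mem_empty_iff_false, iff_false]
        rintro ⟨h8, h9⟩
        exact hne ⟨τ, h8, h9⟩
      rw [h7, measure_empty, mul_zero]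
      exact zero_le
  refine (lintegral_mono e3).trans ?_
  have hqm : Measurable fun z : E3 × E3 => ENNReal.ofReal (q z.2 * f a z.1 z.2) :=
    ((continuous_q.comp continuous_snd).mul (h.f_slice (hsub haab)).continuous).measurable.ennreal_ofReal
  rw [lintegral_const_mul _ hqm, lintegral_prod _ hqm.aemeasurable]
  calc ℓ * ENNReal.ofReal Q⁻¹ * _ ≤ ℓ * ENNReal.ofReal Q⁻¹ * M := by
        gcongr
        exact (hM a (hsub haab)).2.2
    _ = _ := by ring

end part3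

end Vale.Agent.P107
end
end
end

section

section

attribute [-instance] ProperSMul.toContinuousSMul IsTopologicalTorsor.toContinuousSMul
  IdemSemiring.toCanonicallyOrderedAdd IdemSemiring.toMulLeftMono IdemSemiring.toMulRightMono
  AddQuantale.instAddLeftMono AddQuantale.instAddRightMono Quantale.instMulLeftMono
  Quantale.instMulRightMono FiniteDimensional.rclike_to_real IsScalarTower.complexToReal
  FiniteDimensional.complexToReal

section

/-!
M1b: the mass of a cell, bounded by the stay lemma and counting.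
-/

open MeasureTheory Set Filter Topology
open scoped RealInnerProductSpace ENNReal NNReal

namespace Vale.Agent.P107

open Vale.Agent.P107.Ar

namespace MSt

lemma abs_q_sub_le (x y : E3) : |q x - q y| ≤ ‖x - y‖ := by
  have h1 := q_sq x
  have h2 := q_sq y
  have h3 := q_pos x
  have h4 := q_pos y
  have h5 := norm_lt_q x
  have h6 := norm_lt_q y
  have h7 := abs_norm_sub_norm_le x y
  have h8 : |q x - q y| * (q x + q y) = |‖x‖ - ‖y‖| * (‖x‖ + ‖y‖) := by
    have e1 : |q x - q y| * (q x + q y) = |q x ^ 2 - q y ^ 2| := by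
      rw [← abs_of_pos (add_pos h3 h4), ← abs_mul]
      congr 1
      ring
    have e2 : |‖x‖ - ‖y‖| * (‖x‖ + ‖y‖) = |‖x‖ ^ 2 - ‖y‖ ^ 2| := by
      have h9 : 0 ≤ ‖x‖ + ‖y‖ := by (clear * -; positivity)
      rw [← abs_of_nonneg h9, ← abs_mul]
      congr 1
      ring
    rw [e1, e2, h1, h2]
    congr 1
    ring
  have h9 : |‖x‖ - ‖y‖| * (‖x‖ + ‖y‖) ≤ ‖x - y‖ * (q x + q y) :=
    mul_le_mul h7 (by linarith only [h5, h6]) (by (clear * -; positivity)) (norm_nonneg _)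
  rw [← h8] at h9
  exact le_of_mul_le_mul_right h9 (by linarith only [h3, h4])

lemma norm_u_sub_le_div (x y : E3) : ‖u x - u y‖ ≤ 2 * ‖x - y‖ / q x := by
  have hx := q_pos x
  have hy := q_pos y
  have e : u x - u y = (q x)⁻¹ • (x - y) + ((q x)⁻¹ * (q y - q x)) • u y := by
    unfold u
    rw [smul_smul, smul_sub]
    have : (q x)⁻¹ * (q y - q x) * (q y)⁻¹ = (q x)⁻¹ - (q y)⁻¹ := by
      field_simp
    rw [this, sub_smul]
    abel
  rw [e]
  refine (norm_add_le _ _).trans ?_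
  rw [norm_smul, norm_smul, Real.norm_eq_abs, Real.norm_eq_abs, abs_mul, abs_of_pos (inv_pos.2 hx)]
  have h1 := abs_q_sub_le y x
  rw [norm_sub_rev] at h1
  have h2 := (norm_u_lt_one y).le
  have h3 : (q x)⁻¹ * |q y - q x| * ‖u y‖ ≤ (q x)⁻¹ * ‖x - y‖ * 1 := by
    gcongr
  calc (q x)⁻¹ * ‖x - y‖ + (q x)⁻¹ * |q y - q x| * ‖u y‖
      ≤ (q x)⁻¹ * ‖x - y‖ + (q x)⁻¹ * ‖x - y‖ * 1 := by linarith only [h3]
    _ = 2 * ‖x - y‖ / q x := by
        rw [div_eq_inv_mul]; ring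

lemma qq_pos' (p i : ℕ) : 0 < qq p i := by unfold qq; positivity

lemma le_of_good {p i : ℕ} (h : 12 * i ≤ 5 * p) : i ≤ p := by omega

lemma one_le_qq {p i : ℕ} (h : 12 * i ≤ 5 * p) : 1 ≤ qq p i := by
  unfold qq
  rw [one_le_div (by positivity)]
  exact pow_le_pow_right₀ (by norm_num) (le_of_good h)

lemma inv_qq_le_ee {p i : ℕ} (h : 12 * i ≤ 5 * p) : (qq p i)⁻¹ ≤ Ar.ee p i := by
  unfold Ar.ee
  rw [← Real.rpow_neg_one]
  exact Real.rpow_le_rpow_of_exponent_le (one_le_qq h) (by norm_num)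

/-- Good classes have large momentum. -/
lemma qq_large {p i : ℕ} (h : 12 * i ≤ 5 * p) : (p : ℝ) / 4 ≤ qq p i / 2 := by
  have h1 : i ≤ p := le_of_good h
  have h2 : qq p i = 2 ^ (p - i) := by
    unfold qq
    rw [div_eq_iff (by positivity), ← pow_add]
    congr 1
    omega
  have h3 : ((p - i : ℕ) : ℝ) ≤ 2 ^ (p - i) := by
    have := Nat.lt_two_pow_self (n := p - i)
    exact_mod_cast this.le
  have h4 : (p : ℝ) ≤ 2 * ((p - i : ℕ) : ℝ) := by
    have : p ≤ 2 * (p - i) := by omega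
    exact_mod_cast this
  rw [h2]
  linarith only [h3, h4]

/-- Covering an interval by short windows. -/
lemma split_windows (g : ℝ → ℝ≥0∞) {α β δ : ℝ} (hαβ : α ≤ β) (hδ : 0 < δ) (D : ℝ≥0∞)
    (hD : ∀ a b : ℝ, α ≤ a → a ≤ b → b ≤ β → b - a ≤ δ → ∫⁻ τ in Icc a b, g τ ≤ D) :
    ∫⁻ τ in Icc α β, g τ ≤ ENNReal.ofReal (1 + (β - α) / δ) * D := by
  set N : ℕ := ⌊(β - α) / δ⌋₊ + 1 with hN
  have hN0 : (0 : ℝ) < N := by rw [hN]; positivity
  have hq0 : 0 ≤ (β - α) / δ := div_nonneg (by linarith only [hαβ]) hδ.le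
  have hNle : (N : ℝ) ≤ 1 + (β - α) / δ := by
    rw [hN]
    push_cast
    have := Nat.floor_le hq0
    linarith only [this]
  have hNgt : (β - α) / δ < N := by
    rw [hN]
    push_cast
    exact Nat.lt_floor_add_one _
  set w : ℝ := (β - α) / N with hw
  have hw0 : 0 ≤ w := div_nonneg (by linarith only [hαβ]) hN0.le
  have hwδ : w ≤ δ := by
    rw [hw, div_le_iff₀ hN0]
    rw [div_lt_iff₀ hδ] at hNgt
    linarith only [hNgt]
  have hNw : N * w = β - α := by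
    rw [hw]
    field_simp
  have hcover : Icc α β ⊆ ⋃ r ∈ Finset.range N, Icc (α + r * w) (α + (r + 1) * w) := by
    intro τ hτ
    simp only [mem_iUnion, Finset.mem_range]
    rcases hw0.eq_or_lt with h0 | hpos
    · refine ⟨0, by omega, ?_⟩
      have : β = α := by
        rw [← h0] at hNw
        linarith only [hNw]
      rw [← h0]
      rw [this] at hτ
      simpa using hτ
    · set r : ℕ := ⌊(τ - α) / w⌋₊ with hr
      have hr0 : 0 ≤ (τ - α) / w := div_nonneg (by linarith only [hτ.1]) hw0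
      have h1 : (r : ℝ) * w ≤ τ - α := by
        have := Nat.floor_le hr0
        rw [← hr] at this
        rwa [le_div_iff₀ hpos] at this
      have h2 : τ - α < (r + 1) * w := by
        have := Nat.lt_floor_add_one ((τ - α) / w)
        rw [← hr] at this
        rwa [div_lt_iff₀ hpos] at this
      by_cases hrN : r < N
      · exact ⟨r, hrN, by linarith only [h1], by linarith only [h2]⟩
      · have h3 : N ≤ r := not_lt.1 hrN
        have h4 : (N : ℝ) * w ≤ r * w := by (clear * - hpos h3; gcongr)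
        have h5 : τ = β := by
          have := hτ.2
          linarith only [hNw, h1, h4, this]
        refine ⟨N - 1, by omega, ?_, ?_⟩
        · have h6 : ((N - 1 : ℕ) : ℝ) = N - 1 := by
            rw [Nat.cast_sub (by omega)]
            simp
          rw [h6, h5]
          nlinarith only [hNw, hpos]
        · have h6 : ((N - 1 : ℕ) : ℝ) = N - 1 := by
            rw [Nat.cast_sub (by omega)]
            simp
          rw [h6, h5]
          linarith only [hNw]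
  calc ∫⁻ τ in Icc α β, g τ
      ≤ ∫⁻ τ in ⋃ r ∈ Finset.range N, Icc (α + r * w) (α + (r + 1) * w), g τ :=
        lintegral_mono_set hcover
    _ ≤ ∑ r ∈ Finset.range N, ∫⁻ τ in Icc (α + r * w) (α + (r + 1) * w), g τ := by
        have h1 : (volume : Measure ℝ).restrict
            (⋃ r ∈ Finset.range N, Icc (α + r * w) (α + (r + 1) * w))
            ≤ ∑ r ∈ Finset.range N, volume.restrict (Icc (α + r * w) (α + (r + 1) * w)) := by
          refine Measure.le_iff.2 fun s hs => ?_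
          rw [Measure.restrict_apply hs, Measure.finsetSum_apply]
          have h2 : s ∩ (⋃ r ∈ Finset.range N, Icc (α + r * w) (α + (r + 1) * w))
              = ⋃ r ∈ Finset.range N, (s ∩ Icc (α + r * w) (α + (r + 1) * w)) := by
            simp only [inter_iUnion]
          rw [h2]
          refine (measure_biUnion_finset_le _ _).trans (Finset.sum_le_sum fun r _ => ?_)
          rw [Measure.restrict_apply hs]
        refine (lintegral_mono' h1 le_rfl).trans ?_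
        rw [lintegral_finsetSum_measure]
    _ ≤ ∑ _r ∈ Finset.range N, D := by
        refine Finset.sum_le_sum fun r hr => ?_
        have hrN : r < N := Finset.mem_range.1 hr
        have hr1 : ((r : ℝ) + 1) ≤ N := by exact_mod_cast hrN
        have h3 : 0 ≤ (r : ℝ) * w := by (clear * - α β δ hαβ N; positivity)
        have h4 : ((r : ℝ) + 1) * w ≤ N * w := by (clear * - α β δ hαβ hr1; gcongr)
        refine hD _ _ (by linarith only [h3]) (by nlinarith only [hw0]) (by linarith only [hNw, h4]) ?_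
        have : α + (r + 1) * w - (α + r * w) = w := by ring
        rw [this]
        exact hwδ
    _ = (N : ℝ≥0∞) * D := by
        rw [Finset.sum_const, Finset.card_range, nsmul_eq_mul]
    _ ≤ ENNReal.ofReal (1 + (β - α) / δ) * D := by
        gcongr
        rw [← ENNReal.ofReal_natCast]
        exact ENNReal.ofReal_le_ofReal hNle

variable {T : ℝ} {f : ℝ → E3 → E3 → ℝ} {E B : ℝ → E3 → E3}

lemma hasDeriv_of_char {X V : ℝ → E3} {a b : ℝ} (h : IsChar E B X V a b) :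
    ContinuousOn V (Icc a b) := fun s hs => (h.hV s hs).continuousWithinAt

/-- The bound of the stay time. -/
noncomputable def ell (R φ : ℝ) (m : ℕ) : ℝ :=
  (2 + 4 / φ + 128 / φ) * (R * (8 * √(2 * (1 / 4) ^ m) / φ + 4))

/-- The hypotheses on a set of `(s, z, v)` under which its mass is estimated. -/
def Cell (R : ℝ) (p m i : ℕ) (φ : ℝ) (V : ℝ → E3) (t₁ t₂ : ℝ) (c : Set (ℝ × E3 × E3)) : Prop :=
  ∀ y ∈ c, y.1 ∈ Icc t₁ t₂ ∧ (R / 2 < ‖y.2.1‖ ∧ ‖y.2.1‖ ≤ R) ∧
    alI m (al (dir y.2.1) (u (V y.1))) ∧ qI p i (q y.2.2) ∧ φ ≤ ‖u y.2.2 - u (V y.1)‖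

/-- One window: a characteristic stays in the image of the cell for a short time, and has large
momentum if it meets it. -/
lemma window {t₀ th c₁ : ℝ} {p j : ℕ} {X V : ℝ → E3} {t₁ t₂ : ℝ}
    (ctx : Ctx T f E B t₀ th c₁ p j X V t₁ t₂) {R φ : ℝ} {m i : ℕ} {c : Set (ℝ × E3 × E3)}
    (hR : 0 < R) (hφ : 0 < φ) (hi : 12 * i ≤ 5 * p)
    (hei : Ar.ee p i ≤ φ / 64) (hei' : Ar.ee p i ≤ 1 / 16) (hej : Ar.ee p j ≤ φ / 128)
    (hc : Cell R p m i φ V t₁ t₂ c) {S : Set (ℝ × E3 × E3)}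
    (hS : ∀ y ∈ S, ∃ s ∈ Icc t₁ t₂, ‖y.2.1 - X s‖ = s - y.1 ∧ (s, y.2.1 - X s, y.2.2) ∈ c)
    {a b : ℝ} (ha : t₀ ≤ a) (hab : a ≤ b) (hb : b ≤ th) (hlen : b - a ≤ dl c₁ p i)
    {X' V' : ℝ → E3} (hch : IsChar E B X' V' a b) (hf : f a (X' a) (V' a) ≠ 0) :
    volume {τ | τ ∈ Icc a b ∧ (τ, X' τ, V' τ) ∈ S} ≤ ENNReal.ofReal (ell R φ m) ∧
      ((∃ τ ∈ Icc a b, (τ, X' τ, V' τ) ∈ S) → qq p i / 4 ≤ q (V' a)) := by
  by_cases hex : ∃ τ ∈ Icc a b, (τ, X' τ, V' τ) ∈ S
  swap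
  · refine ⟨?_, fun h => absurd h hex⟩
    have : {τ | τ ∈ Icc a b ∧ (τ, X' τ, V' τ) ∈ S} = ∅ := by
      ext τ
      simp only [Set.mem_ofPred_eq, mem_empty_iff_false, iff_false]
      exact fun h => hex ⟨τ, h.1, h.2⟩
    rw [this, measure_empty]
    exact zero_le
  obtain ⟨τ₀, hτ₀, hτ₀S⟩ := hex
  have hqi := qq_pos' p i
  have hqj := qq_pos' p j
  have hqτ : qI p i (q (V' τ₀)) := by
    obtain ⟨s, _, _, hsc⟩ := hS _ hτ₀S
    exact (hc _ hsc).2.2.2.1
  obtain ⟨G, hGm, hGt, hGV⟩ := ctx.hgood i hi a b ha hab hb hlen X' V' hch hf ⟨τ₀, hτ₀, hqτ⟩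
  obtain ⟨G₀, hG₀m, hG₀t, hG₀V⟩ := ctx.hQV
  have hamem : a ∈ Icc a b := left_mem_Icc.2 hab
  have hbmem : b ∈ Icc a b := right_mem_Icc.2 hab
  -- the momentum of the source is large on the whole window
  have hlarge : ∀ s ∈ Icc a b, qq p i / 4 ≤ q (V' s) := by
    intro s hs
    have key : ‖V' s - V' τ₀‖ ≤ qq p i / 16 + Ar.ee p i * qq p i := by
      rcases le_total s τ₀ with hle | hle
      · rw [norm_sub_rev]
        refine (hGV s hs τ₀ hτ₀ hle).trans ?_
        have h1 := hGm hamem hs hs.1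
        have h2 := hGm hτ₀ hbmem hτ₀.2
        linarith only [hGt, h1, h2]
      · refine (hGV τ₀ hτ₀ s hs hle).trans ?_
        have h1 := hGm hamem hτ₀ hτ₀.1
        have h2 := hGm hs hbmem hs.2
        linarith only [hGt, h1, h2]
    have h3 := abs_le.1 (abs_q_sub_le (V' s) (V' τ₀))
    have h4 := hqτ.1
    have h5 : Ar.ee p i * qq p i ≤ 1 / 16 * qq p i := by (clear * - hei' hqi; gcongr)
    linarith only [key, h3, h4, h5]
  refine ⟨?_, fun _ => hlarge a hamem⟩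
  have hsub : {τ | τ ∈ Icc a b ∧ (τ, X' τ, V' τ) ∈ S} ⊆
      {τ | τ ∈ Icc a b ∧ ∃ t ∈ Icc t₁ t₂, ‖X' τ - X t‖ = t - τ ∧ 0 < t - τ ∧ t - τ ≤ R ∧
        al (dir (X' τ - X t)) (u (V t)) ≤ 2 * (1 / 4) ^ m ∧ φ ≤ ‖u (V' τ) - u (V t)‖} := by
    rintro τ ⟨hτ, hτS⟩
    obtain ⟨s, hs, hs1, hsc⟩ := hS _ hτS
    obtain ⟨_, hsh, hal, _, hrel⟩ := hc _ hsc
    simp only at hs1 hsh hal hrel
    refine ⟨hτ, s, hs, hs1, ?_, ?_, hal.2, hrel⟩
    · rw [← hs1]; linarith only [hsh]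
    · rw [← hs1]; exact hsh.2
  refine (measure_mono hsub).trans ?_
  have hst := stay (X := X') (V := V') (U := fun s => u (V' s)) (X₀ := X) (U₀ := fun s => u (V s))
    (a := a) (b := b) (t₁ := t₁) (t₂ := t₂) hab ctx.h12 hch.hX
    (continuous_u.comp_continuousOn (hasDeriv_of_char hch)) (fun s _ => norm_u_lt_one _)
    ctx.hchar.hX (continuous_u.comp_continuousOn (hasDeriv_of_char ctx.hchar))
    (fun s _ => norm_u_lt_one _)
    (G := fun s => 64 / (φ * qq p i) * G s) (G₀ := fun s => 128 / (φ * qq p j) * G₀ s)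
    (Γ := 4 / φ) (Γ₀ := 128 / φ) (φ := φ) (ξ := 2 * (1 / 4) ^ m) (R := R) hφ (by positivity) hR
    (fun x hx y hy hxy => mul_le_mul_of_nonneg_left (hGm hx hy hxy) (by positivity))
    (by
      have h1 : 64 / (φ * qq p i) * G b - 64 / (φ * qq p i) * G a
          = 64 / (φ * qq p i) * (G b - G a) := by ring
      rw [h1]
      have h2 : 64 / (φ * qq p i) * (G b - G a) ≤ 64 / (φ * qq p i) * (qq p i / 16) := by (clear * - hφ hqi hGt; gcongr)
      refine h2.trans (le_of_eq ?_)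
      field_simp
      norm_num)
    (by
      intro s hs s' hs' hss hG1
      have h1 : 64 / (φ * qq p i) * G s' - 64 / (φ * qq p i) * G s
          = 64 / (φ * qq p i) * (G s' - G s) := by ring
      rw [h1, div_mul_eq_mul_div, div_le_one (by positivity)] at hG1
      have h2 := hGV s hs s' hs' hss
      have h3 := norm_u_sub_le_div (V' s') (V' s)
      have h4 := hlarge s' hs'
      refine h3.trans ?_
      rw [div_le_iff₀ (q_pos _)]
      have h5 : Ar.ee p i * qq p i ≤ φ / 64 * qq p i := by (clear * - hei hqi; gcongr)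
      have h6 : φ / 4 * (qq p i / 4) ≤ φ / 4 * q (V' s') := by (clear * - hφ h4; gcongr)
      nlinarith only [hG1, h2, h5, h6])
    (fun x hx y hy hxy => mul_le_mul_of_nonneg_left (hG₀m hx hy hxy) (by positivity))
    (by
      have h1 : 128 / (φ * qq p j) * G₀ t₂ - 128 / (φ * qq p j) * G₀ t₁
          = 128 / (φ * qq p j) * (G₀ t₂ - G₀ t₁) := by ring
      rw [h1]
      have h2 : 128 / (φ * qq p j) * (G₀ t₂ - G₀ t₁) ≤ 128 / (φ * qq p j) * qq p j := by (clear * - hφ hqj hG₀t; gcongr)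
      refine h2.trans (le_of_eq ?_)
      field_simp)
    (by
      intro s hs s' hs' hss hG1
      have h1 : 128 / (φ * qq p j) * G₀ s' - 128 / (φ * qq p j) * G₀ s
          = 128 / (φ * qq p j) * (G₀ s' - G₀ s) := by ring
      rw [h1, div_mul_eq_mul_div, div_le_one (by positivity)] at hG1
      have h2 := hG₀V s hs s' hs' hss
      have h3 := norm_u_sub_le_div (V s') (V s)
      have h4 := (ctx.hq s' hs').1
      refine h3.trans ?_
      rw [div_le_iff₀ (q_pos _)]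
      have h5 : Ar.ee p j * qq p j ≤ φ / 128 * qq p j := by (clear * - hej hqj; gcongr)
      have h6 : φ / 4 * (qq p j / 8) ≤ φ / 4 * q (V s') := by (clear * - hφ h4; gcongr)
      nlinarith only [hG1, h2, h5, h6])
  exact hst

/-- The mass of a cell through the change of variables. -/
lemma mass_le_path {t₀ : ℝ} {X V : ℝ → E3} {t₁ t₂ : ℝ} {m : ℕ} {c : Set (ℝ × E3 × E3)}
    (hc : ∀ y ∈ c, alI m (al (dir y.2.1) (u (V y.1)))) :
    mass (t₀ / 2) T f X t₁ t₂ c ≤ ENNReal.ofReal (2 * 4 ^ m) *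
      pathInt (t₀ / 2) T f X t₁ t₂ (fun s z v => c.indicator
        (fun _ => ENNReal.ofReal (al (dir z) (u (V s)))) (s, z, v)) := by
  unfold mass pathInt coneInt
  rw [← lintegral_const_mul' _ _ ENNReal.ofReal_ne_top]
  refine lintegral_mono fun s => ?_
  rw [← lintegral_const_mul' _ _ ENNReal.ofReal_ne_top]
  refine lintegral_mono fun z => ?_
  rw [← lintegral_const_mul' _ _ ENNReal.ofReal_ne_top]
  refine lintegral_mono fun v => ?_
  simp only
  rw [← mul_assoc]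
  refine mul_le_mul_left ?_ _
  by_cases hy : (s, z, v) ∈ c
  · rw [indicator_of_mem hy, indicator_of_mem hy, ← ENNReal.ofReal_mul (by positivity),
      ← ENNReal.ofReal_one]
    apply ENNReal.ofReal_le_ofReal
    have h1 := (hc _ hy).1
    simp only at h1
    have h2 : (4 : ℝ) ^ m * (1 / 4) ^ m = 1 := by
      rw [← mul_pow]; norm_num
    have h3 : (1 : ℝ) = 2 * 4 ^ m * (2 * (1 / 4) ^ (m + 1)) := by
      rw [pow_succ]
      linear_combination -1 * h2
    rw [h3]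
    gcongr
  · rw [indicator_of_notMem hy]
    exact zero_le

/-- The mass of a set of `(s, z, v)` by the stay lemma and counting. -/
lemma core (h : IsClassicalSolution T f E B) {t₀ : ℝ} (h0 : 0 < t₀) (h0T : t₀ < T) :
    ∃ (M : ℝ≥0) (p₀ : ℕ), ∀ (th c₁ : ℝ) (p j : ℕ) (X V : ℝ → E3) (t₁ t₂ : ℝ), p₀ ≤ p →
      Ctx T f E B t₀ th c₁ p j X V t₁ t₂ → ∀ (R φ : ℝ) (m i : ℕ) (c : Set (ℝ × E3 × E3)),
      MeasurableSet c → 0 < R → 0 < φ → 12 * i ≤ 5 * p → Ar.ee p i ≤ φ / 64 →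
      Ar.ee p i ≤ 1 / 16 → Ar.ee p j ≤ φ / 128 → Cell R p m i φ V t₁ t₂ c →
      mass (t₀ / 2) T f X t₁ t₂ c ≤ M * ENNReal.ofReal (2 * 4 ^ m *
        (1 + (dl c₁ p j + R) / dl c₁ p i) * ell R φ m * (qq p i / 4)⁻¹) := by
  obtain ⟨M, hM⟩ := counting h (h0.trans h0T)
  obtain ⟨R0, hR0⟩ := h.compact_support t₀ ⟨h0.le, h0T⟩
  obtain ⟨p₀, hp₀⟩ := exists_nat_ge (4 * (1 + R0))
  refine ⟨M, p₀, ?_⟩
  intro th c₁ p j X V t₁ t₂ hp ctx R φ m i c hcm hR hφ hi hei hei' hej hc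
  have hqi := qq_pos' p i
  have hdi : 0 < dl c₁ p i := by
    unfold dl
    have := ctx.hc₁
    positivity
  have hdj : 0 < dl c₁ p j := by
    unfold dl
    have := ctx.hc₁
    positivity
  have h2T : t₂ < T := ctx.h2.trans_lt ctx.hth
  obtain ⟨S, hSm, hS, hle⟩ := cell_transfer h (ta := t₀ / 2) (by linarith only [h0]) (X := X)
    (U := fun s => u (V s)) ctx.h12 h2T ctx.hchar.hX
    (continuous_u.comp_continuousOn (hasDeriv_of_char ctx.hchar)) (fun s _ => norm_u_lt_one _)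
    hR c hcm (fun y hy => (hc y hy).2.1)
  set g : ℝ → ℝ≥0∞ := fun τ => ∫⁻ x, ∫⁻ v, S.indicator (fun _ => ENNReal.ofReal (f τ x v)) (τ, x, v)
    with hg
  have hℓ0 : 0 ≤ ell R φ m := by unfold ell; (clear * - hR hφ; positivity)
  -- early times do not contribute
  have hg0 : ∀ τ, τ < t₀ → g τ = 0 := by
    intro τ hτ
    have hz : ∀ x v, S.indicator (fun _ => ENNReal.ofReal (f τ x v)) (τ, x, v) = 0 := by
      intro x v
      by_cases hy : (τ, x, v) ∈ S
      · rw [indicator_of_mem hy]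
        obtain ⟨hta, _, s, _, _, hsc⟩ := hS _ hy
        have hq1 := (hc _ hsc).2.2.2.1.1
        simp only at hta hq1
        by_cases hne : f τ x v = 0
        · rw [hne, ENNReal.ofReal_zero]
        · exfalso
          have h1 := (hR0 τ ⟨by linarith only [hτ, hta], hτ.le⟩ x v hne).2
          have h2 := q_le_one_add_norm v
          have h3 := qq_large hi
          have h4 : (p₀ : ℝ) ≤ p := by exact_mod_cast hp
          linarith only [hp₀, hq1, h1, h2, h3, h4]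
      · rw [indicator_of_notMem hy]
    simp only [hg, hz, lintegral_zero]
  have hmain : ∫⁻ τ in Icc (max (t₀ / 2) (t₁ - R)) (t₂ - R / 2), g τ
      ≤ ENNReal.ofReal (1 + (dl c₁ p j + R) / dl c₁ p i) *
        (ENNReal.ofReal (ell R φ m) * M * ENNReal.ofReal (qq p i / 4)⁻¹) := by
    by_cases hlt : max t₀ (t₁ - R) ≤ t₂ - R / 2
    · have h1 : ∫⁻ τ in Icc (max (t₀ / 2) (t₁ - R)) (t₂ - R / 2), g τ
          ≤ ∫⁻ τ in Icc (max t₀ (t₁ - R)) (t₂ - R / 2), g τ := by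
        rw [← lintegral_indicator measurableSet_Icc, ← lintegral_indicator measurableSet_Icc]
        refine lintegral_mono fun τ => ?_
        by_cases hτ : τ ∈ Icc (max (t₀ / 2) (t₁ - R)) (t₂ - R / 2)
        · rw [indicator_of_mem hτ]
          by_cases hτ0 : τ < t₀
          · rw [hg0 τ hτ0]
            exact zero_le
          · rw [indicator_of_mem]
            exact ⟨max_le (not_lt.1 hτ0) ((le_max_right _ _).trans hτ.1), hτ.2⟩
        · rw [indicator_of_notMem hτ]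
          exact zero_le
      refine h1.trans ?_
      refine (split_windows g hlt hdi
        (ENNReal.ofReal (ell R φ m) * M * ENNReal.ofReal (qq p i / 4)⁻¹) ?_).trans ?_
      · intro a b ha hab hb hlen
        have ha0 : t₀ ≤ a := (le_max_left _ _).trans ha
        have hbt : b ≤ t₂ := by linarith only [hR, hb]
        exact hM a b (h0.trans_le ha0) hab (hbt.trans_lt h2T) S hSm _ _ (by positivity)
          (fun X' V' hch hf => window ctx hR hφ hi hei hei' hej hc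
            (fun y hy => (hS y hy).2.2) ha0 hab (hbt.trans ctx.h2) hlen hch hf)
      · refine mul_le_mul_left ?_ _
        apply ENNReal.ofReal_le_ofReal
        have h2 : t₂ - R / 2 - max t₀ (t₁ - R) ≤ dl c₁ p j + R := by
          have h3 := le_max_right t₀ (t₁ - R)
          have h4 := ctx.hlen
          linarith only [hR, h3, h4]
        (clear * - hdi h2; gcongr)
    · have h1 : ∫⁻ τ in Icc (max (t₀ / 2) (t₁ - R)) (t₂ - R / 2), g τ = 0 := by
        rw [← lintegral_indicator measurableSet_Icc]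
        have hz : ∀ τ, (Icc (max (t₀ / 2) (t₁ - R)) (t₂ - R / 2)).indicator g τ = 0 := by
          intro τ
          by_cases hτ : τ ∈ Icc (max (t₀ / 2) (t₁ - R)) (t₂ - R / 2)
          · rw [indicator_of_mem hτ]
            apply hg0
            by_contra hcon
            apply hlt
            have h2 : max t₀ (t₁ - R) ≤ τ :=
              max_le (not_lt.1 hcon) ((le_max_right _ _).trans hτ.1)
            exact h2.trans hτ.2
          · rw [indicator_of_notMem hτ]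
        simp only [hz, lintegral_zero]
      rw [h1]
      exact zero_le
  refine (mass_le_path (fun y hy => (hc y hy).2.2.1)).trans ?_
  refine (mul_le_mul_right (hle.trans hmain) _).trans (le_of_eq ?_)
  have hw0 : 0 ≤ 1 + (dl c₁ p j + R) / dl c₁ p i := by positivity
  have hm0 : (0 : ℝ) ≤ 2 * 4 ^ m := by positivity
  generalize (2 * 4 ^ m : ℝ) = A at hm0 ⊢
  generalize 1 + (dl c₁ p j + R) / dl c₁ p i = W at hw0 ⊢
  rw [ENNReal.ofReal_mul (mul_nonneg (mul_nonneg hm0 hw0) hℓ0),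
    ENNReal.ofReal_mul (mul_nonneg hm0 hw0), ENNReal.ofReal_mul hm0]
  ring

/-! ### Geometry of the cells -/

/-- Reals: a lower bound for the relative velocity. -/
lemma rel_aux {x y s : ℝ} (hs : 0 < s) (hx0 : 0 ≤ x)
    (hx : s ^ 2 - (s / 64) ^ 2 ≤ x ^ 2) (hy : y ^ 2 ≤ (s / 8) ^ 2) : s / 2 ≤ x - y := by
  have h1 : y ≤ s / 8 := le_of_sq_le_sq hy (by positivity)
  have h2 : 5 / 8 * s ≤ x := by
    apply le_of_sq_le_sq _ hx0
    nlinarith only [hx]
  linarith only [h1, h2]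

/-- If `x` sees `z` at angle scale `s` and `y` at a much smaller angle scale, the velocities differ
by `s / 2`. -/
lemma rel_lower {z a b : E3} {s : ℝ} (hz : z ≠ 0) (hs : 0 < s)
    (ha : s ^ 2 / 2 < al (dir z) a) (ha' : 1 - ‖a‖ ^ 2 ≤ (s / 64) ^ 2)
    (hb : al (dir z) b ≤ (s / 8) ^ 2 / 2) (hb' : ‖b‖ < 1) : s / 2 ≤ ‖b - a‖ := by
  have e1 := StayAux.norm_dir_add_sq (b := a) hz
  have e2 := StayAux.norm_dir_add_sq (b := b) hz
  have h1 : s ^ 2 - (s / 64) ^ 2 ≤ ‖dir z + a‖ ^ 2 := by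
    rw [e1]; linarith only [ha, ha']
  have h2 : ‖dir z + b‖ ^ 2 ≤ (s / 8) ^ 2 := by
    rw [e2]
    nlinarith only [hb, hb', norm_nonneg b]
  have h3 := rel_aux hs (norm_nonneg _) h1 h2
  have h4 : dir z + a = (dir z + b) - (b - a) := by abel
  have h5 : ‖dir z + a‖ ≤ ‖dir z + b‖ + ‖b - a‖ := by
    conv_lhs => rw [h4]
    exact norm_sub_le _ _
  linarith only [h3, h5]

/-! ### Measurability of the cells -/

lemma exists_cont_ext {V : ℝ → E3} {t₁ t₂ : ℝ} (h12 : t₁ ≤ t₂) (hV : ContinuousOn V (Icc t₁ t₂)) :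
    ∃ V' : ℝ → E3, Continuous V' ∧ ∀ s ∈ Icc t₁ t₂, V' s = V s := by
  refine ⟨fun s => V (projIcc t₁ t₂ h12 s),
    hV.comp_continuous (continuous_subtype_val.comp continuous_projIcc)
      (fun s => (projIcc t₁ t₂ h12 s).2), fun s hs => ?_⟩
  simp only [projIcc_of_mem h12 hs]

lemma meas_dir : Measurable dir := (measurable_norm.inv).smul measurable_id

lemma meas_al_left {V' : ℝ → E3} (hV : Continuous V') :
    Measurable fun y : ℝ × E3 × E3 => al (dir y.2.1) (u (V' y.1)) := by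
  have m1 : Measurable fun y : ℝ × E3 × E3 => u (V' y.1) :=
    (continuous_u.comp hV).measurable.comp measurable_fst
  have m2 : Measurable fun y : ℝ × E3 × E3 => dir y.2.1 :=
    meas_dir.comp (measurable_fst.comp measurable_snd)
  exact measurable_const.add (m1.inner m2)

lemma meas_al_right : Measurable fun y : ℝ × E3 × E3 => al (dir y.2.1) (u y.2.2) := by
  have m1 : Measurable fun y : ℝ × E3 × E3 => u y.2.2 :=
    continuous_u.measurable.comp (measurable_snd.comp measurable_snd)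
  have m2 : Measurable fun y : ℝ × E3 × E3 => dir y.2.1 :=
    meas_dir.comp (measurable_fst.comp measurable_snd)
  exact measurable_const.add (m1.inner m2)

lemma meas_Ioc {g : ℝ × E3 × E3 → ℝ} (hg : Measurable g) (a b : ℝ) :
    MeasurableSet {y : ℝ × E3 × E3 | a < g y ∧ g y ≤ b} :=
  hg measurableSet_Ioc

lemma measurableSet_cellAN {T₁ : ℝ} {p : ℕ} {V : ℝ → E3} {t₁ t₂ : ℝ} (h12 : t₁ ≤ t₂)
    (hV : ContinuousOn V (Icc t₁ t₂)) (k m l i : ℕ) :
    MeasurableSet (cellAN T₁ p V t₁ t₂ k m l i) := by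
  obtain ⟨V', hV', hVV⟩ := exists_cont_ext h12 hV
  have he : cellAN T₁ p V t₁ t₂ k m l i = {y | y.1 ∈ Icc t₁ t₂} ∩
      ({y | T₁ * (1 / 2) ^ (k + 1) < ‖y.2.1‖ ∧ ‖y.2.1‖ ≤ T₁ * (1 / 2) ^ k} ∩
      ({y | 2 * (1 / 4) ^ (m + 1) < al (dir y.2.1) (u (V' y.1)) ∧
        al (dir y.2.1) (u (V' y.1)) ≤ 2 * (1 / 4) ^ m} ∩
      ({y | 2 * (1 / 4) ^ (l + 1) < al (dir y.2.1) (u y.2.2) ∧
        al (dir y.2.1) (u y.2.2) ≤ 2 * (1 / 4) ^ l} ∩
      {y | qq p i / 2 < q y.2.2 ∧ q y.2.2 ≤ qq p i}))) := by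
    ext y
    constructor
    · rintro ⟨h1, h2, h3, h4, h5⟩
      refine ⟨h1, h2, ?_, h4, h5⟩
      rw [← hVV _ h1] at h3
      exact h3
    · rintro ⟨h1, h2, h3, h4, h5⟩
      refine ⟨h1, h2, ?_, h4, h5⟩
      rw [← hVV _ h1]
      exact h3
  rw [he]
  refine MeasurableSet.inter (measurableSet_Icc.preimage measurable_fst)
    ((meas_Ioc (g := fun y => ‖y.2.1‖) ?_ _ _).inter
      ((meas_Ioc (meas_al_left hV') _ _).inter ((meas_Ioc meas_al_right _ _).inter
        (meas_Ioc (g := fun y => q y.2.2) ?_ _ _))))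
  · exact (measurable_fst.comp measurable_snd).norm
  · exact continuous_q.measurable.comp (measurable_snd.comp measurable_snd)

lemma measurableSet_cellD {T₁ : ℝ} {p : ℕ} {V : ℝ → E3} {t₁ t₂ : ℝ} (h12 : t₁ ≤ t₂)
    (hV : ContinuousOn V (Icc t₁ t₂)) (k m n i : ℕ) :
    MeasurableSet (cellD T₁ p V t₁ t₂ k m n i) := by
  obtain ⟨V', hV', hVV⟩ := exists_cont_ext h12 hV
  have he : cellD T₁ p V t₁ t₂ k m n i = {y | y.1 ∈ Icc t₁ t₂} ∩
      ({y | T₁ * (1 / 2) ^ (k + 1) < ‖y.2.1‖ ∧ ‖y.2.1‖ ≤ T₁ * (1 / 2) ^ k} ∩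
      ({y | 2 * (1 / 4) ^ (m + 1) < al (dir y.2.1) (u (V' y.1)) ∧
        al (dir y.2.1) (u (V' y.1)) ≤ 2 * (1 / 4) ^ m} ∩
      ((⋃ l : ℕ, ⋃ (_ : l ≤ m + 3 ∧ m ≤ l + 3),
        {y | 2 * (1 / 4) ^ (l + 1) < al (dir y.2.1) (u y.2.2) ∧
          al (dir y.2.1) (u y.2.2) ≤ 2 * (1 / 4) ^ l}) ∩
      ({y | 2 * (1 / 2) ^ (n + 1) < ‖u y.2.2 - u (V' y.1)‖ ∧
        ‖u y.2.2 - u (V' y.1)‖ ≤ 2 * (1 / 2) ^ n} ∩
      {y | qq p i / 2 < q y.2.2 ∧ q y.2.2 ≤ qq p i})))) := by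
    ext y
    constructor
    · rintro ⟨h1, h2, h3, ⟨l, hl1, hl2, hl3⟩, h5, h6⟩
      rw [← hVV _ h1] at h3 h5
      refine ⟨h1, h2, h3, ?_, h5, h6⟩
      simp only [mem_iUnion]
      exact ⟨l, ⟨hl1, hl2⟩, hl3⟩
    · rintro ⟨h1, h2, h3, h4, h5, h6⟩
      simp only [mem_iUnion] at h4
      obtain ⟨l, ⟨hl1, hl2⟩, hl3⟩ := h4
      refine ⟨h1, h2, ?_, ⟨l, hl1, hl2, hl3⟩, ?_, h6⟩
      · rw [← hVV _ h1]
        exact h3
      · rw [← hVV _ h1]
        exact h5
  rw [he]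
  refine MeasurableSet.inter (measurableSet_Icc.preimage measurable_fst)
    ((meas_Ioc (g := fun y => ‖y.2.1‖) ?_ _ _).inter
      ((meas_Ioc (meas_al_left hV') _ _).inter (MeasurableSet.inter ?_
        ((meas_Ioc (g := fun y => ‖u y.2.2 - u (V' y.1)‖) ?_ _ _).inter
        (meas_Ioc (g := fun y => q y.2.2) ?_ _ _)))))
  · exact (measurable_fst.comp measurable_snd).norm
  · exact MeasurableSet.iUnion fun l => MeasurableSet.iUnion fun _ => meas_Ioc meas_al_right _ _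
  · exact ((continuous_u.measurable.comp (measurable_snd.comp measurable_snd)).sub
      ((continuous_u.comp hV').measurable.comp measurable_fst)).norm
  · exact continuous_q.measurable.comp (measurable_snd.comp measurable_snd)

/-! ### The cells satisfy the hypotheses -/

lemma gd_small {p j i a : ℕ} (hg : gd p j i ((1 / 2) ^ a)) :
    Ar.ee p i ≤ (1 / 2) ^ a / 1024 ∧ Ar.ee p j ≤ (1 / 2) ^ a / 1024 ∧ Ar.ee p i ≤ 1 / 16 := by
  obtain ⟨_, h1, h2⟩ := hg
  have h3 : ((1 : ℝ) / 2) ^ a ≤ 1 := pow_le_one₀ (by norm_num) (by norm_num)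
  refine ⟨by linarith only [h1], by linarith only [h2], by linarith only [h1, h3]⟩

lemma quarter_eq (m : ℕ) : ((1 : ℝ) / 4) ^ m = ((1 / 2) ^ m) ^ 2 := by
  rw [← pow_mul, mul_comm, pow_mul]
  norm_num

lemma quarter_succ (m : ℕ) : 2 * ((1 : ℝ) / 4) ^ (m + 1) = ((1 / 2) ^ m) ^ 2 / 2 := by
  rw [pow_succ, quarter_eq]
  ring

lemma far_scale {m l : ℕ} (h : m + 4 ≤ l) :
    2 * ((1 : ℝ) / 4) ^ l ≤ ((1 / 2) ^ m / 8) ^ 2 / 2 := by
  have h1 : ((1 : ℝ) / 4) ^ l ≤ (1 / 4) ^ (m + 4) :=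
    pow_le_pow_of_le_one (by norm_num) (by norm_num) h
  rw [pow_add, quarter_eq m] at h1
  have h2 : 0 ≤ (((1 : ℝ) / 2) ^ m) ^ 2 := by positivity
  nlinarith only [h1]

lemma ne_zero_of_lt_norm {z : E3} {r : ℝ} (hr : 0 ≤ r) (h : r < ‖z‖) : z ≠ 0 := by
  rw [← norm_pos_iff]
  linarith only [hr, h]

lemma shell_conv {T₁ : ℝ} {k : ℕ} {z : E3} (h : shellI T₁ k z) :
    T₁ * (1 / 2) ^ k / 2 < ‖z‖ ∧ ‖z‖ ≤ T₁ * (1 / 2) ^ k := by
  refine ⟨?_, h.2⟩
  have h1 := h.1
  rw [pow_succ] at h1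
  linarith only [h1]

lemma s_source {p i : ℕ} {v : E3} {a : ℕ} (hi : 12 * i ≤ 5 * p)
    (he : Ar.ee p i ≤ (1 / 2) ^ a / 1024) (hq : qq p i / 2 < q v) :
    1 - ‖u v‖ ^ 2 ≤ ((1 / 2) ^ a / 64) ^ 2 := by
  rw [norm_u_sq]
  have h1 := inv_qq_le_ee hi
  have h2 := qq_pos' p i
  have h3 : (q v)⁻¹ ≤ 2 * (qq p i)⁻¹ := by
    rw [inv_le_comm₀ (q_pos v) (by positivity), mul_inv, inv_inv]
    linarith only [hq]
  have h4 : (q v)⁻¹ ≤ (1 / 2) ^ a / 64 := by
    have : (0 : ℝ) < (1 / 2) ^ a := by positivity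
    linarith only [he, h1, h3, this]
  rw [← inv_pow]
  have h5 : 0 ≤ (q v)⁻¹ := (inv_pos.2 (q_pos v)).le
  gcongr

lemma s_test {p j : ℕ} {v : E3} {a : ℕ} (hj : 12 * j ≤ 5 * p)
    (he : Ar.ee p j ≤ (1 / 2) ^ a / 1024) (hq : qq p j / 8 ≤ q v) :
    1 - ‖u v‖ ^ 2 ≤ ((1 / 2) ^ a / 64) ^ 2 := by
  rw [norm_u_sq]
  have h1 := inv_qq_le_ee hj
  have h2 := qq_pos' p j
  have h3 : (q v)⁻¹ ≤ 8 * (qq p j)⁻¹ := by
    rw [inv_le_comm₀ (q_pos v) (by positivity), mul_inv, inv_inv]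
    linarith only [hq]
  have h4 : (q v)⁻¹ ≤ (1 / 2) ^ a / 64 := by
    have : (0 : ℝ) < (1 / 2) ^ a := by positivity
    linarith only [he, h1, h3, this]
  rw [← inv_pow]
  have h5 : 0 ≤ (q v)⁻¹ := (inv_pos.2 (q_pos v)).le
  gcongr

lemma cell_A {t₀ th c₁ : ℝ} {p j : ℕ} {X V : ℝ → E3} {t₁ t₂ : ℝ}
    (ctx : Ctx T f E B t₀ th c₁ p j X V t₁ t₂) {T₁ : ℝ} (hT₁ : 0 < T₁) {k m l i : ℕ}
    (hml : m + 4 ≤ l) (hg : gd p j i ((1 / 2) ^ m)) :
    Cell (T₁ * (1 / 2) ^ k) p m i ((1 / 2) ^ m / 2) V t₁ t₂ (cellAN T₁ p V t₁ t₂ k m l i) := by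
  obtain ⟨he1, he2, _⟩ := gd_small hg
  rintro y ⟨h1, h2, h3, h4, h5⟩
  have hsh := shell_conv h2
  refine ⟨h1, hsh, h3, h5, ?_⟩
  have hz : y.2.1 ≠ 0 := ne_zero_of_lt_norm (by positivity) hsh.1
  refine rel_lower (a := u (V y.1)) (b := u y.2.2) (s := (1 / 2) ^ m) hz (by positivity) ?_
    (s_test ctx.hj he2 (ctx.hq _ h1).1) (h4.2.trans (far_scale hml)) (norm_u_lt_one _)
  rw [← quarter_succ]
  exact h3.1

lemma cell_N {t₀ th c₁ : ℝ} {p j : ℕ} {X V : ℝ → E3} {t₁ t₂ : ℝ}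
    (_ctx : Ctx T f E B t₀ th c₁ p j X V t₁ t₂) {T₁ : ℝ} (hT₁ : 0 < T₁) {k m l i : ℕ}
    (hml : l + 4 ≤ m) (hg : gd p j i ((1 / 2) ^ l)) :
    Cell (T₁ * (1 / 2) ^ k) p m i ((1 / 2) ^ l / 2) V t₁ t₂ (cellAN T₁ p V t₁ t₂ k m l i) := by
  obtain ⟨he1, he2, _⟩ := gd_small hg
  rintro y ⟨h1, h2, h3, h4, h5⟩
  have hsh := shell_conv h2
  refine ⟨h1, hsh, h3, h5, ?_⟩
  have hz : y.2.1 ≠ 0 := ne_zero_of_lt_norm (by positivity) hsh.1
  rw [norm_sub_rev]
  refine rel_lower (b := u (V y.1)) (a := u y.2.2) (s := (1 / 2) ^ l) hz (by positivity) ?_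
    (s_source hg.1 he1 h5.1) (h3.2.trans (far_scale hml)) (norm_u_lt_one _)
  rw [← quarter_succ]
  exact h4.1

lemma cell_D {T₁ : ℝ} {p : ℕ} {V : ℝ → E3} {t₁ t₂ : ℝ} {k m n i : ℕ} :
    Cell (T₁ * (1 / 2) ^ k) p m i ((1 / 2) ^ n) V t₁ t₂ (cellD T₁ p V t₁ t₂ k m n i) := by
  rintro y ⟨h1, h2, h3, _, h5, h6⟩
  refine ⟨h1, shell_conv h2, h3, h6, ?_⟩
  have h7 := h5.1
  rw [pow_succ] at h7
  linarith only [h7]

/-! ### Final arithmetic -/

lemma ell_le {R φ : ℝ} (hR : 0 < R) (hφ : 0 < φ) (m : ℕ) :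
    ell R φ m ≤ (2 + 132 / φ) * (16 * (1 / 2) ^ m / φ + 4) * R := by
  have h1 : √(2 * (1 / 4) ^ m) ≤ 2 * (1 / 2) ^ m := by
    rw [Real.sqrt_le_left (by positivity), quarter_eq]
    have : 0 ≤ (((1 : ℝ) / 2) ^ m) ^ 2 := by positivity
    nlinarith only []
  unfold ell
  have h2 : 2 + 4 / φ + 128 / φ = 2 + 132 / φ := by ring
  rw [h2]
  have h3 : 8 * √(2 * (1 / 4) ^ m) / φ + 4 ≤ 16 * (1 / 2) ^ m / φ + 4 := by
    have : 8 * √(2 * (1 / 4) ^ m) ≤ 16 * (1 / 2) ^ m := by linarith only [h1]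
    gcongr
  calc (2 + 132 / φ) * (R * (8 * √(2 * (1 / 4) ^ m) / φ + 4))
      ≤ (2 + 132 / φ) * (R * (16 * (1 / 2) ^ m / φ + 4)) := by gcongr
    _ = _ := by ring

lemma half_inv (a : ℕ) : ((1 : ℝ) / 2) ^ a = (2 ^ a)⁻¹ := by
  rw [one_div, inv_pow]

lemma two_pow_sq (m : ℕ) : (4 : ℝ) ^ m = (2 ^ m) ^ 2 := by
  rw [← pow_mul, mul_comm, pow_mul]
  norm_num

lemma two_pow_cube (m : ℕ) : (8 : ℝ) ^ m = (2 ^ m) ^ 3 := by
  rw [← pow_mul, mul_comm, pow_mul]
  norm_num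

lemma ell_AN {R : ℝ} (hR : 0 < R) {m a : ℕ} (ham : a ≤ m) :
    ell R ((1 / 2) ^ a / 2) m ≤ 9576 * 2 ^ a * R := by
  refine (ell_le hR (by positivity) m).trans ?_
  have h1 : (1 : ℝ) ≤ 2 ^ a := one_le_pow₀ (by norm_num)
  have h2 : (2 : ℝ) ^ a ≤ 2 ^ m := pow_le_pow_right₀ (by norm_num) ham
  have h3 : 132 / (((1 : ℝ) / 2) ^ a / 2) = 264 * 2 ^ a := by
    rw [half_inv]
    field_simp
    norm_num
  have h4 : 16 * ((1 : ℝ) / 2) ^ m / ((1 / 2) ^ a / 2) ≤ 32 := by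
    rw [half_inv, half_inv, div_le_iff₀ (by positivity)]
    have : ((2 : ℝ) ^ m)⁻¹ ≤ (2 ^ a)⁻¹ := inv_anti₀ (by positivity) h2
    linarith only [this]
  rw [h3]
  calc (2 + 264 * 2 ^ a) * (16 * ((1 : ℝ) / 2) ^ m / ((1 / 2) ^ a / 2) + 4) * R
      ≤ (266 * 2 ^ a) * (32 + 4) * R := by
        gcongr
        linarith only [h1]
    _ = 9576 * 2 ^ a * R := by ring

lemma ell_D {R : ℝ} (hR : 0 < R) {m n : ℕ} (hmn : m ≤ n + 4) :
    ell R ((1 / 2) ^ n) m ≤ 10720 * (4 ^ n * (1 / 2) ^ m) * R := by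
  refine (ell_le hR (by positivity) m).trans ?_
  have h1 : (1 : ℝ) ≤ 2 ^ n := one_le_pow₀ (by norm_num)
  have h2 : (2 : ℝ) ^ m ≤ 2 ^ n * 16 := by
    have : (2 : ℝ) ^ m ≤ 2 ^ (n + 4) := pow_le_pow_right₀ (by norm_num) hmn
    rw [pow_add] at this
    norm_num at this
    exact this
  have h3 : 132 / (((1 : ℝ) / 2) ^ n) = 132 * 2 ^ n := by
    rw [half_inv]
    field_simp
  have h4 : 16 * ((1 : ℝ) / 2) ^ m / ((1 / 2) ^ n) + 4 ≤ 80 * (2 ^ n * (1 / 2) ^ m) := by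
    have e1 : 16 * ((1 : ℝ) / 2) ^ m / ((1 / 2) ^ n) = 16 * (2 ^ n * (1 / 2) ^ m) := by
      rw [half_inv n]
      field_simp
    have e2 : 1 ≤ 16 * ((2 : ℝ) ^ n * (1 / 2) ^ m) := by
      rw [half_inv m]
      have h5 : (0 : ℝ) < 2 ^ m := by positivity
      rw [← div_eq_mul_inv, ← mul_div_assoc, one_le_div h5]
      linarith only [h2]
    rw [e1]
    linarith only [e2]
  rw [h3]
  calc (2 + 132 * 2 ^ n) * (16 * ((1 : ℝ) / 2) ^ m / (1 / 2) ^ n + 4) * R
      ≤ (134 * 2 ^ n) * (80 * (2 ^ n * (1 / 2) ^ m)) * R := by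
        gcongr
        linarith only [h1]
    _ = 10720 * (4 ^ n * (1 / 2) ^ m) * R := by
        rw [two_pow_sq]
        ring

lemma fin_le {M : ℝ≥0} {c₁ T₁ L W φ : ℝ} {p j i k m : ℕ} (hc₁ : 0 < c₁) (hT : 1 ≤ T₁)
    (hφ : 0 < φ) (hell : ell (T₁ * (1 / 2) ^ k) φ m ≤ L * (T₁ * (1 / 2) ^ k))
    (hLW : 4 ^ m * L ≤ 11000 * W) :
    (M : ℝ≥0∞) * ENNReal.ofReal (2 * 4 ^ m *
        (1 + (dl c₁ p j + T₁ * (1 / 2) ^ k) / dl c₁ p i) * ell (T₁ * (1 / 2) ^ k) φ m
          * (qq p i / 4)⁻¹)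
      ≤ ((M * (88000 * T₁ ^ 2).toNNReal : ℝ≥0) : ℝ≥0∞)
        * ENNReal.ofReal (W * (1 / 2) ^ k * KK c₁ p j i k / qq p i) := by
  have hT0 : 0 < T₁ := by linarith only [hT]
  have hqi := qq_pos' p i
  have hdi : 0 < dl c₁ p i := by unfold dl; positivity
  have hdj : 0 < dl c₁ p j := by unfold dl; positivity
  have hKK : 1 + (dl c₁ p j + T₁ * (1 / 2) ^ k) / dl c₁ p i ≤ T₁ * KK c₁ p j i k := by
    unfold KK
    have h1 : (dl c₁ p j + T₁ * (1 / 2) ^ k) / dl c₁ p i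
        ≤ (T₁ * dl c₁ p j + T₁ * (1 / 2) ^ k) / dl c₁ p i := by
      have : dl c₁ p j ≤ T₁ * dl c₁ p j := le_mul_of_one_le_left hdj.le hT
      gcongr
    have h2 : T₁ * (1 + (dl c₁ p j + (1 / 2) ^ k) / dl c₁ p i)
        = T₁ + (T₁ * dl c₁ p j + T₁ * (1 / 2) ^ k) / dl c₁ p i := by ring
    rw [h2]
    linarith only [hT, h1]
  have hKK0 : 0 < KK c₁ p j i k := by unfold KK; positivity
  have hell0 : 0 ≤ ell (T₁ * (1 / 2) ^ k) φ m := by unfold ell; positivity
  rw [ENNReal.coe_mul, mul_assoc (M : ℝ≥0∞)]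
  refine mul_le_mul_right ?_ _
  change _ ≤ ENNReal.ofReal (88000 * T₁ ^ 2) * _
  rw [← ENNReal.ofReal_mul (by positivity)]
  apply ENNReal.ofReal_le_ofReal
  calc 2 * 4 ^ m * (1 + (dl c₁ p j + T₁ * (1 / 2) ^ k) / dl c₁ p i)
        * ell (T₁ * (1 / 2) ^ k) φ m * (qq p i / 4)⁻¹
      ≤ 2 * 4 ^ m * (T₁ * KK c₁ p j i k) * (L * (T₁ * (1 / 2) ^ k)) * (qq p i / 4)⁻¹ := by
        (clear * - hT hell hqi hKK hKK0 hell0; gcongr)
    _ = (4 ^ m * L) * (8 * T₁ ^ 2 * (1 / 2) ^ k * KK c₁ p j i k / qq p i) := by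
        field_simp
        ring
    _ ≤ (11000 * W) * (8 * T₁ ^ 2 * (1 / 2) ^ k * KK c₁ p j i k / qq p i) := by
        gcongr
    _ = 88000 * T₁ ^ 2 * (W * (1 / 2) ^ k * KK c₁ p j i k / qq p i) := by ring

end MSt

open MSt

/-- M1b. The bound from the stay lemma and counting. -/
theorem mass_stay {T : ℝ} {f : ℝ → E3 → E3 → ℝ} {E B : ℝ → E3 → E3}
    (h : IsClassicalSolution T f E B) {t₀ : ℝ} (h0 : 0 < t₀) (h0T : t₀ < T) :
    ∃ (C : ℝ≥0) (p₀ : ℕ), ∀ (th c₁ : ℝ) (p j : ℕ) (X V : ℝ → E3) (t₁ t₂ : ℝ), p₀ ≤ p →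
      Ctx T f E B t₀ th c₁ p j X V t₁ t₂ → ∀ k m l i n : ℕ,
      (m + 4 ≤ l → gd p j i ((1 / 2) ^ m) →
        mass (t₀ / 2) T f X t₁ t₂ (cellAN (max T 1) p V t₁ t₂ k m l i)
          ≤ C * ENNReal.ofReal (8 ^ m * (1 / 2) ^ k * KK c₁ p j i k / qq p i)) ∧
      (l + 4 ≤ m → gd p j i ((1 / 2) ^ l) →
        mass (t₀ / 2) T f X t₁ t₂ (cellAN (max T 1) p V t₁ t₂ k m l i)
          ≤ C * ENNReal.ofReal (4 ^ m * 2 ^ l * (1 / 2) ^ k * KK c₁ p j i k / qq p i)) ∧
      (m ≤ n + 4 → gd p j i ((1 / 2) ^ n) →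
        mass (t₀ / 2) T f X t₁ t₂ (cellD (max T 1) p V t₁ t₂ k m n i)
          ≤ C * ENNReal.ofReal (2 ^ m * 4 ^ n * (1 / 2) ^ k * KK c₁ p j i k / qq p i)) := by
  obtain ⟨M, p₀, hcore⟩ := core h h0 h0T
  refine ⟨M * (88000 * (max T 1) ^ 2).toNNReal, p₀, ?_⟩
  intro th c₁ p j X V t₁ t₂ hp ctx k m l i n
  have hT1 : 1 ≤ max T 1 := le_max_right _ _
  have hT0 : 0 < max T 1 := by linarith only [hT1]
  have hV := hasDeriv_of_char ctx.hchar
  have hR : 0 < max T 1 * (1 / 2) ^ k := by positivity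
  refine ⟨?_, ?_, ?_⟩
  · intro hml hg
    obtain ⟨he1, he2, he3⟩ := gd_small hg
    have hpos : (0 : ℝ) < (1 / 2) ^ m := by positivity
    refine (hcore th c₁ p j X V t₁ t₂ hp ctx (max T 1 * (1 / 2) ^ k) ((1 / 2) ^ m / 2) m i _
      (MSt.measurableSet_cellAN ctx.h12 hV k m l i) hR (by positivity) hg.1 (by linarith only [he1, hpos]) he3
      (by linarith only [he2, hpos]) (cell_A ctx hT0 hml hg)).trans ?_
    refine fin_le ctx.hc₁ hT1 (by positivity) (ell_AN hR le_rfl) ?_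
    rw [two_pow_sq, two_pow_cube]
    have : (0 : ℝ) < (2 ^ m) ^ 3 := by positivity
    nlinarith only [this]
  · intro hml hg
    obtain ⟨he1, he2, he3⟩ := gd_small hg
    have hpos : (0 : ℝ) < (1 / 2) ^ l := by positivity
    refine (hcore th c₁ p j X V t₁ t₂ hp ctx (max T 1 * (1 / 2) ^ k) ((1 / 2) ^ l / 2) m i _
      (MSt.measurableSet_cellAN ctx.h12 hV k m l i) hR (by positivity) hg.1 (by linarith only [he1, hpos]) he3
      (by linarith only [he2, hpos]) (cell_N ctx hT0 hml hg)).trans ?_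
    refine fin_le ctx.hc₁ hT1 (by positivity) (ell_AN hR (by omega)) ?_
    have : (0 : ℝ) < 4 ^ m * 2 ^ l := by positivity
    nlinarith only [this]
  · intro hmn hg
    obtain ⟨he1, he2, he3⟩ := gd_small hg
    have hpos : (0 : ℝ) < (1 / 2) ^ n := by positivity
    refine (hcore th c₁ p j X V t₁ t₂ hp ctx (max T 1 * (1 / 2) ^ k) ((1 / 2) ^ n) m i _
      (MSt.measurableSet_cellD ctx.h12 hV k m n i) hR (by positivity) hg.1 (by linarith only [he1, hpos]) he3
      (by linarith only [he2, hpos]) cell_D).trans ?_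
    refine fin_le ctx.hc₁ hT1 (by positivity) (ell_D hR hmn) ?_
    have h1 : (4 : ℝ) ^ m * (10720 * (4 ^ n * (1 / 2) ^ m)) = 10720 * (2 ^ m * 4 ^ n) := by
      rw [half_inv, two_pow_sq m]
      field_simp
    rw [h1]
    have : (0 : ℝ) < 2 ^ m * 4 ^ n := by positivity
    linarith only [this]

end Vale.Agent.P107
end
end
end

section

section

attribute [-instance] ProperSMul.toContinuousSMul IsTopologicalTorsor.toContinuousSMul
  IdemSemiring.toCanonicallyOrderedAdd IdemSemiring.toMulLeftMono IdemSemiring.toMulRightMono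
  AddQuantale.instAddLeftMono AddQuantale.instAddRightMono Quantale.instMulLeftMono
  Quantale.instMulRightMono FiniteDimensional.rclike_to_real IsScalarTower.complexToReal
  FiniteDimensional.complexToReal

section

/-!
Module M2T: the T part of the kernel integral.
-/

open MeasureTheory Set Filter Topology
open scoped RealInnerProductSpace ENNReal NNReal

namespace Vale.Agent.P107

open Vale.Agent.P107.Ar

variable {T : ℝ} {f : ℝ → E3 → E3 → ℝ} {E B : ℝ → E3 → E3}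

open Classical in
/-- M2T. -/
theorem decompT (h : IsClassicalSolution T f E B) {t₀ : ℝ} (h0 : 0 < t₀) (h0T : t₀ < T) :
    ∃ (C : ℝ≥0) (p₀ : ℕ), ∀ (th c₁ : ℝ) (p j : ℕ) (X V : ℝ → E3) (t₁ t₂ : ℝ), p₀ ≤ p →
      Ctx T f E B t₀ th c₁ p j X V t₁ t₂ →
      pathInt (t₀ / 2) T f X t₁ t₂ (kerT j (Ar.ee p j) V)
        ≤ C * (∑' (k : ℕ) (m : ℕ) (l : ℕ) (i : ℕ), if rA p j i m l then
            ENNReal.ofReal (4 ^ k * tA p j i m l * nA c₁ p j i k m l) else 0)
        + C * (∑' (k : ℕ) (m : ℕ) (l : ℕ) (i : ℕ), if rN p j i m l then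
            ENNReal.ofReal (4 ^ k * tN p j i m l * nN c₁ p j i k m l) else 0)
        + C * (∑' (k : ℕ) (m : ℕ) (n : ℕ) (i : ℕ), if rD p j i m n then
            ENNReal.ofReal (4 ^ k * tD p j i m n * nD c₁ p j i k m n) else 0) :=
  decompT_of h h0 h0T (mass_le_of (mass_basic h h0 h0T) (mass_stay h h0 h0T))

end Vale.Agent.P107
end
end
end

section

section

attribute [-instance] ProperSMul.toContinuousSMul IsTopologicalTorsor.toContinuousSMul
  IdemSemiring.toCanonicallyOrderedAdd IdemSemiring.toMulLeftMono IdemSemiring.toMulRightMono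
  AddQuantale.instAddLeftMono AddQuantale.instAddRightMono Quantale.instMulLeftMono
  Quantale.instMulRightMono FiniteDimensional.rclike_to_real IsScalarTower.complexToReal
  FiniteDimensional.complexToReal

section

/-!
Summation lemmas for the decomposition of the acceleration part (Cauchy-Schwarz over cells).
-/

open MeasureTheory Set Filter Topology
open scoped ENNReal NNReal

namespace Vale.Agent.P107.DecS

open Vale.Agent.P107.Ar

lemma rpow_half_const {K : ℝ≥0∞} (hK : 1 ≤ K) (a : ℝ≥0∞) :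
    (K * a) ^ (1 / 2 : ℝ) ≤ K * a ^ (1 / 2 : ℝ) := by
  rw [ENNReal.mul_rpow_of_nonneg _ _ (by norm_num)]
  gcongr
  calc K ^ (1 / 2 : ℝ) ≤ K ^ (1 : ℝ) := ENNReal.rpow_le_rpow_of_exponent_le hK (by norm_num)
    _ = K := ENNReal.rpow_one K

lemma ofReal_rpow_half (x : ℝ) : (ENNReal.ofReal x) ^ (1 / 2 : ℝ) = ENNReal.ofReal (√x) := by
  rcases le_or_gt 0 x with h | h
  · rw [Real.sqrt_eq_rpow, ENNReal.ofReal_rpow_of_nonneg h (by norm_num)]
  · rw [ENNReal.ofReal_of_nonpos h.le, Real.sqrt_eq_zero_of_nonpos h.le, ENNReal.ofReal_zero,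
      ENNReal.zero_rpow_of_pos (by norm_num)]

/-- Cauchy-Schwarz for sums in `[0, ∞]`. -/
lemma tsum_cs {ι : Type*} (a b : ι → ℝ≥0∞) :
    ∑' i, a i ^ (1 / 2 : ℝ) * b i ^ (1 / 2 : ℝ) ≤
      (∑' i, a i) ^ (1 / 2 : ℝ) * (∑' i, b i) ^ (1 / 2 : ℝ) := by
  letI : MeasurableSpace ι := ⊤
  have hpq : Real.HolderConjugate 2 2 := Real.HolderConjugate.two_two
  have h1 := ENNReal.lintegral_mul_le_Lp_mul_Lq (Measure.count : Measure ι) hpq
    (f := fun i => a i ^ (1 / 2 : ℝ)) (g := fun i => b i ^ (1 / 2 : ℝ))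
    (measurable_from_top.aemeasurable) (measurable_from_top.aemeasurable)
  have e : ∀ x : ℝ≥0∞, (x ^ (1 / 2 : ℝ)) ^ (2 : ℝ) = x := by
    intro x
    rw [← ENNReal.rpow_mul]
    norm_num
  simp only [Pi.mul_apply, lintegral_count, e] at h1
  exact h1

/-- Reordering of a fourfold sum. -/
lemma tsum4_comm (F : ℕ → ℕ → ℕ → ℕ → ℝ≥0∞) :
    ∑' (k : ℕ) (m : ℕ) (l : ℕ) (i : ℕ), F k m l i =
      ∑' (l : ℕ) (i : ℕ) (k : ℕ) (m : ℕ), F k m l i := by
  have h1 : ∀ k, ∑' (m : ℕ) (l : ℕ) (i : ℕ), F k m l i = ∑' (l : ℕ) (i : ℕ) (m : ℕ), F k m l i := by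
    intro k
    rw [ENNReal.tsum_comm]
    refine tsum_congr fun l => ?_
    rw [ENNReal.tsum_comm]
  simp only [h1]
  rw [ENNReal.tsum_comm]
  refine tsum_congr fun l => ?_
  rw [ENNReal.tsum_comm]

/-- Reordering of a threefold sum. -/
lemma tsum3_comm (F : ℕ → ℕ → ℕ → ℝ≥0∞) :
    ∑' (m : ℕ) (l : ℕ) (i : ℕ), F m l i = ∑' (l : ℕ) (i : ℕ) (m : ℕ), F m l i := by
  rw [ENNReal.tsum_comm]
  refine tsum_congr fun l => ?_
  rw [ENNReal.tsum_comm]

open Classical in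
/-- Cauchy-Schwarz for a family of cells, with the budget `β`. -/
theorem sum_budget {c₁ : ℝ} {p j : ℕ} {r : ℕ → ℕ → ℕ → Prop} {w : ℕ → ℕ → ℕ → ℕ → ℝ}
    {β : ℕ → ℕ → ℝ≥0∞} {L : ℝ≥0∞} (hL : 1 ≤ L)
    (hfar : ∀ k, dl c₁ p j < (1 / 2 : ℝ) ^ k →
      ∑' m, β k m ≤ L * ENNReal.ofReal (dl c₁ p j + (1 / 2) ^ k))
    (hnear : ∑' (k : ℕ) (m : ℕ), (if (1 / 2 : ℝ) ^ k ≤ dl c₁ p j then β k m else 0) ≤
      L * ENNReal.ofReal (dl c₁ p j)) :
    ∑' (k : ℕ) (m : ℕ) (l : ℕ) (i : ℕ), (if r m l i then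
        β k m ^ (1 / 2 : ℝ) * ENNReal.ofReal (w k m l i) ^ (1 / 2 : ℝ) else 0) ≤
      L * sumSb c₁ p j r w := by
  set near : ℕ → Prop := fun k => (1 / 2 : ℝ) ^ k ≤ dl c₁ p j with hne
  have hsplit : ∀ k m l i, (if r m l i then
        β k m ^ (1 / 2 : ℝ) * ENNReal.ofReal (w k m l i) ^ (1 / 2 : ℝ) else 0) =
      (if near k then β k m else 0) ^ (1 / 2 : ℝ) *
        (if near k ∧ r m l i then ENNReal.ofReal (w k m l i) else 0) ^ (1 / 2 : ℝ) +
      (if near k then 0 else β k m) ^ (1 / 2 : ℝ) *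
        (if ¬ near k ∧ r m l i then ENNReal.ofReal (w k m l i) else 0) ^ (1 / 2 : ℝ) := by
    intro k m l i
    have hz : (0 : ℝ≥0∞) ^ (1 / 2 : ℝ) = 0 := ENNReal.zero_rpow_of_pos (by norm_num)
    by_cases h1 : near k <;> by_cases h2 : r m l i <;>
      simp only [h1, h2, if_true, if_false, not_true_eq_false, not_false_eq_true, and_self,
        and_false, false_and, hz, mul_zero, zero_mul, add_zero, zero_add]
  simp only [hsplit]
  simp only [ENNReal.tsum_add]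
  unfold sumSb
  rw [mul_add]
  refine add_le_add ?_ ?_
  · rw [tsum4_comm, ← ENNReal.tsum_mul_left]
    refine ENNReal.tsum_le_tsum fun l => ?_
    rw [← ENNReal.tsum_mul_left]
    refine ENNReal.tsum_le_tsum fun i => ?_
    have h1 := tsum_cs (fun y : ℕ × ℕ => if near y.1 then β y.1 y.2 else 0)
      (fun y : ℕ × ℕ => if near y.1 ∧ r y.2 l i then ENNReal.ofReal (w y.1 y.2 l i) else 0)
    simp only [ENNReal.tsum_prod'] at h1
    refine h1.trans ?_
    have h2 : (∑' (k : ℕ) (m : ℕ), if near k then β k m else 0) ^ (1 / 2 : ℝ) ≤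
        L * ENNReal.ofReal (√(dl c₁ p j)) := by
      rw [← ofReal_rpow_half]
      refine le_trans ?_ (rpow_half_const hL _)
      exact ENNReal.rpow_le_rpow hnear (by norm_num)
    calc _ ≤ (L * ENNReal.ofReal (√(dl c₁ p j))) *
        (∑' (k : ℕ) (m : ℕ), if near k ∧ r m l i then ENNReal.ofReal (w k m l i) else 0) ^
          (1 / 2 : ℝ) := by gcongr
      _ = _ := by rw [mul_assoc]
  · rw [← ENNReal.tsum_mul_left]
    refine ENNReal.tsum_le_tsum fun k => ?_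
    rw [tsum3_comm, ← ENNReal.tsum_mul_left]
    refine ENNReal.tsum_le_tsum fun l => ?_
    rw [← ENNReal.tsum_mul_left]
    refine ENNReal.tsum_le_tsum fun i => ?_
    by_cases hk : near k
    · simp only [hk, if_true, not_true_eq_false, false_and, if_false]
      simp
    · have hk' : dl c₁ p j < (1 / 2 : ℝ) ^ k := not_le.1 hk
      have h1 := tsum_cs (fun m : ℕ => β k m)
        (fun m : ℕ => if ¬ near k ∧ r m l i then ENNReal.ofReal (w k m l i) else 0)
      simp only [hk, if_false] at h1 ⊢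
      refine h1.trans ?_
      have h2 : (∑' (m : ℕ), β k m) ^ (1 / 2 : ℝ) ≤
          L * ENNReal.ofReal (√(dl c₁ p j + (1 / 2) ^ k)) := by
        rw [← ofReal_rpow_half]
        refine le_trans ?_ (rpow_half_const hL _)
        exact ENNReal.rpow_le_rpow (hfar k hk') (by norm_num)
      simp only [hk', true_and, not_false_eq_true]
      calc _ ≤ (L * ENNReal.ofReal (√(dl c₁ p j + (1 / 2) ^ k))) *
          (∑' (m : ℕ), if r m l i then ENNReal.ofReal (w k m l i) else 0) ^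
            (1 / 2 : ℝ) := by gcongr
        _ = _ := by rw [mul_assoc]

end Vale.Agent.P107.DecS
end
end
end

section

section

attribute [-instance] ProperSMul.toContinuousSMul IsTopologicalTorsor.toContinuousSMul
  IdemSemiring.toCanonicallyOrderedAdd IdemSemiring.toMulLeftMono IdemSemiring.toMulRightMono
  AddQuantale.instAddLeftMono AddQuantale.instAddRightMono Quantale.instMulLeftMono
  Quantale.instMulRightMono FiniteDimensional.rclike_to_real IsScalarTower.complexToReal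
  FiniteDimensional.complexToReal

section

/-!
Definitions for the existence theory (module LE): smooth fields and densities on all of
space-time, the Maxwell and Vlasov equations, the delayed force, layer solutions and the
solutions of the delayed system.
-/

open MeasureTheory Set Filter Topology
open scoped RealInnerProductSpace ENNReal NNReal ContDiff

namespace Vale.Agent.P107.LE

variable {F : Type*} [NormedAddCommGroup F] [NormedSpace ℝ F]

/-- Smooth functions on space-time, all of whose derivatives are bounded on bounded time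
intervals. -/
structure SF (W : ℝ × E3 → F) : Prop where
  smooth : ContDiff ℝ ∞ W
  bdd : ∀ (n : ℕ) (T : ℝ), ∃ C : ℝ, ∀ p : ℝ × E3, |p.1| ≤ T → ‖iteratedFDeriv ℝ n W p‖ ≤ C

/-- Smooth functions on `ℝ × E3 × E3` whose support in `(x,v)` is bounded on bounded time
intervals. -/
structure SD (g : ℝ × E3 × E3 → F) : Prop where
  smooth : ContDiff ℝ ∞ g
  supp : ∀ T : ℝ, ∃ R : ℝ, ∀ (t : ℝ) (x v : E3), |t| ≤ T → g (t, x, v) ≠ 0 → ‖x‖ ≤ R ∧ ‖v‖ ≤ R

/-- Smooth bounded data with bounded derivatives. -/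
structure SB (W : E3 → F) : Prop where
  smooth : ContDiff ℝ ∞ W
  bdd : ∀ n : ℕ, ∃ C : ℝ, ∀ x : E3, ‖iteratedFDeriv ℝ n W x‖ ≤ C

/-- The Maxwell system with sources `ρ, j` for the times in `s`. -/
structure Mx (s : Set ℝ) (E B : ℝ × E3 → E3) (ρ : ℝ × E3 → ℝ) (j : ℝ × E3 → E3) : Prop where
  ampere : ∀ p : ℝ × E3, p.1 ∈ s → ∀ i : Fin 3, ptd (fun y => E y i) p
      = pxd (ee (i + 1)) (fun y => B y (i + 2)) p - pxd (ee (i + 2)) (fun y => B y (i + 1)) p
        - j p i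
  faraday : ∀ p : ℝ × E3, p.1 ∈ s → ∀ i : Fin 3, ptd (fun y => B y i) p
      = -(pxd (ee (i + 1)) (fun y => E y (i + 2)) p - pxd (ee (i + 2)) (fun y => E y (i + 1)) p)
  gauss : ∀ p : ℝ × E3, p.1 ∈ s → ∑ i : Fin 3, pxd (ee i) (fun y => E y i) p = ρ p
  gaussm : ∀ p : ℝ × E3, p.1 ∈ s → ∑ i : Fin 3, pxd (ee i) (fun y => B y i) p = 0

/-- The charge density of `g`. -/
noncomputable def rhoD (g : ℝ × E3 × E3 → ℝ) (p : ℝ × E3) : ℝ := ∫ v, g (p.1, p.2, v)

/-- The current density of `g`. -/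
noncomputable def curD (g : ℝ × E3 × E3 → ℝ) (p : ℝ × E3) : E3 := ∫ v, g (p.1, p.2, v) • u v

/-- The Vlasov equation with the given fields (all times). -/
def Vl (E B : ℝ × E3 → E3) (f : ℝ × E3 × E3 → ℝ) : Prop :=
  ∀ (t : ℝ) (x v : E3), fderiv ℝ f (t, x, v) (1, u v, lor (E (t, x)) (B (t, x)) v) = 0

/-- Free transport with a source in divergence form: `∂ₜg + u·∇ₓg = - div_v H`. -/
def Tr (g : ℝ × E3 × E3 → ℝ) (H : ℝ × E3 × E3 → E3) : Prop :=
  ∀ (t : ℝ) (x v : E3), fderiv ℝ g (t, x, v) (1, u v, 0) = - div (fun w => H (t, x, w)) v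

/-- A bump on `(1,2)`. -/
noncomputable def bmp : ContDiffBump (3 / 2 : ℝ) := ⟨1 / 4, 1 / 2, by norm_num, by norm_num⟩

/-- A smooth probability density supported in `[1,2]`. -/
noncomputable def th (s : ℝ) : ℝ := bmp.normed volume s

/-- The delayed field `∫ θ(s) W(max(t - ε s, 0), x) ds`. -/
noncomputable def dl (ε : ℝ) (W : ℝ × E3 → F) (p : ℝ × E3) : F :=
  ∫ s, th s • W (max (p.1 - ε * s) 0, p.2)

/-- Smooth admissible data. -/
structure Dat (f₀ : E3 × E3 → ℝ) (E₀ B₀ : E3 → E3) : Prop where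
  f_smooth : ContDiff ℝ ∞ f₀
  f_supp : HasCompactSupport f₀
  f_nonneg : ∀ z, 0 ≤ f₀ z
  sE : SB E₀
  sB : SB B₀
  E_L2 : MemLp E₀ 2 volume
  B_L2 : MemLp B₀ 2 volume
  gauss : ∀ x, div E₀ x = ∫ v, f₀ (x, v)
  gaussm : ∀ x, div B₀ x = 0

/-- The layer solution: the density is driven by the static initial fields, the fields are
the Maxwell fields of this density. -/
structure Layer (f₀ : E3 × E3 → ℝ) (E₀ B₀ : E3 → E3) (fL : ℝ × E3 × E3 → ℝ)
    (EL BL : ℝ × E3 → E3) : Prop where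
  sd : SD fL
  sE : SF EL
  sB : SF BL
  nonneg : ∀ p, 0 ≤ fL p
  vl : Vl (fun p => E₀ p.2) (fun p => B₀ p.2) fL
  mx : Mx (Ici 0) EL BL (rhoD fL) (curD fL)
  f0 : ∀ z, fL (0, z) = f₀ z
  E0 : ∀ x, EL (0, x) = E₀ x
  B0 : ∀ x, BL (0, x) = B₀ x

/-- A solution of the system with delay `ε`, equal to the layer solution up to time `ε`. -/
structure EpsSol (fL : ℝ × E3 × E3 → ℝ) (EL BL : ℝ × E3 → E3) (ε : ℝ) (f : ℝ × E3 × E3 → ℝ)
    (E B : ℝ × E3 → E3) : Prop where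
  sd : SD f
  sE : SF E
  sB : SF B
  nonneg : ∀ p, 0 ≤ f p
  vl : Vl (dl ε E) (dl ε B) f
  mx : Mx (Ici 0) E B (rhoD f) (curD f)
  agf : ∀ t ≤ ε, ∀ z, f (t, z) = fL (t, z)
  agE : ∀ t ≤ ε, ∀ x, E (t, x) = EL (t, x)
  agB : ∀ t ≤ ε, ∀ x, B (t, x) = BL (t, x)

/-- The momenta are bounded by `P` on `[0,T]`. -/
def MB (P T : ℝ) (f : ℝ × E3 × E3 → ℝ) : Prop :=
  ∀ (t : ℝ) (x v : E3), 0 ≤ t → t ≤ T → f (t, x, v) ≠ 0 → ‖v‖ ≤ P

/-- The spatial Laplacian. -/
noncomputable def lap (w : ℝ × E3 → ℝ) (p : ℝ × E3) : ℝ :=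
  ∑ i : Fin 3, pxd (ee i) (pxd (ee i) w) p

/-- Spherical means: `smG G (s, τ, x)` is `τ` times the mean of `G(s, x + τ w)` over `|w| = 1`. -/
noncomputable def smG (G : ℝ × E3 → ℝ) (y : ℝ × ℝ × E3) : ℝ :=
  (sph.real univ)⁻¹ * (y.2.1 * ∫ w, G (y.1, y.2.2 + y.2.1 • (w : E3)) ∂sph)

/-- The momentum flux `f K`. -/
noncomputable def flx (E B : ℝ × E3 → E3) (f : ℝ × E3 × E3 → ℝ) (y : ℝ × E3 × E3) : E3 :=
  f y • lor (E (y.1, y.2.1)) (B (y.1, y.2.1)) y.2.2

/-- The tuple `(g, H, E, B)` vanishes for early times and solves the linear system. -/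
structure LateSys (g : ℝ × E3 × E3 → ℝ) (H : ℝ × E3 × E3 → E3) (E B : ℝ × E3 → E3) : Prop where
  sg : SD g
  sH : SD H
  sE : SF E
  sB : SF B
  mx : Mx univ E B (rhoD g) (curD g)
  tr : Tr g H
  late : ∃ η > 0, ∀ t ≤ η, (∀ z, g (t, z) = 0 ∧ H (t, z) = 0) ∧ ∀ x, E (t, x) = 0 ∧ B (t, x) = 0

/-- The kernel of the magnetic field (term in `g`). -/
noncomputable def kTB (i : Fin 3) (v z : E3) : ℝ :=
  u v (i + 2) * kT (u v) (i + 1) z - u v (i + 1) * kT (u v) (i + 2) z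

/-- The kernel of the magnetic field (term in `S g`). -/
noncomputable def kSB (i : Fin 3) (v z : E3) : ℝ :=
  u v (i + 2) * kS (u v) (i + 1) z - u v (i + 1) * kS (u v) (i + 2) z

/-- The kernel factor `w_k / (1 + a·w)`, `w = z/|z|`. -/
noncomputable def mk (k : Fin 3) (a z : E3) : ℝ := z k * (‖z‖ + ⟪a, z⟫)⁻¹

/-- The a priori bound (proved elsewhere). -/
def APriori : Prop :=
  ∀ (T : ℝ) (f : ℝ → E3 → E3 → ℝ) (E B : ℝ → E3 → E3), 0 < T → IsClassicalSolution T f E B →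
    ∃ R : ℝ, ∀ t ∈ Ico 0 T, ∀ x v, f t x v ≠ 0 → ‖v‖ ≤ R

end Vale.Agent.P107.LE
end
end
end

section

section

attribute [-instance] ProperSMul.toContinuousSMul IsTopologicalTorsor.toContinuousSMul
  IdemSemiring.toCanonicallyOrderedAdd IdemSemiring.toMulLeftMono IdemSemiring.toMulRightMono
  AddQuantale.instAddLeftMono AddQuantale.instAddRightMono Quantale.instMulLeftMono
  Quantale.instMulRightMono FiniteDimensional.rclike_to_real IsScalarTower.complexToReal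
  FiniteDimensional.complexToReal

section

/-!
Global existence from the a priori bound: the continuation argument. The theorems of the other
files of module LE enter as hypotheses here; they are discharged in `LE/Main.lean`.
-/

open MeasureTheory Set Filter Topology
open scoped RealInnerProductSpace ENNReal NNReal ContDiff

namespace Vale.Agent.P107.LE

/-- The notion of classical solution on `[0,T)` only depends on the values for these times. -/
theorem classical_congr {T : ℝ} {f f' : ℝ → E3 → E3 → ℝ} {E B E' B' : ℝ → E3 → E3}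
    (h : IsClassicalSolution T f E B)
    (hf : ∀ t ∈ Ico 0 T, f' t = f t) (hE : ∀ t ∈ Ico 0 T, E' t = E t)
    (hB : ∀ t ∈ Ico 0 T, B' t = B t) : IsClassicalSolution T f' E' B' where
  f_nonneg t ht x v := by rw [hf t ht]; exact h.f_nonneg t ht x v
  f_contDiff := h.f_contDiff.congr fun z hz => by rw [hf z.1 hz.1]
  E_contDiff := h.E_contDiff.congr fun z hz => by rw [hE z.1 hz.1]
  B_contDiff := h.B_contDiff.congr fun z hz => by rw [hB z.1 hz.1]
  vlasov t ht x v := by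
    have e1 : derivWithin (fun s => f' s x v) (Ico 0 T) t
        = derivWithin (fun s => f s x v) (Ico 0 T) t :=
      derivWithin_congr (fun s hs => by rw [hf s hs]) (by rw [hf t ht])
    rw [e1, hf t ht, hE t ht, hB t ht]
    exact h.vlasov t ht x v
  ampere t ht x := by
    have e1 : derivWithin (fun s => E' s x) (Ico 0 T) t
        = derivWithin (fun s => E s x) (Ico 0 T) t :=
      derivWithin_congr (fun s hs => by rw [hE s hs]) (by rw [hE t ht])
    have e2 : cur f' t x = cur f t x := by unfold cur; rw [hf t ht]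
    rw [e1, hB t ht, e2]
    exact h.ampere t ht x
  faraday t ht x := by
    have e1 : derivWithin (fun s => B' s x) (Ico 0 T) t
        = derivWithin (fun s => B s x) (Ico 0 T) t :=
      derivWithin_congr (fun s hs => by rw [hB s hs]) (by rw [hB t ht])
    rw [e1, hE t ht]
    exact h.faraday t ht x
  gauss t ht x := by
    have e2 : rho f' t x = rho f t x := by unfold rho; rw [hf t ht]
    rw [hE t ht, e2]
    exact h.gauss t ht x
  gauss_mag t ht x := by rw [hB t ht]; exact h.gauss_mag t ht x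
  E_memLp t ht := by rw [hE t ht]; exact h.E_memLp t ht
  B_memLp t ht := by rw [hB t ht]; exact h.B_memLp t ht
  E_cont t ht := by
    refine (h.E_cont t ht).congr' ?_
    filter_upwards [self_mem_nhdsWithin] with s hs
    rw [hE s hs, hE t ht]
  B_cont t ht := by
    refine (h.B_cont t ht).congr' ?_
    filter_upwards [self_mem_nhdsWithin] with s hs
    rw [hB s hs, hB t ht]
  compact_support t ht := by
    obtain ⟨R, hR⟩ := h.compact_support t ht
    refine ⟨R, fun s hs x v hne => hR s hs x v ?_⟩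
    rwa [hf s ⟨hs.1, hs.2.trans_lt ht.2⟩] at hne

theorem MB.mono {P P' T T' : ℝ} {f : ℝ × E3 × E3 → ℝ} (h : MB P T f) (hP : P ≤ P')
    (hT : T' ≤ T) : MB P' T' f :=
  fun t x v h0 ht hne => (h t x v h0 (ht.trans hT) hne).trans hP

section

variable {f₀ : E3 × E3 → ℝ} {E₀ B₀ : E3 → E3} {fL : ℝ × E3 × E3 → ℝ} {EL BL : ℝ × E3 → E3}

/-- Statement of `extend_MB`. -/
def ExtendMB (fL : ℝ × E3 × E3 → ℝ) (EL BL : ℝ × E3 → E3) : Prop :=
  ∀ T P : ℝ, ∃ h : ℝ, 0 < h ∧ ∀ ε f E B, 0 < ε → EpsSol fL EL BL ε f E B → ∀ T', 0 ≤ T' →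
    T' ≤ T → MB P T' f → MB (P + 1) (T' + h) f

/-- Statement of `exists_limit`. -/
def ExistsLimit (f₀ : E3 × E3 → ℝ) (E₀ B₀ : E3 → E3) (fL : ℝ × E3 × E3 → ℝ)
    (EL BL : ℝ × E3 → E3) : Prop :=
  ∀ (f : ℕ → ℝ × E3 × E3 → ℝ) (E B : ℕ → ℝ × E3 → E3),
    (∀ n : ℕ, EpsSol fL EL BL (1 / (n + 1)) (f n) (E n) (B n)) → ∀ T : ℝ, 0 < T →
    (∀ T' < T, ∃ P : ℝ, ∀ᶠ n in atTop, MB P T' (f n)) →
    ∃ (g : ℝ → E3 → E3 → ℝ) (E' B' : ℝ → E3 → E3), IsClassicalSolution T g E' B' ∧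
      (∀ x v, g 0 x v = f₀ (x, v)) ∧ E' 0 = E₀ ∧ B' 0 = B₀ ∧
      ∀ t x v, 0 ≤ t → t < T → Tendsto (fun n => f n (t, x, v)) atTop (𝓝 (g t x v)) ∧
        Tendsto (fun n => E n (t, x)) atTop (𝓝 (E' t x)) ∧
        Tendsto (fun n => B n (t, x)) atTop (𝓝 (B' t x))

/-- Statement of `MB_of_limit`. -/
def MBOfLimit (fL : ℝ × E3 × E3 → ℝ) (EL BL : ℝ × E3 → E3) : Prop :=
  ∀ (f : ℕ → ℝ × E3 × E3 → ℝ) (E B : ℕ → ℝ × E3 → E3),
    (∀ n : ℕ, EpsSol fL EL BL (1 / (n + 1)) (f n) (E n) (B n)) → ∀ T P : ℝ, 0 ≤ T →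
    (∀ᶠ n in atTop, MB P T (f n)) → ∀ g : ℝ → E3 → E3 → ℝ,
    (∀ t x v, 0 ≤ t → t ≤ T → Tendsto (fun n => f n (t, x, v)) atTop (𝓝 (g t x v))) →
    ∀ R : ℝ, (∀ t x v, 0 ≤ t → t ≤ T → g t x v ≠ 0 → ‖v‖ ≤ R) →
    ∀ᶠ n in atTop, MB (R + 1) T (f n)

/-- The momenta stay bounded on bounded time intervals, uniformly in the approximation. -/
theorem momenta_bounded (hA : APriori) (hD : Dat f₀ E₀ B₀) (hL : Layer f₀ E₀ B₀ fL EL BL)
    (hext : ExtendMB fL EL BL) (hlim : ExistsLimit f₀ E₀ B₀ fL EL BL)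
    (hmb : MBOfLimit fL EL BL) {f : ℕ → ℝ × E3 × E3 → ℝ} {E B : ℕ → ℝ × E3 → E3}
    (h : ∀ n : ℕ, EpsSol fL EL BL (1 / (n + 1)) (f n) (E n) (B n)) (T₀ : ℝ) :
    ∃ P : ℝ, ∀ᶠ n in atTop, MB P T₀ (f n) := by
  have hε : ∀ n : ℕ, (0 : ℝ) < 1 / (n + 1) := fun n => by positivity
  -- the momenta at time zero
  obtain ⟨P₀, hP₀⟩ : ∃ P₀ : ℝ, ∀ x v, f₀ (x, v) ≠ 0 → ‖v‖ ≤ P₀ := by
    obtain ⟨P, hP⟩ := hD.f_supp.isCompact.isBounded.exists_norm_le
    refine ⟨P, fun x v hne => ?_⟩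
    exact (le_max_right ‖x‖ ‖v‖).trans (hP (x, v) (subset_tsupport _ hne))
  have h0 : ∀ n, MB P₀ 0 (f n) := by
    intro n t x v ht0 ht hne
    obtain rfl : t = 0 := le_antisymm ht ht0
    rw [(h n).agf 0 (hε n).le, hL.f0] at hne
    exact hP₀ x v hne
  by_contra hcon
  let S : Set ℝ := {T : ℝ | 0 ≤ T ∧ ∃ P : ℝ, ∀ᶠ n in atTop, MB P T (f n)}
  have hS0 : (0 : ℝ) ∈ S := ⟨le_rfl, P₀, Eventually.of_forall h0⟩
  have hSb : ∀ T ∈ S, T ≤ max T₀ 0 := by
    rintro T ⟨hT0, P, hP⟩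
    by_contra hlt
    push Not at hlt
    refine hcon ⟨P, hP.mono fun n hn => hn.mono le_rfl ?_⟩
    exact (le_max_left _ _).trans hlt.le
  have hSbdd : BddAbove S := ⟨_, hSb⟩
  set Ts := sSup S with hTs
  have hTs_pos : 0 < Ts := by
    obtain ⟨r, hr, hrext⟩ := hext 0 P₀
    have : r ∈ S := by
      refine ⟨hr.le, P₀ + 1, Eventually.of_forall fun n => ?_⟩
      have := hrext _ _ _ _ (hε n) (h n) 0 le_rfl le_rfl (h0 n)
      rwa [zero_add] at this
    exact hr.trans_le (le_csSup hSbdd this)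
  have hb : ∀ T' < Ts, ∃ P : ℝ, ∀ᶠ n in atTop, MB P T' (f n) := by
    intro T' hT'
    obtain ⟨T'', ⟨_, P, hP⟩, hlt⟩ := exists_lt_of_lt_csSup ⟨0, hS0⟩ hT'
    exact ⟨P, hP.mono fun n hn => hn.mono le_rfl hlt.le⟩
  obtain ⟨g, E', B', hcl, -, -, -, hconv⟩ := hlim f E B h Ts hTs_pos hb
  obtain ⟨R, hR⟩ := hA Ts g E' B' hTs_pos hcl
  obtain ⟨r, hr, hrext⟩ := hext Ts (R + 1)
  let T1 : ℝ := max 0 (Ts - r / 2)
  have hT10 : 0 ≤ T1 := le_max_left _ _
  have hT1 : T1 < Ts := max_lt hTs_pos (by linarith)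
  have hT1' : Ts - r / 2 ≤ T1 := le_max_right _ _
  obtain ⟨P, hP⟩ := hb T1 hT1
  have h1 := hmb f E B h T1 P hT10 hP g
    (fun t x v ht0 ht => (hconv t x v ht0 (ht.trans_lt hT1)).1) R
    (fun t x v ht0 ht hne => hR t ⟨ht0, ht.trans_lt hT1⟩ x v hne)
  have h2 : T1 + r ∈ S := by
    refine ⟨by linarith, R + 1 + 1, h1.mono fun n hn => ?_⟩
    exact hrext _ _ _ _ (hε n) (h n) T1 hT10 hT1.le hn
  have h3 := le_csSup hSbdd h2
  rw [← hTs] at h3
  linarith

/-- Global existence, with the other theorems of the module as hypotheses. -/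
theorem global_existence_aux (hA : APriori) (hD : Dat f₀ E₀ B₀)
    (hL : Layer f₀ E₀ B₀ fL EL BL)
    (heps : ∀ ε : ℝ, 0 < ε → ∃ f E B, EpsSol fL EL BL ε f E B)
    (hext : ExtendMB fL EL BL) (hlim : ExistsLimit f₀ E₀ B₀ fL EL BL)
    (hmb : MBOfLimit fL EL BL) : ∃ (f : ℝ → E3 → E3 → ℝ) (E B : ℝ → E3 → E3),
    (∀ T, 0 < T → IsClassicalSolution T f E B) ∧ (∀ x v, f 0 x v = f₀ (x, v)) ∧
      E 0 = E₀ ∧ B 0 = B₀ := by
  have hε : ∀ n : ℕ, (0 : ℝ) < 1 / (n + 1) := fun n => by positivity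
  choose f E B h using fun n : ℕ => heps (1 / (n + 1)) (hε n)
  have hb : ∀ T : ℝ, ∃ P : ℝ, ∀ᶠ n in atTop, MB P T (f n) :=
    fun T => momenta_bounded hA hD hL hext hlim hmb h T
  have hsol : ∀ T : ℝ, 0 < T → ∃ (g : ℝ → E3 → E3 → ℝ) (E' B' : ℝ → E3 → E3),
      IsClassicalSolution T g E' B' ∧
      (∀ x v, g 0 x v = f₀ (x, v)) ∧ E' 0 = E₀ ∧ B' 0 = B₀ ∧
      ∀ t x v, 0 ≤ t → t < T → Tendsto (fun n => f n (t, x, v)) atTop (𝓝 (g t x v)) ∧
        Tendsto (fun n => E n (t, x)) atTop (𝓝 (E' t x)) ∧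
        Tendsto (fun n => B n (t, x)) atTop (𝓝 (B' t x)) :=
    fun T hT => hlim f E B h T hT fun T' _ => hb T'
  refine ⟨fun t x v => limUnder atTop (fun n => f n (t, x, v)),
    fun t x => limUnder atTop (fun n => E n (t, x)),
    fun t x => limUnder atTop (fun n => B n (t, x)), ?_, ?_, ?_, ?_⟩
  · intro T hT
    obtain ⟨g, E', B', hcl, -, -, -, hconv⟩ := hsol T hT
    refine classical_congr hcl ?_ ?_ ?_
    · intro t ht
      funext x v
      exact (hconv t x v ht.1 ht.2).1.limUnder_eq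
    · intro t ht
      funext x
      exact (hconv t x 0 ht.1 ht.2).2.1.limUnder_eq
    · intro t ht
      funext x
      exact (hconv t x 0 ht.1 ht.2).2.2.limUnder_eq
  · intro x v
    obtain ⟨g, E', B', -, hg0, -, -, hconv⟩ := hsol 1 one_pos
    rw [← hg0]
    exact (hconv 0 x v le_rfl one_pos).1.limUnder_eq
  · funext x
    obtain ⟨g, E', B', -, -, hE0, -, hconv⟩ := hsol 1 one_pos
    rw [← hE0]
    exact (hconv 0 x 0 le_rfl one_pos).2.1.limUnder_eq
  · funext x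
    obtain ⟨g, E', B', -, -, -, hB0, hconv⟩ := hsol 1 one_pos
    rw [← hB0]
    exact (hconv 0 x 0 le_rfl one_pos).2.2.limUnder_eq

end

end Vale.Agent.P107.LE
end
end
end

section

section

attribute [-instance] ProperSMul.toContinuousSMul IsTopologicalTorsor.toContinuousSMul
  IdemSemiring.toCanonicallyOrderedAdd IdemSemiring.toMulLeftMono IdemSemiring.toMulRightMono
  AddQuantale.instAddLeftMono AddQuantale.instAddRightMono Quantale.instMulLeftMono
  Quantale.instMulRightMono FiniteDimensional.rclike_to_real IsScalarTower.complexToReal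
  FiniteDimensional.complexToReal

section

/-!
Representation of the Lorentz force `E + b × B`.
-/

open MeasureTheory Set Filter Topology
open scoped RealInnerProductSpace ENNReal NNReal

namespace Vale.Agent.P107

variable {T : ℝ} {f : ℝ → E3 → E3 → ℝ} {E B : ℝ → E3 → E3}

lemma norm_dir_pl {z : E3} (hz : z ≠ 0) : ‖dir z‖ = 1 := by
  have : 0 < ‖z‖ := norm_pos_iff.2 hz
  unfold dir
  rw [norm_smul, norm_inv, norm_norm]
  field_simp

/-- The kernel of order two of the Lorentz force. -/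
noncomputable def kLT (b : E3) (i : Fin 3) (a z : E3) : ℝ :=
  (‖z‖⁻¹) ^ 2 * ((1 - ‖a‖ ^ 2) / al (dir z) a ^ 2
    * (khat (dir z) a b + al (dir z) a • dir z) i)

/-- The kernel of order one of the Lorentz force. -/
noncomputable def kLS (b : E3) (i : Fin 3) (a z : E3) : ℝ :=
  ‖z‖⁻¹ * ((al (dir z) a)⁻¹ * (khat (dir z) a b + al (dir z) a • dir z) i)

lemma den_eq {z : E3} (hz : z ≠ 0) (a : E3) : ‖z‖ + ⟪a, z⟫ = ‖z‖ * al (dir z) a := by
  have : 0 < ‖z‖ := norm_pos_iff.2 hz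
  unfold al dir
  rw [real_inner_smul_right]
  (clear * - hz; field_simp)

lemma num_eq {z : E3} (hz : z ≠ 0) (a : E3) (i : Fin 3) :
    z i + ‖z‖ * a i = ‖z‖ * (dir z + a) i := by
  have : 0 < ‖z‖ := norm_pos_iff.2 hz
  unfold dir
  rw [PiLp.add_apply, PiLp.smul_apply, smul_eq_mul]
  field_simp

lemma kT_eq_dir {z : E3} (hz : z ≠ 0) {a : E3} (ha : ‖a‖ < 1) (i : Fin 3) :
    kT a i z = (‖z‖⁻¹) ^ 2 * ((1 - ‖a‖ ^ 2) / al (dir z) a ^ 2 * (dir z + a) i) := by
  have hp : 0 < ‖z‖ := norm_pos_iff.2 hz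
  have hα := KA.al_pos (norm_dir_pl hz) ha
  unfold kT
  rw [num_eq hz, den_eq hz]
  field_simp

lemma kS_eq_dir {z : E3} (hz : z ≠ 0) {a : E3} (ha : ‖a‖ < 1) (i : Fin 3) :
    kS a i z = ‖z‖⁻¹ * ((al (dir z) a)⁻¹ * (dir z + a) i) := by
  have hp : 0 < ‖z‖ := norm_pos_iff.2 hz
  have hα := KA.al_pos (norm_dir_pl hz) ha
  unfold kS
  rw [num_eq hz, den_eq hz]
  field_simp

lemma inner_E3 (a b : E3) : ⟪a, b⟫ = a 0 * b 0 + a 1 * b 1 + a 2 * b 2 := by
  simp only [PiLp.inner_apply, Fin.sum_univ_three, RCLike.inner_apply, conj_trivial]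
  ring

lemma inner_E3_cyc (a b : E3) (i : Fin 3) :
    ⟪a, b⟫ = a i * b i + a (i + 1) * b (i + 1) + a (i + 2) * b (i + 2) := by
  rw [inner_E3]
  fin_cases i <;> simp <;> ring

lemma cross_alg {w : E3} (hw : ‖w‖ = 1) (a b : E3) (i : Fin 3) :
    (khat w a b + al w a • w) i = (w + a) i
      - b (i + 1) * (a (i + 1) * (w + a) i - a i * (w + a) (i + 1))
      + b (i + 2) * (a i * (w + a) (i + 2) - a (i + 2) * (w + a) i) := by
  have h1 : ⟪w, w⟫ = 1 := by rw [real_inner_self_eq_norm_sq, hw]; norm_num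
  rw [inner_E3_cyc w w i] at h1
  unfold khat al
  rw [inner_E3_cyc b w i, inner_E3_cyc (w + b) (w + a) i, inner_E3_cyc a w i]
  simp only [PiLp.add_apply, PiLp.sub_apply, PiLp.smul_apply, smul_eq_mul]
  linear_combination (- w i) * h1

lemma bv_comb {κ₁ κ₂ κ₃ κ₄ κ₅ : E3 → E3 → ℝ} (h₁ : KerV κ₁) (h₂ : KerV κ₂) (h₃ : KerV κ₃)
    (h₄ : KerV κ₄) (h₅ : KerV κ₅) {H : ℝ × E3 → E3 → ℝ}
    (h : LateV T H) {t : ℝ} (ht : t < T) (x : E3) (p r : ℝ) :
    bv t x (fun v z => κ₁ v z - p * (κ₂ v z - κ₃ v z) + r * (κ₄ v z - κ₅ v z)) H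
      = bv t x κ₁ H - p * (bv t x κ₂ H - bv t x κ₃ H) + r * (bv t x κ₄ H - bv t x κ₅ H) := by
  have e1 := bv_add (h₁.sub ((h₂.sub h₃).const_mul p)) ((h₄.sub h₅).const_mul r) h ht x
  have e2 := bv_sub h₁ ((h₂.sub h₃).const_mul p) h ht x
  have e3 := bv_const_mul (κ := fun v z => κ₂ v z - κ₃ v z) (H := H) (t := t) x p
  have e4 := bv_const_mul (κ := fun v z => κ₄ v z - κ₅ v z) (H := H) (t := t) x r
  have e5 := bv_sub h₂ h₃ h ht x
  have e6 := bv_sub h₄ h₅ h ht x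
  rw [e1, e2, e3, e4, e5, e6]

lemma kLT_eq {z : E3} (hz : z ≠ 0) {a : E3} (ha : ‖a‖ < 1) (b : E3) (i : Fin 3) :
    kLT b i a z = kT a i z - b (i + 1) * (a (i + 1) * kT a i z - a i * kT a (i + 1) z)
      + b (i + 2) * (a i * kT a (i + 2) z - a (i + 2) * kT a i z) := by
  unfold kLT
  rw [kT_eq_dir hz ha, kT_eq_dir hz ha, kT_eq_dir hz ha, cross_alg (norm_dir_pl hz)]
  ring

lemma kLS_eq {z : E3} (hz : z ≠ 0) {a : E3} (ha : ‖a‖ < 1) (b : E3) (i : Fin 3) :
    kLS b i a z = kS a i z - b (i + 1) * (a (i + 1) * kS a i z - a i * kS a (i + 1) z)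
      + b (i + 2) * (a i * kS a (i + 2) z - a (i + 2) * kS a i z) := by
  unfold kLS
  rw [kS_eq_dir hz ha, kS_eq_dir hz ha, kS_eq_dir hz ha, cross_alg (norm_dir_pl hz)]
  ring

/-- The contribution of the cutoff to the Lorentz force. -/
noncomputable def DtermL (t₀ : ℝ) (E B : ℝ → E3 → E3) (t : ℝ) (x b : E3) (i : Fin 3) : ℝ :=
  Dterm t₀ E B t x i (i + 1) (i + 2)
    - b (i + 1) * DtermB t₀ E B t x (i + 2) i (i + 1)
    + b (i + 2) * DtermB t₀ E B t x (i + 1) (i + 2) i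

/-- The Lorentz force. -/
theorem reprL (h : IsClassicalSolution T f E B) {t₀ : ℝ} (h0 : 0 < t₀) {t : ℝ}
    (ht0 : t₀ ≤ t) (ht : t < T) (x b : E3) (i : Fin 3) :
    - (sph.real univ * (E t x + cross b (B t x)) i)
      = bv t x (fun v z => kLT b i (u v) z) (F0 t₀ f)
      + bv t x (fun v z => kLS b i (u v) z) (HS (chi t₀) f) + DtermL t₀ E B t x b i := by
  have hkj : (i + 2 : Fin 3) + 1 = i := by fin_cases i <;> rfl
  have hkk : (i + 2 : Fin 3) + 2 = i + 1 := by fin_cases i <;> rfl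
  have hjj : (i + 1 : Fin 3) + 1 = i + 2 := by fin_cases i <;> rfl
  have hjk : (i + 1 : Fin 3) + 2 = i := by fin_cases i <;> rfl
  have rE := reprE h h0 ht0 ht x i (i + 1) (i + 2) rfl rfl
  have rk := reprB h h0 ht0 ht x (i + 2) i (i + 1) hkj.symm hkk.symm
  have rj := reprB h h0 ht0 ht x (i + 1) (i + 2) i hjj.symm hjk.symm
  have V0 := lateV_F0 h h0
  have VS := lateV_HS h h0
  have kt : ∀ l m : Fin 3, KerV (fun v z => (u v) l * kT (u v) m z) := fun l m =>
    (kerV_kT m).mul_v (cont_ui l)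
  have ks : ∀ l m : Fin 3, KerV (fun v z => (u v) l * kS (u v) m z) := fun l m =>
    (kerV_kS m).mul_v (cont_ui l)
  have eT : bv t x (fun v z => kLT b i (u v) z) (F0 t₀ f) = _ :=
    (bv_congr x fun v z hz => kLT_eq hz (norm_u_lt_one v) b i).trans
      (bv_comb (kerV_kT i) (kt (i + 1) i) (kt i (i + 1)) (kt i (i + 2)) (kt (i + 2) i) V0 ht x
        (b (i + 1)) (b (i + 2)))
  have eS : bv t x (fun v z => kLS b i (u v) z) (HS (chi t₀) f) = _ :=
    (bv_congr x fun v z hz => kLS_eq hz (norm_u_lt_one v) b i).trans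
      (bv_comb (kerV_kS i) (ks (i + 1) i) (ks i (i + 1)) (ks i (i + 2)) (ks (i + 2) i) VS ht x
        (b (i + 1)) (b (i + 2)))
  rw [eT, eS, PiLp.add_apply, cross_apply]
  unfold DtermL
  linear_combination rE - b (i + 1) * rk + b (i + 2) * rj

end Vale.Agent.P107
end
end
end

section

section

attribute [-instance] ProperSMul.toContinuousSMul IsTopologicalTorsor.toContinuousSMul
  IdemSemiring.toCanonicallyOrderedAdd IdemSemiring.toMulLeftMono IdemSemiring.toMulRightMono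
  AddQuantale.instAddLeftMono AddQuantale.instAddRightMono Quantale.instMulLeftMono
  Quantale.instMulRightMono FiniteDimensional.rclike_to_real IsScalarTower.complexToReal
  FiniteDimensional.complexToReal

section

/-!
Integration by parts in the velocity for the regularised acceleration kernel.
-/

open MeasureTheory Set Filter Topology
open scoped RealInnerProductSpace ENNReal NNReal

namespace Vale.Agent.P107

variable {T : ℝ} {f : ℝ → E3 → E3 → ℝ} {E B : ℝ → E3 → E3}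

/-- Integration by parts in `v` against the Lorentz force. -/
theorem S_ibp_gen {g Λ : E3 → ℝ} (hg : ContDiff ℝ 1 g) (hgs : HasCompactSupport g)
    (hΛ : ContDiff ℝ 1 Λ) (E₀ B₀ : E3) :
    ∫ v, Λ v * fderiv ℝ g v (lor E₀ B₀ v) = - ∫ v, g v * fderiv ℝ Λ v (lor E₀ B₀ v) := by
  have hF := contDiff_lor E₀ B₀
  have h1 := ibp_vector (W := fun v => Λ v • lor E₀ B₀ v) hg hgs (hΛ.smul hF)
  have h2 : ∀ v, div (fun v => Λ v • lor E₀ B₀ v) v = fderiv ℝ Λ v (lor E₀ B₀ v) := by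
    intro v
    have hΛd := hΛ.differentiable (by norm_num) v
    have hFk : ∀ k : Fin 3, DifferentiableAt ℝ (fun v => lor E₀ B₀ v k) v := fun k =>
      ((EuclideanSpace.proj k : E3 →L[ℝ] ℝ).contDiff.comp hF).differentiable (by norm_num) v
    have e1 : ∀ k : Fin 3, pd k (fun y => (Λ y • lor E₀ B₀ y) k) v
        = Λ v * pd k (fun y => lor E₀ B₀ y k) v
          + lor E₀ B₀ v k * fderiv ℝ Λ v (ee k) := by
      intro k
      unfold pd
      have : (fun y => (Λ y • lor E₀ B₀ y) k) = fun y => Λ y * lor E₀ B₀ y k := by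
        ext y; simp
      rw [this, fderiv_fun_mul hΛd (hFk k)]
      simp
    unfold div
    rw [Finset.sum_congr rfl fun k _ => e1 k, Finset.sum_add_distrib, ← Finset.mul_sum]
    have e2 : ∑ k, pd k (fun y => lor E₀ B₀ y k) v = 0 := div_lor E₀ B₀ v
    rw [e2, mul_zero, zero_add, ← clm_apply_eq_sum]
  have h3 : ∀ v, fderiv ℝ g v (Λ v • lor E₀ B₀ v) = Λ v * fderiv ℝ g v (lor E₀ B₀ v) := by
    intro v
    rw [map_smul, smul_eq_mul]
  rw [← integral_congr_ae (ae_of_all _ h3), h1]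
  congr 1
  refine integral_congr_ae (ae_of_all _ fun v => ?_)
  simp only [h2]

section Psi

variable {w b c : E3} {ε e : ℝ}

lemma contDiff_al_u (w : E3) : ContDiff ℝ 1 (fun v => al w (u v)) := by
  unfold al
  exact contDiff_const.add (contDiff_uu.inner ℝ contDiff_const)

lemma contDiff_khat_u (w b : E3) : ContDiff ℝ 1 (fun v => khat w (u v) b) := by
  unfold khat
  have h1 : ContDiff ℝ 1 (fun v => w + u v) := contDiff_const.add contDiff_uu
  have h2 : ContDiff ℝ 1 (fun v => al w b • (w + u v)) := h1.const_smul (al w b)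
  have h3 : ContDiff ℝ 1 (fun v => ⟪w + b, w + u v⟫) := contDiff_const.inner ℝ h1
  have h4 : ContDiff ℝ 1 (fun _ : E3 => w) := contDiff_const
  exact h2.sub (h3.smul h4)

lemma contDiff_ck_u (hw : ‖w‖ = 1) (hc : ‖c‖ < 1) (hε : 0 < ε) :
    ContDiff ℝ 1 (fun v => ck ε e w (u v) c) := by
  unfold ck
  have h1 : ContDiff ℝ 1 (fun v => Dn ε e w (u v) c) := by
    unfold Dn
    exact (contDiff_al_u w).add contDiff_const
  exact (contDiff_const.div h1 fun v => (KA.Dn_pos hw (norm_u_lt_one v) hc hε).ne').smul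
    (contDiff_khat_u w c)

lemma contDiff_Psi_u (hw : ‖w‖ = 1) (hc : ‖c‖ < 1) (hε : 0 < ε) (b : E3) :
    ContDiff ℝ 1 (fun v => Psi ε e w (u v) b c) := by
  unfold Psi
  exact ((contDiff_al_u w).inv fun v => (KA.al_pos hw (norm_u_lt_one v)).ne').smul
    ((contDiff_khat_u w b).sub ((contDiff_ck_u hw hc hε).const_smul (al w b)))

/-- The kernel of order one in the final representation. -/
noncomputable def kX (ε e : ℝ) (b c : E3) (i : Fin 3) (a z : E3) : ℝ :=
  ‖z‖⁻¹ * (dir z + Psi ε e (dir z) a b c) i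

lemma contDiff_kX_u {z : E3} (hz : z ≠ 0) (hc : ‖c‖ < 1) (hε : 0 < ε) (b : E3) (i : Fin 3) :
    ContDiff ℝ 1 (fun v => kX ε e b c i (u v) z) := by
  unfold kX
  have h1 := contDiff_Psi_u (e := e) (norm_dir_pl hz) hc hε b
  have h2 : ContDiff ℝ 1 (fun v => dir z + Psi ε e (dir z) (u v) b c) := contDiff_const.add h1
  exact contDiff_const.mul ((EuclideanSpace.proj i : E3 →L[ℝ] ℝ).contDiff.comp h2)

lemma fderiv_kX_u {z : E3} (hz : z ≠ 0) (hc : ‖c‖ < 1) (hε : 0 < ε) (b : E3) (i : Fin 3)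
    (v F : E3) :
    |fderiv ℝ (fun v => kX ε e b c i (u v) z) v F|
      ≤ ‖z‖⁻¹ * ‖fderiv ℝ (fun v => Psi ε e (dir z) (u v) b c) v F‖ := by
  have h1 : HasFDerivAt (fun v => Psi ε e (dir z) (u v) b c)
      (fderiv ℝ (fun v => Psi ε e (dir z) (u v) b c) v) v :=
    ((contDiff_Psi_u (e := e) (norm_dir_pl hz) hc hε b).differentiable (by norm_num) v).hasFDerivAt
  have h2 : HasFDerivAt (fun v => (dir z + Psi ε e (dir z) (u v) b c) i)
      ((EuclideanSpace.proj i : E3 →L[ℝ] ℝ).comp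
        (fderiv ℝ (fun v => Psi ε e (dir z) (u v) b c) v)) v :=
    (EuclideanSpace.proj i : E3 →L[ℝ] ℝ).hasFDerivAt.comp v (h1.const_add (dir z))
  have h3 : HasFDerivAt (fun v => kX ε e b c i (u v) z) _ v := h2.const_mul ‖z‖⁻¹
  rw [h3.fderiv]
  simp only [smul_apply, ContinuousLinearMap.comp_apply, smul_eq_mul, PiLp.proj_apply]
  rw [abs_mul, abs_of_nonneg (by positivity)]
  gcongr
  exact abs_component_le _ i

lemma al_inv_le {w v : E3} (hw : ‖w‖ = 1) : (al w (u v))⁻¹ ≤ 2 * q v ^ 2 := by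
  refine le_trans ?_ (inv_one_sub_norm_u_le v)
  have h1 := norm_u_lt_one v
  have h2 : 1 - ‖u v‖ ≤ al w (u v) := by
    unfold al
    have := (abs_le.1 (abs_real_inner_le_norm (u v) w)).1
    rw [hw, mul_one] at this
    linarith only [this]
  exact inv_anti₀ (by linarith only [h1]) h2

lemma norm_ck_le (hw : ‖w‖ = 1) {a : E3} (ha : ‖a‖ < 1) (hc : ‖c‖ < 1) (hε : 0 < ε)
    (hε1 : ε ≤ 1) : ‖ck ε e w a c‖ ≤ (al w a)⁻¹ * 8 := by
  have h0 := KA.al_pos hw ha
  have h0c := KA.al_pos hw hc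
  have hD : al w a ≤ Dn ε e w a c := by
    unfold Dn
    have : 0 ≤ ε * (al w c + e ^ 2) := by positivity
    linarith only [this]
  have hkh : ‖khat w a c‖ ≤ 8 := by
    refine (KA.khat_le hw ha hc).trans ?_
    have e1 : √(al w a) ≤ √2 := Real.sqrt_le_sqrt (KA.al_le hw ha)
    have e2 : √(al w c) ≤ √2 := Real.sqrt_le_sqrt (KA.al_le hw hc)
    have e3 := KA.sqrt2_mul
    calc 4 * (√(al w a) * √(al w c)) ≤ 4 * (√2 * √2) := by (clear * - h0c e1 e2; gcongr)
      _ = 8 := by rw [e3]; norm_num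
  unfold ck
  rw [norm_smul, Real.norm_eq_abs, abs_of_pos (div_pos hε (h0.trans_le hD))]
  have h3 : ε / Dn ε e w a c ≤ (al w a)⁻¹ := by
    have hDp := h0.trans_le hD
    rw [div_eq_mul_inv]
    calc ε * (Dn ε e w a c)⁻¹ ≤ 1 * (al w a)⁻¹ := by (clear * - hε1 h0 hD hDp; gcongr)
      _ = _ := one_mul _
  exact mul_le_mul h3 hkh (norm_nonneg _) (inv_nonneg.2 h0.le)

lemma norm_Psi_le (hw : ‖w‖ = 1) {a : E3} (ha : ‖a‖ < 1) (hb : ‖b‖ < 1) (hc : ‖c‖ < 1)
    (hε : 0 < ε) (hε1 : ε ≤ 1) :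
    ‖Psi ε e w a b c‖ ≤ (al w a)⁻¹ * (8 + 2 * ((al w a)⁻¹ * 8)) := by
  have h0 := KA.al_pos hw ha
  have h0b := KA.al_pos hw hb
  have hkh : ‖khat w a b‖ ≤ 8 := by
    refine (KA.khat_le hw ha hb).trans ?_
    have e1 : √(al w a) ≤ √2 := Real.sqrt_le_sqrt (KA.al_le hw ha)
    have e2 : √(al w b) ≤ √2 := Real.sqrt_le_sqrt (KA.al_le hw hb)
    have e3 := KA.sqrt2_mul
    calc 4 * (√(al w a) * √(al w b)) ≤ 4 * (√2 * √2) := by (clear * - h0b e1 e2; gcongr)
      _ = 8 := by rw [e3]; norm_num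
  have h1 := norm_ck_le (e := e) hw ha hc hε hε1
  unfold Psi
  rw [norm_smul, Real.norm_eq_abs, abs_of_pos (inv_pos.2 h0)]
  refine mul_le_mul_of_nonneg_left ?_ (inv_nonneg.2 h0.le)
  refine (norm_sub_le _ _).trans (add_le_add hkh ?_)
  rw [norm_smul, Real.norm_eq_abs, abs_of_pos h0b]
  exact mul_le_mul (KA.al_le hw hb) h1 (norm_nonneg _) (by norm_num)

/-- A crude uniform bound for `kX`. -/
lemma abs_kX_le {z : E3} (hz : z ≠ 0) (hb : ‖b‖ < 1) (hc : ‖c‖ < 1)
    (hε : 0 < ε) (hε1 : ε ≤ 1) (i : Fin 3) {R : ℝ} {v : E3} (hv : ‖v‖ ≤ R) :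
    |kX ε e b c i (u v) z|
      ≤ (1 + (2 * (1 + |R|) ^ 2) * (8 + 2 * ((2 * (1 + |R|) ^ 2) * 8))) * ‖z‖⁻¹ := by
  have hw := norm_dir_pl hz
  have h1 := norm_Psi_le (e := e) hw (norm_u_lt_one v) hb hc hε hε1
  have h0 := KA.al_pos hw (norm_u_lt_one v)
  have h2 : (al (dir z) (u v))⁻¹ ≤ 2 * (1 + |R|) ^ 2 := by
    refine (al_inv_le hw).trans ?_
    have hq : q v ≤ 1 + |R| := (q_le_one_add_norm v).trans (by linarith only [hv, le_abs_self R])
    have hq0 := (q_pos v).le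
    (clear * - hq hq0; gcongr)
  unfold kX
  rw [abs_mul, abs_of_nonneg (by positivity : (0 : ℝ) ≤ ‖z‖⁻¹), mul_comm]
  gcongr
  refine (abs_component_le _ i).trans ((norm_add_le _ _).trans ?_)
  rw [hw]
  refine add_le_add le_rfl (h1.trans ?_)
  have h3 : 0 ≤ (al (dir z) (u v))⁻¹ := inv_nonneg.2 h0.le
  (clear * - h0 h2; gcongr)

end Psi

end Vale.Agent.P107
end
end
end

section

section

attribute [-instance] ProperSMul.toContinuousSMul IsTopologicalTorsor.toContinuousSMul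
  IdemSemiring.toCanonicallyOrderedAdd IdemSemiring.toMulLeftMono IdemSemiring.toMulRightMono
  AddQuantale.instAddLeftMono AddQuantale.instAddRightMono Quantale.instMulLeftMono
  Quantale.instMulRightMono FiniteDimensional.rclike_to_real IsScalarTower.complexToReal
  FiniteDimensional.complexToReal

section

/-!
Module R1 of `path_bound`: derivative of a bracket along a path.
-/

open MeasureTheory Set Filter Topology
open scoped RealInnerProductSpace ENNReal NNReal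

namespace Vale.Agent.P107

/-- An integrable majorant of a velocity dependent kernel. -/
lemma KerV.exists_majorant {κ : E3 → E3 → ℝ} (hκ : KerV κ) (R t : ℝ) {D : ℝ} (hD : 0 ≤ D) :
    ∃ b : E3 × E3 → ℝ, Integrable b (volume.prod volume) ∧ (∀ w, 0 ≤ b w) ∧
      ∀ w : E3 × E3, ‖w.1‖ ≤ R → ‖w.2‖ ≤ t → |κ w.1 w.2| * D ≤ b w := by
  obtain ⟨C, hC⟩ := hκ.bound R
  have i1 : Integrable ((Metric.closedBall (0 : E3) R).indicator (fun _ => (1 : ℝ))) := by
    rw [integrable_indicator_iff measurableSet_closedBall]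
    exact integrableOn_const measure_closedBall_lt_top.ne
  have i2 : Integrable ((Metric.closedBall (0 : E3) t).indicator
      (fun z : E3 => |C| * (1 + |t|) * D * (‖z‖⁻¹) ^ 2)) := by
    refine integrable_kernel (R := t) (C := |C| * (1 + |t|) * D) ?_ ?_ ?_
    · refine (Measurable.indicator ?_ measurableSet_closedBall).aestronglyMeasurable
      fun_prop
    · intro z
      by_cases hz : z ∈ Metric.closedBall (0 : E3) t
      · rw [indicator_of_mem hz, abs_of_nonneg (by (clear * - hD; positivity))]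
      · rw [indicator_of_notMem hz, abs_zero]; (clear * - hD; positivity)
    · intro z hz
      rw [indicator_of_notMem]
      simpa using hz
  refine ⟨_, i1.mul_prod i2, fun w => ?_, fun w hv hz => ?_⟩
  · exact mul_nonneg (indicator_nonneg (fun _ _ => zero_le_one) _)
      (indicator_nonneg (fun _ _ => by (clear * - hD; positivity)) _)
  · rw [indicator_of_mem (by simpa using hv), indicator_of_mem (by simpa using hz), one_mul]
    have h1 : ‖w.2‖⁻¹ ≤ |t| * (‖w.2‖⁻¹) ^ 2 := by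
      rcases eq_or_ne w.2 0 with h0 | h0
      · rw [h0]; simp
      · have hpos : 0 < ‖w.2‖ := norm_pos_iff.2 h0
        have : ‖w.2‖ * (‖w.2‖⁻¹) ^ 2 ≤ |t| * (‖w.2‖⁻¹) ^ 2 := by
          gcongr
          exact hz.trans (le_abs_self t)
        calc ‖w.2‖⁻¹ = ‖w.2‖ * (‖w.2‖⁻¹) ^ 2 := by field_simp
          _ ≤ _ := this
    have h2 : |κ w.1 w.2| ≤ |C| * (1 + |t|) * (‖w.2‖⁻¹) ^ 2 := by
      calc |κ w.1 w.2| ≤ C * ((‖w.2‖⁻¹) ^ 2 + ‖w.2‖⁻¹) := hC w.1 hv w.2
        _ ≤ |C| * ((‖w.2‖⁻¹) ^ 2 + ‖w.2‖⁻¹) := by gcongr; exact le_abs_self C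
        _ ≤ |C| * ((‖w.2‖⁻¹) ^ 2 + |t| * (‖w.2‖⁻¹) ^ 2) := by (clear * - h1; gcongr)
        _ = _ := by ring
    calc |κ w.1 w.2| * D ≤ (|C| * (1 + |t|) * (‖w.2‖⁻¹) ^ 2) * D := by (clear * - hD h2; gcongr)
      _ = _ := by ring

/-- A uniform majorant for the integrands of brackets, for all times up to `t` and all positions
in a ball. -/
lemma KerV.exists_majorant_of_lateV {κ : E3 → E3 → ℝ} (hκ : KerV κ) {T : ℝ}
    {H : ℝ × E3 → E3 → ℝ} (h : LateV T H) {t : ℝ} (ht : t < T) (Rx : ℝ) :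
    ∃ b : E3 × E3 → ℝ, Integrable b (volume.prod volume) ∧
      ∀ s ≤ t, ∀ x : E3, ‖x‖ ≤ Rx → ∀ w : E3 × E3, |κ w.1 w.2| * |H (rp s x w.2) w.1| ≤ b w := by
  obtain ⟨R, hR⟩ := h.supp t ht
  obtain ⟨D, hD0, hD⟩ := h.exists_bound ht Rx
  obtain ⟨b, hb, hb0, hbb⟩ := hκ.exists_majorant R t hD0
  refine ⟨b, hb, fun s hs x hx w => ?_⟩
  by_cases hv : R < ‖w.1‖
  · rw [hR (rp s x w.2) (by simp only [rp]; linarith only [hs, norm_nonneg w.2]) w.1 hv, abs_zero, mul_zero]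
    exact hb0 w
  by_cases hz : t < ‖w.2‖
  · rw [h.vanish _ (by simp only [rp]; linarith only [hs, hz]), abs_zero, mul_zero]
    exact hb0 w
  push Not at hv hz
  refine le_trans ?_ (hbb w hv hz)
  gcongr
  exact hD s hs x hx w.2 w.1

/-- The norm of the derivative of the cut off density. -/
lemma lateV_norm_fderiv {T : ℝ} {f : ℝ → E3 → E3 → ℝ}
    (hf : ContDiffOn ℝ 1 (fun z : ℝ × E3 × E3 => f z.1 z.2.1 z.2.2) (Ico 0 T ×ˢ univ))
    (hs : ∀ t ∈ Ico 0 T, ∃ R : ℝ, ∀ s ∈ Icc 0 t, ∀ x v, f s x v ≠ 0 → ‖x‖ ≤ R ∧ ‖v‖ ≤ R)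
    {η : ℝ} (hη : 0 < η) {c : ℝ → ℝ} (hc : ContDiff ℝ 1 c) (hcv : ∀ s ≤ η, c s = 0) :
    LateV T (fun p v => ‖fderiv ℝ (Gcut c f) (p.1, p.2, v)‖) := by
  have hG := contDiffOn_Gcut hf hη hc hcv
  have hopen : IsOpen (Iio T ×ˢ (univ : Set (E3 × E3))) := isOpen_Iio.prod isOpen_univ
  have h0 := lateV_H0 hf hs hη hc hcv
  refine ⟨?_, fun p hp v => ?_, fun t ht => ?_⟩
  · have h1 := hG.continuousOn_fderiv_of_isOpen hopen (le_refl 1)
    have h2 : ContinuousOn (fun z : (ℝ × E3) × E3 => (z.1.1, z.1.2, z.2))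
      ((Iio T ×ˢ univ) ×ˢ univ) := by fun_prop
    exact (h1.comp h2 (fun z hz => ⟨hz.1.1, mem_univ _⟩)).norm
  · have : Gcut c f =ᶠ[𝓝 (p.1, p.2, v)] fun _ => 0 := by
      have hmem : {y : ℝ × E3 × E3 | y.1 < η} ∈ 𝓝 (p.1, p.2, v) :=
        (isOpen_lt continuous_fst continuous_const).mem_nhds (by
          simp only [mem_ofPred_eq]; linarith only [hη, hp])
      filter_upwards [hmem] with y hy
      simp only [Gcut, hcv y.1 (le_of_lt hy), zero_mul]
    rw [this.fderiv_eq]; simp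
  · obtain ⟨t', htt', ht'T⟩ := exists_between ht
    obtain ⟨R, hR⟩ := h0.supp t' ht'T
    refine ⟨R, fun p hp v hv => ?_⟩
    have : Gcut c f =ᶠ[𝓝 (p.1, p.2, v)] fun _ => 0 := by
      have hm1 : {y : ℝ × E3 × E3 | y.1 < t'} ∈ 𝓝 (p.1, p.2, v) :=
        (isOpen_lt continuous_fst continuous_const).mem_nhds (by
          simp only [mem_ofPred_eq]; linarith only [htt', hp])
      have hm2 : {y : ℝ × E3 × E3 | R < ‖y.2.2‖} ∈ 𝓝 (p.1, p.2, v) :=
        (isOpen_lt continuous_const (by fun_prop)).mem_nhds (by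
          simp only [mem_ofPred_eq]; linarith only [R, v, hv])
      filter_upwards [hm1, hm2] with y hy1 hy2
      exact hR (y.1, y.2.1) (le_of_lt hy1) y.2.2 hy2
    rw [this.fderiv_eq]; simp

lemma abs_fderiv_dir_le (L : ℝ × E3 × E3 →L[ℝ] ℝ) {a : E3} (ha : ‖a‖ ≤ 1) :
    |L (1, a, 0)| ≤ ‖L‖ := by
  have h1 : ‖((1 : ℝ), a, (0 : E3))‖ ≤ 1 := by
    simp only [Prod.norm_def, norm_one, norm_zero]
    exact max_le le_rfl (max_le ha zero_le_one)
  calc |L (1, a, 0)| = ‖L (1, a, 0)‖ := (Real.norm_eq_abs _).symm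
    _ ≤ ‖L‖ * ‖((1 : ℝ), a, (0 : E3))‖ := L.le_opNorm _
    _ ≤ ‖L‖ * 1 := by gcongr
    _ = ‖L‖ := mul_one _

variable {T : ℝ} {f : ℝ → E3 → E3 → ℝ} {E B : ℝ → E3 → E3}

theorem hasDerivAt_path (h : IsClassicalSolution T f E B) {t₀ : ℝ} (h0 : 0 < t₀)
    {κ : E3 → E3 → ℝ} (hκ : KerV κ) {X V : ℝ → E3} {t₁ t₂ : ℝ} (h12 : t₁ ≤ t₂) (h2T : t₂ < T)
    (hX : ∀ s ∈ Icc t₁ t₂, HasDerivWithinAt X (u (V s)) (Icc t₁ t₂) s) :
    ContinuousOn (fun s => ∫ z, ∫ v, κ v z * (chi t₀ (s - ‖z‖) * f (s - ‖z‖) (X s + z) v))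
      (Icc t₁ t₂) ∧
    ∀ s ∈ Ioo t₁ t₂,
      HasDerivAt (fun s => ∫ z, ∫ v, κ v z * (chi t₀ (s - ‖z‖) * f (s - ‖z‖) (X s + z) v))
        (∫ z, ∫ v, κ v z * fderiv ℝ (Gcut (chi t₀) f) (s - ‖z‖, X s + z, v) (1, u (V s), 0)) s := by
  have hc1 : ContDiff ℝ 1 (chi t₀) := (contDiff_chi t₀).of_le (by norm_num)
  have hη : 0 < t₀ / 2 := by positivity
  have hcv : ∀ s ≤ t₀ / 2, chi t₀ s = 0 := fun s hs => chi_eq_zero h0 hs
  have hH := lateV_H0 h.f_contDiff h.compact_support hη hc1 hcv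
  have hN := lateV_norm_fderiv h.f_contDiff h.compact_support hη hc1 hcv
  have hG := contDiffOn_Gcut h.f_contDiff hη hc1 hcv
  have hopen : IsOpen (Iio T ×ˢ (univ : Set (E3 × E3))) := isOpen_Iio.prod isOpen_univ
  have hXc : ContinuousOn X (Icc t₁ t₂) := fun s hs => (hX s hs).continuousWithinAt
  obtain ⟨Rx, hRx⟩ := isCompact_Icc.exists_bound_of_continuousOn hXc
  -- the integrand on the product
  set F : ℝ → E3 × E3 → ℝ := fun s w =>
    κ w.1 w.2 * (chi t₀ (s - ‖w.2‖) * f (s - ‖w.2‖) (X s + w.2) w.1) with hF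
  set F' : ℝ → E3 × E3 → ℝ := fun s w =>
    κ w.1 w.2 * fderiv ℝ (Gcut (chi t₀) f) (s - ‖w.2‖, X s + w.2, w.1) (1, u (V s), 0) with hF'
  have hFi : ∀ s < T, Integrable (F s) (volume.prod volume) := fun s hs =>
    hκ.integrable hH hs (X s)
  have hF'i : ∀ s < T, Integrable (F' s) (volume.prod volume) := fun s hs =>
    hκ.integrable (lateV_fderiv h.f_contDiff h.compact_support hη hc1 hcv
      (d := fun _ => ((1 : ℝ), u (V s), (0 : E3))) continuous_const) hs (X s)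
  have e1 : ∀ s < T, ∫ z, ∫ v, κ v z * (chi t₀ (s - ‖z‖) * f (s - ‖z‖) (X s + z) v)
      = ∫ w, F s w ∂(volume.prod volume) := fun s hs => (integral_prod_symm _ (hFi s hs)).symm
  have e2 : ∀ s < T, ∫ z, ∫ v, κ v z * fderiv ℝ (Gcut (chi t₀) f) (s - ‖z‖, X s + z, v)
      (1, u (V s), 0) = ∫ w, F' s w ∂(volume.prod volume) := fun s hs =>
    (integral_prod_symm _ (hF'i s hs)).symm
  constructor
  · obtain ⟨b, hb, hbb⟩ := hκ.exists_majorant_of_lateV hH h2T Rx
    have key : ContinuousOn (fun s => ∫ w, F s w ∂(volume.prod volume)) (Icc t₁ t₂) := by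
      refine continuousOn_of_dominated (bound := b) (fun s hs => ?_) (fun s hs => ?_) hb ?_
      · exact (hFi s (lt_of_le_of_lt hs.2 h2T)).aestronglyMeasurable
      · refine ae_of_all _ fun w => ?_
        have := hbb s hs.2 (X s) (hRx s hs) w
        rw [← abs_mul] at this
        exact this
      · refine ae_of_all _ fun w => ?_
        have h1 : ContinuousOn (fun s : ℝ => (((s - ‖w.2‖, X s + w.2), w.1) : (ℝ × E3) × E3))
            (Icc t₁ t₂) := by
          refine ContinuousOn.prodMk (ContinuousOn.prodMk (by fun_prop) ?_) continuousOn_const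
          exact hXc.add continuousOn_const
        have h2 := hH.cont.comp h1 (fun s hs => ⟨⟨by
          show s - ‖w.2‖ < T
          linarith only [h2T, hs.2, norm_nonneg w.2], mem_univ _⟩, mem_univ _⟩)
        exact continuousOn_const.mul h2
    exact key.congr fun s hs => e1 s (lt_of_le_of_lt hs.2 h2T)
  · intro s₀ hs₀
    obtain ⟨b, hb, hbb⟩ := hκ.exists_majorant_of_lateV hN h2T Rx
    have hnhds : Ioo t₁ t₂ ∈ 𝓝 s₀ := Ioo_mem_nhds hs₀.1 hs₀.2
    have key := hasDerivAt_integral_of_dominated_loc_of_deriv_le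
      (μ := ((volume : Measure E3).prod (volume : Measure E3)))
      (F := F) (F' := F') (s := Ioo t₁ t₂) (x₀ := s₀) (bound := b) hnhds ?_
      (hFi s₀ (lt_trans hs₀.2 h2T)) (hF'i s₀ (lt_trans hs₀.2 h2T)).aestronglyMeasurable ?_ hb ?_
    · rw [e2 s₀ (lt_trans hs₀.2 h2T)]
      refine key.2.congr_of_eventuallyEq ?_
      filter_upwards [hnhds] with s hs
      exact e1 s (lt_trans hs.2 h2T)
    · filter_upwards [hnhds] with s hs
      exact (hFi s (lt_trans hs.2 h2T)).aestronglyMeasurable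
    · refine ae_of_all _ fun w s hs => ?_
      have h1 := hbb s hs.2.le (X s) (hRx s (Ioo_subset_Icc_self hs)) w
      refine le_trans ?_ h1
      have h2 : ‖F' s w‖ = |κ w.1 w.2| * |fderiv ℝ (Gcut (chi t₀) f)
          (s - ‖w.2‖, X s + w.2, w.1) (1, u (V s), 0)| := abs_mul _ _
      rw [h2]
      refine mul_le_mul_of_nonneg_left ?_ (abs_nonneg _)
      rw [abs_of_nonneg (norm_nonneg _)]
      exact abs_fderiv_dir_le _ (norm_u_lt_one (V s)).le
    · refine ae_of_all _ fun w s hs => ?_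
      have hXs : HasDerivAt X (u (V s)) s :=
        (hX s (Ioo_subset_Icc_self hs)).hasDerivAt (Icc_mem_nhds hs.1 hs.2)
      have hp : HasDerivAt (fun s : ℝ => ((s - ‖w.2‖, X s + w.2, w.1) : ℝ × E3 × E3))
          (1, u (V s), 0) s :=
        ((hasDerivAt_id s).sub_const _).prodMk ((hXs.add_const _).prodMk (hasDerivAt_const _ _))
      have hmem : (s - ‖w.2‖, X s + w.2, w.1) ∈ Iio T ×ˢ (univ : Set (E3 × E3)) :=
        ⟨by
          show s - ‖w.2‖ < T
          linarith only [h2T, hs.2, norm_nonneg w.2], mem_univ _⟩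
      have hd : DifferentiableAt ℝ (Gcut (chi t₀) f) (s - ‖w.2‖, X s + w.2, w.1) :=
        (hG.contDiffAt (hopen.mem_nhds hmem)).differentiableAt (by norm_num)
      exact (hd.hasFDerivAt.comp_hasDerivAt_of_eq s hp rfl).const_mul (κ w.1 w.2)

end Vale.Agent.P107
end
end
end

section

section

attribute [-instance] ProperSMul.toContinuousSMul IsTopologicalTorsor.toContinuousSMul
  IdemSemiring.toCanonicallyOrderedAdd IdemSemiring.toMulLeftMono IdemSemiring.toMulRightMono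
  AddQuantale.instAddLeftMono AddQuantale.instAddRightMono Quantale.instMulLeftMono
  Quantale.instMulRightMono FiniteDimensional.rclike_to_real IsScalarTower.complexToReal
  FiniteDimensional.complexToReal

section

/-!
Module R2 of `path_bound`: a bound for the increment of a function by the lower integral of a
majorant of its derivative.
-/

open MeasureTheory Set Filter Topology
open scoped RealInnerProductSpace ENNReal NNReal

namespace Vale.Agent.P107

theorem ftc_bound {φ ρ : ℝ → ℝ} {a b : ℝ} (hab : a ≤ b) (hc : ContinuousOn φ (Icc a b))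
    (hd : ∀ s ∈ Ioo a b, HasDerivAt φ (ρ s) s) {g : ℝ → ℝ≥0∞}
    (hg : ∀ s ∈ Ioo a b, ENNReal.ofReal |ρ s| ≤ g s) :
    ENNReal.ofReal |φ b - φ a| ≤ ∫⁻ s in Icc a b, g s := by
  have hd' : ∀ s ∈ Ioo a b, HasDerivAt φ (deriv φ s) s := fun s hs =>
    (hd s hs).differentiableAt.hasDerivAt
  have h1 : ∫⁻ s in Ioo a b, ‖deriv φ s‖ₑ ≤ ∫⁻ s in Icc a b, g s := by
    refine (setLIntegral_mono' measurableSet_Ioo fun s hs => ?_).trans
      (lintegral_mono_set Ioo_subset_Icc_self)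
    rw [(hd s hs).deriv, Real.enorm_eq_ofReal_abs]
    exact hg s hs
  refine le_trans ?_ h1
  rcases eq_or_ne (∫⁻ s in Ioo a b, ‖deriv φ s‖ₑ) ∞ with htop | htop
  · rw [htop]; exact le_top
  have hint : IntegrableOn (deriv φ) (Ioo a b) :=
    ⟨(measurable_deriv φ).aestronglyMeasurable, lt_top_iff_ne_top.2 htop⟩
  have hii : IntervalIntegrable (deriv φ) volume a b := by
    rw [intervalIntegrable_iff_integrableOn_Ioo_of_le hab]
    exact hint
  have hftc := intervalIntegral.integral_eq_sub_of_hasDerivAt_of_le hab hc hd' hii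
  rw [← Real.enorm_eq_ofReal_abs, ← hftc, intervalIntegral.integral_of_le hab,
    integral_Ioc_eq_integral_Ioo]
  exact enorm_integral_le_lintegral_enorm _

end Vale.Agent.P107
end
end
end

section

section

attribute [-instance] ProperSMul.toContinuousSMul IsTopologicalTorsor.toContinuousSMul
  IdemSemiring.toCanonicallyOrderedAdd IdemSemiring.toMulLeftMono IdemSemiring.toMulRightMono
  AddQuantale.instAddLeftMono AddQuantale.instAddRightMono Quantale.instMulLeftMono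
  Quantale.instMulRightMono FiniteDimensional.rclike_to_real IsScalarTower.complexToReal
  FiniteDimensional.complexToReal

section

/-!
Module LE, algebra: directional derivatives of smooth fields and densities, differences of
solutions of the Maxwell and transport equations.
-/

open MeasureTheory Set Filter Topology
open scoped RealInnerProductSpace ENNReal NNReal ContDiff

set_option linter.unusedVariables false

namespace Vale.Agent.P107.LE

/-! ### Calculus -/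

section AlgCalc
variable {X F : Type*} [NormedAddCommGroup X] [NormedSpace ℝ X] [NormedAddCommGroup F]
  [NormedSpace ℝ F]

lemma alg_dir_smooth {g : X → F} (h : ContDiff ℝ ∞ g) (e : X) :
    ContDiff ℝ ∞ (fun y => fderiv ℝ g y e) :=
  (h.fderiv_right (m := ∞) (by simp)).clm_apply contDiff_const

lemma alg_diff {g : X → F} (h : ContDiff ℝ ∞ g) : Differentiable ℝ g :=
  h.differentiable (by simp)

/-- directional derivatives commute -/
lemma alg_comm {g : X → F} (h : ContDiff ℝ ∞ g) (a b y : X) :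
    fderiv ℝ (fun y => fderiv ℝ g y a) y b = fderiv ℝ (fun y => fderiv ℝ g y b) y a := by
  have hd : DifferentiableAt ℝ (fderiv ℝ g) y :=
    alg_diff (h.fderiv_right (m := ∞) (by simp)) y
  have h1 : ∀ c d : X, fderiv ℝ (fun y => fderiv ℝ g y c) y d = fderiv ℝ (fderiv ℝ g) y d c := by
    intro c d
    rw [fderiv_clm_apply hd (differentiableAt_const c)]
    simp
  rw [h1, h1]
  have hs : IsSymmSndFDerivAt ℝ g y :=
    (h.contDiffAt).isSymmSndFDerivAt (by
      rw [minSmoothness_of_isRCLikeNormedField]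
      exact ENat.LEInfty.out)
  exact hs.eq b a

/-- a function which vanishes near a point has vanishing derivative there -/
lemma alg_zero {g : X → F} {y : X} (h : g =ᶠ[𝓝 y] fun _ => 0) (e : X) : fderiv ℝ g y e = 0 := by
  rw [h.fderiv_eq]; simp

lemma alg_comp {g : X → E3} {y : X} (h : DifferentiableAt ℝ g y) (i : Fin 3) (a : X) :
    fderiv ℝ (fun y => g y i) y a = (fderiv ℝ g y a) i := by
  have h1 := (EuclideanSpace.proj i : E3 →L[ℝ] ℝ).hasFDerivAt.comp y h.hasFDerivAt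
  have h2 : fderiv ℝ (fun y => g y i) y = (EuclideanSpace.proj i : E3 →L[ℝ] ℝ).comp (fderiv ℝ g y) :=
    h1.fderiv
  rw [h2]
  rfl

lemma alg_comp_smooth {g : X → E3} (h : ContDiff ℝ ∞ g) (i : Fin 3) :
    ContDiff ℝ ∞ (fun y => g y i) :=
  (EuclideanSpace.proj i : E3 →L[ℝ] ℝ).contDiff.comp h

lemma alg_sub_comp {g g' : X → E3} {y : X} (h : DifferentiableAt ℝ g y)
    (h' : DifferentiableAt ℝ g' y) (i : Fin 3) (a : X) :
    fderiv ℝ (fun y => (g y - g' y) i) y a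
      = fderiv ℝ (fun y => g y i) y a - fderiv ℝ (fun y => g' y i) y a := by
  rw [alg_comp (g := fun y => g y - g' y) (h.sub h'), alg_comp h, alg_comp h']
  have : fderiv ℝ (fun y => g y - g' y) y = fderiv ℝ g y - fderiv ℝ g' y := fderiv_sub h h'
  rw [this]
  rfl

end AlgCalc

lemma alg_q_smooth : ContDiff ℝ ∞ q := by
  unfold q
  refine ContDiff.sqrt ?_ (fun v => by positivity)
  exact contDiff_const.add (contDiff_norm_sq ℝ)

lemma alg_u_smooth : ContDiff ℝ ∞ u := by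
  unfold u
  exact (alg_q_smooth.inv (fun v => (q_pos v).ne')).smul contDiff_id

lemma alg_lor_smooth {X : Type*} [NormedAddCommGroup X] [NormedSpace ℝ X] {a b v : X → E3}
    (ha : ContDiff ℝ ∞ a) (hb : ContDiff ℝ ∞ b) (hv : ContDiff ℝ ∞ v) :
    ContDiff ℝ ∞ (fun y => lor (a y) (b y) (v y)) := by
  rw [contDiff_euclidean]
  intro k
  have hu : ∀ l : Fin 3, ContDiff ℝ ∞ (fun y => (u (v y)) l) := fun l =>
    alg_comp_smooth (alg_u_smooth.comp hv) l
  have hb' : ∀ l : Fin 3, ContDiff ℝ ∞ (fun y => (b y) l) := fun l => alg_comp_smooth hb l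
  have ha' : ContDiff ℝ ∞ (fun y => (a y) k) := alg_comp_smooth ha k
  have : (fun y => lor (a y) (b y) (v y) k)
      = fun y => a y k + ((u (v y)) (k + 1) * b y (k + 2) - (u (v y)) (k + 2) * b y (k + 1)) := by
    ext v
    simp only [lor, PiLp.add_apply, cross_apply]
  rw [this]
  exact ha'.add (((hu _).mul (hb' _)).sub ((hu _).mul (hb' _)))

/-! ### Directional derivatives -/

section dir
variable {F : Type*} [NormedAddCommGroup F] [NormedSpace ℝ F]

theorem SD.dir {g : ℝ × E3 × E3 → F} (h : SD g) (e : ℝ × E3 × E3) :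
    SD (fun y => fderiv ℝ g y e) := by
  refine ⟨alg_dir_smooth h.smooth e, ?_⟩
  intro T
  obtain ⟨R, hR⟩ := h.supp (T + 1)
  refine ⟨R, fun t x v ht hne => ?_⟩
  by_contra hcon
  apply hne
  have hU : IsOpen {y : ℝ × E3 × E3 | |y.1| < T + 1 ∧ ¬ (‖y.2.1‖ ≤ R ∧ ‖y.2.2‖ ≤ R)} := by
    have c0 : Continuous fun y : ℝ × E3 × E3 => |y.1| := by fun_prop
    have c1 : Continuous fun y : ℝ × E3 × E3 => ‖y.2.1‖ := by fun_prop
    have c2 : Continuous fun y : ℝ × E3 × E3 => ‖y.2.2‖ := by fun_prop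
    have h1 : IsClosed {y : ℝ × E3 × E3 | ‖y.2.1‖ ≤ R ∧ ‖y.2.2‖ ≤ R} :=
      (isClosed_le c1 continuous_const).inter (isClosed_le c2 continuous_const)
    exact (isOpen_lt c0 continuous_const).inter h1.isOpen_compl
  have hmem : ((t, x, v) : ℝ × E3 × E3) ∈
      {y : ℝ × E3 × E3 | |y.1| < T + 1 ∧ ¬ (‖y.2.1‖ ≤ R ∧ ‖y.2.2‖ ≤ R)} :=
    ⟨lt_of_le_of_lt ht (by linarith), hcon⟩
  refine alg_zero ?_ e
  filter_upwards [hU.mem_nhds hmem] with y hy
  by_contra hg
  exact hy.2 (hR y.1 y.2.1 y.2.2 hy.1.le hg)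

theorem SF.dir {W : ℝ × E3 → F} (h : SF W) (e : ℝ × E3) : SF (fun y => fderiv ℝ W y e) := by
  refine ⟨alg_dir_smooth h.smooth e, ?_⟩
  intro n T
  obtain ⟨C, hC⟩ := h.bdd (n + 1) T
  refine ⟨‖e‖ * C, fun p hp => ?_⟩
  have h1 : (fun y => fderiv ℝ W y e) = (ContinuousLinearMap.apply ℝ F e) ∘ (fderiv ℝ W) := rfl
  rw [h1]
  have hfd : ContDiff ℝ ∞ (fderiv ℝ W) := h.smooth.fderiv_right (m := ∞) (by simp)
  refine ((ContinuousLinearMap.apply ℝ F e).norm_iteratedFDeriv_comp_left (N := ∞)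
    hfd.contDiffAt (by exact_mod_cast le_top)).trans ?_
  rw [norm_iteratedFDeriv_fderiv]
  have h2 : ‖(ContinuousLinearMap.apply ℝ F e : ((ℝ × E3) →L[ℝ] F) →L[ℝ] F)‖ ≤ ‖e‖ := by
    refine ContinuousLinearMap.opNorm_le_bound _ (norm_nonneg _) fun L => ?_
    rw [ContinuousLinearMap.apply_apply, mul_comm]
    exact L.le_opNorm e
  exact mul_le_mul h2 (hC p hp) (norm_nonneg _) (norm_nonneg _)

end dir

theorem SD.flx {E B : ℝ × E3 → E3} (hE : SF E) (hB : SF B) {f : ℝ × E3 × E3 → ℝ} (hf : SD f) :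
    SD (flx E B f) := by
  refine ⟨?_, fun T => ?_⟩
  · unfold LE.flx
    have hp : ContDiff ℝ ∞ fun y : ℝ × E3 × E3 => (y.1, y.2.1) :=
      contDiff_fst.prodMk (contDiff_fst.comp contDiff_snd)
    exact hf.smooth.smul (alg_lor_smooth (hE.smooth.comp hp) (hB.smooth.comp hp)
      (contDiff_snd.comp contDiff_snd))
  · obtain ⟨R, hR⟩ := hf.supp T
    refine ⟨R, fun t x v ht hne => hR t x v ht fun h0 => hne ?_⟩
    unfold LE.flx
    rw [h0, zero_smul]

/-! ### The divergence in the velocity -/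

lemma alg_div_eq {W : E3 → E3} {v : E3} (h : DifferentiableAt ℝ W v) :
    div W v = ∑ k : Fin 3, (fderiv ℝ W v (ee k)) k := by
  unfold div pd
  exact Finset.sum_congr rfl fun k _ => alg_comp h k _

lemma alg_slice {F : Type*} [NormedAddCommGroup F] [NormedSpace ℝ F] {g : ℝ × E3 × E3 → F}
    {t : ℝ} {x v : E3} (h : DifferentiableAt ℝ g (t, x, v)) (w : E3) :
    fderiv ℝ (fun w => g (t, x, w)) v w = fderiv ℝ g (t, x, v) (0, 0, w) := by
  have h1 : HasFDerivAt (fun w : E3 => ((t, x, w) : ℝ × E3 × E3))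
      ((ContinuousLinearMap.inr ℝ ℝ (E3 × E3)).comp (ContinuousLinearMap.inr ℝ E3 E3)) v := by
    have h2 : HasFDerivAt (fun w : E3 => ((x, w) : E3 × E3)) (ContinuousLinearMap.inr ℝ E3 E3) v :=
      hasFDerivAt_prodMk_right x v
    exact (hasFDerivAt_prodMk_right (𝕜 := ℝ) t (x, v)).comp v h2
  have h3 := (h.hasFDerivAt.comp v h1).fderiv
  have h4 : fderiv ℝ (fun w => g (t, x, w)) v
      = (fderiv ℝ g (t, x, v)).comp ((ContinuousLinearMap.inr ℝ ℝ (E3 × E3)).comp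
        (ContinuousLinearMap.inr ℝ E3 E3)) := h3
  rw [h4]
  rfl

lemma alg_slice_diff {F : Type*} [NormedAddCommGroup F] [NormedSpace ℝ F] {g : ℝ × E3 × E3 → F}
    {t : ℝ} {x v : E3} (h : DifferentiableAt ℝ g (t, x, v)) :
    DifferentiableAt ℝ (fun w => g (t, x, w)) v := by
  have h1 : DifferentiableAt ℝ (fun w : E3 => ((t, x, w) : ℝ × E3 × E3)) v := by fun_prop
  exact DifferentiableAt.comp (g := g) v h h1

lemma alg_div_slice {H : ℝ × E3 × E3 → E3} {t : ℝ} {x v : E3}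
    (h : DifferentiableAt ℝ H (t, x, v)) :
    div (fun w => H (t, x, w)) v = ∑ k : Fin 3, (fderiv ℝ H (t, x, v) (0, 0, ee k)) k := by
  rw [alg_div_eq (alg_slice_diff h)]
  exact Finset.sum_congr rfl fun k _ => by rw [alg_slice h]

lemma alg_div_smul {g : E3 → ℝ} {W : E3 → E3} {v : E3} (hg : DifferentiableAt ℝ g v)
    (hW : DifferentiableAt ℝ W v) :
    div (fun w => g w • W w) v = fderiv ℝ g v (W v) + g v * div W v := by
  rw [alg_div_eq (W := fun w => g w • W w) (hg.smul hW), alg_div_eq hW,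
    clm_apply_eq_sum (fderiv ℝ g v) (W v), Finset.mul_sum, ← Finset.sum_add_distrib]
  refine Finset.sum_congr rfl fun k _ => ?_
  have h1 : fderiv ℝ (fun w => g w • W w) v = g v • fderiv ℝ W v + (fderiv ℝ g v).smulRight (W v) :=
    fderiv_smul hg hW
  rw [h1]
  simp only [add_apply, smul_apply, ContinuousLinearMap.smulRight_apply, PiLp.add_apply,
    PiLp.smul_apply, smul_eq_mul]
  ring

theorem Vl.tr {E B : ℝ × E3 → E3} {f : ℝ × E3 × E3 → ℝ} (hf : SD f) (h : Vl E B f) :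
    Tr f (LE.flx E B f) := by
  intro t x v
  have hd : DifferentiableAt ℝ f (t, x, v) := alg_diff hf.smooth _
  have h1 : div (fun w => LE.flx E B f (t, x, w)) v
      = fderiv ℝ f (t, x, v) (0, 0, lor (E (t, x)) (B (t, x)) v) := by
    have h2 : (fun w => LE.flx E B f (t, x, w))
        = fun w => (fun w => f (t, x, w)) w • lor (E (t, x)) (B (t, x)) w := rfl
    have hW : DifferentiableAt ℝ (lor (E (t, x)) (B (t, x))) v :=
      (contDiff_lor _ _).differentiable (by norm_num) v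
    rw [h2, alg_div_smul (alg_slice_diff hd) hW, div_lor, mul_zero, add_zero, alg_slice hd]
  rw [h1]
  have h3 := h t x v
  have h4 : ((1, u v, lor (E (t, x)) (B (t, x)) v) : ℝ × E3 × E3)
      = (1, u v, 0) + (0, 0, lor (E (t, x)) (B (t, x)) v) := by simp
  rw [h4, map_add] at h3
  linarith

theorem Tr.sub {g g' : ℝ × E3 × E3 → ℝ} {H H' : ℝ × E3 × E3 → E3} (hg : SD g) (hg' : SD g')
    (hH : SD H) (hH' : SD H') (h : Tr g H) (h' : Tr g' H') :
    Tr (fun y => g y - g' y) (fun y => H y - H' y) := by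
  intro t x v
  have d1 : DifferentiableAt ℝ g (t, x, v) := alg_diff hg.smooth _
  have d2 : DifferentiableAt ℝ g' (t, x, v) := alg_diff hg'.smooth _
  have d3 : DifferentiableAt ℝ H (t, x, v) := alg_diff hH.smooth _
  have d4 : DifferentiableAt ℝ H' (t, x, v) := alg_diff hH'.smooth _
  have e1 : fderiv ℝ (fun y => g y - g' y) (t, x, v)
      = fderiv ℝ g (t, x, v) - fderiv ℝ g' (t, x, v) := fderiv_sub d1 d2
  have e2 : fderiv ℝ (fun y => H y - H' y) (t, x, v)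
      = fderiv ℝ H (t, x, v) - fderiv ℝ H' (t, x, v) := fderiv_sub d3 d4
  have h1 := h t x v
  have h2 := h' t x v
  rw [alg_div_slice d3] at h1
  rw [alg_div_slice d4] at h2
  rw [alg_div_slice (H := fun y => H y - H' y) (d3.sub d4), e1, e2]
  simp only [sub_apply, PiLp.sub_apply, Finset.sum_sub_distrib]
  linarith

theorem Tr.dir {g : ℝ × E3 × E3 → ℝ} {H : ℝ × E3 × E3 → E3} (hg : SD g) (hH : SD H)
    (h : Tr g H) (e : E3) :
    Tr (fun y => fderiv ℝ g y (0, e, 0)) (fun y => fderiv ℝ H y (0, e, 0)) := by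
  intro t x v
  have dH : ∀ y, DifferentiableAt ℝ H y := fun y => alg_diff hH.smooth y
  have dH' : ∀ y, DifferentiableAt ℝ (fun y => fderiv ℝ H y (0, e, 0)) y :=
    fun y => alg_diff (alg_dir_smooth hH.smooth _) y
  rw [alg_div_slice (dH' _), alg_comm hg.smooth]
  have e1 : ∀ k : Fin 3, (fderiv ℝ (fun y => fderiv ℝ H y (0, e, 0)) (t, x, v) (0, 0, ee k)) k
      = fderiv ℝ (fun y => (fderiv ℝ H y (0, 0, ee k)) k) (t, x, v) (0, e, 0) := by
    intro k
    rw [alg_comm hH.smooth, alg_comp (alg_diff (alg_dir_smooth hH.smooth _) _)]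
  rw [Finset.sum_congr rfl fun k _ => e1 k]
  -- the equation with frozen velocity
  set Qf : ℝ × E3 × E3 → ℝ := fun y => fderiv ℝ g y (1, u v, 0)
    + ∑ k : Fin 3, (fderiv ℝ H y (0, 0, ee k)) k with hQf
  have dA : DifferentiableAt ℝ (fun y => fderiv ℝ g y (1, u v, 0)) (t, x, v) :=
    alg_diff (alg_dir_smooth hg.smooth _) _
  have dB : ∀ k : Fin 3, DifferentiableAt ℝ (fun y => (fderiv ℝ H y (0, 0, ee k)) k) (t, x, v) :=
    fun k => alg_diff (alg_comp_smooth (alg_dir_smooth hH.smooth _) k) _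
  have dS : DifferentiableAt ℝ (fun y => ∑ k : Fin 3, (fderiv ℝ H y (0, 0, ee k)) k) (t, x, v) :=
    DifferentiableAt.fun_sum fun k _ => dB k
  have e2 : fderiv ℝ Qf (t, x, v) (0, e, 0)
      = fderiv ℝ (fun y => fderiv ℝ g y (1, u v, 0)) (t, x, v) (0, e, 0)
        + ∑ k : Fin 3, fderiv ℝ (fun y => (fderiv ℝ H y (0, 0, ee k)) k) (t, x, v) (0, e, 0) := by
    rw [hQf, fderiv_fun_add dA dS, fderiv_fun_sum fun k _ => dB k]
    simp
  have e3 : fderiv ℝ Qf (t, x, v) (0, e, 0) = 0 := by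
    have hd : DifferentiableAt ℝ Qf (t, x, v) := dA.add dS
    have h1 := hd.hasFDerivAt.hasLineDerivAt (0, e, 0)
    have h2 : ∀ s : ℝ, Qf ((t, x, v) + s • ((0, e, 0) : ℝ × E3 × E3)) = 0 := by
      intro s
      have h3 : ((t, x, v) + s • ((0, e, 0) : ℝ × E3 × E3)) = (t, x + s • e, v) := by simp
      rw [h3, hQf]
      have h4 := h t (x + s • e) v
      rw [alg_div_slice (dH _)] at h4
      simp only
      rw [h4]
      ring
    have h5 : HasDerivAt (fun s : ℝ => Qf ((t, x, v) + s • ((0, e, 0) : ℝ × E3 × E3)))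
        (fderiv ℝ Qf (t, x, v) (0, e, 0)) 0 := h1
    simp only [h2] at h5
    exact h5.unique (hasDerivAt_const _ _)
  rw [e2] at e3
  linarith

/-! ### The Maxwell system -/

theorem Mx.sub {s : Set ℝ} {E B E' B' : ℝ × E3 → E3} {ρ ρ' : ℝ × E3 → ℝ} {j j' : ℝ × E3 → E3}
    (hE : SF E) (hB : SF B) (hE' : SF E') (hB' : SF B') (h : Mx s E B ρ j)
    (h' : Mx s E' B' ρ' j') :
    Mx s (fun p => E p - E' p) (fun p => B p - B' p) (fun p => ρ p - ρ' p)
      (fun p => j p - j' p) := by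
  have dE : ∀ p, DifferentiableAt ℝ E p := fun p => alg_diff hE.smooth p
  have dB : ∀ p, DifferentiableAt ℝ B p := fun p => alg_diff hB.smooth p
  have dE' : ∀ p, DifferentiableAt ℝ E' p := fun p => alg_diff hE'.smooth p
  have dB' : ∀ p, DifferentiableAt ℝ B' p := fun p => alg_diff hB'.smooth p
  refine ⟨?_, ?_, ?_, ?_⟩
  · intro p hp i
    have h1 := h.ampere p hp i
    have h2 := h'.ampere p hp i
    unfold ptd pxd at *
    rw [alg_sub_comp (dE p) (dE' p), alg_sub_comp (dB p) (dB' p), alg_sub_comp (dB p) (dB' p),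
      h1, h2]
    simp only [PiLp.sub_apply]
    ring
  · intro p hp i
    have h1 := h.faraday p hp i
    have h2 := h'.faraday p hp i
    unfold ptd pxd at *
    rw [alg_sub_comp (dE p) (dE' p), alg_sub_comp (dE p) (dE' p), alg_sub_comp (dB p) (dB' p),
      h1, h2]
    ring
  · intro p hp
    have h1 := h.gauss p hp
    have h2 := h'.gauss p hp
    unfold pxd at *
    rw [← h1, ← h2, ← Finset.sum_sub_distrib]
    exact Finset.sum_congr rfl fun i _ => alg_sub_comp (dE p) (dE' p) i _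
  · intro p hp
    have h1 := h.gaussm p hp
    have h2 := h'.gaussm p hp
    unfold pxd at *
    have h3 : ∑ i : Fin 3, fderiv ℝ (fun y => (B y - B' y) i) p (0, ee i)
        = ∑ i : Fin 3, fderiv ℝ (fun y => B y i) p (0, ee i)
          - ∑ i : Fin 3, fderiv ℝ (fun y => B' y i) p (0, ee i) := by
      rw [← Finset.sum_sub_distrib]
      exact Finset.sum_congr rfl fun i _ => alg_sub_comp (dB p) (dB' p) i _
    rw [h3, h1, h2, sub_zero]

/-- derivative of a component of a directional derivative -/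
lemma alg_dir_comp {W : ℝ × E3 → E3} (hW : ContDiff ℝ ∞ W) (i : Fin 3) (a b p : ℝ × E3) :
    fderiv ℝ (fun y => (fderiv ℝ W y a) i) p b
      = fderiv ℝ (fun y => fderiv ℝ (fun y => W y i) y b) p a := by
  have h1 : (fun y => (fderiv ℝ W y a) i) = fun y => fderiv ℝ (fun y => W y i) y a := by
    funext y
    exact (alg_comp (alg_diff hW y) i a).symm
  rw [h1]
  exact alg_comm (alg_comp_smooth hW i) a b p

theorem Mx.dir {E B : ℝ × E3 → E3} {ρ : ℝ × E3 → ℝ} {j : ℝ × E3 → E3}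
    (hE : SF E) (hB : SF B) (hρ : SF ρ) (hj : SF j) (h : Mx univ E B ρ j) (e : E3) :
    Mx univ (fun p => fderiv ℝ E p (0, e)) (fun p => fderiv ℝ B p (0, e))
      (fun p => fderiv ℝ ρ p (0, e)) (fun p => fderiv ℝ j p (0, e)) := by
  have sE : ∀ (i : Fin 3) (a : ℝ × E3), Differentiable ℝ (fun y => fderiv ℝ (fun y => E y i) y a) :=
    fun i a => alg_diff (alg_dir_smooth (alg_comp_smooth hE.smooth i) a)
  have sB : ∀ (i : Fin 3) (a : ℝ × E3), Differentiable ℝ (fun y => fderiv ℝ (fun y => B y i) y a) :=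
    fun i a => alg_diff (alg_dir_smooth (alg_comp_smooth hB.smooth i) a)
  have sj : ∀ i : Fin 3, Differentiable ℝ (fun y => j y i) :=
    fun i => alg_diff (alg_comp_smooth hj.smooth i)
  refine ⟨?_, ?_, ?_, ?_⟩
  · intro p _ i
    unfold ptd pxd
    rw [alg_dir_comp hE.smooth, alg_dir_comp hB.smooth, alg_dir_comp hB.smooth,
      ← alg_comp (alg_diff hj.smooth p)]
    have h1 : (fun y => fderiv ℝ (fun y => E y i) y (1, 0))
        = fun y => (fderiv ℝ (fun y => B y (i + 2)) y (0, ee (i + 1))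
          - fderiv ℝ (fun y => B y (i + 1)) y (0, ee (i + 2))) - j y i := by
      funext y
      exact h.ampere y (mem_univ _) i
    rw [h1, fderiv_fun_sub ((sB _ _ p).fun_sub (sB _ _ p)) (sj i p),
      fderiv_fun_sub (sB _ _ p) (sB _ _ p)]
    rfl
  · intro p _ i
    unfold ptd pxd
    rw [alg_dir_comp hE.smooth, alg_dir_comp hB.smooth, alg_dir_comp hE.smooth]
    have h1 : (fun y => fderiv ℝ (fun y => B y i) y (1, 0))
        = fun y => -(fderiv ℝ (fun y => E y (i + 2)) y (0, ee (i + 1))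
          - fderiv ℝ (fun y => E y (i + 1)) y (0, ee (i + 2))) := by
      funext y
      exact h.faraday y (mem_univ _) i
    rw [h1, fderiv_fun_neg, fderiv_fun_sub (sE _ _ p) (sE _ _ p)]
    rfl
  · intro p _
    unfold pxd
    have h1 : ρ = fun y => ∑ i : Fin 3, fderiv ℝ (fun y => E y i) y (0, ee i) := by
      funext y
      exact (h.gauss y (mem_univ _)).symm
    have h2 : fderiv ℝ ρ p (0, e)
        = ∑ i : Fin 3, fderiv ℝ (fun y => fderiv ℝ (fun y => E y i) y (0, ee i)) p (0, e) := by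
      conv_lhs => rw [h1]
      rw [fderiv_fun_sum fun i _ => sE i _ p]
      simp
    rw [h2]
    exact Finset.sum_congr rfl fun i _ => alg_dir_comp hE.smooth i _ _ p
  · intro p _
    unfold pxd
    have h1 : (fun _ : ℝ × E3 => (0 : ℝ))
        = fun y => ∑ i : Fin 3, fderiv ℝ (fun y => B y i) y (0, ee i) := by
      funext y
      exact (h.gaussm y (mem_univ _)).symm
    have h2 : (0 : ℝ)
        = ∑ i : Fin 3, fderiv ℝ (fun y => fderiv ℝ (fun y => B y i) y (0, ee i)) p (0, e) := by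
      have h3 : (0 : ℝ) = fderiv ℝ (fun _ : ℝ × E3 => (0 : ℝ)) p (0, e) := by simp
      rw [h1, fderiv_fun_sum fun i _ => sB i _ p] at h3
      simpa using h3
    refine Eq.trans ?_ h2.symm
    exact Finset.sum_congr rfl fun i _ => alg_dir_comp hB.smooth i _ _ p

lemma alg_early {X F : Type*} [NormedAddCommGroup X] [NormedSpace ℝ X] [NormedAddCommGroup F]
    [NormedSpace ℝ F] {g : ℝ × X → F} {η : ℝ} (h : ∀ p : ℝ × X, p.1 ≤ η → g p = 0) {p : ℝ × X}
    (hp : p.1 < η) : g =ᶠ[𝓝 p] fun _ => 0 := by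
  have hU : IsOpen {y : ℝ × X | y.1 < η} := isOpen_lt continuous_fst continuous_const
  filter_upwards [hU.mem_nhds hp] with y hy
  exact h y (le_of_lt hy)

/-- Late fields solve the Maxwell system for all times. -/
theorem Mx.of_late {E B : ℝ × E3 → E3} {ρ : ℝ × E3 → ℝ} {j : ℝ × E3 → E3} {η : ℝ} (hη : 0 < η)
    (h : Mx (Ici 0) E B ρ j) (hv : ∀ p : ℝ × E3, p.1 ≤ η → E p = 0 ∧ B p = 0)
    (hs : ∀ p : ℝ × E3, p.1 ≤ η → ρ p = 0 ∧ j p = 0) : Mx univ E B ρ j := by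
  have zE : ∀ p : ℝ × E3, p.1 < η → ∀ (i : Fin 3) (a : ℝ × E3),
      fderiv ℝ (fun y => E y i) p a = 0 := fun p hp i a =>
    alg_zero (alg_early (g := fun y => E y i) (fun y hy => by simp [(hv y hy).1]) hp) a
  have zB : ∀ p : ℝ × E3, p.1 < η → ∀ (i : Fin 3) (a : ℝ × E3),
      fderiv ℝ (fun y => B y i) p a = 0 := fun p hp i a =>
    alg_zero (alg_early (g := fun y => B y i) (fun y hy => by simp [(hv y hy).2]) hp) a
  refine ⟨?_, ?_, ?_, ?_⟩
  · intro p _ i
    rcases le_or_gt 0 p.1 with hp | hp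
    · exact h.ampere p hp i
    · have hp' : p.1 < η := hp.trans hη
      unfold ptd pxd
      rw [zE p hp', zB p hp', zB p hp', (hs p hp'.le).2]
      simp
  · intro p _ i
    rcases le_or_gt 0 p.1 with hp | hp
    · exact h.faraday p hp i
    · have hp' : p.1 < η := hp.trans hη
      unfold ptd pxd
      rw [zB p hp', zE p hp', zE p hp']
      simp
  · intro p _
    rcases le_or_gt 0 p.1 with hp | hp
    · exact h.gauss p hp
    · have hp' : p.1 < η := hp.trans hη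
      unfold pxd
      rw [Finset.sum_congr rfl fun i _ => zE p hp' i _, (hs p hp'.le).1]
      simp
  · intro p _
    rcases le_or_gt 0 p.1 with hp | hp
    · exact h.gaussm p hp
    · have hp' : p.1 < η := hp.trans hη
      unfold pxd
      rw [Finset.sum_congr rfl fun i _ => zB p hp' i _]
      simp

end Vale.Agent.P107.LE
end
end
end

section

section

attribute [-instance] ProperSMul.toContinuousSMul IsTopologicalTorsor.toContinuousSMul
  IdemSemiring.toCanonicallyOrderedAdd IdemSemiring.toMulLeftMono IdemSemiring.toMulRightMono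
  AddQuantale.instAddLeftMono AddQuantale.instAddRightMono Quantale.instMulLeftMono
  Quantale.instMulRightMono FiniteDimensional.rclike_to_real IsScalarTower.complexToReal
  FiniteDimensional.complexToReal

section

/-!
Algebra behind the solution of the linear Maxwell system: the defects of the solution of the wave
equations solve the wave equation with vanishing data.
-/

namespace Vale.Agent.P107.LE

section malg

lemma ma_a : ∀ i : Fin 3, i + 1 + 1 = i + 2 := by decide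
lemma ma_b : ∀ i : Fin 3, i + 1 + 2 = i := by decide
lemma ma_c : ∀ i : Fin 3, i + 2 + 1 = i := by decide
lemma ma_d : ∀ i : Fin 3, i + 2 + 2 = i + 1 := by decide

lemma ma_sum {M : Type*} [AddCommMonoid M] (f : Fin 3 → M) (i : Fin 3) :
    ∑ l, f l = f i + f (i + 1) + f (i + 2) := by
  rw [Fin.sum_univ_three]
  fin_cases i
  · rfl
  · change f 0 + f 1 + f 2 = f 1 + f 2 + f 0
    abel
  · change f 0 + f 1 + f 2 = f 2 + f 0 + f 1
    abel

variable {S S0 : Type*} [AddCommGroup S] [AddCommGroup S0]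

/-- The wave operator. -/
def bxo (T : S →+ S) (P : Fin 3 → S →+ S) (x : S) : S := T (T x) - ∑ l, P l (P l x)

/-- The three conditions of the uniqueness theorem. -/
def Null (T : S →+ S) (P : Fin 3 → S →+ S) (R : S →+ S0) (x : S) : Prop :=
  bxo T P x = 0 ∧ R x = 0 ∧ R (T x) = 0

variable {T : S →+ S} {P : Fin 3 → S →+ S} {P0 : Fin 3 → S0 →+ S0} {R : S →+ S0}

lemma bxo_add (x y : S) : bxo T P (x + y) = bxo T P x + bxo T P y := by
  simp only [bxo, map_add, Finset.sum_add_distrib]; abel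

lemma bxo_sub (x y : S) : bxo T P (x - y) = bxo T P x - bxo T P y := by
  simp only [bxo, map_sub, Finset.sum_sub_distrib]; abel

lemma bxo_sum (f : Fin 3 → S) : bxo T P (∑ i, f i) = ∑ i, bxo T P (f i) := by
  rw [Fin.sum_univ_three, Fin.sum_univ_three, bxo_add, bxo_add]

lemma bxo_T (hTP : ∀ i x, T (P i x) = P i (T x)) (x : S) : bxo T P (T x) = T (bxo T P x) := by
  simp only [bxo, map_sub, map_sum, hTP]

lemma bxo_P (hTP : ∀ i x, T (P i x) = P i (T x)) (hPP : ∀ i j x, P i (P j x) = P j (P i x))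
    (i : Fin 3) (x : S) : bxo T P (P i x) = P i (bxo T P x) := by
  simp only [bxo, map_sub, map_sum, hTP]
  congr 1
  refine Finset.sum_congr rfl fun l _ => ?_
  rw [hPP l i x, hPP l i (P l x)]

variable {e b j : Fin 3 → S} {ρ : S} {ε β : Fin 3 → S0}

theorem mx_X (hTP : ∀ i x, T (P i x) = P i (T x)) (hPP : ∀ i j x, P i (P j x) = P j (P i x))
    (hP0 : ∀ i j x, P0 i (P0 j x) = P0 j (P0 i x)) (hR : ∀ i x, R (P i x) = P0 i (R x))
    (he : ∀ i, bxo T P (e i) = -(P i ρ + T (j i)))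
    (hb : ∀ i, bxo T P (b i) = P (i + 1) (j (i + 2)) - P (i + 2) (j (i + 1)))
    (hc : T ρ + ∑ i, P i (j i) = 0)
    (e0 : ∀ i, R (e i) = ε i)
    (e1 : ∀ i, R (T (e i)) = P0 (i + 1) (β (i + 2)) - P0 (i + 2) (β (i + 1)) - R (j i))
    (b0 : ∀ i, R (b i) = β i)
    (b1 : ∀ i, R (T (b i)) = -(P0 (i + 1) (ε (i + 2)) - P0 (i + 2) (ε (i + 1))))
    (hg : ∑ i, P0 i (ε i) = R ρ) (i : Fin 3) :
    Null T P R (T (e i) - (P (i + 1) (b (i + 2)) - P (i + 2) (b (i + 1))) + j i) := by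
  refine ⟨?_, ?_, ?_⟩
  · rw [bxo_add, bxo_sub, bxo_sub, bxo_T hTP, bxo_P hTP hPP, bxo_P hTP hPP, he, hb, hb]
    rw [bxo, ma_sum _ i]
    simp only [ma_a, ma_b, ma_c, ma_d]
    have hc' := congrArg (P i) hc
    rw [ma_sum _ i] at hc'
    simp only [map_add, map_zero] at hc'
    simp only [map_add, map_sub, map_neg, hTP]
    rw [hPP (i + 1) i, hPP (i + 2) i]
    rw [← neg_zero, ← hc']
    abel
  · simp only [map_add, map_sub, hR, b0, e1]
    abel
  · have hTT : T (T (e i)) = bxo T P (e i) + ∑ l, P l (P l (e i)) := by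
      rw [bxo]; abel
    have hg' := congrArg (P0 i) hg
    rw [ma_sum _ i] at hg'
    simp only [map_add] at hg'
    simp only [map_add, map_sub, hTP, hR, b1, hTT, he, ma_a, ma_b, ma_c, ma_d, map_neg]
    rw [ma_sum _ i]
    simp only [map_add, hR, e0, ← hg', hP0 (i + 1) i, hP0 (i + 2) i]
    abel

theorem mx_Y (hTP : ∀ i x, T (P i x) = P i (T x)) (hPP : ∀ i j x, P i (P j x) = P j (P i x))
    (hP0 : ∀ i j x, P0 i (P0 j x) = P0 j (P0 i x)) (hR : ∀ i x, R (P i x) = P0 i (R x))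
    (he : ∀ i, bxo T P (e i) = -(P i ρ + T (j i)))
    (hb : ∀ i, bxo T P (b i) = P (i + 1) (j (i + 2)) - P (i + 2) (j (i + 1)))
    (e0 : ∀ i, R (e i) = ε i)
    (e1 : ∀ i, R (T (e i)) = P0 (i + 1) (β (i + 2)) - P0 (i + 2) (β (i + 1)) - R (j i))
    (b0 : ∀ i, R (b i) = β i)
    (b1 : ∀ i, R (T (b i)) = -(P0 (i + 1) (ε (i + 2)) - P0 (i + 2) (ε (i + 1))))
    (hgm : ∑ i, P0 i (β i) = 0) (i : Fin 3) :
    Null T P R (T (b i) + (P (i + 1) (e (i + 2)) - P (i + 2) (e (i + 1)))) := by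
  refine ⟨?_, ?_, ?_⟩
  · rw [bxo_add, bxo_sub, bxo_T hTP, bxo_P hTP hPP, bxo_P hTP hPP, he, hb, he]
    simp only [map_add, map_sub, map_neg, hTP]
    rw [hPP (i + 1) (i + 2) ρ]
    abel
  · simp only [map_add, map_sub, hR, e0, b1]
    abel
  · have hTT : T (T (b i)) = bxo T P (b i) + ∑ l, P l (P l (b i)) := by
      rw [bxo]; abel
    have hg' := congrArg (P0 i) hgm
    rw [ma_sum _ i] at hg'
    simp only [map_add, map_zero] at hg'
    simp only [map_add, map_sub, hTP, hR, e1, hTT, hb, ma_a, ma_b, ma_c, ma_d, map_sub]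
    rw [ma_sum _ i]
    simp only [map_add, hR, b0, hP0 (i + 1) i, hP0 (i + 2) i]
    rw [← hg']
    abel

theorem mx_al (hTP : ∀ i x, T (P i x) = P i (T x)) (hPP : ∀ i j x, P i (P j x) = P j (P i x))
    (hP0 : ∀ i j x, P0 i (P0 j x) = P0 j (P0 i x)) (hR : ∀ i x, R (P i x) = P0 i (R x))
    (he : ∀ i, bxo T P (e i) = -(P i ρ + T (j i)))
    (hc : T ρ + ∑ i, P i (j i) = 0)
    (e0 : ∀ i, R (e i) = ε i)
    (e1 : ∀ i, R (T (e i)) = P0 (i + 1) (β (i + 2)) - P0 (i + 2) (β (i + 1)) - R (j i))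
    (hg : ∑ i, P0 i (ε i) = R ρ) :
    Null T P R ((∑ i, P i (e i)) - ρ) := by
  refine ⟨?_, ?_, ?_⟩
  · rw [bxo_sub, bxo_sum]
    simp only [bxo_P hTP hPP, he]
    have hc' := congrArg T hc
    simp only [map_add, map_zero, map_sum, hTP] at hc'
    rw [bxo]
    simp only [map_neg, map_add, Finset.sum_neg_distrib, Finset.sum_add_distrib]
    rw [← neg_zero, ← hc']
    abel
  · simp only [map_sub, map_sum, hR, e0, hg]
    abel
  · have hc' := congrArg R hc
    simp only [map_add, map_zero, map_sum, hR] at hc'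
    simp only [map_sub, map_sum, hTP, hR, e1]
    rw [← neg_zero, ← hc', ma_sum _ 0, ma_sum _ 0]
    have h1 : (0 : Fin 3) + 1 = 1 := rfl
    have h2 : (0 : Fin 3) + 2 = 2 := rfl
    have h3 : (1 : Fin 3) + 1 = 2 := rfl
    have h4 : (1 : Fin 3) + 2 = 0 := rfl
    have h5 : (2 : Fin 3) + 1 = 0 := rfl
    have h6 : (2 : Fin 3) + 2 = 1 := rfl
    simp only [h1, h2, h3, h4, h5, h6]
    rw [hP0 1 0, hP0 2 0, hP0 2 1]
    abel

theorem mx_be (hTP : ∀ i x, T (P i x) = P i (T x)) (hPP : ∀ i j x, P i (P j x) = P j (P i x))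
    (hP0 : ∀ i j x, P0 i (P0 j x) = P0 j (P0 i x)) (hR : ∀ i x, R (P i x) = P0 i (R x))
    (hb : ∀ i, bxo T P (b i) = P (i + 1) (j (i + 2)) - P (i + 2) (j (i + 1)))
    (b0 : ∀ i, R (b i) = β i)
    (b1 : ∀ i, R (T (b i)) = -(P0 (i + 1) (ε (i + 2)) - P0 (i + 2) (ε (i + 1))))
    (hgm : ∑ i, P0 i (β i) = 0) :
    Null T P R (∑ i, P i (b i)) := by
  have h1 : (0 : Fin 3) + 1 = 1 := rfl
  have h2 : (0 : Fin 3) + 2 = 2 := rfl
  have h3 : (1 : Fin 3) + 1 = 2 := rfl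
  have h4 : (1 : Fin 3) + 2 = 0 := rfl
  have h5 : (2 : Fin 3) + 1 = 0 := rfl
  have h6 : (2 : Fin 3) + 2 = 1 := rfl
  refine ⟨?_, ?_, ?_⟩
  · rw [bxo_sum]
    simp only [bxo_P hTP hPP, hb]
    rw [ma_sum _ 0]
    simp only [h1, h2, h3, h4, h5, h6, map_sub]
    rw [hPP 1 0, hPP 2 0, hPP 2 1]
    abel
  · simp only [map_sum, hR, b0, hgm]
  · simp only [map_sum, hTP, hR, b1]
    rw [ma_sum _ 0]
    simp only [h1, h2, h3, h4, h5, h6, map_sub, map_neg]
    rw [hP0 1 0, hP0 2 0, hP0 2 1]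
    abel

end malg

end Vale.Agent.P107.LE
end
end
end

section

section

attribute [-instance] ProperSMul.toContinuousSMul IsTopologicalTorsor.toContinuousSMul
  IdemSemiring.toCanonicallyOrderedAdd IdemSemiring.toMulLeftMono IdemSemiring.toMulRightMono
  AddQuantale.instAddLeftMono AddQuantale.instAddRightMono Quantale.instMulLeftMono
  Quantale.instMulRightMono FiniteDimensional.rclike_to_real IsScalarTower.complexToReal
  FiniteDimensional.complexToReal

section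

/-!
Solution of the linear Maxwell system from the existence and uniqueness theorems for the wave
equation.
-/

open MeasureTheory Set Filter Topology
open scoped RealInnerProductSpace ENNReal NNReal ContDiff

namespace Vale.Agent.P107.LE

/-- Solvability of the wave equation (theorem `exists_wave`). -/
def WaveEx : Prop := ∀ {a b : E3 → ℝ} {F : ℝ × E3 → ℝ}, SB a → SB b → SF F →
    ∃ w : ℝ × E3 → ℝ, SF w ∧ (∀ x, w (0, x) = a x) ∧ (∀ x, ptd w (0, x) = b x) ∧
      (∀ p, ptd (ptd w) p - lap w p = F p) ∧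
      (∀ η : ℝ, 0 ≤ η → (∀ x, a x = 0) → (∀ x, b x = 0) → (∀ p : ℝ × E3, p.1 ≤ η → F p = 0) →
        ∀ p : ℝ × E3, p.1 ≤ η → w p = 0)

/-- Uniqueness for the wave equation (theorem `wave_unique`). -/
def WaveUn : Prop := ∀ {w : ℝ × E3 → ℝ}, ContDiff ℝ ∞ w →
    (∀ p : ℝ × E3, 0 ≤ p.1 → ptd (ptd w) p - lap w p = 0) →
    (∀ x, w (0, x) = 0) → (∀ x, ptd w (0, x) = 0) → ∀ p : ℝ × E3, 0 ≤ p.1 → w p = 0

/-! ### Closure properties -/

section closure

variable {X F G : Type*} [NormedAddCommGroup X] [NormedSpace ℝ X] [NormedAddCommGroup F]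
  [NormedSpace ℝ F] [NormedAddCommGroup G] [NormedSpace ℝ G]

lemma msv_norm_comp (L : F →L[ℝ] G) {W : X → F} (h : ContDiff ℝ ∞ W) (n : ℕ) (x : X) :
    ‖iteratedFDeriv ℝ n (fun y => L (W y)) x‖ ≤ ‖L‖ * ‖iteratedFDeriv ℝ n W x‖ :=
  L.norm_iteratedFDeriv_comp_left (N := ∞) h.contDiffAt (by exact_mod_cast le_top)

lemma msv_norm_add {V W : X → F} (hV : ContDiff ℝ ∞ V) (hW : ContDiff ℝ ∞ W) (n : ℕ) (x : X) :
    ‖iteratedFDeriv ℝ n (fun y => V y + W y) x‖
      ≤ ‖iteratedFDeriv ℝ n V x‖ + ‖iteratedFDeriv ℝ n W x‖ := by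
  have h := iteratedFDeriv_add_apply (x := x) (i := n)
    (hV.contDiffAt.of_le (by exact_mod_cast le_top)) (hW.contDiffAt.of_le (by exact_mod_cast le_top))
  have e : (fun y => V y + W y) = V + W := rfl
  rw [e, h]
  exact norm_add_le _ _

lemma msv_norm_neg {V : X → F} (n : ℕ) (x : X) :
    ‖iteratedFDeriv ℝ n (fun y => - V y) x‖ = ‖iteratedFDeriv ℝ n V x‖ := by
  have e : (fun y => - V y) = - V := rfl
  rw [e, iteratedFDeriv_neg_apply, norm_neg]

lemma SF.msv_clm {W : ℝ × E3 → F} (h : SF W) (L : F →L[ℝ] G) : SF (fun y => L (W y)) := by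
  refine ⟨L.contDiff.comp h.smooth, fun n T => ?_⟩
  obtain ⟨C, hC⟩ := h.bdd n T
  exact ⟨‖L‖ * C, fun p hp => (msv_norm_comp L h.smooth n p).trans
    (mul_le_mul_of_nonneg_left (hC p hp) (norm_nonneg _))⟩

lemma SF.msv_add {V W : ℝ × E3 → F} (hV : SF V) (hW : SF W) : SF (fun y => V y + W y) := by
  refine ⟨hV.smooth.add hW.smooth, fun n T => ?_⟩
  obtain ⟨C, hC⟩ := hV.bdd n T
  obtain ⟨D, hD⟩ := hW.bdd n T
  exact ⟨C + D, fun p hp => (msv_norm_add hV.smooth hW.smooth n p).trans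
    (add_le_add (hC p hp) (hD p hp))⟩

lemma SF.msv_neg {V : ℝ × E3 → F} (hV : SF V) : SF (fun y => - V y) := by
  refine ⟨hV.smooth.neg, fun n T => ?_⟩
  obtain ⟨C, hC⟩ := hV.bdd n T
  exact ⟨C, fun p hp => by rw [msv_norm_neg]; exact hC p hp⟩

lemma SF.msv_sub {V W : ℝ × E3 → F} (hV : SF V) (hW : SF W) : SF (fun y => V y - W y) := by
  simpa only [sub_eq_add_neg] using hV.msv_add hW.msv_neg

lemma SB.msv_clm {W : E3 → F} (h : SB W) (L : F →L[ℝ] G) : SB (fun y => L (W y)) := by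
  refine ⟨L.contDiff.comp h.smooth, fun n => ?_⟩
  obtain ⟨C, hC⟩ := h.bdd n
  exact ⟨‖L‖ * C, fun p => (msv_norm_comp L h.smooth n p).trans
    (mul_le_mul_of_nonneg_left (hC p) (norm_nonneg _))⟩

lemma SB.msv_add {V W : E3 → F} (hV : SB V) (hW : SB W) : SB (fun y => V y + W y) := by
  refine ⟨hV.smooth.add hW.smooth, fun n => ?_⟩
  obtain ⟨C, hC⟩ := hV.bdd n
  obtain ⟨D, hD⟩ := hW.bdd n
  exact ⟨C + D, fun p => (msv_norm_add hV.smooth hW.smooth n p).trans
    (add_le_add (hC p) (hD p))⟩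

lemma SB.msv_neg {V : E3 → F} (hV : SB V) : SB (fun y => - V y) := by
  refine ⟨hV.smooth.neg, fun n => ?_⟩
  obtain ⟨C, hC⟩ := hV.bdd n
  exact ⟨C, fun p => by rw [msv_norm_neg]; exact hC p⟩

lemma SB.msv_sub {V W : E3 → F} (hV : SB V) (hW : SB W) : SB (fun y => V y - W y) := by
  simpa only [sub_eq_add_neg] using hV.msv_add hW.msv_neg

lemma SB.msv_dir {W : E3 → F} (h : SB W) (e : E3) : SB (fun y => fderiv ℝ W y e) := by
  have hfd : SB (fderiv ℝ W) := by
    refine ⟨h.smooth.fderiv_right (m := ∞) (by simp), fun n => ?_⟩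
    obtain ⟨C, hC⟩ := h.bdd (n + 1)
    exact ⟨C, fun p => by rw [norm_iteratedFDeriv_fderiv]; exact hC p⟩
  exact hfd.msv_clm (ContinuousLinearMap.apply ℝ F e)

lemma SF.msv_slice {W : ℝ × E3 → F} (h : SF W) : SB (fun x => W (0, x)) := by
  refine ⟨h.smooth.comp (contDiff_const.prodMk contDiff_id), fun n => ?_⟩
  obtain ⟨C, hC⟩ := h.bdd n 0
  refine ⟨|C| * ‖ContinuousLinearMap.inr ℝ ℝ E3‖ ^ n, fun x => ?_⟩
  have e1 : (fun x => W (0, x)) = W ∘ (ContinuousLinearMap.inr ℝ ℝ E3) := by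
    funext x; simp
  rw [e1, ContinuousLinearMap.iteratedFDeriv_comp_right _ h.smooth x (i := n)
    (by exact_mod_cast le_top)]
  refine (ContinuousMultilinearMap.norm_compContinuousLinearMap_le _ _).trans ?_
  rw [Finset.prod_const, Finset.card_univ, Fintype.card_fin]
  refine mul_le_mul_of_nonneg_right ?_ (by positivity)
  exact (hC _ (by simp)).trans (le_abs_self _)

end closure

/-! ### The abelian groups of smooth functions -/

/-- Smooth functions. -/
def smS (X : Type*) [NormedAddCommGroup X] [NormedSpace ℝ X] : AddSubgroup (X → ℝ) where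
  carrier := {G | ContDiff ℝ ∞ G}
  add_mem' := by
    intro a b (h : ContDiff ℝ ∞ a) (h' : ContDiff ℝ ∞ b)
    exact h.add h'
  zero_mem' := by
    change ContDiff ℝ ∞ (fun _ : X => (0 : ℝ))
    exact contDiff_const
  neg_mem' := by
    intro a (h : ContDiff ℝ ∞ a)
    exact h.neg

theorem smS_contDiff {X : Type*} [NormedAddCommGroup X] [NormedSpace ℝ X] (G : smS X) :
    ContDiff ℝ ∞ G.1 := G.2

/-- Directional derivatives of smooth functions. -/
noncomputable def dD {X : Type*} [NormedAddCommGroup X] [NormedSpace ℝ X] (e : X) :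
    smS X →+ smS X :=
  AddMonoidHom.mk' (fun G => ⟨fun p => fderiv ℝ G.1 p e, alg_dir_smooth (smS_contDiff G) e⟩) (by
    intro G H
    apply Subtype.ext
    funext p
    change fderiv ℝ (G.1 + H.1) p e = fderiv ℝ G.1 p e + fderiv ℝ H.1 p e
    rw [fderiv_add (alg_diff (smS_contDiff G) p) (alg_diff (smS_contDiff H) p)]
    rfl)

theorem dD_comm {X : Type*} [NormedAddCommGroup X] [NormedSpace ℝ X] (e f : X) (G : smS X) :
    dD e (dD f G) = dD f (dD e G) := by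
  apply Subtype.ext
  funext p
  exact alg_comm (smS_contDiff G) f e p

/-- Restriction to time `0`. -/
noncomputable def rsR : smS (ℝ × E3) →+ smS E3 :=
  AddMonoidHom.mk' (fun G => ⟨fun x => G.1 (0, x), (smS_contDiff G).comp
    (contDiff_const.prodMk contDiff_id)⟩) (by
    intro G H
    rfl)

theorem rsR_dD (e : E3) (G : smS (ℝ × E3)) : rsR (dD ((0 : ℝ), e) G) = dD e (rsR G) := by
  apply Subtype.ext
  funext x
  change fderiv ℝ G.1 (0, x) (0, e) = fderiv ℝ (fun x => G.1 (0, x)) x e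
  have h1 : HasFDerivAt (fun x : E3 => ((0 : ℝ), x)) (ContinuousLinearMap.inr ℝ ℝ E3) x :=
    (hasFDerivAt_const (0 : ℝ) x).prodMk (hasFDerivAt_id x)
  have h2 := HasFDerivAt.comp x (g := G.1) (alg_diff (smS_contDiff G) (0, x)).hasFDerivAt h1
  have h3 : fderiv ℝ (fun x => G.1 (0, x)) x
      = (fderiv ℝ G.1 (0, x)).comp (ContinuousLinearMap.inr ℝ ℝ E3) := h2.fderiv
  rw [h3]
  simp

/-- The time derivative. -/
noncomputable abbrev tT : smS (ℝ × E3) →+ smS (ℝ × E3) := dD ((1 : ℝ), (0 : E3))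

/-- The space derivatives. -/
noncomputable abbrev pP (i : Fin 3) : smS (ℝ × E3) →+ smS (ℝ × E3) := dD ((0 : ℝ), ee i)

/-- The space derivatives on `E3`. -/
noncomputable abbrev pP0 (i : Fin 3) : smS E3 →+ smS E3 := dD (ee i)

theorem bxo_apply (G : smS (ℝ × E3)) (p : ℝ × E3) :
    (bxo tT pP G).1 p = ptd (ptd G.1) p - lap G.1 p := by
  rw [bxo, lap]
  have h : ((∑ l, pP l (pP l G) : smS (ℝ × E3)) : ℝ × E3 → ℝ) p
      = ∑ i : Fin 3, pxd (ee i) (pxd (ee i) G.1) p := by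
    rw [AddSubgroup.val_finsetSum, Finset.sum_apply]
    rfl
  rw [← h]
  rfl

theorem null_zero (hu : WaveUn) {G : smS (ℝ × E3)} (h : Null tT pP rsR G) {p : ℝ × E3}
    (hp : 0 ≤ p.1) : G.1 p = 0 := by
  obtain ⟨h1, h2, h3⟩ := h
  refine hu (smS_contDiff G) (fun p _ => ?_) (fun x => ?_) (fun x => ?_) p hp
  · rw [← bxo_apply, h1]; rfl
  · exact congrFun (congrArg Subtype.val h2) x
  · exact congrFun (congrArg Subtype.val h3) x

/-- W5. Solution of the linear Maxwell system. -/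
theorem exists_maxwell_of (hx : WaveEx) (hu : WaveUn) {ρ : ℝ × E3 → ℝ} {j : ℝ × E3 → E3}
    (hρ : SF ρ) (hj : SF j)
    (hc : ∀ p, ptd ρ p + ∑ i : Fin 3, pxd (ee i) (fun y => j y i) p = 0)
    {E₀ B₀ : E3 → E3} (hE : SB E₀) (hB : SB B₀) (hg : ∀ x, div E₀ x = ρ (0, x))
    (hgm : ∀ x, div B₀ x = 0) :
    ∃ E B : ℝ × E3 → E3, SF E ∧ SF B ∧ Mx (Ici 0) E B ρ j ∧ (∀ x, E (0, x) = E₀ x) ∧
      (∀ x, B (0, x) = B₀ x) ∧
      (∀ η : ℝ, 0 ≤ η → (∀ x, E₀ x = 0) → (∀ x, B₀ x = 0) →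
        (∀ p : ℝ × E3, p.1 ≤ η → ρ p = 0 ∧ j p = 0) →
        ∀ p : ℝ × E3, p.1 ≤ η → E p = 0 ∧ B p = 0) := by
  -- components
  let pr : Fin 3 → (E3 →L[ℝ] ℝ) := fun i => EuclideanSpace.proj i
  have hjc : ∀ i, SF (fun y => j y i) := fun i => hj.msv_clm (pr i)
  have hEc : ∀ i, SB (fun y => E₀ y i) := fun i => hE.msv_clm (pr i)
  have hBc : ∀ i, SB (fun y => B₀ y i) := fun i => hB.msv_clm (pr i)
  -- solutions of the wave equations
  have hex := fun i : Fin 3 => hx (a := fun x => E₀ x i)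
    (b := fun x => fderiv ℝ (fun y => B₀ y (i + 2)) x (ee (i + 1))
      - fderiv ℝ (fun y => B₀ y (i + 1)) x (ee (i + 2)) - j (0, x) i)
    (F := fun p => -(fderiv ℝ ρ p (0, ee i) + fderiv ℝ (fun y => j y i) p (1, 0)))
    (hEc i) ((((hBc (i + 2)).msv_dir _).msv_sub ((hBc (i + 1)).msv_dir _)).msv_sub
      (hjc i).msv_slice) ((hρ.dir _).msv_add ((hjc i).dir _)).msv_neg
  have hbx := fun i : Fin 3 => hx (a := fun x => B₀ x i)
    (b := fun x => -(fderiv ℝ (fun y => E₀ y (i + 2)) x (ee (i + 1))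
      - fderiv ℝ (fun y => E₀ y (i + 1)) x (ee (i + 2))))
    (F := fun p => fderiv ℝ (fun y => j y (i + 2)) p (0, ee (i + 1))
      - fderiv ℝ (fun y => j y (i + 1)) p (0, ee (i + 2)))
    (hBc i) (((hEc (i + 2)).msv_dir _).msv_sub ((hEc (i + 1)).msv_dir _)).msv_neg
    (((hjc (i + 2)).dir _).msv_sub ((hjc (i + 1)).dir _))
  choose e es e0 e1 e2 e3 using hex
  choose b bs b0 b1 b2 b3 using hbx
  -- the fields
  let E : ℝ × E3 → E3 := fun p => WithLp.toLp 2 fun i => e i p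
  let B : ℝ × E3 → E3 := fun p => WithLp.toLp 2 fun i => b i p
  have hEsum : ∀ {c : Fin 3 → ℝ × E3 → ℝ}, (∀ i, SF (c i)) →
      SF (fun p => (WithLp.toLp 2 fun i => c i p : E3)) := by
    intro c hcs
    have e5 : (fun p => (WithLp.toLp 2 fun i => c i p : E3)) = fun p =>
        (ContinuousLinearMap.toSpanSingleton ℝ (ee 0)) (c 0 p)
        + (ContinuousLinearMap.toSpanSingleton ℝ (ee 1)) (c 1 p)
        + (ContinuousLinearMap.toSpanSingleton ℝ (ee 2)) (c 2 p) := by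
      funext p
      ext k
      fin_cases k <;> simp
    rw [e5]
    exact (((hcs 0).msv_clm _).msv_add ((hcs 1).msv_clm _)).msv_add ((hcs 2).msv_clm _)
  -- elements of the groups
  let ge : Fin 3 → smS (ℝ × E3) := fun i => ⟨e i, (es i).smooth⟩
  let gb : Fin 3 → smS (ℝ × E3) := fun i => ⟨b i, (bs i).smooth⟩
  let gj : Fin 3 → smS (ℝ × E3) := fun i => ⟨fun y => j y i, (hjc i).smooth⟩
  let gρ : smS (ℝ × E3) := ⟨ρ, hρ.smooth⟩
  let gε : Fin 3 → smS E3 := fun i => ⟨fun y => E₀ y i, (hEc i).smooth⟩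
  let gβ : Fin 3 → smS E3 := fun i => ⟨fun y => B₀ y i, (hBc i).smooth⟩
  have hTP : ∀ i x, tT (pP i x) = pP i (tT x) := fun i x => dD_comm _ _ x
  have hPP : ∀ i j x, pP i (pP j x) = pP j (pP i x) := fun i j x => dD_comm _ _ x
  have hP0 : ∀ i j x, pP0 i (pP0 j x) = pP0 j (pP0 i x) := fun i j x => dD_comm _ _ x
  have hR : ∀ i x, rsR (pP i x) = pP0 i (rsR x) := fun i x => rsR_dD _ x
  have he : ∀ i, bxo tT pP (ge i) = -(pP i gρ + tT (gj i)) := by
    intro i
    apply Subtype.ext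
    funext p
    rw [bxo_apply]
    exact e2 i p
  have hb : ∀ i, bxo tT pP (gb i) = pP (i + 1) (gj (i + 2)) - pP (i + 2) (gj (i + 1)) := by
    intro i
    apply Subtype.ext
    funext p
    rw [bxo_apply]
    exact b2 i p
  have hc' : tT gρ + ∑ i, pP i (gj i) = 0 := by
    apply Subtype.ext
    funext p
    have h : ((∑ l, pP l (gj l) : smS (ℝ × E3)) : ℝ × E3 → ℝ) p
        = ∑ i : Fin 3, pxd (ee i) (fun y => j y i) p := by
      rw [AddSubgroup.val_finsetSum, Finset.sum_apply]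
      rfl
    have h2 := hc p
    rw [← h] at h2
    exact h2
  have e0' : ∀ i, rsR (ge i) = gε i := fun i => Subtype.ext (funext fun x => e0 i x)
  have b0' : ∀ i, rsR (gb i) = gβ i := fun i => Subtype.ext (funext fun x => b0 i x)
  have e1' : ∀ i, rsR (tT (ge i)) = pP0 (i + 1) (gβ (i + 2)) - pP0 (i + 2) (gβ (i + 1))
      - rsR (gj i) := fun i => Subtype.ext (funext fun x => e1 i x)
  have b1' : ∀ i, rsR (tT (gb i)) = -(pP0 (i + 1) (gε (i + 2)) - pP0 (i + 2) (gε (i + 1))) :=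
    fun i => Subtype.ext (funext fun x => b1 i x)
  have hg' : ∑ i, pP0 i (gε i) = rsR gρ := by
    apply Subtype.ext
    funext x
    rw [AddSubgroup.val_finsetSum, Finset.sum_apply]
    exact hg x
  have hgm' : ∑ i, pP0 i (gβ i) = 0 := by
    apply Subtype.ext
    funext x
    rw [AddSubgroup.val_finsetSum, Finset.sum_apply]
    exact hgm x
  refine ⟨E, B, hEsum es, hEsum bs, ⟨?_, ?_, ?_, ?_⟩, ?_, ?_, ?_⟩
  · intro p hp i
    have h := null_zero hu (mx_X hTP hPP hP0 hR he hb hc' e0' e1' b0' b1' hg' i) (p := p) hp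
    have h' : ptd (e i) p - (pxd (ee (i + 1)) (b (i + 2)) p - pxd (ee (i + 2)) (b (i + 1)) p)
        + j p i = 0 := h
    change ptd (e i) p = pxd (ee (i + 1)) (b (i + 2)) p - pxd (ee (i + 2)) (b (i + 1)) p - j p i
    linarith
  · intro p hp i
    have h := null_zero hu (mx_Y hTP hPP hP0 hR he hb e0' e1' b0' b1' hgm' i) (p := p) hp
    have h' : ptd (b i) p + (pxd (ee (i + 1)) (e (i + 2)) p - pxd (ee (i + 2)) (e (i + 1)) p)
        = 0 := h
    change ptd (b i) p = -(pxd (ee (i + 1)) (e (i + 2)) p - pxd (ee (i + 2)) (e (i + 1)) p)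
    linarith
  · intro p hp
    have h := null_zero hu (mx_al hTP hPP hP0 hR he hc' e0' e1' hg') (p := p) hp
    have h2 : ((∑ l, pP l (ge l) : smS (ℝ × E3)) : ℝ × E3 → ℝ) p
        = ∑ i : Fin 3, pxd (ee i) (fun y => E y i) p := by
      rw [AddSubgroup.val_finsetSum, Finset.sum_apply]
      rfl
    have h' : ((∑ l, pP l (ge l) : smS (ℝ × E3)) : ℝ × E3 → ℝ) p - ρ p = 0 := h
    rw [h2] at h'
    linarith
  · intro p hp
    have h := null_zero hu (mx_be hTP hPP hP0 hR hb b0' b1' hgm') (p := p) hp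
    rw [AddSubgroup.val_finsetSum, Finset.sum_apply] at h
    exact h
  · intro x
    ext i
    exact e0 i x
  · intro x
    ext i
    exact b0 i x
  · intro η hη hE0 hB0 hv p hp
    have hE0' : E₀ = fun _ => 0 := funext hE0
    have hB0' : B₀ = fun _ => 0 := funext hB0
    have hvan : ∀ {G : ℝ × E3 → ℝ}, ContDiff ℝ ∞ G → (∀ p : ℝ × E3, p.1 ≤ η → G p = 0) →
        ∀ (a : ℝ × E3) (p : ℝ × E3), p.1 ≤ η → fderiv ℝ G p a = 0 := by
      intro G hG hG0 a
      have hcl : closure {p : ℝ × E3 | p.1 < η} = {p : ℝ × E3 | p.1 ≤ η} := by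
        have h1 : {p : ℝ × E3 | p.1 < η} = Iio η ×ˢ (univ : Set E3) := by ext; simp
        have h2 : {p : ℝ × E3 | p.1 ≤ η} = Iic η ×ˢ (univ : Set E3) := by ext; simp
        rw [h1, h2, closure_prod_eq, closure_Iio, closure_univ]
      have hcont : Continuous fun p => fderiv ℝ G p a := (alg_dir_smooth hG a).continuous
      have hz : IsClosed {p : ℝ × E3 | fderiv ℝ G p a = 0} := isClosed_eq hcont continuous_const
      have hsub : {p : ℝ × E3 | p.1 < η} ⊆ {p : ℝ × E3 | fderiv ℝ G p a = 0} := by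
        intro p hp
        refine alg_zero ?_ a
        filter_upwards [(isOpen_lt continuous_fst continuous_const).mem_nhds hp] with y hy
        exact hG0 y (le_of_lt hy)
      have := closure_minimal hsub hz
      rw [hcl] at this
      exact fun p hp => this hp
    constructor
    · ext i
      change e i p = 0
      refine e3 i η hη (fun x => by simp [hE0]) (fun x => ?_) (fun p hp => ?_) p hp
      · have hj0 : j (0, x) = 0 := (hv (0, x) hη).2
        simp [hB0', hj0]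
      · rw [hvan hρ.smooth (fun p hp => (hv p hp).1) _ p hp,
          hvan (hjc i).smooth (fun p hp => by simp [(hv p hp).2]) _ p hp]
        simp
    · ext i
      change b i p = 0
      refine b3 i η hη (fun x => by simp [hB0]) (fun x => ?_) (fun p hp => ?_) p hp
      · simp [hE0']
      · rw [hvan (hjc (i + 2)).smooth (fun p hp => by simp [(hv p hp).2]) _ p hp,
          hvan (hjc (i + 1)).smooth (fun p hp => by simp [(hv p hp).2]) _ p hp]
        simp

end Vale.Agent.P107.LE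
end
end
end

section

section

attribute [-instance] ProperSMul.toContinuousSMul IsTopologicalTorsor.toContinuousSMul
  IdemSemiring.toCanonicallyOrderedAdd IdemSemiring.toMulLeftMono IdemSemiring.toMulRightMono
  AddQuantale.instAddLeftMono AddQuantale.instAddRightMono Quantale.instMulLeftMono
  Quantale.instMulRightMono FiniteDimensional.rclike_to_real IsScalarTower.complexToReal
  FiniteDimensional.complexToReal

section

/-!
Uniqueness for the wave equation from the properties of spherical means.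
-/

open MeasureTheory Set Filter Topology
open scoped RealInnerProductSpace ENNReal NNReal ContDiff

namespace Vale.Agent.P107.LE

/-- The properties of spherical means used in the uniqueness proof (theorem `smG_props`). -/
def SmProps : Prop := ∀ {G : ℝ × E3 → ℝ}, ContDiff ℝ ∞ G →
    ContDiff ℝ ∞ (smG G) ∧
    (∀ s x, smG G (s, 0, x) = 0) ∧
    (∀ s x, deriv (fun τ => smG G (s, τ, x)) 0 = G (s, x)) ∧
    (∀ s τ x, deriv (deriv (fun τ => smG G (s, τ, x))) τ = smG (lap G) (s, τ, x)) ∧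
    (∀ e s τ x, fderiv ℝ (smG G) (s, τ, x) (0, 0, e) = smG (pxd e G) (s, τ, x)) ∧
    (∀ s τ x, fderiv ℝ (smG G) (s, τ, x) (1, 0, 0) = smG (ptd G) (s, τ, x))

theorem contDiff_dirD {X F : Type*} [NormedAddCommGroup X] [NormedSpace ℝ X]
    [NormedAddCommGroup F] [NormedSpace ℝ F] {G : X → F} (hG : ContDiff ℝ ∞ G) (e : X) :
    ContDiff ℝ ∞ (fun p => fderiv ℝ G p e) :=
  (hG.fderiv_right (m := ∞) (by norm_cast)).clm_apply contDiff_const

theorem smG_congr_slice {G H : ℝ × E3 → ℝ} {s : ℝ} (h : ∀ x, G (s, x) = H (s, x)) (τ : ℝ)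
    (x : E3) : smG G (s, τ, x) = smG H (s, τ, x) := by
  unfold smG
  simp only [h]

theorem smG_zero_slice {G : ℝ × E3 → ℝ} {s : ℝ} (h : ∀ x, G (s, x) = 0) (τ : ℝ)
    (x : E3) : smG G (s, τ, x) = 0 := by
  unfold smG
  simp [h]

/-- W3. Uniqueness for the wave equation. -/
theorem wave_unique_of (hsm : SmProps) {w : ℝ × E3 → ℝ} (hw : ContDiff ℝ ∞ w)
    (hw2 : ∀ p : ℝ × E3, 0 ≤ p.1 → ptd (ptd w) p - lap w p = 0)
    (h0 : ∀ x, w (0, x) = 0) (h1 : ∀ x, ptd w (0, x) = 0) :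
    ∀ p : ℝ × E3, 0 ≤ p.1 → w p = 0 := by
  rintro ⟨t0, x0⟩ ht0
  replace ht0 : 0 ≤ t0 := ht0
  have hw' : ContDiff ℝ ∞ (ptd w) := contDiff_dirD hw (1, 0)
  obtain ⟨p1, p2, p3, p4, -, p6⟩ := hsm hw
  obtain ⟨q1, q2, -, -, -, q6⟩ := hsm hw'
  set Ψ := smG w with hΨ
  set Φ := smG (ptd w) with hΦ
  have hΨd : Differentiable ℝ Ψ := p1.differentiable (by simp)
  have hΦd : Differentiable ℝ Φ := q1.differentiable (by simp)
  have hΨ2 : ContDiff ℝ ∞ (fderiv ℝ Ψ) := p1.fderiv_right (m := ∞) (by norm_cast)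
  have hΨ2d : Differentiable ℝ (fderiv ℝ Ψ) := hΨ2.differentiable (by simp)
  have hderτ : ∀ (s τ : ℝ) (x : E3), HasDerivAt (fun τ => Ψ (s, τ, x))
      (fderiv ℝ Ψ (s, τ, x) (0, 1, 0)) τ := by
    intro s τ x
    have hg : HasDerivAt (fun τ : ℝ => ((s, τ, x) : ℝ × ℝ × E3)) (0, 1, 0) τ :=
      (hasDerivAt_const _ _).prodMk ((hasDerivAt_id τ).prodMk (hasDerivAt_const _ _))
    exact (hΨd (s, τ, x)).hasFDerivAt.comp_hasDerivAt τ hg
  have hfun : (fun y => fderiv ℝ Ψ y (1, 0, 0)) = Φ := by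
    funext y
    obtain ⟨s, τ, x⟩ := y
    exact p6 s τ x
  let A : ℝ → ℝ := fun s => fderiv ℝ Ψ (s, t0 - s, x0) (0, 1, 0) + Φ (s, t0 - s, x0)
  have hA : ∀ s, 0 ≤ s → HasDerivAt A 0 s := by
    intro s hs
    have hγ : HasDerivAt (fun s : ℝ => ((s, t0 - s, x0) : ℝ × ℝ × E3)) (1, -1, 0) s := by
      refine (hasDerivAt_id s).prodMk (HasDerivAt.prodMk ?_ (hasDerivAt_const _ _))
      simpa using (hasDerivAt_id s).const_sub t0
    have hd1 : HasDerivAt (fun s => fderiv ℝ Ψ (s, t0 - s, x0))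
        (fderiv ℝ (fderiv ℝ Ψ) (s, t0 - s, x0) (1, -1, 0)) s :=
      (hΨ2d (s, t0 - s, x0)).hasFDerivAt.comp_hasDerivAt s hγ
    have hd1' : HasDerivAt (fun s => fderiv ℝ Ψ (s, t0 - s, x0) (0, 1, 0))
        (fderiv ℝ (fderiv ℝ Ψ) (s, t0 - s, x0) (1, -1, 0) (0, 1, 0)) s := by
      have := hd1.clm_apply (hasDerivAt_const s ((0, 1, 0) : ℝ × ℝ × E3))
      simpa using this
    have hd2 : HasDerivAt (fun s => Φ (s, t0 - s, x0))
        (fderiv ℝ Φ (s, t0 - s, x0) (1, -1, 0)) s := by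
      have h := HasFDerivAt.comp_hasDerivAt (l := Φ) (l' := fderiv ℝ Φ (s, t0 - s, x0)) s
        (hΦd (s, t0 - s, x0)).hasFDerivAt hγ
      exact h
    have hsum := hd1'.add hd2
    have hv : ((1, -1, 0) : ℝ × ℝ × E3) = (1, 0, 0) - (0, 1, 0) := by simp
    have hsymm : fderiv ℝ (fderiv ℝ Ψ) (s, t0 - s, x0) (1, 0, 0) (0, 1, 0) =
        fderiv ℝ (fderiv ℝ Ψ) (s, t0 - s, x0) (0, 1, 0) (1, 0, 0) := by
      have := (p1.contDiffAt (x := (s, t0 - s, x0))).isSymmSndFDerivAt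
        (by simp only [minSmoothness_of_isRCLikeNormedField]; exact ENat.LEInfty.out)
      exact this _ _
    have hD2a : fderiv ℝ (fderiv ℝ Ψ) (s, t0 - s, x0) (0, 1, 0) (1, 0, 0) =
        fderiv ℝ Φ (s, t0 - s, x0) (0, 1, 0) := by
      rw [← hfun]
      have := (hΨ2d (s, t0 - s, x0)).hasFDerivAt.clm_apply
        (hasFDerivAt_const ((1, 0, 0) : ℝ × ℝ × E3) (s, t0 - s, x0))
      rw [this.fderiv]
      simp
    have hD2b : fderiv ℝ (fderiv ℝ Ψ) (s, t0 - s, x0) (0, 1, 0) (0, 1, 0) =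
        smG (lap w) (s, t0 - s, x0) := by
      rw [← p4 s (t0 - s) x0]
      have e1 : deriv (fun τ => Ψ (s, τ, x0)) = fun τ => fderiv ℝ Ψ (s, τ, x0) (0, 1, 0) := by
        funext τ
        exact (hderτ s τ x0).deriv
      rw [e1]
      have hg : HasDerivAt (fun τ : ℝ => ((s, τ, x0) : ℝ × ℝ × E3)) (0, 1, 0) (t0 - s) :=
        (hasDerivAt_const _ _).prodMk ((hasDerivAt_id _).prodMk (hasDerivAt_const _ _))
      have h3 : HasDerivAt (fun τ => fderiv ℝ Ψ (s, τ, x0))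
          (fderiv ℝ (fderiv ℝ Ψ) (s, t0 - s, x0) (0, 1, 0)) (t0 - s) :=
        (hΨ2d (s, t0 - s, x0)).hasFDerivAt.comp_hasDerivAt (t0 - s) hg
      have h4 := h3.clm_apply (hasDerivAt_const (t0 - s) ((0, 1, 0) : ℝ × ℝ × E3))
      have h5 : HasDerivAt (fun τ => fderiv ℝ Ψ (s, τ, x0) (0, 1, 0))
        (fderiv ℝ (fderiv ℝ Ψ) (s, t0 - s, x0) (0, 1, 0) (0, 1, 0)) (t0 - s) := by
        simpa using h4
      exact h5.deriv.symm
    have hkey : fderiv ℝ (fderiv ℝ Ψ) (s, t0 - s, x0) (1, -1, 0) (0, 1, 0) +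
        fderiv ℝ Φ (s, t0 - s, x0) (1, -1, 0) = 0 := by
      rw [hv, map_sub, map_sub, sub_apply, hsymm, hD2a, hD2b, q6]
      have h7 : smG (ptd (ptd w)) (s, t0 - s, x0) = smG (lap w) (s, t0 - s, x0) :=
        smG_congr_slice (fun x => by have := hw2 (s, x) hs; linarith) _ _
      rw [h7]
      ring
    rw [← hkey]
    exact hsum
  have hconst := constant_of_has_deriv_right_zero (f := A) (a := 0) (b := t0)
    (fun s hs => (hA s hs.1).continuousAt.continuousWithinAt)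
    (fun s hs => (hA s hs.1).hasDerivWithinAt) t0 ⟨ht0, le_rfl⟩
  have hAt : A t0 = w (t0, x0) := by
    simp only [A, sub_self]
    rw [q2, add_zero, ← (hderτ t0 0 x0).deriv, p3]
  have hA0 : A 0 = 0 := by
    simp only [A, sub_zero]
    rw [hΦ, smG_zero_slice h1, add_zero, ← (hderτ 0 t0 x0).deriv]
    have : (fun τ => Ψ (0, τ, x0)) = fun _ => 0 := by
      funext τ
      exact smG_zero_slice h0 τ x0
    rw [this]
    simp
  rw [← hAt, hconst, hA0]

end Vale.Agent.P107.LE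
end
end
end

section

section

attribute [-instance] ProperSMul.toContinuousSMul IsTopologicalTorsor.toContinuousSMul
  IdemSemiring.toCanonicallyOrderedAdd IdemSemiring.toMulLeftMono IdemSemiring.toMulRightMono
  AddQuantale.instAddLeftMono AddQuantale.instAddRightMono Quantale.instMulLeftMono
  Quantale.instMulRightMono FiniteDimensional.rclike_to_real IsScalarTower.complexToReal
  FiniteDimensional.complexToReal

section

/-!
P107 module LE: smooth parametric integrals.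
-/

open MeasureTheory Set Filter Topology
open scoped RealInnerProductSpace ENNReal NNReal ContDiff

namespace Vale.Agent.P107.LE

/-- A1. Smooth parametric integrals. -/
theorem param_integral {X Y F : Type*} [NormedAddCommGroup X] [NormedSpace ℝ X]
    [FiniteDimensional ℝ X] [TopologicalSpace Y] [MeasurableSpace Y] [OpensMeasurableSpace Y]
    [SecondCountableTopology Y] [NormedAddCommGroup F] [NormedSpace ℝ F] [CompleteSpace F]
    {μ : Measure Y} [IsFiniteMeasure μ] {K : Set Y} (hK : IsCompact K) (hμ : μ Kᶜ = 0)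
    {h : X → Y → F} (hs : ∀ y, ContDiff ℝ ∞ (fun x => h x y))
    (hc : ∀ n : ℕ, Continuous (fun p : X × Y => iteratedFDeriv ℝ n (fun x => h x p.2) p.1)) :
    ContDiff ℝ ∞ (fun x => ∫ y, h x y ∂μ) ∧
    ∀ (n : ℕ) (x : X), iteratedFDeriv ℝ n (fun x => ∫ y, h x y ∂μ) x
      = ∫ y, iteratedFDeriv ℝ n (fun x => h x y) x ∂μ := by
  have : ProperSpace X := FiniteDimensional.proper ℝ X
  have haeK : ∀ᵐ y ∂μ, y ∈ K := by
    rw [ae_iff]
    exact hμ
  -- bounds
  have hbd : ∀ (n : ℕ) (x₀ : X), ∃ C : ℝ, ∀ x ∈ Metric.closedBall x₀ 1, ∀ y ∈ K,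
      ‖iteratedFDeriv ℝ n (fun x => h x y) x‖ ≤ C := by
    intro n x₀
    have hcomp : IsCompact ((Metric.closedBall x₀ 1) ×ˢ K) :=
      (isCompact_closedBall x₀ 1).prod hK
    obtain ⟨C, hC⟩ := hcomp.exists_bound_of_continuousOn (hc n).continuousOn
    exact ⟨C, fun x hx y hy => hC (x, y) ⟨hx, hy⟩⟩
  have hmeas : ∀ (n : ℕ) (x : X),
      AEStronglyMeasurable (fun y => iteratedFDeriv ℝ n (fun x => h x y) x) μ := by
    intro n x
    exact ((hc n).comp (Continuous.prodMk_right x)).aestronglyMeasurable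
  have hint : ∀ (n : ℕ) (x : X),
      Integrable (fun y => iteratedFDeriv ℝ n (fun x => h x y) x) μ := by
    intro n x
    obtain ⟨C, hC⟩ := hbd n x
    refine Integrable.mono' (integrable_const C) (hmeas n x) ?_
    filter_upwards [haeK] with y hy
    exact hC x (Metric.mem_closedBall_self zero_le_one) y hy
  have hder : ∀ (n : ℕ) (x : X) (y : Y),
      HasFDerivAt (fun x => iteratedFDeriv ℝ n (fun x => h x y) x)
        ((iteratedFDeriv ℝ (n + 1) (fun x => h x y) x).curryLeft) x := by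
    intro n x y
    have h1 := (hs y).ftaylorSeries
    exact h1.fderiv n (by exact_mod_cast WithTop.coe_lt_top n) x
  let e : ∀ n : ℕ, (X [×(n + 1)]→L[ℝ] F) ≃ₗᵢ[ℝ] (X →L[ℝ] X [×n]→L[ℝ] F) := fun n =>
    continuousMultilinearCurryLeftEquiv ℝ (fun _ : Fin (n + 1) => X) F
  let L : ∀ n : ℕ, (X [×(n + 1)]→L[ℝ] F) →L[ℝ] (X →L[ℝ] X [×n]→L[ℝ] F) := fun n =>
    (e n).toContinuousLinearEquiv.toContinuousLinearMap
  have hmain : ∀ (n : ℕ) (x₀ : X),
      HasFDerivAt (fun x => ∫ y, iteratedFDeriv ℝ n (fun x => h x y) x ∂μ)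
        ((∫ y, iteratedFDeriv ℝ (n + 1) (fun x => h x y) x₀ ∂μ).curryLeft) x₀ := by
    intro n x₀
    obtain ⟨C, hC⟩ := hbd (n + 1) x₀
    have h1 : (∫ y, iteratedFDeriv ℝ (n + 1) (fun x => h x y) x₀ ∂μ).curryLeft =
        ∫ y, (iteratedFDeriv ℝ (n + 1) (fun x => h x y) x₀).curryLeft ∂μ := by
      exact (ContinuousLinearMap.integral_comp_comm (𝕜 := ℝ) (E := X [×(n + 1)]→L[ℝ] F)
        (Fₗ := X →L[ℝ] X [×n]→L[ℝ] F) (L n) (hint (n + 1) x₀)).symm
    rw [h1]
    refine hasFDerivAt_integral_of_dominated_of_fderiv_le (μ := μ)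
      (F := fun x y => iteratedFDeriv ℝ n (fun x => h x y) x)
      (F' := fun x y => (iteratedFDeriv ℝ (n + 1) (fun x => h x y) x).curryLeft)
      (bound := fun _ => C) (s := Metric.closedBall x₀ 1)
      (Metric.closedBall_mem_nhds x₀ one_pos) ?_ (hint n x₀) ?_ ?_ (integrable_const C) ?_
    · exact Eventually.of_forall fun x => hmeas n x
    · have h2 := (e n).toContinuousLinearEquiv.continuous.comp_aestronglyMeasurable
        (hmeas (n + 1) x₀)
      exact h2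
    · filter_upwards [haeK] with y hy
      intro x hx
      have h3 : ‖(iteratedFDeriv ℝ (n + 1) (fun x => h x y) x).curryLeft‖ =
          ‖iteratedFDeriv ℝ (n + 1) (fun x => h x y) x‖ :=
        (e n).norm_map _
      rw [h3]
      exact hC x hx y hy
    · filter_upwards with y
      intro x _
      exact hder n x y
  have hT : HasFTaylorSeriesUpTo ∞ (fun x => ∫ y, h x y ∂μ)
      (fun x n => ∫ y, iteratedFDeriv ℝ n (fun x => h x y) x ∂μ) := by
    refine ⟨?_, ?_, ?_⟩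
    · intro x
      have h2 := (continuousMultilinearCurryFin0 ℝ X F).toContinuousLinearEquiv.integral_comp_comm
        (μ := μ) (fun y => iteratedFDeriv ℝ 0 (fun x => h x y) x)
      refine Eq.trans h2.symm ?_
      apply integral_congr_ae
      filter_upwards with y
      simp [continuousMultilinearCurryFin0_apply]
    · intro n _ x
      exact hmain n x
    · intro n _
      exact continuous_iff_continuousAt.mpr fun x => (hmain n x).continuousAt
  have hcd : ContDiff ℝ ∞ (fun x => ∫ y, h x y ∂μ) := hT.contDiff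
  refine ⟨hcd, ?_⟩
  intro n x
  exact (hT.eq_iteratedFDeriv (m := n) (by exact_mod_cast le_top) x).symm

end Vale.Agent.P107.LE
end
end
end

section

section

attribute [-instance] ProperSMul.toContinuousSMul IsTopologicalTorsor.toContinuousSMul
  IdemSemiring.toCanonicallyOrderedAdd IdemSemiring.toMulLeftMono IdemSemiring.toMulRightMono
  AddQuantale.instAddLeftMono AddQuantale.instAddRightMono Quantale.instMulLeftMono
  Quantale.instMulRightMono FiniteDimensional.rclike_to_real IsScalarTower.complexToReal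
  FiniteDimensional.complexToReal

section

/-!
P107 module LE: spherical means are smooth and solve the wave equation.
-/

open MeasureTheory Set Filter Topology
open scoped RealInnerProductSpace ENNReal NNReal ContDiff

namespace Vale.Agent.P107.LE

/-- Partial derivatives of a jointly smooth function. -/
lemma sm_iteratedFDeriv_partial {X Z F : Type*} [NormedAddCommGroup X] [NormedSpace ℝ X]
    [NormedAddCommGroup Z] [NormedSpace ℝ Z] [NormedAddCommGroup F] [NormedSpace ℝ F]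
    {H : X × Z → F} (hH : ContDiff ℝ ∞ H) (n : ℕ) (x : X) (z : Z) :
    iteratedFDeriv ℝ n (fun x => H (x, z)) x =
      (iteratedFDeriv ℝ n H (x, z)).compContinuousLinearMap
        (fun _ => ContinuousLinearMap.inl ℝ X Z) := by
  have h1 : (fun x => H (x, z)) =
      (fun p : X × Z => H (p + (0, z))) ∘ (ContinuousLinearMap.inl ℝ X Z) := by
    funext x
    simp
  have h2 : ContDiff ℝ ∞ (fun p : X × Z => H (p + (0, z))) :=
    hH.comp (contDiff_id.add contDiff_const)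
  rw [h1, ContinuousLinearMap.iteratedFDeriv_comp_right _ h2 x
    (i := n) (by exact_mod_cast le_top), iteratedFDeriv_comp_add_right]
  congr 2
  simp

lemma sm_continuous_iteratedFDeriv_partial {X Z F : Type*} [NormedAddCommGroup X]
    [NormedSpace ℝ X] [NormedAddCommGroup Z] [NormedSpace ℝ Z] [NormedAddCommGroup F]
    [NormedSpace ℝ F] {H : X × Z → F} (hH : ContDiff ℝ ∞ H) (n : ℕ) :
    Continuous (fun p : X × Z => iteratedFDeriv ℝ n (fun x => H (x, p.2)) p.1) := by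
  have h1 : (fun p : X × Z => iteratedFDeriv ℝ n (fun x => H (x, p.2)) p.1) =
      fun p : X × Z => (ContinuousMultilinearMap.compContinuousLinearMapL
        (fun _ : Fin n => ContinuousLinearMap.inl ℝ X Z)) (iteratedFDeriv ℝ n H p) := by
    funext p
    rw [sm_iteratedFDeriv_partial hH n p.1 p.2]
    rfl
  rw [h1]
  exact (ContinuousLinearMap.continuous _).comp
    (hH.continuous_iteratedFDeriv (m := n) (by exact_mod_cast le_top))

/-- Integrals over the sphere of jointly smooth functions. -/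
theorem sm_sph_param {X F : Type*} [NormedAddCommGroup X] [NormedSpace ℝ X]
    [FiniteDimensional ℝ X] [NormedAddCommGroup F] [NormedSpace ℝ F] [CompleteSpace F]
    {H : X × E3 → F} (hH : ContDiff ℝ ∞ H) :
    ContDiff ℝ ∞ (fun x => ∫ w, H (x, (w : E3)) ∂sph) ∧
    (∀ x v, fderiv ℝ (fun x => ∫ w, H (x, (w : E3)) ∂sph) x v
      = ∫ w, fderiv ℝ H (x, (w : E3)) (v, 0) ∂sph) ∧
    ∀ (n : ℕ) (x : X), iteratedFDeriv ℝ n (fun x => ∫ w, H (x, (w : E3)) ∂sph) x
      = ∫ w, (iteratedFDeriv ℝ n H (x, (w : E3))).compContinuousLinearMap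
        (fun _ => ContinuousLinearMap.inl ℝ X E3) ∂sph := by
  have hs : ∀ w : Metric.sphere (0 : E3) 1, ContDiff ℝ ∞ (fun x => H (x, (w : E3))) := by
    intro w
    exact hH.comp (contDiff_id.prodMk contDiff_const)
  have hc : ∀ n : ℕ, Continuous (fun p : X × Metric.sphere (0 : E3) 1 =>
      iteratedFDeriv ℝ n (fun x => H (x, (p.2 : E3))) p.1) := by
    intro n
    exact (sm_continuous_iteratedFDeriv_partial hH n).comp
      (continuous_fst.prodMk (continuous_subtype_val.comp continuous_snd))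
  obtain ⟨h1, h2⟩ := param_integral (μ := sph) (K := univ) isCompact_univ (by simp)
    (h := fun x (w : Metric.sphere (0 : E3) 1) => H (x, (w : E3))) hs hc
  refine ⟨h1, ?_, ?_⟩
  · intro x v
    have h3 : fderiv ℝ (fun x => ∫ w, H (x, (w : E3)) ∂sph) x v =
        iteratedFDeriv ℝ 1 (fun x => ∫ w, H (x, (w : E3)) ∂sph) x (fun _ => v) := by
      rw [iteratedFDeriv_one_apply]
    rw [h3, h2 1 x]
    have hint : Integrable (fun w : Metric.sphere (0 : E3) 1 =>
        iteratedFDeriv ℝ 1 (fun x => H (x, (w : E3))) x) sph := by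
      have hcont : Continuous (fun w : Metric.sphere (0 : E3) 1 =>
          iteratedFDeriv ℝ 1 (fun x => H (x, (w : E3))) x) :=
        (hc 1).comp (Continuous.prodMk_right x)
      exact hcont.integrable_of_hasCompactSupport (HasCompactSupport.of_compactSpace _)
    rw [ContinuousMultilinearMap.integral_apply hint]
    apply integral_congr_ae
    filter_upwards with w
    rw [iteratedFDeriv_one_apply]
    have h4 : HasFDerivAt (fun x => H (x, (w : E3)))
        ((fderiv ℝ H (x, (w : E3))).comp (ContinuousLinearMap.inl ℝ X E3)) x := by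
      have h5 : HasFDerivAt H (fderiv ℝ H (x, (w : E3))) (x, (w : E3)) :=
        (hH.differentiable (by simp)).differentiableAt.hasFDerivAt
      have h6 : HasFDerivAt (fun x : X => (x, (w : E3))) (ContinuousLinearMap.inl ℝ X E3) x :=
        hasFDerivAt_prodMk_left x (w : E3)
      exact h5.comp x h6
    rw [h4.fderiv]
    simp
  · intro n x
    rw [h2 n x]
    apply integral_congr_ae
    filter_upwards with w
    exact sm_iteratedFDeriv_partial hH n x (w : E3)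

/-- Integrals of a radial function times a continuous function, in polar coordinates. -/
lemma sm_polar_swap {ψ : ℝ → ℝ} (hψ : Continuous ψ) (hc : HasCompactSupport ψ)
    (hs : tsupport ψ ⊆ Ioi 0) {k : E3 → ℝ} (hk : Continuous k) :
    ∫ y : E3, ψ ‖y‖ * k y = ∫ r, ψ r * (r ^ 2 * ∫ w, k (r • (w : E3)) ∂sph) := by
  have hψ0 : ∀ r : ℝ, r ≤ 0 → ψ r = 0 := by
    intro r hr
    apply image_eq_zero_of_notMem_tsupport
    intro h
    exact absurd (hs h) (not_lt.mpr hr)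
  obtain ⟨R, hR⟩ : ∃ R : ℝ, ∀ r, R < r → ψ r = 0 := by
    obtain ⟨R, hR⟩ := hc.isCompact.isBounded.subset_closedBall 0
    refine ⟨R, fun r hr => ?_⟩
    apply image_eq_zero_of_notMem_tsupport
    intro h
    have := hR h
    rw [Metric.mem_closedBall, dist_zero_right] at this
    exact absurd this (not_le.mpr (lt_of_lt_of_le hr (le_abs_self r)))
  have hcont : Continuous (fun y : E3 => ψ ‖y‖ * k y) := (hψ.comp continuous_norm).mul hk
  have hcs : HasCompactSupport (fun y : E3 => ψ ‖y‖ * k y) := by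
    apply HasCompactSupport.of_support_subset_isCompact (isCompact_closedBall (0 : E3) R)
    intro y hy
    rw [Metric.mem_closedBall, dist_zero_right]
    by_contra h
    push Not at h
    apply hy
    simp only
    rw [hR _ h, zero_mul]
  rw [integral_polar (hcont.integrable_of_hasCompactSupport hcs)]
  have h1 : ∀ o : Metric.sphere (0 : E3) 1, ∫ r in Ioi (0 : ℝ),
      r ^ 2 * (ψ ‖r • (o : E3)‖ * k (r • (o : E3))) =
      ∫ r in Ioi (0 : ℝ), r ^ 2 * (ψ r * k (r • (o : E3))) := by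
    intro o
    apply setIntegral_congr_fun measurableSet_Ioi
    intro r hr
    have hr' : (0 : ℝ) < r := hr
    have h2 : ‖r • (o : E3)‖ = r := by
      rw [norm_smul, Real.norm_of_nonneg hr'.le, norm_eq_of_mem_sphere, mul_one]
    simp only [h2]
  simp only [h1]
  have hcont2 : Continuous (fun p : Metric.sphere (0 : E3) 1 × ℝ =>
      p.2 ^ 2 * (ψ p.2 * k (p.2 • (p.1 : E3)))) := by
    have h3 : Continuous (fun p : Metric.sphere (0 : E3) 1 × ℝ => k (p.2 • (p.1 : E3))) :=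
      hk.comp (continuous_snd.smul (continuous_subtype_val.comp continuous_fst))
    exact (continuous_snd.pow 2).mul ((hψ.comp continuous_snd).mul h3)
  have hcs2 : HasCompactSupport (fun p : Metric.sphere (0 : E3) 1 × ℝ =>
      p.2 ^ 2 * (ψ p.2 * k (p.2 • (p.1 : E3)))) := by
    apply HasCompactSupport.of_support_subset_isCompact
      ((isCompact_univ (X := Metric.sphere (0 : E3) 1)).prod (isCompact_Icc (a := (0 : ℝ))
        (b := R)))
    intro p hp
    refine ⟨mem_univ _, ?_, ?_⟩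
    · by_contra h
      push Not at h
      apply hp
      simp only
      rw [hψ0 _ h.le, zero_mul, mul_zero]
    · by_contra h
      push Not at h
      apply hp
      simp only
      rw [hR _ h, zero_mul, mul_zero]
  have hint : Integrable (fun p : Metric.sphere (0 : E3) 1 × ℝ =>
      p.2 ^ 2 * (ψ p.2 * k (p.2 • (p.1 : E3)))) (sph.prod (volume.restrict (Ioi (0 : ℝ)))) := by
    have h4 : Integrable (fun p : Metric.sphere (0 : E3) 1 × ℝ =>
      p.2 ^ 2 * (ψ p.2 * k (p.2 • (p.1 : E3)))) (sph.prod volume) :=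
      hcont2.integrable_of_hasCompactSupport hcs2
    exact h4.mono_measure (Measure.prod_mono le_rfl Measure.restrict_le_self)
  have hswap := integral_integral_swap (μ := sph) (ν := volume.restrict (Ioi (0 : ℝ)))
    (f := fun (o : Metric.sphere (0 : E3) 1) (r : ℝ) => r ^ 2 * (ψ r * k (r • (o : E3)))) hint
  rw [hswap]
  have h5 : ∀ r : ℝ, ∫ o : Metric.sphere (0 : E3) 1, r ^ 2 * (ψ r * k (r • (o : E3))) ∂sph =
      ψ r * (r ^ 2 * ∫ w, k (r • (w : E3)) ∂sph) := by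
    intro r
    rw [← integral_const_mul, ← integral_const_mul]
    apply integral_congr_ae
    filter_upwards with w
    ring
  simp only [h5]
  apply setIntegral_eq_integral_of_forall_compl_eq_zero
  intro r hr
  rw [hψ0 r (not_lt.mp hr), zero_mul]

lemma sm_sum_ee (y : E3) : ∑ i : Fin 3, y i • ee i = y := by
  ext j
  fin_cases j <;> simp [Fin.sum_univ_three, ee]

lemma sm_inner_ee (y : E3) (i : Fin 3) : ⟪y, ee i⟫ = y i := by
  simp [ee, EuclideanSpace.inner_single_right]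

/-- Green's formula for a radial test function. -/
lemma sm_radial_ibp {φ : ℝ → ℝ} (hφ : ContDiff ℝ ∞ φ) (hc : HasCompactSupport φ)
    (hs : tsupport φ ⊆ Ioi 0) {g : E3 → ℝ} (hg : ContDiff ℝ ∞ g) :
    ∫ y : E3, φ ‖y‖ * ∑ i : Fin 3, fderiv ℝ (fun z => fderiv ℝ g z (ee i)) y (ee i) =
      - ∫ y : E3, (deriv φ ‖y‖ * ‖y‖⁻¹) * fderiv ℝ g y y := by
  have h0 : (0 : ℝ) ∉ tsupport φ := fun h => absurd (hs h) (by simp)
  have hφ0 : φ =ᶠ[𝓝 0] 0 := notMem_tsupport_iff_eventuallyEq.mp h0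
  have hnorm0 : Tendsto (fun y : E3 => ‖y‖) (𝓝 0) (𝓝 0) := tendsto_norm_zero
  have hΦ0 : (fun y : E3 => φ ‖y‖) =ᶠ[𝓝 0] fun _ => 0 := by
    filter_upwards [hnorm0.eventually hφ0] with y hy
    exact hy
  have hΦ : ContDiff ℝ ∞ (fun y : E3 => φ ‖y‖) := by
    rw [contDiff_iff_contDiffAt]
    intro y
    by_cases hy : y = 0
    · subst hy
      exact contDiffAt_const.congr_of_eventuallyEq hΦ0
    · exact hφ.contDiffAt.comp y (contDiffAt_norm ℝ hy)
  obtain ⟨R, hR⟩ : ∃ R : ℝ, ∀ r, R < r → φ r = 0 := by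
    obtain ⟨R, hR⟩ := hc.isCompact.isBounded.subset_closedBall 0
    refine ⟨R, fun r hr => ?_⟩
    apply image_eq_zero_of_notMem_tsupport
    intro h
    have := hR h
    rw [Metric.mem_closedBall, dist_zero_right] at this
    exact absurd this (not_le.mpr (lt_of_lt_of_le hr (le_abs_self r)))
  have hcs : HasCompactSupport (fun y : E3 => φ ‖y‖) := by
    apply HasCompactSupport.of_support_subset_isCompact (isCompact_closedBall (0 : E3) R)
    intro y hy
    rw [Metric.mem_closedBall, dist_zero_right]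
    by_contra h
    push Not at h
    exact hy (hR _ h)
  have hgi : ∀ i : Fin 3, ContDiff ℝ ∞ (fun z => fderiv ℝ g z (ee i)) := fun i =>
    (hg.fderiv_right (m := ∞) (by simp)).clm_apply contDiff_const
  have hΦd : ∀ (v : E3), Continuous (fun y : E3 => fderiv ℝ (fun y : E3 => φ ‖y‖) y v) :=
    fun v => (hΦ.continuous_fderiv (by simp)).clm_apply continuous_const
  have hΦdc : ∀ (v : E3), HasCompactSupport (fun y : E3 => fderiv ℝ (fun y : E3 => φ ‖y‖) y v) :=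
    fun v => hcs.fderiv_apply ℝ v
  have hibp : ∀ i : Fin 3,
      ∫ y : E3, φ ‖y‖ * fderiv ℝ (fun z => fderiv ℝ g z (ee i)) y (ee i) =
      - ∫ y : E3, fderiv ℝ (fun y : E3 => φ ‖y‖) y (ee i) * fderiv ℝ g y (ee i) := by
    intro i
    have hgi2 : Continuous (fun y => fderiv ℝ (fun z => fderiv ℝ g z (ee i)) y (ee i)) :=
      ((hgi i).continuous_fderiv (by simp)).clm_apply continuous_const
    apply integral_mul_fderiv_eq_neg_fderiv_mul_of_integrable
    · exact ((hΦd (ee i)).mul (hgi i).continuous).integrable_of_hasCompactSupport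
        ((hΦdc (ee i)).mul_right)
    · exact (hΦ.continuous.mul hgi2).integrable_of_hasCompactSupport hcs.mul_right
    · exact (hΦ.continuous.mul (hgi i).continuous).integrable_of_hasCompactSupport hcs.mul_right
    · exact fun y _ => (hΦ.differentiable (by simp)).differentiableAt
    · exact fun y _ => ((hgi i).differentiable (by simp)).differentiableAt
  have hI : ∀ i : Fin 3, Integrable
      (fun y : E3 => φ ‖y‖ * fderiv ℝ (fun z => fderiv ℝ g z (ee i)) y (ee i)) := by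
    intro i
    have hgi2 : Continuous (fun y => fderiv ℝ (fun z => fderiv ℝ g z (ee i)) y (ee i)) :=
      ((hgi i).continuous_fderiv (by simp)).clm_apply continuous_const
    exact (hΦ.continuous.mul hgi2).integrable_of_hasCompactSupport hcs.mul_right
  have hI2 : ∀ i : Fin 3, Integrable
      (fun y : E3 => fderiv ℝ (fun y : E3 => φ ‖y‖) y (ee i) * fderiv ℝ g y (ee i)) := fun i =>
    ((hΦd (ee i)).mul (hgi i).continuous).integrable_of_hasCompactSupport
        ((hΦdc (ee i)).mul_right)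
  have h1 : ∫ y : E3, φ ‖y‖ * ∑ i : Fin 3, fderiv ℝ (fun z => fderiv ℝ g z (ee i)) y (ee i) =
      ∑ i : Fin 3, ∫ y : E3, φ ‖y‖ * fderiv ℝ (fun z => fderiv ℝ g z (ee i)) y (ee i) := by
    rw [← integral_finsetSum _ (fun i _ => hI i)]
    apply integral_congr_ae
    filter_upwards with y
    rw [Finset.mul_sum]
  rw [h1]
  simp only [hibp]
  rw [Finset.sum_neg_distrib, ← integral_finsetSum _ (fun i _ => hI2 i)]
  congr 1
  apply integral_congr_ae
  filter_upwards with y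
  by_cases hy : y = 0
  · subst hy
    rw [hΦ0.fderiv_eq]
    simp
  · have h2 : HasFDerivAt (fun y : E3 => φ ‖y‖) (deriv φ ‖y‖ • (‖y‖⁻¹ • innerSL ℝ y)) y :=
      ((hφ.differentiable (by simp)).differentiableAt.hasDerivAt).comp_hasFDerivAt y
        (hasFDerivAt_norm hy)
    rw [h2.fderiv]
    have h3 : fderiv ℝ g y y = ∑ i : Fin 3, y i * fderiv ℝ g y (ee i) := by
      conv_lhs => rw [← sm_sum_ee y]
      rw [map_sum]
      apply Finset.sum_congr rfl
      intro i _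
      rw [map_smul, smul_eq_mul, sm_sum_ee]
    rw [h3, Finset.mul_sum]
    apply Finset.sum_congr rfl
    intro i _
    simp only [_root_.smul_apply, innerSL_apply_apply, smul_eq_mul, sm_inner_ee]
    ring

lemma sm_contDiff_grad_ray {g : E3 → ℝ} (hg : ContDiff ℝ ∞ g) :
    ContDiff ℝ ∞ (fun p : ℝ × E3 => fderiv ℝ g (p.1 • p.2) p.2) :=
  ((hg.fderiv_right (m := ∞) (by simp)).comp (contDiff_fst.smul contDiff_snd)).clm_apply
    contDiff_snd

lemma sm_contDiff_lapl {g : E3 → ℝ} (hg : ContDiff ℝ ∞ g) :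
    ContDiff ℝ ∞ (fun y => ∑ i : Fin 3, fderiv ℝ (fun z => fderiv ℝ g z (ee i)) y (ee i)) := by
  apply ContDiff.sum
  intro i _
  have h1 : ContDiff ℝ ∞ (fun z => fderiv ℝ g z (ee i)) :=
    (hg.fderiv_right (m := ∞) (by simp)).clm_apply contDiff_const
  exact (h1.fderiv_right (m := ∞) (by simp)).clm_apply contDiff_const

/-- The radial flux and the Laplacian. -/
lemma sm_lap_polar {g : E3 → ℝ} (hg : ContDiff ℝ ∞ g) (r : ℝ) (hr : 0 < r) :
    deriv (fun r : ℝ => r ^ 2 * ∫ w, fderiv ℝ g (r • (w : E3)) (w : E3) ∂sph) r =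
      r ^ 2 * ∫ w, (∑ i : Fin 3,
        fderiv ℝ (fun z => fderiv ℝ g z (ee i)) (r • (w : E3)) (ee i)) ∂sph := by
  have hP : ContDiff ℝ ∞ (fun r : ℝ => r ^ 2 * ∫ w, fderiv ℝ g (r • (w : E3)) (w : E3) ∂sph) :=
    (contDiff_id.pow 2).mul (sm_sph_param (sm_contDiff_grad_ray hg)).1
  have hN : ContDiff ℝ ∞ (fun r : ℝ => r ^ 2 * ∫ w, (∑ i : Fin 3,
        fderiv ℝ (fun z => fderiv ℝ g z (ee i)) (r • (w : E3)) (ee i)) ∂sph) := by
    have h1 : ContDiff ℝ ∞ (fun p : ℝ × E3 => ∑ i : Fin 3,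
        fderiv ℝ (fun z => fderiv ℝ g z (ee i)) (p.1 • p.2) (ee i)) :=
      (sm_contDiff_lapl hg).comp (contDiff_fst.smul contDiff_snd)
    exact (contDiff_id.pow 2).mul (sm_sph_param h1).1
  have hPd : Continuous (deriv (fun r : ℝ => r ^ 2 * ∫ w,
      fderiv ℝ g (r • (w : E3)) (w : E3) ∂sph)) := hP.continuous_deriv (by simp)
  have hf : Continuous (fun r : ℝ => deriv (fun r : ℝ => r ^ 2 * ∫ w,
      fderiv ℝ g (r • (w : E3)) (w : E3) ∂sph) r - r ^ 2 * ∫ w, (∑ i : Fin 3,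
        fderiv ℝ (fun z => fderiv ℝ g z (ee i)) (r • (w : E3)) (ee i)) ∂sph) :=
    hPd.sub hN.continuous
  have hae := isOpen_Ioi.ae_eq_zero_of_integral_contDiff_smul_eq_zero (μ := volume)
    (U := Ioi (0 : ℝ)) (f := fun r : ℝ => deriv (fun r : ℝ => r ^ 2 * ∫ w,
      fderiv ℝ g (r • (w : E3)) (w : E3) ∂sph) r - r ^ 2 * ∫ w, (∑ i : Fin 3,
        fderiv ℝ (fun z => fderiv ℝ g z (ee i)) (r • (w : E3)) (ee i)) ∂sph)
    (hf.continuousOn.locallyIntegrableOn measurableSet_Ioi) (by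
      intro φ hφ hc hs
      have hφd : Continuous (deriv φ) := hφ.continuous_deriv (by simp)
      have hcd : HasCompactSupport (deriv φ) := hc.deriv
      have hi1 : Integrable (fun r : ℝ => φ r * deriv (fun r : ℝ => r ^ 2 * ∫ w,
          fderiv ℝ g (r • (w : E3)) (w : E3) ∂sph) r) :=
        (hφ.continuous.mul hPd).integrable_of_hasCompactSupport hc.mul_right
      have hi2 : Integrable (fun r : ℝ => φ r * (r ^ 2 * ∫ w, (∑ i : Fin 3,
          fderiv ℝ (fun z => fderiv ℝ g z (ee i)) (r • (w : E3)) (ee i)) ∂sph)) :=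
        (hφ.continuous.mul hN.continuous).integrable_of_hasCompactSupport hc.mul_right
      have hi3 : Integrable (fun r : ℝ => deriv φ r * (r ^ 2 * ∫ w,
          fderiv ℝ g (r • (w : E3)) (w : E3) ∂sph)) :=
        (hφd.mul hP.continuous).integrable_of_hasCompactSupport hcd.mul_right
      have hi4 : Integrable (fun r : ℝ => φ r * (r ^ 2 * ∫ w,
          fderiv ℝ g (r • (w : E3)) (w : E3) ∂sph)) :=
        (hφ.continuous.mul hP.continuous).integrable_of_hasCompactSupport hc.mul_right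
      simp only [smul_eq_mul, mul_sub]
      rw [integral_sub hi1 hi2]
      have hA : ∫ r : ℝ, φ r * deriv (fun r : ℝ => r ^ 2 * ∫ w,
          fderiv ℝ g (r • (w : E3)) (w : E3) ∂sph) r =
          - ∫ r : ℝ, deriv φ r * (r ^ 2 * ∫ w, fderiv ℝ g (r • (w : E3)) (w : E3) ∂sph) := by
        apply integral_mul_deriv_eq_deriv_mul_of_integrable
        · exact fun x _ => (hφ.differentiable (by simp)).differentiableAt.hasDerivAt
        · exact fun x _ => (hP.differentiable (by simp)).differentiableAt.hasDerivAt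
        · exact hi1
        · exact hi3
        · exact hi4
      have hB := sm_radial_ibp hφ hc hs hg
      have hC := sm_polar_swap hφ.continuous hc hs (k := fun y => ∑ i : Fin 3,
        fderiv ℝ (fun z => fderiv ℝ g z (ee i)) y (ee i)) (sm_contDiff_lapl hg).continuous
      have hsd : tsupport (deriv φ) ⊆ Ioi 0 := (tsupport_deriv_subset).trans hs
      have hψc : Continuous (fun r : ℝ => deriv φ r * r⁻¹) := by
        rw [continuous_iff_continuousAt]
        intro r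
        by_cases h0 : r = 0
        · subst h0
          have h2 : (0 : ℝ) ∉ tsupport (deriv φ) := fun h => absurd (hsd h) (by simp)
          have h3 : deriv φ =ᶠ[𝓝 0] 0 := notMem_tsupport_iff_eventuallyEq.mp h2
          have h4 : (fun r : ℝ => deriv φ r * r⁻¹) =ᶠ[𝓝 0] fun _ => 0 := by
            filter_upwards [h3] with r hr
            rw [hr]
            simp
          exact continuousAt_const.congr h4.symm
        · exact hφd.continuousAt.mul (continuousAt_inv₀ h0)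
      have hψcs : HasCompactSupport (fun r : ℝ => deriv φ r * r⁻¹) := hcd.mul_right
      have hψs : tsupport (fun r : ℝ => deriv φ r * r⁻¹) ⊆ Ioi 0 :=
        (tsupport_mul_subset_left).trans hsd
      have hkc : Continuous (fun y : E3 => fderiv ℝ g y y) :=
        ((hg.continuous_fderiv (by simp))).clm_apply continuous_id
      have hD := sm_polar_swap hψc hψcs hψs hkc
      have hE : ∫ r : ℝ, deriv φ r * r⁻¹ * (r ^ 2 * ∫ w, fderiv ℝ g (r • (w : E3))
          (r • (w : E3)) ∂sph) =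
          ∫ r : ℝ, deriv φ r * (r ^ 2 * ∫ w, fderiv ℝ g (r • (w : E3)) (w : E3) ∂sph) := by
        apply integral_congr_ae
        filter_upwards with r
        by_cases h0 : r = 0
        · subst h0
          simp
        · have h5 : ∫ w, fderiv ℝ g (r • (w : E3)) (r • (w : E3)) ∂sph =
              r * ∫ w, fderiv ℝ g (r • (w : E3)) (w : E3) ∂sph := by
            rw [← integral_const_mul]
            apply integral_congr_ae
            filter_upwards with w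
            rw [map_smul, smul_eq_mul]
          rw [h5]
          (clear * - h0; field_simp)
      rw [hA, ← hE, ← hD, ← hB, hC, sub_self])
  have h6 : (fun r : ℝ => deriv (fun r : ℝ => r ^ 2 * ∫ w,
      fderiv ℝ g (r • (w : E3)) (w : E3) ∂sph) r - r ^ 2 * ∫ w, (∑ i : Fin 3,
        fderiv ℝ (fun z => fderiv ℝ g z (ee i)) (r • (w : E3)) (ee i)) ∂sph)
        =ᵐ[volume.restrict (Ioi (0 : ℝ))] fun _ => 0 := by
    rw [EventuallyEq, ae_restrict_iff' measurableSet_Ioi]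
    exact hae
  have h7 := Measure.eqOn_open_of_ae_eq h6 isOpen_Ioi hf.continuousOn continuousOn_const
  have h8 := h7 (show r ∈ Ioi (0 : ℝ) from hr)
  simp only at h8
  linarith only [h8]

lemma sm_contDiff_ray {g : E3 → ℝ} (hg : ContDiff ℝ ∞ g) :
    ContDiff ℝ ∞ (fun p : ℝ × E3 => g (p.1 • p.2)) :=
  hg.comp (contDiff_fst.smul contDiff_snd)

lemma sm_deriv_mean {g : E3 → ℝ} (hg : ContDiff ℝ ∞ g) (τ : ℝ) :
    deriv (fun τ : ℝ => ∫ w, g (τ • (w : E3)) ∂sph) τ =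
      ∫ w, fderiv ℝ g (τ • (w : E3)) (w : E3) ∂sph := by
  have h1 := (sm_sph_param (sm_contDiff_ray hg)).2.1 τ 1
  rw [fderiv_apply_one_eq_deriv] at h1
  rw [h1]
  apply integral_congr_ae
  filter_upwards with w
  have h2 : HasFDerivAt (fun p : ℝ × E3 => p.1 • p.2)
      (τ • ContinuousLinearMap.snd ℝ ℝ E3 +
        (ContinuousLinearMap.fst ℝ ℝ E3).smulRight (w : E3)) (τ, (w : E3)) :=
    (hasFDerivAt_fst (𝕜 := ℝ) (p := (τ, (w : E3)))).fun_smul
      (hasFDerivAt_snd (𝕜 := ℝ) (p := (τ, (w : E3))))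
  have h3 : HasFDerivAt g (fderiv ℝ g (τ • (w : E3))) (τ • (w : E3)) :=
    (hg.differentiable (by simp)).differentiableAt.hasFDerivAt
  have h4 : HasFDerivAt (fun p : ℝ × E3 => g (p.1 • p.2))
      ((fderiv ℝ g (τ • (w : E3))).comp (τ • ContinuousLinearMap.snd ℝ ℝ E3 +
        (ContinuousLinearMap.fst ℝ ℝ E3).smulRight (w : E3))) (τ, (w : E3)) :=
    HasFDerivAt.comp (τ, (w : E3)) h3 h2
  rw [h4.fderiv]
  simp

lemma sm_mean_ode_pos {g : E3 → ℝ} (hg : ContDiff ℝ ∞ g) {r : ℝ} (hr : 0 < r) :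
    2 * (∫ w, fderiv ℝ g (r • (w : E3)) (w : E3) ∂sph) +
      r * deriv (fun r : ℝ => ∫ w, fderiv ℝ g (r • (w : E3)) (w : E3) ∂sph) r =
      r * ∫ w, (∑ i : Fin 3,
        fderiv ℝ (fun z => fderiv ℝ g z (ee i)) (r • (w : E3)) (ee i)) ∂sph := by
  have h1 := sm_lap_polar hg r hr
  have h2 : HasDerivAt (fun r : ℝ => ∫ w, fderiv ℝ g (r • (w : E3)) (w : E3) ∂sph)
      (deriv (fun r : ℝ => ∫ w, fderiv ℝ g (r • (w : E3)) (w : E3) ∂sph) r) r :=
    ((sm_sph_param (sm_contDiff_grad_ray hg)).1.differentiable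
      (by simp)).differentiableAt.hasDerivAt
  have h3 := (hasDerivAt_pow 2 r).mul h2
  have h4 : deriv (fun r : ℝ => r ^ 2 * ∫ w, fderiv ℝ g (r • (w : E3)) (w : E3) ∂sph) r = _ :=
    h3.deriv
  rw [h1] at h4
  have h5 : r * (r * ∫ w, (∑ i : Fin 3,
        fderiv ℝ (fun z => fderiv ℝ g z (ee i)) (r • (w : E3)) (ee i)) ∂sph) =
      r * (2 * (∫ w, fderiv ℝ g (r • (w : E3)) (w : E3) ∂sph) +
      r * deriv (fun r : ℝ => ∫ w, fderiv ℝ g (r • (w : E3)) (w : E3) ∂sph) r) := by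
    have h6 : ((2 : ℕ) : ℝ) * r ^ (2 - 1) = 2 * r := by norm_num
    rw [h6] at h4
    linear_combination h4
  exact (mul_left_cancel₀ hr.ne' h5).symm

lemma sm_fderiv_reflect {g : E3 → ℝ} (hg : ContDiff ℝ ∞ g) (y v : E3) :
    fderiv ℝ (fun z => g (-z)) y v = - fderiv ℝ g (-y) v := by
  have h1 : HasFDerivAt g (fderiv ℝ g (-y)) (-y) :=
    (hg.differentiable (by simp)).differentiableAt.hasFDerivAt
  have h2 : HasFDerivAt (fun z : E3 => -z) (-(ContinuousLinearMap.id ℝ E3)) y :=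
    (hasFDerivAt_id y).neg
  have h3 : HasFDerivAt (fun z => g (-z)) ((fderiv ℝ g (-y)).comp
      (-(ContinuousLinearMap.id ℝ E3))) y := HasFDerivAt.comp y h1 h2
  rw [h3.fderiv]
  simp

lemma sm_lapl_reflect {g : E3 → ℝ} (hg : ContDiff ℝ ∞ g) (y e : E3) :
    fderiv ℝ (fun z => fderiv ℝ (fun z => g (-z)) z e) y e =
      fderiv ℝ (fun z => fderiv ℝ g z e) (-y) e := by
  have h1 : (fun z => fderiv ℝ (fun z => g (-z)) z e) =
      fun z => - (fun z => fderiv ℝ g z e) (-z) := by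
    funext z
    exact sm_fderiv_reflect hg z e
  have h2 : ContDiff ℝ ∞ (fun z => fderiv ℝ g z e) :=
    (hg.fderiv_right (m := ∞) (by simp)).clm_apply contDiff_const
  rw [h1]
  rw [fderiv_fun_neg, _root_.neg_apply, sm_fderiv_reflect h2, neg_neg]

lemma sm_mean_ode {g : E3 → ℝ} (hg : ContDiff ℝ ∞ g) (τ : ℝ) :
    2 * (∫ w, fderiv ℝ g (τ • (w : E3)) (w : E3) ∂sph) +
      τ * deriv (fun r : ℝ => ∫ w, fderiv ℝ g (r • (w : E3)) (w : E3) ∂sph) τ =
      τ * ∫ w, (∑ i : Fin 3,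
        fderiv ℝ (fun z => fderiv ℝ g z (ee i)) (τ • (w : E3)) (ee i)) ∂sph := by
  have hM1 := (sm_sph_param (sm_contDiff_grad_ray hg)).1
  have hNc : Continuous (fun r : ℝ => ∫ w, (∑ i : Fin 3,
        fderiv ℝ (fun z => fderiv ℝ g z (ee i)) (r • (w : E3)) (ee i)) ∂sph) := by
    have h1 : ContDiff ℝ ∞ (fun p : ℝ × E3 => ∑ i : Fin 3,
        fderiv ℝ (fun z => fderiv ℝ g z (ee i)) (p.1 • p.2) (ee i)) :=
      (sm_contDiff_lapl hg).comp (contDiff_fst.smul contDiff_snd)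
    exact (sm_sph_param h1).1.continuous
  rcases lt_trichotomy τ 0 with hτ | hτ | hτ
  · have hg' : ContDiff ℝ ∞ (fun z : E3 => g (-z)) := hg.comp contDiff_neg
    have h1 := sm_mean_ode_pos hg' (r := -τ) (by linarith only [hτ])
    have h2 : ∀ r : ℝ, ∫ w, fderiv ℝ (fun z => g (-z)) (r • (w : E3)) (w : E3) ∂sph =
        - ∫ w, fderiv ℝ g ((-r) • (w : E3)) (w : E3) ∂sph := by
      intro r
      rw [← integral_neg]
      apply integral_congr_ae
      filter_upwards with w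
      rw [sm_fderiv_reflect hg, neg_smul]
    have h3 : (fun r : ℝ => ∫ w, fderiv ℝ (fun z => g (-z)) (r • (w : E3)) (w : E3) ∂sph) =
        fun r : ℝ => - (fun r : ℝ => ∫ w, fderiv ℝ g (r • (w : E3)) (w : E3) ∂sph) (-r) := by
      funext r
      exact h2 r
    have h4 : deriv (fun r : ℝ => ∫ w, fderiv ℝ (fun z => g (-z)) (r • (w : E3)) (w : E3) ∂sph)
        (-τ) = deriv (fun r : ℝ => ∫ w, fderiv ℝ g (r • (w : E3)) (w : E3) ∂sph) τ := by
      rw [h3, deriv.fun_neg]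
      refine Eq.trans (congrArg Neg.neg (deriv_comp_neg (fun r : ℝ =>
        ∫ w, fderiv ℝ g (r • (w : E3)) (w : E3) ∂sph) (-τ))) ?_
      rw [neg_neg, neg_neg]
    have h5 : ∫ w, (∑ i : Fin 3, fderiv ℝ (fun z => fderiv ℝ (fun z => g (-z)) z (ee i))
        ((-τ) • (w : E3)) (ee i)) ∂sph =
        ∫ w, (∑ i : Fin 3,
          fderiv ℝ (fun z => fderiv ℝ g z (ee i)) (τ • (w : E3)) (ee i)) ∂sph := by
      apply integral_congr_ae
      filter_upwards with w
      apply Finset.sum_congr rfl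
      intro i _
      rw [sm_lapl_reflect hg, ← neg_smul, neg_neg]
    rw [h2, h4, h5, neg_neg] at h1
    linarith only [h1]
  · subst hτ
    have hL : Continuous (fun τ : ℝ =>
        2 * (∫ w, fderiv ℝ g (τ • (w : E3)) (w : E3) ∂sph) +
        τ * deriv (fun r : ℝ => ∫ w, fderiv ℝ g (r • (w : E3)) (w : E3) ∂sph) τ) :=
      (continuous_const.mul hM1.continuous).add
        (continuous_id.mul (hM1.continuous_deriv (by simp)))
    have hR : Continuous (fun τ : ℝ => τ * ∫ w, (∑ i : Fin 3,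
        fderiv ℝ (fun z => fderiv ℝ g z (ee i)) (τ • (w : E3)) (ee i)) ∂sph) :=
      continuous_id.mul hNc
    have hE : EqOn (fun τ : ℝ =>
        2 * (∫ w, fderiv ℝ g (τ • (w : E3)) (w : E3) ∂sph) +
        τ * deriv (fun r : ℝ => ∫ w, fderiv ℝ g (r • (w : E3)) (w : E3) ∂sph) τ)
        (fun τ : ℝ => τ * ∫ w, (∑ i : Fin 3,
        fderiv ℝ (fun z => fderiv ℝ g z (ee i)) (τ • (w : E3)) (ee i)) ∂sph) (Ioi 0) :=
      fun r hr => sm_mean_ode_pos hg hr
    have hE' := hE.closure hL hR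
    rw [closure_Ioi] at hE'
    exact hE' (show (0 : ℝ) ∈ Ici 0 from le_refl (0 : ℝ))
  · exact sm_mean_ode_pos hg hτ

lemma sm_deriv_tau_mean {g : E3 → ℝ} (hg : ContDiff ℝ ∞ g) :
    deriv (fun τ : ℝ => τ * ∫ w, g (τ • (w : E3)) ∂sph) = fun τ : ℝ =>
      (∫ w, g (τ • (w : E3)) ∂sph) + τ * ∫ w, fderiv ℝ g (τ • (w : E3)) (w : E3) ∂sph := by
  funext τ
  have h1 : HasDerivAt (fun τ : ℝ => ∫ w, g (τ • (w : E3)) ∂sph)
      (∫ w, fderiv ℝ g (τ • (w : E3)) (w : E3) ∂sph) τ := by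
    rw [← sm_deriv_mean hg]
    exact ((sm_sph_param (sm_contDiff_ray hg)).1.differentiable
      (by simp)).differentiableAt.hasDerivAt
  have h2 := (hasDerivAt_id τ).mul h1
  have h3 := h2.deriv
  simp only [id_eq, one_mul] at h3
  exact h3

lemma sm_deriv2_tau_mean {g : E3 → ℝ} (hg : ContDiff ℝ ∞ g) (τ : ℝ) :
    deriv (deriv (fun τ : ℝ => τ * ∫ w, g (τ • (w : E3)) ∂sph)) τ =
      τ * ∫ w, (∑ i : Fin 3,
        fderiv ℝ (fun z => fderiv ℝ g z (ee i)) (τ • (w : E3)) (ee i)) ∂sph := by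
  rw [sm_deriv_tau_mean hg, ← sm_mean_ode hg τ]
  have h1 : HasDerivAt (fun τ : ℝ => ∫ w, g (τ • (w : E3)) ∂sph)
      (∫ w, fderiv ℝ g (τ • (w : E3)) (w : E3) ∂sph) τ := by
    rw [← sm_deriv_mean hg]
    exact ((sm_sph_param (sm_contDiff_ray hg)).1.differentiable
      (by simp)).differentiableAt.hasDerivAt
  have h2 : HasDerivAt (fun r : ℝ => ∫ w, fderiv ℝ g (r • (w : E3)) (w : E3) ∂sph)
      (deriv (fun r : ℝ => ∫ w, fderiv ℝ g (r • (w : E3)) (w : E3) ∂sph) τ) τ :=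
    ((sm_sph_param (sm_contDiff_grad_ray hg)).1.differentiable
      (by simp)).differentiableAt.hasDerivAt
  have h3 := (h1.add ((hasDerivAt_id τ).mul h2)).deriv
  simp only [id_eq, one_mul] at h3
  refine Eq.trans h3 ?_
  ring

lemma sm_sph_real_pos : 0 < sph.real univ := by
  rw [Measure.toSphere_real_apply_univ, finrank_euclideanSpace_fin]
  have h1 : 0 < (volume : Measure E3).real (Metric.ball 0 1) :=
    ENNReal.toReal_pos (Metric.measure_ball_pos _ _ one_pos).ne' measure_ball_lt_top.ne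
  positivity

/-- The space-time argument of the spherical mean as a jointly smooth map. -/
lemma sm_contDiff_smG_arg {G : ℝ × E3 → ℝ} (hG : ContDiff ℝ ∞ G) :
    ContDiff ℝ ∞ (fun p : (ℝ × ℝ × E3) × E3 => G (p.1.1, p.1.2.2 + p.1.2.1 • p.2)) := by
  apply hG.comp
  fun_prop

lemma sm_contDiff_slice {G : ℝ × E3 → ℝ} (hG : ContDiff ℝ ∞ G) (s : ℝ) (x : E3) :
    ContDiff ℝ ∞ (fun z : E3 => G (s, x + z)) :=
  hG.comp (contDiff_const.prodMk (contDiff_const.add contDiff_id))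

lemma sm_fderiv_slice {G : ℝ × E3 → ℝ} (hG : ContDiff ℝ ∞ G) (s : ℝ) (x z e : E3) :
    fderiv ℝ (fun z : E3 => G (s, x + z)) z e = pxd e G (s, x + z) := by
  have h1 : HasFDerivAt G (fderiv ℝ G (s, x + z)) (s, x + z) :=
    (hG.differentiable (by simp)).differentiableAt.hasFDerivAt
  have h2 : HasFDerivAt (fun z : E3 => (s, x + z)) (ContinuousLinearMap.inr ℝ ℝ E3) z := by
    have h3 : HasFDerivAt (fun z : E3 => x + z) (ContinuousLinearMap.id ℝ E3) z :=
      (hasFDerivAt_id z).const_add x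
    have h4 : HasFDerivAt (fun z : E3 => (s, x + z))
        ((0 : E3 →L[ℝ] ℝ).prod (ContinuousLinearMap.id ℝ E3)) z :=
      (hasFDerivAt_const s z).prodMk h3
    exact h4
  have h5 : HasFDerivAt (fun z : E3 => G (s, x + z))
      ((fderiv ℝ G (s, x + z)).comp (ContinuousLinearMap.inr ℝ ℝ E3)) z :=
    HasFDerivAt.comp z h1 h2
  rw [h5.fderiv]
  simp [pxd]

lemma sm_contDiff_pxd {G : ℝ × E3 → ℝ} (hG : ContDiff ℝ ∞ G) (e : E3) :
    ContDiff ℝ ∞ (pxd e G) :=
  (hG.fderiv_right (m := ∞) (by simp)).clm_apply contDiff_const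

lemma sm_lap_slice {G : ℝ × E3 → ℝ} (hG : ContDiff ℝ ∞ G) (s : ℝ) (x z : E3) :
    ∑ i : Fin 3, fderiv ℝ (fun y => fderiv ℝ (fun z : E3 => G (s, x + z)) y (ee i)) z (ee i) =
      lap G (s, x + z) := by
  unfold lap
  apply Finset.sum_congr rfl
  intro i _
  have h1 : (fun y => fderiv ℝ (fun z : E3 => G (s, x + z)) y (ee i)) =
      fun y => pxd (ee i) G (s, x + y) := by
    funext y
    exact sm_fderiv_slice hG s x y (ee i)
  rw [h1, sm_fderiv_slice (sm_contDiff_pxd hG (ee i)) s x z (ee i)]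

/-- W1. Spherical means are smooth and solve the wave equation. -/
theorem smG_props {G : ℝ × E3 → ℝ} (hG : ContDiff ℝ ∞ G) :
    ContDiff ℝ ∞ (smG G) ∧
    (∀ s x, smG G (s, 0, x) = 0) ∧
    (∀ s x, deriv (fun τ => smG G (s, τ, x)) 0 = G (s, x)) ∧
    (∀ s τ x, deriv (deriv (fun τ => smG G (s, τ, x))) τ = smG (lap G) (s, τ, x)) ∧
    (∀ e s τ x, fderiv ℝ (smG G) (s, τ, x) (0, 0, e) = smG (pxd e G) (s, τ, x)) ∧
    (∀ s τ x, fderiv ℝ (smG G) (s, τ, x) (1, 0, 0) = smG (ptd G) (s, τ, x)) := by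
  have hc := sm_sph_real_pos
  have hJ := sm_contDiff_smG_arg hG
  obtain ⟨hS, hD, -⟩ := sm_sph_param hJ
  have hsmooth : ContDiff ℝ ∞ (smG G) := by
    have h1 : ContDiff ℝ ∞ (fun y : ℝ × ℝ × E3 => y.2.1) := by fun_prop
    exact contDiff_const.mul (h1.mul hS)
  have hdir : ∀ (v : ℝ × ℝ × E3), v.2.1 = 0 → ∀ y : ℝ × ℝ × E3,
      fderiv ℝ (smG G) y v = (sph.real univ)⁻¹ * (y.2.1 *
        ∫ w, fderiv ℝ G (y.1, y.2.2 + y.2.1 • (w : E3)) (v.1, v.2.2) ∂sph) := by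
    intro v hv y
    have h1 : HasFDerivAt (fun y : ℝ × ℝ × E3 => y.2.1)
        ((ContinuousLinearMap.fst ℝ ℝ E3).comp (ContinuousLinearMap.snd ℝ ℝ (ℝ × E3))) y :=
      ((ContinuousLinearMap.fst ℝ ℝ E3).comp
        (ContinuousLinearMap.snd ℝ ℝ (ℝ × E3))).hasFDerivAt
    have h2 : HasFDerivAt (fun y : ℝ × ℝ × E3 => ∫ w, G (y.1, y.2.2 + y.2.1 • (w : E3)) ∂sph)
        (fderiv ℝ (fun y : ℝ × ℝ × E3 => ∫ w, G (y.1, y.2.2 + y.2.1 • (w : E3)) ∂sph) y) y :=
      (hS.differentiable (by simp)).differentiableAt.hasFDerivAt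
    have h3 := (h1.mul h2).const_mul (sph.real univ)⁻¹
    have h4 : fderiv ℝ (smG G) y = _ := h3.fderiv
    rw [h4]
    have h5 := hD y v
    have h6 : ∫ w, fderiv ℝ (fun p : (ℝ × ℝ × E3) × E3 => G (p.1.1, p.1.2.2 + p.1.2.1 • p.2))
        (y, (w : E3)) (v, 0) ∂sph =
        ∫ w, fderiv ℝ G (y.1, y.2.2 + y.2.1 • (w : E3)) (v.1, v.2.2) ∂sph := by
      apply integral_congr_ae
      filter_upwards with w
      have h7 : HasFDerivAt G (fderiv ℝ G (y.1, y.2.2 + y.2.1 • (w : E3)))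
          (y.1, y.2.2 + y.2.1 • (w : E3)) :=
        (hG.differentiable (by simp)).differentiableAt.hasFDerivAt
      have h8 : ContDiff ℝ ∞ (fun p : (ℝ × ℝ × E3) × E3 => (p.1.1, p.1.2.2 + p.1.2.1 • p.2)) := by
        (clear * -; fun_prop)
      have h9 := (h8.differentiable (by simp)).differentiableAt (x := (y, (w : E3)))
      have h10 : fderiv ℝ (fun p : (ℝ × ℝ × E3) × E3 =>
          G (p.1.1, p.1.2.2 + p.1.2.1 • p.2)) (y, (w : E3)) (v, 0) =
          fderiv ℝ G (y.1, y.2.2 + y.2.1 • (w : E3))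
            (fderiv ℝ (fun p : (ℝ × ℝ × E3) × E3 => (p.1.1, p.1.2.2 + p.1.2.1 • p.2))
              (y, (w : E3)) (v, 0)) := by
        have h11 := HasFDerivAt.comp (y, (w : E3)) h7 h9.hasFDerivAt
        have h12 := h11.fderiv
        have h13 := congrArg (fun L => L ((v, 0) : (ℝ × ℝ × E3) × E3)) h12
        exact h13
      rw [h10]
      congr 1
      -- derivative of the argument along the line
      have h14 : HasDerivAt (fun r : ℝ => ((y, (w : E3)) + r • ((v, 0) : (ℝ × ℝ × E3) × E3)))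
          ((v, 0) : (ℝ × ℝ × E3) × E3) 0 := by
        have h15 := ((hasDerivAt_id (0 : ℝ)).smul_const ((v, 0) : (ℝ × ℝ × E3) × E3)).const_add
          ((y, (w : E3)) : (ℝ × ℝ × E3) × E3)
        simpa using h15
      have h16 : HasFDerivAt (fun p : (ℝ × ℝ × E3) × E3 => (p.1.1, p.1.2.2 + p.1.2.1 • p.2))
          (fderiv ℝ (fun p : (ℝ × ℝ × E3) × E3 => (p.1.1, p.1.2.2 + p.1.2.1 • p.2))
            (y, (w : E3))) ((y, (w : E3)) + (0 : ℝ) • ((v, 0) : (ℝ × ℝ × E3) × E3)) := by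
        rw [zero_smul, add_zero]
        exact h9.hasFDerivAt
      have h17 := h16.comp_hasDerivAt (0 : ℝ) h14
      have h18 : ((fun p : (ℝ × ℝ × E3) × E3 => (p.1.1, p.1.2.2 + p.1.2.1 • p.2)) ∘
          fun r : ℝ => ((y, (w : E3)) + r • ((v, 0) : (ℝ × ℝ × E3) × E3))) =
          fun r : ℝ => ((y.1, y.2.2 + y.2.1 • (w : E3)) + r • ((v.1, v.2.2) : ℝ × E3)) := by
        funext r
        simp only [Function.comp_apply, Prod.fst_add, Prod.snd_add, Prod.smul_fst, Prod.smul_snd,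
          smul_zero, add_zero, hv, smul_eq_mul, mul_zero, Prod.mk_add_mk, Prod.smul_mk]
        congr 1
        abel
      rw [h18] at h17
      have h19 : HasDerivAt (fun r : ℝ =>
          ((y.1, y.2.2 + y.2.1 • (w : E3)) + r • ((v.1, v.2.2) : ℝ × E3)))
          ((v.1, v.2.2) : ℝ × E3) 0 := by
        have h20 := ((hasDerivAt_id (0 : ℝ)).smul_const ((v.1, v.2.2) : ℝ × E3)).const_add
          ((y.1, y.2.2 + y.2.1 • (w : E3)) : ℝ × E3)
        simpa using h20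
      exact h17.unique h19
    rw [h6] at h5
    have h21 : (ContinuousLinearMap.fst ℝ ℝ E3) ((ContinuousLinearMap.snd ℝ ℝ (ℝ × E3)) v) = 0 :=
      hv
    simp only [_root_.smul_apply, _root_.add_apply, ContinuousLinearMap.comp_apply,
      h21, smul_eq_mul, mul_zero, add_zero]
    rw [h5]
  refine ⟨hsmooth, ?_, ?_, ?_, ?_, ?_⟩
  · intro s x
    simp [smG]
  · intro s x
    have h1 : (fun τ => smG G (s, τ, x)) = fun τ : ℝ => (sph.real univ)⁻¹ *
        (τ * ∫ w, (fun z : E3 => G (s, x + z)) (τ • (w : E3)) ∂sph) := by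
      funext τ
      simp [smG]
    have h2 : DifferentiableAt ℝ (fun τ : ℝ =>
        τ * ∫ w, (fun z : E3 => G (s, x + z)) (τ • (w : E3)) ∂sph) 0 :=
      ((contDiff_id.mul (sm_sph_param (sm_contDiff_ray (sm_contDiff_slice hG s x))).1).differentiable
        (by simp)).differentiableAt
    rw [h1, deriv_const_mul _ h2, sm_deriv_tau_mean (sm_contDiff_slice hG s x)]
    simp only [zero_smul, add_zero, zero_mul, integral_const, smul_eq_mul]
    field_simp
  · intro s τ x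
    have h1 : (fun τ => smG G (s, τ, x)) = fun τ : ℝ => (sph.real univ)⁻¹ *
        (τ * ∫ w, (fun z : E3 => G (s, x + z)) (τ • (w : E3)) ∂sph) := by
      funext τ
      simp [smG]
    have hcd : ContDiff ℝ ∞ (fun τ : ℝ =>
        τ * ∫ w, (fun z : E3 => G (s, x + z)) (τ • (w : E3)) ∂sph) :=
      contDiff_id.mul (sm_sph_param (sm_contDiff_ray (sm_contDiff_slice hG s x))).1
    have h2 : deriv (fun τ => smG G (s, τ, x)) = fun τ => (sph.real univ)⁻¹ *
        deriv (fun τ : ℝ =>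
          τ * ∫ w, (fun z : E3 => G (s, x + z)) (τ • (w : E3)) ∂sph) τ := by
      rw [h1]
      funext τ
      rw [deriv_const_mul _ (hcd.differentiable (by simp)).differentiableAt]
    have hcd2 : ContDiff ℝ ∞ (deriv (fun τ : ℝ =>
        τ * ∫ w, (fun z : E3 => G (s, x + z)) (τ • (w : E3)) ∂sph)) := by
      rw [sm_deriv_tau_mean (sm_contDiff_slice hG s x)]
      exact (sm_sph_param (sm_contDiff_ray (sm_contDiff_slice hG s x))).1.add
        (contDiff_id.mul (sm_sph_param (sm_contDiff_grad_ray (sm_contDiff_slice hG s x))).1)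
    rw [h2, deriv_const_mul _ (hcd2.differentiable (by simp)).differentiableAt,
      sm_deriv2_tau_mean (sm_contDiff_slice hG s x)]
    unfold smG
    simp only
    congr 2
    apply integral_congr_ae
    filter_upwards with w
    exact sm_lap_slice hG s x _
  · intro e s τ x
    rw [hdir (0, 0, e) rfl]
    rfl
  · intro s τ x
    rw [hdir (1, 0, 0) rfl]
    rfl

/-- The linear map `(s, τ, x) ↦ (s, x + τ w)`. -/
noncomputable def smA (w : E3) : (ℝ × ℝ × E3) →L[ℝ] ℝ × E3 :=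
  (ContinuousLinearMap.fst ℝ ℝ (ℝ × E3)).prod
    ((ContinuousLinearMap.snd ℝ ℝ E3).comp (ContinuousLinearMap.snd ℝ ℝ (ℝ × E3)) +
      ((ContinuousLinearMap.fst ℝ ℝ E3).comp
        (ContinuousLinearMap.snd ℝ ℝ (ℝ × E3))).smulRight w)

lemma smA_apply (w : E3) (y : ℝ × ℝ × E3) : smA w y = (y.1, y.2.2 + y.2.1 • w) := rfl

lemma norm_smA_le {w : E3} (hw : ‖w‖ = 1) : ‖smA w‖ ≤ 2 := by
  apply ContinuousLinearMap.opNorm_le_bound _ (by norm_num)
  intro y
  have h1 : ‖y.1‖ ≤ ‖y‖ := norm_fst_le y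
  have h2 : ‖y.2.2‖ ≤ ‖y‖ := (norm_snd_le y.2).trans (norm_snd_le y)
  have h3 : ‖y.2.1‖ ≤ ‖y‖ := (norm_fst_le y.2).trans (norm_snd_le y)
  have h0 := norm_nonneg y
  rw [smA_apply, Prod.norm_mk]
  apply max_le
  · linarith only [h1, h0]
  · refine (norm_add_le _ _).trans ?_
    rw [norm_smul, hw, mul_one]
    linarith only [h2, h3]

/-- W2. Bounds of spherical means. -/
theorem smG_bdd {G : ℝ × E3 → ℝ} (hG : SF G) (n : ℕ) (T : ℝ) :
    ∃ C : ℝ, ∀ (s τ : ℝ) (x : E3), |s| ≤ T → |τ| ≤ T →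
      ‖iteratedFDeriv ℝ n (smG G) (s, τ, x)‖ ≤ C := by
  -- the integral factor
  have hJ := sm_contDiff_smG_arg hG.smooth
  obtain ⟨hS, -, -⟩ := sm_sph_param hJ
  have hs : ∀ w : Metric.sphere (0 : E3) 1,
      ContDiff ℝ ∞ (fun y : ℝ × ℝ × E3 => G (y.1, y.2.2 + y.2.1 • (w : E3))) := by
    intro w
    exact hJ.comp (contDiff_id.prodMk contDiff_const)
  have hc : ∀ n : ℕ, Continuous (fun p : (ℝ × ℝ × E3) × Metric.sphere (0 : E3) 1 =>
      iteratedFDeriv ℝ n (fun y : ℝ × ℝ × E3 => G (y.1, y.2.2 + y.2.1 • (p.2 : E3))) p.1) := by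
    intro n
    exact (sm_continuous_iteratedFDeriv_partial hJ n).comp
      (continuous_fst.prodMk (continuous_subtype_val.comp continuous_snd))
  obtain ⟨-, h2⟩ := param_integral (μ := sph) (K := univ) isCompact_univ (by simp)
    (h := fun (y : ℝ × ℝ × E3) (w : Metric.sphere (0 : E3) 1) =>
      G (y.1, y.2.2 + y.2.1 • (w : E3))) hs hc
  have hI : ∀ m : ℕ, ∃ C : ℝ, 0 ≤ C ∧ ∀ y : ℝ × ℝ × E3, |y.1| ≤ T →
      ‖iteratedFDeriv ℝ m (fun y : ℝ × ℝ × E3 =>
        ∫ w, G (y.1, y.2.2 + y.2.1 • (w : E3)) ∂sph) y‖ ≤ C := by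
    intro m
    obtain ⟨D, hD⟩ := hG.bdd m T
    refine ⟨|D| * 2 ^ m * sph.real univ, by positivity, fun y hy => ?_⟩
    rw [h2 m y]
    apply norm_integral_le_of_norm_le_const
    filter_upwards with w
    have hw : ‖(w : E3)‖ = 1 := norm_eq_of_mem_sphere w
    have h3 : (fun y : ℝ × ℝ × E3 => G (y.1, y.2.2 + y.2.1 • (w : E3))) = G ∘ smA (w : E3) :=
      rfl
    rw [h3, ContinuousLinearMap.iteratedFDeriv_comp_right _ hG.smooth y
      (i := m) (by exact_mod_cast le_top)]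
    refine (ContinuousMultilinearMap.norm_compContinuousLinearMap_le _ _).trans ?_
    rw [Finset.prod_const, Finset.card_univ, Fintype.card_fin]
    apply mul_le_mul
    · exact (hD (smA (w : E3) y) hy).trans (le_abs_self D)
    · exact pow_le_pow_left₀ (norm_nonneg _) (norm_smA_le hw) m
    · positivity
    · positivity
  choose CI hCI0 hCI using hI
  -- the linear factor
  set L : (ℝ × ℝ × E3) →L[ℝ] ℝ :=
    (ContinuousLinearMap.fst ℝ ℝ E3).comp (ContinuousLinearMap.snd ℝ ℝ (ℝ × E3)) with hL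
  have hLi : ∀ (i : ℕ) (y : ℝ × ℝ × E3), |y.2.1| ≤ T →
      ‖iteratedFDeriv ℝ i (fun y : ℝ × ℝ × E3 => y.2.1) y‖ ≤ |T| + ‖L‖ := by
    intro i y hy
    have hfd : fderiv ℝ (fun y : ℝ × ℝ × E3 => y.2.1) = fun _ => L := by
      funext y
      exact L.hasFDerivAt.fderiv
    rcases i with _ | i
    · rw [norm_iteratedFDeriv_zero, Real.norm_eq_abs]
      exact (hy.trans (le_abs_self T)).trans (le_add_of_nonneg_right (norm_nonneg _))
    · rw [← norm_iteratedFDeriv_fderiv, hfd]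
      rcases i with _ | i
      · rw [norm_iteratedFDeriv_zero]
        exact le_add_of_nonneg_left (abs_nonneg T)
      · rw [iteratedFDeriv_const_of_ne (Nat.succ_ne_zero i)]
        simp only [Pi.zero_apply, norm_zero]
        (clear * -; positivity)
  refine ⟨|(sph.real univ)⁻¹| * ∑ i ∈ Finset.range (n + 1),
    (n.choose i : ℝ) * (|T| + ‖L‖) * CI (n - i), fun s τ x hs' hτ => ?_⟩
  have hmul : smG G = fun y : ℝ × ℝ × E3 => (sph.real univ)⁻¹ •
      (fun y : ℝ × ℝ × E3 => y.2.1 *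
        ∫ w, G (y.1, y.2.2 + y.2.1 • (w : E3)) ∂sph) y := rfl
  have hLs : ContDiff ℝ ∞ (fun y : ℝ × ℝ × E3 => y.2.1) := by fun_prop
  have hprod : ContDiff ℝ ∞ (fun y : ℝ × ℝ × E3 => y.2.1 *
        ∫ w, G (y.1, y.2.2 + y.2.1 • (w : E3)) ∂sph) := hLs.mul hS
  rw [hmul, iteratedFDeriv_const_smul_apply' (hprod.contDiffAt.of_le (by exact_mod_cast le_top)),
    norm_smul, Real.norm_eq_abs]
  apply mul_le_mul_of_nonneg_left _ (abs_nonneg _)
  refine (norm_iteratedFDeriv_mul_le (N := ∞) hLs hS (s, τ, x) (n := n)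
    (by exact_mod_cast le_top)).trans ?_
  apply Finset.sum_le_sum
  intro i _
  have h4 := hLi i (s, τ, x) hτ
  have h5 := hCI (n - i) (s, τ, x) hs'
  have h6 : (0 : ℝ) ≤ (n.choose i : ℝ) := Nat.cast_nonneg _
  have h7 : (0 : ℝ) ≤ |T| + ‖L‖ := by (clear * -; positivity)
  apply mul_le_mul
  · exact mul_le_mul_of_nonneg_left h4 h6
  · exact h5
  · exact norm_nonneg _
  · exact mul_nonneg h6 h7

end Vale.Agent.P107.LE
end
end
end

section

section

attribute [-instance] ProperSMul.toContinuousSMul IsTopologicalTorsor.toContinuousSMul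
  IdemSemiring.toCanonicallyOrderedAdd IdemSemiring.toMulLeftMono IdemSemiring.toMulRightMono
  AddQuantale.instAddLeftMono AddQuantale.instAddRightMono Quantale.instMulLeftMono
  Quantale.instMulRightMono FiniteDimensional.rclike_to_real IsScalarTower.complexToReal
  FiniteDimensional.complexToReal

section

/-!
Uniqueness for the wave equation.
-/

open MeasureTheory Set Filter Topology
open scoped RealInnerProductSpace ENNReal NNReal ContDiff

namespace Vale.Agent.P107.LE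

/-- W3. Uniqueness for the wave equation. -/
theorem wave_unique {w : ℝ × E3 → ℝ} (hw : ContDiff ℝ ∞ w)
    (hw2 : ∀ p : ℝ × E3, 0 ≤ p.1 → ptd (ptd w) p - lap w p = 0)
    (h0 : ∀ x, w (0, x) = 0) (h1 : ∀ x, ptd w (0, x) = 0) :
    ∀ p : ℝ × E3, 0 ≤ p.1 → w p = 0 :=
  wave_unique_of (fun {_} hG => smG_props hG) hw hw2 h0 h1

end Vale.Agent.P107.LE
end
end
end

section

section

attribute [-instance] ProperSMul.toContinuousSMul IsTopologicalTorsor.toContinuousSMul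
  IdemSemiring.toCanonicallyOrderedAdd IdemSemiring.toMulLeftMono IdemSemiring.toMulRightMono
  AddQuantale.instAddLeftMono AddQuantale.instAddRightMono Quantale.instMulLeftMono
  Quantale.instMulRightMono FiniteDimensional.rclike_to_real IsScalarTower.complexToReal
  FiniteDimensional.complexToReal

section

/-!
Module LE, part W4: solution of the inhomogeneous wave equation by spherical means and
Duhamel's formula, from the properties of spherical means.
-/

open MeasureTheory Set Filter Topology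
open scoped RealInnerProductSpace ENNReal NNReal ContDiff

namespace Vale.Agent.P107.LE

/-- Smooth functions of `(s, τ, x)` whose derivatives are bounded for bounded `s, τ`. -/
structure SY (V : ℝ × ℝ × E3 → ℝ) : Prop where
  smooth : ContDiff ℝ ∞ V
  bdd : ∀ (n : ℕ) (T : ℝ), ∃ C : ℝ, ∀ (s τ : ℝ) (x : E3), |s| ≤ T → |τ| ≤ T →
    ‖iteratedFDeriv ℝ n V (s, τ, x)‖ ≤ C

/-- The bounds of spherical means (theorem `smG_bdd`). -/
def SmBdd : Prop := ∀ {G : ℝ × E3 → ℝ}, SF G → ∀ (n : ℕ) (T : ℝ),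
    ∃ C : ℝ, ∀ (s τ : ℝ) (x : E3), |s| ≤ T → |τ| ≤ T →
      ‖iteratedFDeriv ℝ n (smG G) (s, τ, x)‖ ≤ C

lemma sy_smG (smG_props : SmProps) (smG_bdd : SmBdd) {G : ℝ × E3 → ℝ} (hG : SF G) : SY (smG G) :=
  ⟨(smG_props hG.smooth).1, fun n T => smG_bdd hG n T⟩

lemma we_contDiff_dir {X : Type*} [NormedAddCommGroup X] [NormedSpace ℝ X] {V : X → ℝ}
    (hV : ContDiff ℝ ∞ V) (d : X) : ContDiff ℝ ∞ (fun y => fderiv ℝ V y d) :=
  (hV.fderiv_right (m := ∞) (by simp)).clm_apply contDiff_const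

lemma we_norm_dir {X : Type*} [NormedAddCommGroup X] [NormedSpace ℝ X] {V : X → ℝ}
    (hV : ContDiff ℝ ∞ V) (d : X) (n : ℕ) (y : X) :
    ‖iteratedFDeriv ℝ n (fun y => fderiv ℝ V y d) y‖ ≤ ‖d‖ * ‖iteratedFDeriv ℝ (n + 1) V y‖ := by
  have h1 := (ContinuousLinearMap.apply ℝ ℝ d).norm_iteratedFDeriv_comp_left
    (f := fderiv ℝ V) (x := y) (N := ∞) (n := n)
    (hV.fderiv_right (m := ∞) (by simp)).contDiffAt (by exact_mod_cast le_top)
  have h2 : ‖(ContinuousLinearMap.apply ℝ ℝ d : (X →L[ℝ] ℝ) →L[ℝ] ℝ)‖ ≤ ‖d‖ := by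
    refine ContinuousLinearMap.opNorm_le_bound _ (norm_nonneg _) fun f => ?_
    simpa [mul_comm] using f.le_opNorm d
  rw [norm_iteratedFDeriv_fderiv] at h1
  exact h1.trans (mul_le_mul_of_nonneg_right h2 (norm_nonneg _))

lemma SY.dir {V : ℝ × ℝ × E3 → ℝ} (hV : SY V) (d : ℝ × ℝ × E3) :
    SY (fun y => fderiv ℝ V y d) := by
  refine ⟨we_contDiff_dir hV.smooth d, fun n T => ?_⟩
  obtain ⟨C, hC⟩ := hV.bdd (n + 1) T
  exact ⟨‖d‖ * C, fun s τ x hs hτ => (we_norm_dir hV.smooth d n _).trans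
    (mul_le_mul_of_nonneg_left (hC s τ x hs hτ) (norm_nonneg _))⟩

lemma we_norm_comp {X Z : Type*} [NormedAddCommGroup X] [NormedSpace ℝ X]
    [NormedAddCommGroup Z] [NormedSpace ℝ Z] {V : Z → ℝ}
    (hV : ContDiff ℝ ∞ V) (L : X →L[ℝ] Z) (hL : ‖L‖ ≤ 1) (n : ℕ) (y : X) :
    ‖iteratedFDeriv ℝ n (fun y => V (L y)) y‖ ≤ ‖iteratedFDeriv ℝ n V (L y)‖ := by
  have h1 : iteratedFDeriv ℝ n (fun y => V (L y)) y
      = (iteratedFDeriv ℝ n V (L y)).compContinuousLinearMap fun _ => L :=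
    L.iteratedFDeriv_comp_right hV y (by exact_mod_cast le_top)
  rw [h1]
  refine (ContinuousMultilinearMap.norm_compContinuousLinearMap_le _ _).trans ?_
  have h2 : ∏ _i : Fin n, ‖L‖ ≤ 1 := by
    simpa using pow_le_one₀ (n := n) (norm_nonneg L) hL
  calc _ ≤ ‖iteratedFDeriv ℝ n V (L y)‖ * 1 :=
        mul_le_mul_of_nonneg_left h2 (norm_nonneg _)
    _ = _ := mul_one _

lemma we_add {w w' : ℝ × E3 → ℝ} (h : SF w) (h' : SF w') : SF (fun p => w p + w' p) := by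
  refine ⟨h.smooth.add h'.smooth, fun n T => ?_⟩
  obtain ⟨C, hC⟩ := h.bdd n T
  obtain ⟨C', hC'⟩ := h'.bdd n T
  refine ⟨C + C', fun p hp => ?_⟩
  have h1 : iteratedFDeriv ℝ n (fun p => w p + w' p) p
      = iteratedFDeriv ℝ n w p + iteratedFDeriv ℝ n w' p :=
    fun_iteratedFDeriv_add_apply (h.smooth.contDiffAt.of_le (by exact_mod_cast le_top))
      (h'.smooth.contDiffAt.of_le (by exact_mod_cast le_top))
  rw [h1]
  exact (norm_add_le _ _).trans (add_le_add (hC p hp) (hC' p hp))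

/-- The linear map `(t,x) ↦ (a t, b t, x)`. -/
noncomputable def weL (a b : ℝ) : ℝ × E3 →L[ℝ] ℝ × ℝ × E3 :=
  (a • ContinuousLinearMap.fst ℝ ℝ E3).prod
    ((b • ContinuousLinearMap.fst ℝ ℝ E3).prod (ContinuousLinearMap.snd ℝ ℝ E3))

lemma weL_apply (a b : ℝ) (p : ℝ × E3) : weL a b p = (a * p.1, b * p.1, p.2) := by
  simp [weL]

lemma weL_norm {a b : ℝ} (ha : |a| ≤ 1) (hb : |b| ≤ 1) : ‖weL a b‖ ≤ 1 := by
  refine ContinuousLinearMap.opNorm_le_bound _ zero_le_one fun p => ?_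
  rw [weL_apply, one_mul, Prod.norm_def, Prod.norm_def, Prod.norm_def]
  have h1 : ‖a * p.1‖ ≤ ‖p.1‖ := by
    rw [norm_mul]; exact mul_le_of_le_one_left (norm_nonneg _) ha
  have h2 : ‖b * p.1‖ ≤ ‖p.1‖ := by
    rw [norm_mul]; exact mul_le_of_le_one_left (norm_nonneg _) hb
  exact max_le (h1.trans (le_max_left _ _)) (max_le (h2.trans (le_max_left _ _))
    (le_max_right _ _))

/-- Time zero slices. -/
lemma SY.slice {V : ℝ × ℝ × E3 → ℝ} (hV : SY V) : SF (fun p : ℝ × E3 => V (0, p.1, p.2)) := by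
  have he : (fun p : ℝ × E3 => V (0, p.1, p.2)) = fun p => V (weL 0 1 p) := by
    funext p; rw [weL_apply]; simp
  rw [he]
  refine ⟨hV.smooth.comp (weL 0 1).contDiff, fun n T => ?_⟩
  obtain ⟨C, hC⟩ := hV.bdd n (max T 0)
  refine ⟨C, fun p hp => (we_norm_comp hV.smooth (weL 0 1) (weL_norm (by simp) (by simp)) n
    p).trans ?_⟩
  rw [weL_apply]
  refine hC _ _ _ ?_ ?_
  · simp
  · simpa using Or.inl hp

/-- Data as functions on space-time. -/
lemma SB.lift {a : E3 → ℝ} (ha : SB a) : SF (fun p : ℝ × E3 => a p.2) := by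
  refine ⟨ha.smooth.comp contDiff_snd, fun n T => ?_⟩
  obtain ⟨C, hC⟩ := ha.bdd n
  exact ⟨C, fun p _ => (we_norm_comp ha.smooth (ContinuousLinearMap.snd ℝ ℝ E3)
    (ContinuousLinearMap.norm_snd_le ..) n p).trans (hC _)⟩

/-! ### Parametric integrals over `[0,1]` -/

lemma we_hc {X : Type*} [NormedAddCommGroup X] [NormedSpace ℝ X] {H : X × ℝ → ℝ}
    (hH : ContDiff ℝ ∞ H) (n : ℕ) :
    Continuous (fun p : X × ℝ => iteratedFDeriv ℝ n (fun x => H (x, p.2)) p.1) := by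
  have h1 : ∀ p : X × ℝ, iteratedFDeriv ℝ n (fun x => H (x, p.2)) p.1
      = (iteratedFDeriv ℝ n H p).compContinuousLinearMap
          fun _ => ContinuousLinearMap.inl ℝ X ℝ := by
    intro p
    have h2 : (fun x => H (x, p.2)) = (fun y => H (y + (0, p.2))) ∘
        (ContinuousLinearMap.inl ℝ X ℝ) := by
      funext x; simp
    have h3 : ContDiff ℝ ∞ (fun y => H (y + (0, p.2))) :=
      hH.comp (contDiff_id.add contDiff_const)
    rw [h2, (ContinuousLinearMap.inl ℝ X ℝ).iteratedFDeriv_comp_right h3 p.1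
      (by exact_mod_cast le_top), iteratedFDeriv_comp_add_right]
    simp
  simp only [h1]
  exact (ContinuousMultilinearMap.continuous_precomp _).comp
    (hH.continuous_iteratedFDeriv (by exact_mod_cast le_top))

lemma we_int {X : Type*} [NormedAddCommGroup X] [NormedSpace ℝ X] [FiniteDimensional ℝ X]
    {H : X × ℝ → ℝ} (hH : ContDiff ℝ ∞ H) :
    ContDiff ℝ ∞ (fun x => ∫ r in Icc (0 : ℝ) 1, H (x, r)) ∧
    ∀ (n : ℕ) (x : X), iteratedFDeriv ℝ n (fun x => ∫ r in Icc (0 : ℝ) 1, H (x, r)) x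
      = ∫ r in Icc (0 : ℝ) 1, iteratedFDeriv ℝ n (fun x => H (x, r)) x :=
  param_integral (X := X) (Y := ℝ) (μ := volume.restrict (Icc (0 : ℝ) 1)) isCompact_Icc
    (by rw [Measure.restrict_apply measurableSet_Icc.compl, compl_inter_self]; exact measure_empty)
    (h := fun x r => H (x, r)) (fun r => hH.comp (contDiff_id.prodMk contDiff_const))
    (fun n => we_hc hH n)

lemma we_int_fderiv {X : Type*} [NormedAddCommGroup X] [NormedSpace ℝ X]
    [FiniteDimensional ℝ X] {H : X × ℝ → ℝ} (hH : ContDiff ℝ ∞ H) (x d : X) :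
    fderiv ℝ (fun x => ∫ r in Icc (0 : ℝ) 1, H (x, r)) x d
      = ∫ r in Icc (0 : ℝ) 1, fderiv ℝ (fun x => H (x, r)) x d := by
  have h1 := (we_int hH).2 1 x
  have h2 : IntegrableOn (fun r => iteratedFDeriv ℝ 1 (fun x => H (x, r)) x)
      (Icc (0 : ℝ) 1) := by
    have h3 : Continuous (fun r : ℝ => iteratedFDeriv ℝ 1 (fun x => H (x, r)) x) :=
      (we_hc hH 1).comp (Continuous.prodMk_right x)
    exact h3.integrableOn_Icc
  have h4 := congrArg (fun f => f fun _ => d) h1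
  simp only [ContinuousMultilinearMap.integral_apply h2, iteratedFDeriv_one_apply] at h4
  exact h4

/-! ### Duhamel's integral -/

/-- `duh V (t,x) = ∫_0^t V (s, t - s, x) ds`. -/
noncomputable def duh (V : ℝ × ℝ × E3 → ℝ) (p : ℝ × E3) : ℝ :=
  ∫ r in Icc (0 : ℝ) 1, p.1 * V (r * p.1, (1 - r) * p.1, p.2)

lemma duh_aux {V : ℝ × ℝ × E3 → ℝ} (hV : ContDiff ℝ ∞ V) :
    ContDiff ℝ ∞ (fun q : (ℝ × E3) × ℝ => q.1.1 * V (q.2 * q.1.1, (1 - q.2) * q.1.1, q.1.2)) := by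
  have h1 : ContDiff ℝ ∞ (fun q : (ℝ × E3) × ℝ => q.1.1) := contDiff_fst.comp contDiff_fst
  have h2 : ContDiff ℝ ∞ (fun q : (ℝ × E3) × ℝ => q.2) := contDiff_snd
  have h3 : ContDiff ℝ ∞ (fun q : (ℝ × E3) × ℝ => q.1.2) := contDiff_snd.comp contDiff_fst
  exact h1.mul (hV.comp ((h2.mul h1).prodMk (((contDiff_const.sub h2).mul h1).prodMk h3)))

lemma duh_smooth {V : ℝ × ℝ × E3 → ℝ} (hV : ContDiff ℝ ∞ V) : ContDiff ℝ ∞ (duh V) :=
  (we_int (duh_aux hV)).1

/-- The function `p ↦ p.1` has bounded derivatives. -/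
lemma we_fst : SF (fun p : ℝ × E3 => p.1) := by
  refine ⟨contDiff_fst, fun n T => ?_⟩
  have h0 : ∀ p : ℝ × E3, ‖iteratedFDeriv ℝ 0 (fun p : ℝ × E3 => p.1) p‖ = |p.1| := by
    intro p; rw [norm_iteratedFDeriv_zero]; rfl
  rcases n with _ | n
  · exact ⟨T, fun p hp => by rw [h0]; exact hp⟩
  · have h1 : fderiv ℝ (fun p : ℝ × E3 => p.1)
        = fun _ => ContinuousLinearMap.fst ℝ ℝ E3 := by
      funext p; exact fderiv_fst
    have h2 : ∀ p : ℝ × E3, ‖iteratedFDeriv ℝ (n + 1) (fun p : ℝ × E3 => p.1) p‖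
        = ‖iteratedFDeriv ℝ n (fun _ : ℝ × E3 => ContinuousLinearMap.fst ℝ ℝ E3) p‖ := by
      intro p; rw [← norm_iteratedFDeriv_fderiv, h1]
    rcases n with _ | n
    · refine ⟨‖ContinuousLinearMap.fst ℝ ℝ E3‖, fun p _ => ?_⟩
      rw [h2, norm_iteratedFDeriv_zero]
    · refine ⟨0, fun p _ => ?_⟩
      rw [h2, iteratedFDeriv_succ_const]; simp

lemma SY.duh {V : ℝ × ℝ × E3 → ℝ} (hV : SY V) : SF (duh V) := by
  refine ⟨duh_smooth hV.smooth, fun n T => ?_⟩
  have hfst := fun i => (we_fst.bdd i T)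
  choose c hc using hfst
  have hVb := fun i => (hV.bdd i T)
  choose C hC using hVb
  refine ⟨∑ i ∈ Finset.range (n + 1), (n.choose i : ℝ) * |c i| * |C (n - i)|, fun p hp => ?_⟩
  have h1 := (we_int (duh_aux hV.smooth)).2 n p
  have h2 : iteratedFDeriv ℝ n (Vale.Agent.P107.LE.duh V) p
      = ∫ r in Icc (0 : ℝ) 1, iteratedFDeriv ℝ n
        (fun x : ℝ × E3 => x.1 * V (r * x.1, (1 - r) * x.1, x.2)) p := h1
  rw [h2]
  have h3 : ∀ r ∈ Icc (0 : ℝ) 1, ‖iteratedFDeriv ℝ n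
      (fun x : ℝ × E3 => x.1 * V (r * x.1, (1 - r) * x.1, x.2)) p‖
      ≤ ∑ i ∈ Finset.range (n + 1), (n.choose i : ℝ) * |c i| * |C (n - i)| := by
    intro r hr
    have hr1 : |r| ≤ 1 := abs_le.mpr ⟨by linarith only [hr.1], hr.2⟩
    have hr2 : |1 - r| ≤ 1 := abs_le.mpr ⟨by linarith only [r, hr, hr.2], by linarith only [hr.1]⟩
    have h4 : (fun x : ℝ × E3 => x.1 * V (r * x.1, (1 - r) * x.1, x.2))
        = fun x : ℝ × E3 => x.1 * V (weL r (1 - r) x) := by
      funext x; rw [weL_apply]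
    rw [h4]
    refine (norm_iteratedFDeriv_mul_le (N := ∞) contDiff_fst
      (hV.smooth.comp (weL r (1 - r)).contDiff) p (by exact_mod_cast le_top)).trans ?_
    refine Finset.sum_le_sum fun i _ => ?_
    have h5 : ‖iteratedFDeriv ℝ i (fun x : ℝ × E3 => x.1) p‖ ≤ |c i| :=
      (hc i p hp).trans (le_abs_self _)
    have h6 : ‖iteratedFDeriv ℝ (n - i) (fun x : ℝ × E3 => V (weL r (1 - r) x)) p‖
        ≤ |C (n - i)| := by
      refine (we_norm_comp hV.smooth _ (weL_norm hr1 hr2) _ p).trans ?_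
      rw [weL_apply]
      refine (hC _ _ _ _ ?_ ?_).trans (le_abs_self _)
      · rw [abs_mul]
        exact (mul_le_of_le_one_left (abs_nonneg _) hr1).trans hp
      · rw [abs_mul]
        exact (mul_le_of_le_one_left (abs_nonneg _) hr2).trans hp
    gcongr
    exact h6
  have h7 := norm_setIntegral_le_of_norm_le_const (μ := volume)
    (s := Icc (0 : ℝ) 1) (by simp) h3
  refine h7.trans ?_
  simp

/-- Time derivative of Duhamel's integral. -/
lemma ptd_duh {V : ℝ × ℝ × E3 → ℝ} (hV : ContDiff ℝ ∞ V) (p : ℝ × E3) :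
    ptd (duh V) p = V (p.1, 0, p.2) + duh (fun y => fderiv ℝ V y (0, 1, 0)) p := by
  obtain ⟨t, x⟩ := p
  have h0 : ptd (duh V) (t, x) = ∫ r in Icc (0 : ℝ) 1,
      fderiv ℝ (fun q : ℝ × E3 => q.1 * V (r * q.1, (1 - r) * q.1, q.2)) (t, x) (1, 0) :=
    we_int_fderiv (duh_aux hV) (t, x) (1, 0)
  have hVd : ∀ y, HasFDerivAt V (fderiv ℝ V y) y := fun y =>
    (hV.differentiable (by simp)).differentiableAt.hasFDerivAt
  have h1 : ∀ r : ℝ, fderiv ℝ (fun q : ℝ × E3 => q.1 * V (r * q.1, (1 - r) * q.1, q.2))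
      (t, x) (1, 0) = V (r * t, (1 - r) * t, x)
        + t * (fderiv ℝ V (r * t, (1 - r) * t, x) (r, 1 - r, 0)) := by
    intro r
    have h2 : HasFDerivAt (fun q : ℝ × E3 => V (r * q.1, (1 - r) * q.1, q.2))
        ((fderiv ℝ V (weL r (1 - r) (t, x))).comp (weL r (1 - r))) (t, x) := by
      have h3 := (hVd (weL r (1 - r) (t, x))).comp (t, x) (weL r (1 - r)).hasFDerivAt
      have h4 : (fun q : ℝ × E3 => V (r * q.1, (1 - r) * q.1, q.2)) = V ∘ (weL r (1 - r)) := by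
        funext q; simp only [Function.comp, weL_apply]
      rw [h4]; exact h3
    have h5 : HasFDerivAt (fun q : ℝ × E3 => q.1) (ContinuousLinearMap.fst ℝ ℝ E3) (t, x) :=
      hasFDerivAt_fst
    rw [(h5.fun_mul h2).fderiv]
    simp [weL_apply]
    ring
  -- the total derivative of `r ↦ r V(rt,(1-r)t,x)`
  have h6 : ∀ r : ℝ, HasDerivAt (fun r : ℝ => r * V (r * t, (1 - r) * t, x))
      (V (r * t, (1 - r) * t, x) + r * (fderiv ℝ V (r * t, (1 - r) * t, x) (t, -t, 0))) r := by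
    intro r
    have h7 : HasDerivAt (fun r : ℝ => ((r * t, (1 - r) * t, x) : ℝ × ℝ × E3)) (t, -t, 0) r := by
      have h8 : HasDerivAt (fun r : ℝ => r * t) t r := by
        simpa using (hasDerivAt_id r).mul_const t
      have h9 : HasDerivAt (fun r : ℝ => (1 - r) * t) (-t) r := by
        simpa using ((hasDerivAt_id r).const_sub 1).mul_const t
      exact h8.prodMk (h9.prodMk (hasDerivAt_const r x))
    have h10 := (hVd (r * t, (1 - r) * t, x)).comp_hasDerivAt r h7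
    have h11 := (hasDerivAt_id' r).fun_mul h10
    simpa [Function.comp] using h11
  have hcont : ∀ W : ℝ × ℝ × E3 → ℝ, Continuous W →
      Continuous (fun r : ℝ => W (r * t, (1 - r) * t, x)) := fun W hW =>
    hW.comp ((continuous_id.mul continuous_const).prodMk
      (((continuous_const.sub continuous_id).mul continuous_const).prodMk continuous_const))
  have hVc : Continuous V := hV.continuous
  have hDc : ∀ d, Continuous (fun y => fderiv ℝ V y d) := fun d =>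
    (we_contDiff_dir hV d).continuous
  have h12 : ∫ r in Icc (0 : ℝ) 1, (V (r * t, (1 - r) * t, x)
      + r * (fderiv ℝ V (r * t, (1 - r) * t, x) (t, -t, 0))) = V (t, 0, x) := by
    rw [integral_Icc_eq_integral_Ioc, ← intervalIntegral.integral_of_le zero_le_one,
      intervalIntegral.integral_eq_sub_of_hasDerivAt (fun r _ => h6 r)]
    · simp
    · exact ((hcont V hVc).add (continuous_id.mul (hcont _ (hDc (t, -t, 0))))).intervalIntegrable
        _ _
  have h13 : ∀ r : ℝ, fderiv ℝ V (r * t, (1 - r) * t, x) (r, 1 - r, 0)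
      = r * (fderiv ℝ V (r * t, (1 - r) * t, x) (1, 0, 0))
        + (1 - r) * (fderiv ℝ V (r * t, (1 - r) * t, x) (0, 1, 0)) := by
    intro r
    have : ((r, 1 - r, 0) : ℝ × ℝ × E3) = r • (1, 0, 0) + (1 - r) • (0, 1, 0) := by
      simp
    rw [this, map_add, map_smul, map_smul, smul_eq_mul, smul_eq_mul]
  have h14 : ∀ r : ℝ, fderiv ℝ V (r * t, (1 - r) * t, x) (t, -t, 0)
      = t * (fderiv ℝ V (r * t, (1 - r) * t, x) (1, 0, 0))
        - t * (fderiv ℝ V (r * t, (1 - r) * t, x) (0, 1, 0)) := by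
    intro r
    have : ((t, -t, 0) : ℝ × ℝ × E3) = t • (1, 0, 0) + (-t) • (0, 1, 0) := by
      simp
    rw [this, map_add, map_smul, map_smul, smul_eq_mul, smul_eq_mul]
    ring
  have h15 : ∀ r : ℝ, V (r * t, (1 - r) * t, x)
        + t * (fderiv ℝ V (r * t, (1 - r) * t, x) (r, 1 - r, 0))
      = (V (r * t, (1 - r) * t, x) + r * (fderiv ℝ V (r * t, (1 - r) * t, x) (t, -t, 0)))
        + t * (fderiv ℝ V (r * t, (1 - r) * t, x) (0, 1, 0)) := by
    intro r; rw [h13, h14]; ring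
  rw [h0]
  simp only [h1, h15]
  rw [integral_add, h12]
  · rfl
  · exact ((hcont V hVc).add
      (continuous_id.mul (hcont _ (hDc (t, -t, 0))))).integrableOn_Icc
  · exact (continuous_const.mul (hcont _ (hDc (0, 1, 0)))).integrableOn_Icc

/-- Space derivative of Duhamel's integral. -/
lemma pxd_duh {V : ℝ × ℝ × E3 → ℝ} (hV : ContDiff ℝ ∞ V) (e : E3) (p : ℝ × E3) :
    pxd e (duh V) p = duh (fun y => fderiv ℝ V y (0, 0, e)) p := by
  obtain ⟨t, x⟩ := p
  have h0 : pxd e (duh V) (t, x) = ∫ r in Icc (0 : ℝ) 1,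
      fderiv ℝ (fun q : ℝ × E3 => q.1 * V (r * q.1, (1 - r) * q.1, q.2)) (t, x) (0, e) :=
    we_int_fderiv (duh_aux hV) (t, x) (0, e)
  have hVd : ∀ y, HasFDerivAt V (fderiv ℝ V y) y := fun y =>
    (hV.differentiable (by simp)).differentiableAt.hasFDerivAt
  have h1 : ∀ r : ℝ, fderiv ℝ (fun q : ℝ × E3 => q.1 * V (r * q.1, (1 - r) * q.1, q.2))
      (t, x) (0, e) = t * (fderiv ℝ V (r * t, (1 - r) * t, x) (0, 0, e)) := by
    intro r
    have h2 : HasFDerivAt (fun q : ℝ × E3 => V (r * q.1, (1 - r) * q.1, q.2))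
        ((fderiv ℝ V (weL r (1 - r) (t, x))).comp (weL r (1 - r))) (t, x) := by
      have h3 := (hVd (weL r (1 - r) (t, x))).comp (t, x) (weL r (1 - r)).hasFDerivAt
      have h4 : (fun q : ℝ × E3 => V (r * q.1, (1 - r) * q.1, q.2)) = V ∘ (weL r (1 - r)) := by
        funext q; simp only [Function.comp, weL_apply]
      rw [h4]; exact h3
    have h5 : HasFDerivAt (fun q : ℝ × E3 => q.1) (ContinuousLinearMap.fst ℝ ℝ E3) (t, x) :=
      hasFDerivAt_fst
    rw [(h5.fun_mul h2).fderiv]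
    simp [weL_apply]
  rw [h0]
  simp only [h1]
  rfl

/-! ### The wave equation -/

lemma we_fderiv_symm {X : Type*} [NormedAddCommGroup X] [NormedSpace ℝ X] {V : X → ℝ}
    (hV : ContDiff ℝ ∞ V) (d e : X) (y : X) :
    fderiv ℝ (fun y => fderiv ℝ V y d) y e = fderiv ℝ (fun y => fderiv ℝ V y e) y d := by
  have hd : DifferentiableAt ℝ (fderiv ℝ V) y :=
    (hV.fderiv_right (m := ∞) (by simp)).differentiable (by simp) y
  have h1 : ∀ d e : X, fderiv ℝ (fun y => fderiv ℝ V y d) y e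
      = fderiv ℝ (fderiv ℝ V) y e d := by
    intro d e
    rw [fderiv_clm_apply hd (differentiableAt_const d)]
    simp
  rw [h1, h1]
  exact (hV.contDiffAt.isSymmSndFDerivAt (n := ∞) (by
    rw [minSmoothness_of_isRCLikeNormedField]; exact WithTop.coe_le_coe.mpr le_top)) e d

lemma we_deriv {V : ℝ × ℝ × E3 → ℝ} (hV : ContDiff ℝ ∞ V) (s τ : ℝ) (x : E3) :
    deriv (fun τ => V (s, τ, x)) τ = fderiv ℝ V (s, τ, x) (0, 1, 0) := by
  have h7 : HasDerivAt (fun r : ℝ => ((s, r, x) : ℝ × ℝ × E3)) (0, 1, 0) τ :=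
    (hasDerivAt_const τ s).prodMk ((hasDerivAt_id' τ).prodMk (hasDerivAt_const τ x))
  exact (((hV.differentiable (by simp)).differentiableAt.hasFDerivAt).comp_hasDerivAt τ h7).deriv

/-- Second `τ`-derivative of spherical means. -/
lemma smG_tt (smG_props : SmProps) {G : ℝ × E3 → ℝ} (hG : ContDiff ℝ ∞ G) (y : ℝ × ℝ × E3) :
    fderiv ℝ (fun y => fderiv ℝ (smG G) y (0, 1, 0)) y (0, 1, 0) = smG (lap G) y := by
  obtain ⟨s, τ, x⟩ := y
  obtain ⟨h1, -, -, h4, -, -⟩ := smG_props hG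
  rw [← h4 s τ x, ← we_deriv (we_contDiff_dir h1 _)]
  congr 1
  funext r
  exact (we_deriv h1 s r x).symm

lemma we_pxd_smooth {G : ℝ × E3 → ℝ} (hG : ContDiff ℝ ∞ G) (e : E3) :
    ContDiff ℝ ∞ (pxd e G) := we_contDiff_dir hG (0, e)

lemma smG_sum {ι : Type*} (s : Finset ι) {G : ι → ℝ × E3 → ℝ} (hG : ∀ i, Continuous (G i))
    (y : ℝ × ℝ × E3) : smG (fun p => ∑ i ∈ s, G i p) y = ∑ i ∈ s, smG (G i) y := by
  unfold smG
  rw [integral_finsetSum, Finset.mul_sum, Finset.mul_sum]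
  intro i _
  have hc : Continuous (fun w : Metric.sphere (0 : E3) 1 => G i (y.1, y.2.2 + y.2.1 • (w : E3))) := by
    have := hG i
    (clear * - this; fun_prop)
  exact hc.integrable_of_hasCompactSupport (HasCompactSupport.of_compactSpace _)

/-- The spatial Laplacian of spherical means. -/
lemma smG_xx (smG_props : SmProps) {G : ℝ × E3 → ℝ} (hG : ContDiff ℝ ∞ G) (y : ℝ × ℝ × E3) :
    ∑ i : Fin 3, fderiv ℝ (fun y => fderiv ℝ (smG G) y (0, 0, ee i)) y (0, 0, ee i)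
      = smG (lap G) y := by
  have h1 : ∀ i : Fin 3, fderiv ℝ (fun y => fderiv ℝ (smG G) y (0, 0, ee i)) y (0, 0, ee i)
      = smG (pxd (ee i) (pxd (ee i) G)) y := by
    intro i
    have h2 : (fun y => fderiv ℝ (smG G) y (0, 0, ee i)) = smG (pxd (ee i) G) := by
      funext y
      exact (smG_props hG).2.2.2.2.1 (ee i) y.1 y.2.1 y.2.2
    rw [h2]
    exact (smG_props (we_pxd_smooth hG (ee i))).2.2.2.2.1 (ee i) y.1 y.2.1 y.2.2
  simp only [h1]
  rw [← smG_sum]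
  · rfl
  · exact fun i => (we_pxd_smooth (we_pxd_smooth hG _) _).continuous

/-- `V` solves the wave equation in the variables `τ, x`. -/
def WEq (V : ℝ × ℝ × E3 → ℝ) : Prop :=
  ∀ y, fderiv ℝ (fun y => fderiv ℝ V y (0, 1, 0)) y (0, 1, 0)
    = ∑ i : Fin 3, fderiv ℝ (fun y => fderiv ℝ V y (0, 0, ee i)) y (0, 0, ee i)

lemma WEq.smG (smG_props : SmProps) {G : ℝ × E3 → ℝ} (hG : ContDiff ℝ ∞ G) : WEq (smG G) := fun y => by
  rw [smG_tt smG_props hG, smG_xx smG_props hG]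

lemma WEq.dir {V : ℝ × ℝ × E3 → ℝ} (hV : ContDiff ℝ ∞ V) (h : WEq V) (d : ℝ × ℝ × E3) :
    WEq (fun y => fderiv ℝ V y d) := by
  intro y
  have h1 : ∀ e : ℝ × ℝ × E3, fderiv ℝ (fun y => fderiv ℝ (fun y => fderiv ℝ V y d) y e) y e
      = fderiv ℝ (fun y => fderiv ℝ (fun y => fderiv ℝ V y e) y e) y d := by
    intro e
    have h2 : (fun y => fderiv ℝ (fun y => fderiv ℝ V y d) y e)
        = fun y => fderiv ℝ (fun y => fderiv ℝ V y e) y d := by
      funext y; exact we_fderiv_symm hV d e y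
    rw [h2]
    exact we_fderiv_symm (we_contDiff_dir hV e) d e y
  simp only [h1]
  have h3 : (fun y => fderiv ℝ (fun y => fderiv ℝ V y (0, 1, 0)) y (0, 1, 0))
      = fun y => ∑ i : Fin 3, fderiv ℝ (fun y => fderiv ℝ V y (0, 0, ee i)) y (0, 0, ee i) := by
    funext y; exact h y
  rw [h3, fderiv_fun_sum]
  · simp
  · intro i _
    exact ((we_contDiff_dir (we_contDiff_dir hV _) _).differentiable (by simp)) y

lemma WEq.add {V V' : ℝ × ℝ × E3 → ℝ} (hV : ContDiff ℝ ∞ V) (hV' : ContDiff ℝ ∞ V')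
    (h : WEq V) (h' : WEq V') : WEq (fun y => V y + V' y) := by
  intro y
  have h1 : ∀ d : ℝ × ℝ × E3, fderiv ℝ (fun y => fderiv ℝ (fun y => V y + V' y) y d) y d
      = fderiv ℝ (fun y => fderiv ℝ V y d) y d + fderiv ℝ (fun y => fderiv ℝ V' y d) y d := by
    intro d
    have h2 : (fun y => fderiv ℝ (fun y => V y + V' y) y d)
        = fun y => fderiv ℝ V y d + fderiv ℝ V' y d := by
      funext y
      rw [fderiv_fun_add (hV.differentiable (by simp) y) (hV'.differentiable (by simp) y)]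
      simp
    rw [h2, fderiv_fun_add ((we_contDiff_dir hV d).differentiable (by simp) y)
      ((we_contDiff_dir hV' d).differentiable (by simp) y)]
    simp
  simp only [h1, Finset.sum_add_distrib]
  rw [h y, h' y]

/-- Derivatives of the time zero slice. -/
lemma slice_fderiv {V : ℝ × ℝ × E3 → ℝ} (hV : ContDiff ℝ ∞ V) (p d : ℝ × E3) :
    fderiv ℝ (fun p : ℝ × E3 => V (0, p.1, p.2)) p d = fderiv ℝ V (0, p.1, p.2) (0, d.1, d.2) := by
  have h1 : HasFDerivAt (fun p : ℝ × E3 => V (0, p.1, p.2))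
      ((fderiv ℝ V (weL 0 1 p)).comp (weL 0 1)) p := by
    have h3 := ((hV.differentiable (by simp)).differentiableAt.hasFDerivAt
      (x := weL 0 1 p)).comp p (weL 0 1).hasFDerivAt
    have h4 : (fun p : ℝ × E3 => V (0, p.1, p.2)) = V ∘ (weL 0 1) := by
      funext q; simp [Function.comp, weL_apply]
    rw [h4]; exact h3
  rw [h1.fderiv]
  simp [weL_apply]

lemma slice_wave {V : ℝ × ℝ × E3 → ℝ} (hV : ContDiff ℝ ∞ V) (h : WEq V) (p : ℝ × E3) :
    ptd (ptd (fun p : ℝ × E3 => V (0, p.1, p.2))) p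
      - lap (fun p : ℝ × E3 => V (0, p.1, p.2)) p = 0 := by
  have h1 : ptd (fun p : ℝ × E3 => V (0, p.1, p.2))
      = fun p : ℝ × E3 => fderiv ℝ V (0, p.1, p.2) (0, 1, 0) := by
    funext q; exact slice_fderiv hV q (1, 0)
  have h2 : ∀ e, pxd e (fun p : ℝ × E3 => V (0, p.1, p.2))
      = fun p : ℝ × E3 => fderiv ℝ V (0, p.1, p.2) (0, 0, e) := by
    intro e; funext q; exact slice_fderiv hV q (0, e)
  have h3 : ptd (ptd (fun p : ℝ × E3 => V (0, p.1, p.2))) p
      = fderiv ℝ (fun y => fderiv ℝ V y (0, 1, 0)) (0, p.1, p.2) (0, 1, 0) := by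
    rw [h1]; exact slice_fderiv (we_contDiff_dir hV (0, 1, 0)) p (1, 0)
  have h4 : ∀ e, pxd e (pxd e (fun p : ℝ × E3 => V (0, p.1, p.2))) p
      = fderiv ℝ (fun y => fderiv ℝ V y (0, 0, e)) (0, p.1, p.2) (0, 0, e) := by
    intro e
    rw [h2]; exact slice_fderiv (we_contDiff_dir hV (0, 0, e)) p (0, e)
  unfold lap
  rw [h3]
  simp only [h4]
  rw [h, sub_self]

lemma duh_sum {V : Fin 3 → ℝ × ℝ × E3 → ℝ} (hV : ∀ i, Continuous (V i)) (p : ℝ × E3) :
    duh (fun y => ∑ i : Fin 3, V i y) p = ∑ i : Fin 3, duh (V i) p := by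
  unfold duh
  rw [← integral_finsetSum]
  · simp only [Finset.mul_sum]
  · intro i _
    refine Continuous.integrableOn_Icc ?_
    exact continuous_const.mul ((hV i).comp ((continuous_id.mul continuous_const).prodMk
      (((continuous_const.sub continuous_id).mul continuous_const).prodMk continuous_const)))

/-- Duhamel's integral solves the inhomogeneous wave equation. -/
lemma duh_wave (smG_props : SmProps) {F : ℝ × E3 → ℝ} (hF : ContDiff ℝ ∞ F) :
    (∀ p, ptd (duh (smG F)) p = duh (fun y => fderiv ℝ (smG F) y (0, 1, 0)) p) ∧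
    ∀ p, ptd (ptd (duh (smG F))) p - lap (duh (smG F)) p = F p := by
  obtain ⟨h1, h2, h3, -, -, -⟩ := smG_props hF
  have h5 : ∀ p, ptd (duh (smG F)) p = duh (fun y => fderiv ℝ (smG F) y (0, 1, 0)) p := by
    intro p
    rw [ptd_duh h1, h2, zero_add]
  refine ⟨h5, fun p => ?_⟩
  have h6 : ptd (duh (smG F)) = duh (fun y => fderiv ℝ (smG F) y (0, 1, 0)) := funext h5
  have h7 : ∀ e, pxd e (duh (smG F)) = duh (fun y => fderiv ℝ (smG F) y (0, 0, e)) := by
    intro e; funext q; exact pxd_duh h1 e q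
  have h8 : fderiv ℝ (smG F) (p.1, 0, p.2) (0, 1, 0) = F p := by
    rw [← we_deriv h1, h3]
  have h9 : (fun y => fderiv ℝ (fun y => fderiv ℝ (smG F) y (0, 1, 0)) y (0, 1, 0))
      = fun y => ∑ i : Fin 3, fderiv ℝ (fun y => fderiv ℝ (smG F) y (0, 0, ee i)) y
        (0, 0, ee i) := by
    funext y; exact WEq.smG smG_props hF y
  have h10 : lap (duh (smG F)) p = duh (fun y => ∑ i : Fin 3,
      fderiv ℝ (fun y => fderiv ℝ (smG F) y (0, 0, ee i)) y (0, 0, ee i)) p := by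
    unfold lap
    rw [duh_sum]
    · refine Finset.sum_congr rfl fun i _ => ?_
      rw [h7, pxd_duh (we_contDiff_dir h1 _)]
    · intro i
      exact (we_contDiff_dir (we_contDiff_dir h1 _) _).continuous
  rw [h6, ptd_duh (we_contDiff_dir h1 _), h8, h9, h10, add_sub_cancel_right]

/-- W4. Solution of the wave equation. -/
theorem exists_wave_of (smG_props : SmProps) (smG_bdd : SmBdd) {a b : E3 → ℝ} {F : ℝ × E3 → ℝ} (ha : SB a) (hb : SB b) (hF : SF F) :
    ∃ w : ℝ × E3 → ℝ, SF w ∧ (∀ x, w (0, x) = a x) ∧ (∀ x, ptd w (0, x) = b x) ∧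
      (∀ p, ptd (ptd w) p - lap w p = F p) ∧
      (∀ η : ℝ, 0 ≤ η → (∀ x, a x = 0) → (∀ x, b x = 0) → (∀ p : ℝ × E3, p.1 ≤ η → F p = 0) →
        ∀ p : ℝ × E3, p.1 ≤ η → w p = 0) := by
  set A : ℝ × E3 → ℝ := fun p => a p.2 with hA
  set B : ℝ × E3 → ℝ := fun p => b p.2 with hB
  have sA : SF A := ha.lift
  have sB : SF B := hb.lift
  obtain ⟨hA1, hA2, hA3, -, -, -⟩ := smG_props sA.smooth
  obtain ⟨hB1, hB2, hB3, -, -, -⟩ := smG_props sB.smooth
  set V₁ : ℝ × ℝ × E3 → ℝ := fun y => fderiv ℝ (smG A) y (0, 1, 0) with hV₁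
  have sV₁ : SY V₁ := (sy_smG smG_props smG_bdd sA).dir _
  have sV₂ : SY (smG B) := sy_smG smG_props smG_bdd sB
  have e₁ : WEq V₁ := (WEq.smG smG_props sA.smooth).dir hA1 _
  have e₂ : WEq (smG B) := WEq.smG smG_props sB.smooth
  set V : ℝ × ℝ × E3 → ℝ := fun y => V₁ y + smG B y with hV
  have cV : ContDiff ℝ ∞ V := sV₁.smooth.add hB1
  have eV : WEq V := e₁.add sV₁.smooth hB1 e₂
  set w₀ : ℝ × E3 → ℝ := fun p => V (0, p.1, p.2) with hw₀
  have sw₀ : SF w₀ := we_add sV₁.slice sV₂.slice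
  set D : ℝ × E3 → ℝ := duh (smG F) with hD
  have sD : SF D := (sy_smG smG_props smG_bdd hF).duh
  obtain ⟨hD1, hD2⟩ := duh_wave smG_props hF.smooth
  have duh0 : ∀ (W : ℝ × ℝ × E3 → ℝ) x, duh W (0, x) = 0 := by
    intro W x; simp [duh]
  have hdw₀ : Differentiable ℝ w₀ := sw₀.smooth.differentiable (by simp)
  have hdD : Differentiable ℝ D := sD.smooth.differentiable (by simp)
  have hdir : ∀ d : ℝ × E3, (fun p => fderiv ℝ (fun p => w₀ p + D p) p d)
      = fun p => fderiv ℝ w₀ p d + fderiv ℝ D p d := by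
    intro d; funext p
    rw [fderiv_fun_add (hdw₀ p) (hdD p)]; simp
  have hdir2 : ∀ d p : ℝ × E3, fderiv ℝ (fun p => fderiv ℝ (fun p => w₀ p + D p) p d) p d
      = fderiv ℝ (fun p => fderiv ℝ w₀ p d) p d + fderiv ℝ (fun p => fderiv ℝ D p d) p d := by
    intro d p
    rw [hdir, fderiv_fun_add ((we_contDiff_dir sw₀.smooth d).differentiable (by simp) p)
      ((we_contDiff_dir sD.smooth d).differentiable (by simp) p)]
    simp
  refine ⟨fun p => w₀ p + D p, we_add sw₀ sD, ?_, ?_, ?_, ?_⟩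
  · intro x
    have h1 : V₁ (0, 0, x) = a x := by
      rw [hV₁]
      simp only
      rw [← we_deriv hA1, hA3]
    simp only [hw₀, hV, hD, duh0, hB2, h1, add_zero]
  · intro x
    have h1 : ptd (fun p => w₀ p + D p) (0, x) = fderiv ℝ w₀ (0, x) (1, 0) + ptd D (0, x) :=
      congrFun (hdir (1, 0)) (0, x)
    have h2 : fderiv ℝ w₀ (0, x) (1, 0) = fderiv ℝ V (0, 0, x) (0, 1, 0) :=
      slice_fderiv cV (0, x) (1, 0)
    have h3 : fderiv ℝ V (0, 0, x) (0, 1, 0)
        = fderiv ℝ V₁ (0, 0, x) (0, 1, 0) + fderiv ℝ (smG B) (0, 0, x) (0, 1, 0) := by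
      rw [hV, fderiv_fun_add (sV₁.smooth.differentiable (by simp) _)
        (hB1.differentiable (by simp) _)]
      simp
    have h4 : fderiv ℝ V₁ (0, 0, x) (0, 1, 0) = 0 := by
      rw [hV₁, smG_tt smG_props sA.smooth]
      simp [smG]
    have h5 : fderiv ℝ (smG B) (0, 0, x) (0, 1, 0) = b x := by
      rw [← we_deriv hB1, hB3]
    rw [h1, h2, h3, h4, h5, hD1, duh0]; ring
  · intro p
    have h1 : ptd (ptd (fun p => w₀ p + D p)) p = ptd (ptd w₀) p + ptd (ptd D) p :=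
      hdir2 (1, 0) p
    have h2 : lap (fun p => w₀ p + D p) p = lap w₀ p + lap D p := by
      unfold lap
      rw [← Finset.sum_add_distrib]
      exact Finset.sum_congr rfl fun i _ => hdir2 (0, ee i) p
    have h3 := slice_wave cV eV p
    have h4 := hD2 p
    rw [h1, h2]
    linarith only [h3, h4]
  · intro η hη ha0 hb0 hF0 p hp
    have h1 : ∀ y, smG A y = 0 := by
      intro y; simp [smG, hA, ha0]
    have h2 : ∀ y, smG B y = 0 := by
      intro y; simp [smG, hB, hb0]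
    have h3 : ∀ y, V₁ y = 0 := by
      intro y
      have : smG A = fun _ => 0 := funext h1
      simp [hV₁, this]
    have h4 : D p = 0 := by
      rw [hD, duh]
      have h5 : ∀ r ∈ Icc (0 : ℝ) 1, p.1 * smG F (r * p.1, (1 - r) * p.1, p.2) = 0 := by
        intro r hr
        have h6 : r * p.1 ≤ η := by
          rcases le_total 0 p.1 with h | h
          · exact (mul_le_of_le_one_left h hr.2).trans hp
          · exact (mul_nonpos_of_nonneg_of_nonpos hr.1 h).trans hη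
        have h7 : ∀ x : E3, F (r * p.1, x) = 0 := fun x => hF0 _ h6
        simp [smG, h7]
      rw [setIntegral_congr_fun measurableSet_Icc h5]
      simp
    simp only [hw₀, hV, h3, h2, h4, add_zero]

end Vale.Agent.P107.LE
end
end
end

section

section

attribute [-instance] ProperSMul.toContinuousSMul IsTopologicalTorsor.toContinuousSMul
  IdemSemiring.toCanonicallyOrderedAdd IdemSemiring.toMulLeftMono IdemSemiring.toMulRightMono
  AddQuantale.instAddLeftMono AddQuantale.instAddRightMono Quantale.instMulLeftMono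
  Quantale.instMulRightMono FiniteDimensional.rclike_to_real IsScalarTower.complexToReal
  FiniteDimensional.complexToReal

section

/-!
Solution of the inhomogeneous wave equation.
-/

open MeasureTheory Set Filter Topology
open scoped RealInnerProductSpace ENNReal NNReal ContDiff

namespace Vale.Agent.P107.LE

/-- W4. Solution of the wave equation. -/
theorem exists_wave {a b : E3 → ℝ} {F : ℝ × E3 → ℝ} (ha : SB a) (hb : SB b) (hF : SF F) :
    ∃ w : ℝ × E3 → ℝ, SF w ∧ (∀ x, w (0, x) = a x) ∧ (∀ x, ptd w (0, x) = b x) ∧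
      (∀ p, ptd (ptd w) p - lap w p = F p) ∧
      (∀ η : ℝ, 0 ≤ η → (∀ x, a x = 0) → (∀ x, b x = 0) → (∀ p : ℝ × E3, p.1 ≤ η → F p = 0) →
        ∀ p : ℝ × E3, p.1 ≤ η → w p = 0) :=
  exists_wave_of (fun h => smG_props h) (fun h n T => smG_bdd h n T) ha hb hF

end Vale.Agent.P107.LE
end
end
end

section

section

attribute [-instance] ProperSMul.toContinuousSMul IsTopologicalTorsor.toContinuousSMul
  IdemSemiring.toCanonicallyOrderedAdd IdemSemiring.toMulLeftMono IdemSemiring.toMulRightMono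
  AddQuantale.instAddLeftMono AddQuantale.instAddRightMono Quantale.instMulLeftMono
  Quantale.instMulRightMono FiniteDimensional.rclike_to_real IsScalarTower.complexToReal
  FiniteDimensional.complexToReal

section

/-!
Solution of the linear Maxwell system.
-/

open MeasureTheory Set Filter Topology
open scoped RealInnerProductSpace ENNReal NNReal ContDiff

namespace Vale.Agent.P107.LE

/-- W5. Solution of the linear Maxwell system. -/
theorem exists_maxwell {ρ : ℝ × E3 → ℝ} {j : ℝ × E3 → E3} (hρ : SF ρ) (hj : SF j)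
    (hc : ∀ p, ptd ρ p + ∑ i : Fin 3, pxd (ee i) (fun y => j y i) p = 0)
    {E₀ B₀ : E3 → E3} (hE : SB E₀) (hB : SB B₀) (hg : ∀ x, div E₀ x = ρ (0, x))
    (hgm : ∀ x, div B₀ x = 0) :
    ∃ E B : ℝ × E3 → E3, SF E ∧ SF B ∧ Mx (Ici 0) E B ρ j ∧ (∀ x, E (0, x) = E₀ x) ∧
      (∀ x, B (0, x) = B₀ x) ∧
      (∀ η : ℝ, 0 ≤ η → (∀ x, E₀ x = 0) → (∀ x, B₀ x = 0) →
        (∀ p : ℝ × E3, p.1 ≤ η → ρ p = 0 ∧ j p = 0) →
        ∀ p : ℝ × E3, p.1 ≤ η → E p = 0 ∧ B p = 0) :=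
  exists_maxwell_of (fun {_ _ _} ha hb hF => exists_wave ha hb hF)
    (fun {_} hw hw2 h0 h1 => wave_unique hw hw2 h0 h1) hρ hj hc hE hB hg hgm

end Vale.Agent.P107.LE
end
end
end

section

section

attribute [-instance] ProperSMul.toContinuousSMul IsTopologicalTorsor.toContinuousSMul
  IdemSemiring.toCanonicallyOrderedAdd IdemSemiring.toMulLeftMono IdemSemiring.toMulRightMono
  AddQuantale.instAddLeftMono AddQuantale.instAddRightMono Quantale.instMulLeftMono
  Quantale.instMulRightMono FiniteDimensional.rclike_to_real IsScalarTower.complexToReal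
  FiniteDimensional.complexToReal

section

/-!
Field budgets for the acceleration part.
-/

open MeasureTheory Set Filter Topology
open scoped RealInnerProductSpace ENNReal NNReal

namespace Vale.Agent.P107.DecS

open Vale.Agent.P107.Ar

variable {T : ℝ} {f : ℝ → E3 → E3 → ℝ} {E B : ℝ → E3 → E3}

/-- The magnetic field along the backward cones of a path, late times. -/
noncomputable def Wb (T ta : ℝ) (B : ℝ → E3 → E3) (X : ℝ → E3) (s : ℝ) (z : E3) : ℝ≥0∞ :=
  if ta ≤ s - ‖z‖ then ENNReal.ofReal ‖Flux.tr T B (s - ‖z‖) (X s + z)‖ else 0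

/-- The good component of the field along the backward cones of a path, late times. -/
noncomputable def Wg (T ta : ℝ) (E B : ℝ → E3 → E3) (X : ℝ → E3) (s : ℝ) (z : E3) : ℝ≥0∞ :=
  if ta ≤ s - ‖z‖ then ENNReal.ofReal ‖Flux.tr T E (s - ‖z‖) (X s + z)
    - cross (dir z) (Flux.tr T B (s - ‖z‖) (X s + z))‖ else 0

lemma measurable_trE (h : IsClassicalSolution T f E B) :
    Measurable fun z : ℝ × E3 => Flux.tr T E z.1 z.2 := Flux.measurable_tr
    (h.E_contDiff.continuousOn.mono (prod_mono Ioo_subset_Ico_self (subset_refl _)))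

lemma measurable_trB (h : IsClassicalSolution T f E B) :
    Measurable fun z : ℝ × E3 => Flux.tr T B z.1 z.2 := Flux.measurable_tr
    (h.B_contDiff.continuousOn.mono (prod_mono Ioo_subset_Ico_self (subset_refl _)))

lemma continuous_back {X : ℝ → E3} (hX : Continuous X) :
    Continuous fun y : ℝ × E3 => ((y.1 - ‖y.2‖, X y.1 + y.2) : ℝ × E3) := by
  have : Continuous fun y : ℝ × E3 => X y.1 := hX.comp continuous_fst
  fun_prop

lemma measurableSet_late (ta : ℝ) : MeasurableSet {y : ℝ × E3 | ta ≤ y.1 - ‖y.2‖} :=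
  measurableSet_le measurable_const (measurable_fst.sub measurable_snd.norm)

lemma measurable_Wb (h : IsClassicalSolution T f E B) (ta : ℝ) {X : ℝ → E3} (hX : Continuous X) :
    Measurable fun y : ℝ × E3 => Wb T ta B X y.1 y.2 := by
  unfold Wb
  exact Measurable.ite (measurableSet_late ta)
    (((measurable_trB h).comp (continuous_back hX).measurable).norm.ennreal_ofReal)
    measurable_const

lemma measurable_Wg (h : IsClassicalSolution T f E B) (ta : ℝ) {X : ℝ → E3} (hX : Continuous X) :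
    Measurable fun y : ℝ × E3 => Wg T ta E B X y.1 y.2 := by
  have h1 : Measurable fun y : ℝ × E3 => Flux.tr T E (y.1 - ‖y.2‖) (X y.1 + y.2) :=
    (measurable_trE h).comp (continuous_back hX).measurable
  have h2 : Measurable fun y : ℝ × E3 => Flux.tr T B (y.1 - ‖y.2‖) (X y.1 + y.2) :=
    (measurable_trB h).comp (continuous_back hX).measurable
  have h3 : Measurable fun y : ℝ × E3 => dir y.2 := Flux.measurable_dir.comp measurable_snd
  have h4 : Measurable fun y : ℝ × E3 =>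
      cross (dir y.2) (Flux.tr T B (y.1 - ‖y.2‖) (X y.1 + y.2)) :=
    Flux.continuous_cross2.measurable.comp (h3.prodMk h2)
  unfold Wg
  exact Measurable.ite (measurableSet_late ta) ((h1.sub h4).norm.ennreal_ofReal)
    measurable_const

lemma ofReal_sq {x : ℝ} (hx : 0 ≤ x) : ENNReal.ofReal x ^ 2 = ENNReal.ofReal (x ^ 2) := by
  rw [ENNReal.ofReal_pow hx]

/-- Flux budget of the good component. -/
lemma Wg_budget (h : IsClassicalSolution T f E B) {ta : ℝ} (h0 : 0 < ta) (h0T : ta < T) :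
    ∃ M : ℝ≥0, ∀ (X : ℝ → E3) (t₁ t₂ : ℝ), ta ≤ t₁ → t₁ ≤ t₂ → t₂ < T →
      ∫⁻ s in Icc t₁ t₂, ∫⁻ z, Wg T ta E B X s z ^ 2 ≤ M * ENNReal.ofReal (t₂ - t₁) := by
  obtain ⟨M, hM⟩ := cone_flux h h0 h0T
  refine ⟨M, fun X t₁ t₂ ht₁ h12 ht₂ => ?_⟩
  calc ∫⁻ s in Icc t₁ t₂, ∫⁻ z, Wg T ta E B X s z ^ 2 ≤ ∫⁻ _ in Icc t₁ t₂, (M : ℝ≥0∞) := by
        refine setLIntegral_mono' measurableSet_Icc fun s hs => ?_
        have hs' : s ∈ Ico ta T := ⟨ht₁.trans hs.1, hs.2.trans_lt ht₂⟩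
        refine le_trans (lintegral_mono fun z => ?_) (hM s hs' (X s)).2
        unfold Wg
        by_cases hz : ta ≤ s - ‖z‖
        · have hmem : z ∈ Metric.closedBall (0 : E3) (s - ta) := by
            rw [mem_closedBall_zero_iff]; linarith only [hz]
          have hτ : s - ‖z‖ ∈ Ioo 0 T := ⟨by linarith only [ta, h0, s, z, hz], by linarith [norm_nonneg z, hs'.2]⟩
          rw [indicator_of_mem hmem, if_pos hz, ofReal_sq (norm_nonneg _), Flux.tr_eq E hτ,
            Flux.tr_eq B hτ]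
        · rw [if_neg hz]
          simp
    _ = M * ENNReal.ofReal (t₂ - t₁) := by
        rw [lintegral_const, Measure.restrict_apply MeasurableSet.univ, univ_inter,
          Real.volume_Icc]

/-! ### The magnetic budget -/

lemma alI_unique {m m' : ℕ} {x : ℝ} (h : alI m x) (h' : alI m' x) : m = m' := by
  have aux : ∀ a b : ℕ, alI a x → alI b x → ¬ a < b := by
    intro a b ha hb hab
    have h1 : (1 / 4 : ℝ) ^ b ≤ (1 / 4) ^ (a + 1) :=
      pow_le_pow_of_le_one (by norm_num) (by norm_num) hab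
    have h2 := ha.1
    have h3 := hb.2
    linarith only [h1, h2, h3]
  exact le_antisymm (not_lt.1 (aux m' m h' h)) (not_lt.1 (aux m m' h h'))

lemma shellI_unique {T₁ : ℝ} (hT : 0 < T₁) {k k' : ℕ} {z : E3} (h : shellI T₁ k z)
    (h' : shellI T₁ k' z) : k = k' := by
  have aux : ∀ a b : ℕ, shellI T₁ a z → shellI T₁ b z → ¬ a < b := by
    intro a b ha hb hab
    have h1 : (1 / 2 : ℝ) ^ b ≤ (1 / 2) ^ (a + 1) :=
      pow_le_pow_of_le_one (by norm_num) (by norm_num) hab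
    have h2 := ha.1
    have h3 := hb.2
    have h4 := mul_le_mul_of_nonneg_left h1 hT.le
    linarith only [h2, h3, h4]
  exact le_antisymm (not_lt.1 (aux k' k h' h)) (not_lt.1 (aux k k' h h'))

lemma tsum_indicator_le {ι α : Type*} (A : ι → Set α) (S : Set α) (g : α → ℝ≥0∞) (y : α)
    (hd : ∀ i i', y ∈ A i → y ∈ A i' → i = i') (hS : ∀ i, y ∈ A i → y ∈ S) :
    ∑' i, (A i).indicator g y ≤ S.indicator g y := by
  by_cases hy : ∃ i, y ∈ A i
  · obtain ⟨i, hi⟩ := hy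
    rw [tsum_eq_single i, indicator_of_mem hi, indicator_of_mem (hS i hi)]
    intro i' hne
    exact indicator_of_notMem (fun hi' => hne (hd i' i hi' hi)) _
  · push Not at hy
    have : ∀ i, (A i).indicator g y = 0 := fun i => indicator_of_notMem (hy i) _
    simp only [this, tsum_zero]
    exact zero_le

lemma tsum_lintegral2 {ι : Type*} [Countable ι] {F : ι → ℝ × E3 → ℝ≥0∞}
    (hF : ∀ i, Measurable (F i)) (S : Set ℝ) :
    ∑' i, ∫⁻ s in S, ∫⁻ z, F i (s, z) = ∫⁻ s in S, ∫⁻ z, ∑' i, F i (s, z) := by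
  have e1 : ∀ s : ℝ, ∫⁻ z, ∑' i, F i (s, z) = ∑' i, ∫⁻ z, F i (s, z) := by
    intro s
    rw [lintegral_tsum]
    intro i
    exact ((hF i).comp (measurable_const.prodMk measurable_id :
      Measurable fun z : E3 => (s, z))).aemeasurable
  simp only [e1]
  rw [lintegral_tsum]
  intro i
  exact ((hF i).lintegral_prod_right').aemeasurable

/-- The part of `(s, z)` space with `z` in shell `k` and `α₀` in class `m`. -/
def Akm (T₁ : ℝ) (V : ℝ → E3) (k m : ℕ) : Set (ℝ × E3) :=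
  {y | shellI T₁ k y.2 ∧ alI m (al (dir y.2) (u (V y.1)))}

lemma measurable_al2 {V : ℝ → E3} (hV : Continuous V) :
    Measurable fun y : ℝ × E3 => al (dir y.2) (u (V y.1)) := by
  unfold al
  exact measurable_const.add (((continuous_u.comp hV).measurable.comp measurable_fst).inner
    (Flux.measurable_dir.comp measurable_snd))

lemma measurableSet_Akm (T₁ : ℝ) {V : ℝ → E3} (hV : Continuous V) (k m : ℕ) :
    MeasurableSet (Akm T₁ V k m) :=
  ((measurableSet_shellI T₁ k).preimage measurable_snd).inter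
    ((measurableSet_alI m).preimage (measurable_al2 hV))

/-- The weighted magnetic energy in a class. -/
noncomputable def bet (T ta : ℝ) (B : ℝ → E3 → E3) (X V : ℝ → E3) (T₁ t₁ t₂ : ℝ) (k m : ℕ) :
    ℝ≥0∞ :=
  ∫⁻ s in Icc t₁ t₂, ∫⁻ z, (Akm T₁ V k m).indicator (fun y =>
    ENNReal.ofReal (al (dir y.2) (u (V y.1))) * Wb T ta B X y.1 y.2 ^ 2) (s, z)

lemma measurable_wt (h : IsClassicalSolution T f E B) (ta : ℝ) {X V : ℝ → E3} (hX : Continuous X)
    (hV : Continuous V) : Measurable fun y : ℝ × E3 =>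
      ENNReal.ofReal (al (dir y.2) (u (V y.1))) * Wb T ta B X y.1 y.2 ^ 2 :=
  (measurable_al2 hV).ennreal_ofReal.mul ((measurable_Wb h ta hX).pow_const 2)

/-- The energy density at late times. -/
noncomputable def GB (T ta : ℝ) (B : ℝ → E3 → E3) (τ : ℝ) (y : E3) : ℝ≥0∞ :=
  if ta ≤ τ then ENNReal.ofReal (‖Flux.tr T B τ y‖ ^ 2) else 0

lemma measurable_GB (h : IsClassicalSolution T f E B) (ta : ℝ) :
    Measurable (Function.uncurry (GB T ta B)) := by
  unfold GB Function.uncurry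
  exact Measurable.ite (measurableSet_le measurable_const measurable_fst)
    (((measurable_trB h).norm.pow_const 2).ennreal_ofReal) measurable_const

lemma Wb_sq (ta : ℝ) (X : ℝ → E3) (s : ℝ) (z : E3) :
    Wb T ta B X s z ^ 2 = GB T ta B (s - ‖z‖) (X s + z) := by
  unfold Wb GB
  by_cases hz : ta ≤ s - ‖z‖
  · rw [if_pos hz, if_pos hz, ofReal_sq (norm_nonneg _)]
  · rw [if_neg hz, if_neg hz]
    simp

lemma GB_budget (h : IsClassicalSolution T f E B) {ta : ℝ} (h0 : 0 < ta) (h0T : ta < T) :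
    ∃ M : ℝ≥0, ∀ a b : ℝ, ∫⁻ τ in Icc a b, ∫⁻ y, GB T ta B τ y ≤ M * ENNReal.ofReal (b - a) := by
  obtain ⟨M, hM⟩ := energy_bound (h0.trans h0T) h
  refine ⟨M, fun a b => ?_⟩
  calc ∫⁻ τ in Icc a b, ∫⁻ y, GB T ta B τ y ≤ ∫⁻ _ in Icc a b, (M : ℝ≥0∞) := by
        refine lintegral_mono fun τ => ?_
        unfold GB
        by_cases hτ : ta ≤ τ
        · simp only [if_pos hτ]
          by_cases hτT : τ ∈ Ioo 0 T
          · refine le_trans (le_of_eq ?_) (hM τ ⟨hτT.1.le, hτT.2⟩).2.1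
            refine lintegral_congr fun y => ?_
            rw [Flux.tr_eq B hτT]
          · have : ∀ y, Flux.tr T B τ y = 0 := by
              intro y
              unfold Flux.tr
              rw [indicator_of_notMem]
              exact fun hm => hτT hm.1
            simp only [this]
            simp
        · simp only [if_neg hτ]
          simp
    _ = M * ENNReal.ofReal (b - a) := by
        rw [lintegral_const, Measure.restrict_apply MeasurableSet.univ, univ_inter,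
          Real.volume_Icc]

lemma shell_budget (h : IsClassicalSolution T f E B) {ta : ℝ} (h0 : 0 < ta) (h0T : ta < T) :
    ∃ M : ℝ≥0, ∀ {t₀ th c₁ : ℝ} {p j : ℕ} {X V : ℝ → E3} {t₁ t₂ : ℝ},
      Ctx T f E B t₀ th c₁ p j X V t₁ t₂ → ∀ {X' V' : ℝ → E3},
      (∀ s ∈ Icc t₁ t₂, X s = X' s) → (∀ s ∈ Icc t₁ t₂, V s = V' s) → ∀ r R : ℝ, 0 ≤ r →
      ∫⁻ s in Icc t₁ t₂, ∫⁻ z, {y : ℝ × E3 | r < ‖y.2‖ ∧ ‖y.2‖ ≤ R}.indicator (fun y =>
        ENNReal.ofReal (al (dir y.2) (u (V' y.1))) * Wb T ta B X' y.1 y.2 ^ 2) (s, z)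
      ≤ M * ENNReal.ofReal (t₂ - t₁ + (R - r)) := by
  obtain ⟨M, hM⟩ := GB_budget h h0 h0T
  refine ⟨M, fun {t₀ th c₁ p j X V t₁ t₂} hc {X' V'} hXX hVV r R hr => ?_⟩
  have hVc : ContinuousOn V (Icc t₁ t₂) := fun s hs => (hc.hchar.hV s hs).continuousWithinAt
  have h1 := shell_transfer_gen (U := fun s => u (V s)) hc.h12 hc.hchar.hX
    (continuous_u.comp_continuousOn hVc) (fun s _ => norm_u_lt_one _) hr (R := R) (GB T ta B)
    (measurable_GB h ta)
  have h2 := hM (t₁ - R) (t₂ - r)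
  have e1 : t₂ - r - (t₁ - R) = t₂ - t₁ + (R - r) := by ring
  rw [e1] at h2
  refine le_trans (le_of_eq ?_) (h1.trans h2)
  refine setLIntegral_congr_fun measurableSet_Icc fun s hs => ?_
  refine lintegral_congr fun z => ?_
  by_cases hz : r < ‖z‖ ∧ ‖z‖ ≤ R
  · have m1 : (s, z) ∈ {y : ℝ × E3 | r < ‖y.2‖ ∧ ‖y.2‖ ≤ R} := hz
    have m2 : z ∈ {z : E3 | r < ‖z‖ ∧ ‖z‖ ≤ R} := hz
    rw [indicator_of_mem m1, indicator_of_mem m2, Wb_sq, ← hXX s hs, ← hVV s hs]
  · have m1 : (s, z) ∉ {y : ℝ × E3 | r < ‖y.2‖ ∧ ‖y.2‖ ≤ R} := hz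
    have m2 : z ∉ {z : E3 | r < ‖z‖ ∧ ‖z‖ ≤ R} := hz
    rw [indicator_of_notMem m1, indicator_of_notMem m2]

open Classical in
/-- The magnetic budget over the classes: far shells and near shells. -/
theorem bet_budget (h : IsClassicalSolution T f E B) {ta : ℝ} (h0 : 0 < ta) (h0T : ta < T) :
    ∃ L : ℝ≥0, 1 ≤ L ∧ ∀ {t₀ th c₁ : ℝ} {p j : ℕ} {X V : ℝ → E3} {t₁ t₂ : ℝ},
      Ctx T f E B t₀ th c₁ p j X V t₁ t₂ → ∀ {X' V' : ℝ → E3}, Continuous X' → Continuous V' →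
      (∀ s ∈ Icc t₁ t₂, X s = X' s) → (∀ s ∈ Icc t₁ t₂, V s = V' s) →
      (∀ k, dl c₁ p j < (1 / 2 : ℝ) ^ k →
        ∑' m, bet T ta B X' V' (max T 1) t₁ t₂ k m ≤
          L * ENNReal.ofReal (dl c₁ p j + (1 / 2) ^ k)) ∧
      ∑' (k : ℕ) (m : ℕ), (if (1 / 2 : ℝ) ^ k ≤ dl c₁ p j then
          bet T ta B X' V' (max T 1) t₁ t₂ k m else 0) ≤ L * ENNReal.ofReal (dl c₁ p j) := by
  obtain ⟨M, hM⟩ := shell_budget h h0 h0T
  set T₁ : ℝ := max T 1 with hT₁
  have hT1 : 1 ≤ T₁ := le_max_right _ _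
  have hT0 : 0 < T₁ := lt_of_lt_of_le one_pos hT1
  refine ⟨(M + 1) * (2 * T₁).toNNReal, ?_, ?_⟩
  · have e1 : (1 : ℝ≥0) ≤ (2 * T₁).toNNReal := by
      rw [← Real.toNNReal_one]
      exact Real.toNNReal_le_toNNReal (by linarith only [hT1])
    calc (1 : ℝ≥0) = 1 * 1 := by ring
      _ ≤ (M + 1) * (2 * T₁).toNNReal := mul_le_mul (by simp) e1 zero_le zero_le
  intro t₀ th c₁ p j X V t₁ t₂ hc X' V' hX' hV' hXX hVV
  have hwt := measurable_wt h ta hX' hV'
  have hlen := hc.hlen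
  have h12 := hc.h12
  have hL : (((M + 1) * (2 * T₁).toNNReal : ℝ≥0) : ℝ≥0∞) =
      ((M : ℝ≥0∞) + 1) * ENNReal.ofReal (2 * T₁) := by
    push_cast
    rfl
  rw [hL]
  have hML : ∀ x y : ℝ, x ≤ 2 * T₁ * y → (M : ℝ≥0∞) * ENNReal.ofReal x ≤
      ((M : ℝ≥0∞) + 1) * ENNReal.ofReal (2 * T₁) * ENNReal.ofReal y := by
    intro x y hxy
    rw [mul_assoc, ← ENNReal.ofReal_mul (by linarith only [hT1])]
    gcongr
    exact le_self_add
  constructor
  · intro k hk
    have h1 := hM hc hXX hVV (T₁ * (1 / 2) ^ (k + 1)) (T₁ * (1 / 2) ^ k) (by positivity)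
    unfold bet
    rw [tsum_lintegral2 (F := fun m y => (Akm T₁ V' k m).indicator (fun y =>
      ENNReal.ofReal (al (dir y.2) (u (V' y.1))) * Wb T ta B X' y.1 y.2 ^ 2) y)
      (fun m => hwt.indicator (measurableSet_Akm T₁ hV' k m))]
    refine le_trans (lintegral_mono fun s => lintegral_mono fun z => ?_)
      (h1.trans (hML _ _ ?_))
    · exact tsum_indicator_le (fun m => Akm T₁ V' k m) _ _ (s, z)
        (fun m m' hm hm' => alI_unique hm.2 hm'.2) (fun m hm => hm.1)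
    · rw [pow_succ]
      have h2 : (0:ℝ) < (1 / 2) ^ k := by positivity
      have h3 : 0 < T₁ * (1 / 2) ^ k := by positivity
      have h4 : dl c₁ p j ≤ T₁ * dl c₁ p j := by
        have : 0 ≤ dl c₁ p j := by linarith only [hlen, h12]
        nlinarith only [hT1, hlen, h12]
      have h5 : 0 ≤ dl c₁ p j := by linarith only [hlen, h12]
      nlinarith only [hlen, h12, h3, h4]
  · have h1 := hM hc hXX hVV 0 (T₁ * dl c₁ p j) le_rfl
    have e1 : ∀ k m : ℕ, (if (1 / 2 : ℝ) ^ k ≤ dl c₁ p j then bet T ta B X' V' T₁ t₁ t₂ k m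
        else 0) = ∫⁻ s in Icc t₁ t₂, ∫⁻ z, (if (1 / 2 : ℝ) ^ k ≤ dl c₁ p j then
          Akm T₁ V' k m else ∅).indicator (fun y =>
          ENNReal.ofReal (al (dir y.2) (u (V' y.1))) * Wb T ta B X' y.1 y.2 ^ 2) (s, z) := by
      intro k m
      by_cases hk : (1 / 2 : ℝ) ^ k ≤ dl c₁ p j
      · simp only [if_pos hk]
        rfl
      · simp only [if_neg hk, indicator_empty, lintegral_zero]
    simp only [e1]
    rw [← ENNReal.tsum_prod (f := fun k m => ∫⁻ s in Icc t₁ t₂, ∫⁻ z,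
      (if (1 / 2 : ℝ) ^ k ≤ dl c₁ p j then Akm T₁ V' k m else ∅).indicator (fun y =>
          ENNReal.ofReal (al (dir y.2) (u (V' y.1))) * Wb T ta B X' y.1 y.2 ^ 2) (s, z))]
    rw [tsum_lintegral2 (F := fun (b : ℕ × ℕ) y => (if (1 / 2 : ℝ) ^ b.1 ≤ dl c₁ p j then
      Akm T₁ V' b.1 b.2 else ∅).indicator (fun y =>
      ENNReal.ofReal (al (dir y.2) (u (V' y.1))) * Wb T ta B X' y.1 y.2 ^ 2) y)
      (fun b => hwt.indicator (by
        by_cases hk : (1 / 2 : ℝ) ^ b.1 ≤ dl c₁ p j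
        · rw [if_pos hk]; exact measurableSet_Akm T₁ hV' b.1 b.2
        · rw [if_neg hk]; exact MeasurableSet.empty))]
    have key : ∀ (b : ℕ × ℕ) (y : ℝ × E3), y ∈ (if (1 / 2 : ℝ) ^ b.1 ≤ dl c₁ p j then
        Akm T₁ V' b.1 b.2 else ∅) → (1 / 2 : ℝ) ^ b.1 ≤ dl c₁ p j ∧ y ∈ Akm T₁ V' b.1 b.2 := by
      intro b y hy
      by_cases hk : (1 / 2 : ℝ) ^ b.1 ≤ dl c₁ p j
      · rw [if_pos hk] at hy
        exact ⟨hk, hy⟩
      · rw [if_neg hk] at hy
        exact absurd hy (notMem_empty _)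
    refine le_trans (lintegral_mono fun s => lintegral_mono fun z => ?_)
      (h1.trans (hML _ _ ?_))
    · refine tsum_indicator_le (fun b : ℕ × ℕ => if (1 / 2 : ℝ) ^ b.1 ≤ dl c₁ p j then
        Akm T₁ V' b.1 b.2 else ∅) _ _ (s, z) ?_ ?_
      · intro b b' hb hb'
        have k1 := (key b _ hb).2
        have k2 := (key b' _ hb').2
        exact Prod.ext (shellI_unique hT0 k1.1 k2.1) (alI_unique k1.2 k2.2)
      · intro b hb
        obtain ⟨k1, k2⟩ := key b _ hb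
        have k3 : T₁ * (1 / 2) ^ (b.1 + 1) < ‖z‖ := k2.1.1
        have k4 : ‖z‖ ≤ T₁ * (1 / 2) ^ b.1 := k2.1.2
        refine ⟨?_, ?_⟩
        · exact lt_trans (by positivity) k3
        · exact k4.trans (mul_le_mul_of_nonneg_left k1 hT0.le)
    · have h5 : 0 ≤ dl c₁ p j := by linarith only [hlen, h12]
      nlinarith only [hT1, hlen, h12]

end Vale.Agent.P107.DecS
end
end
end

section

section

attribute [-instance] ProperSMul.toContinuousSMul IsTopologicalTorsor.toContinuousSMul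
  IdemSemiring.toCanonicallyOrderedAdd IdemSemiring.toMulLeftMono IdemSemiring.toMulRightMono
  AddQuantale.instAddLeftMono AddQuantale.instAddRightMono Quantale.instMulLeftMono
  Quantale.instMulRightMono FiniteDimensional.rclike_to_real IsScalarTower.complexToReal
  FiniteDimensional.complexToReal

section

/-!
Common tools for the arithmetic of the cell sums: everything as a power of two, bounds for the
window lengths, the number of windows, nested sums, geometric sums, the class sum, and the slack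
estimate.
-/

open Set Filter Topology
open scoped ENNReal NNReal

namespace Vale.Agent.P107.Ar.Tl

/-! ### Powers of two -/

lemma pow2 (k : ℕ) : (2 : ℝ) ^ k = (2 : ℝ) ^ (k : ℝ) := (Real.rpow_natCast 2 k).symm

lemma pow4 (k : ℕ) : (4 : ℝ) ^ k = (2 : ℝ) ^ (2 * (k : ℝ)) := by
  rw [show (4 : ℝ) = (2 : ℝ) ^ (2 : ℝ) by norm_num, Real.rpow_mul (by norm_num), Real.rpow_natCast]

lemma pow8 (k : ℕ) : (8 : ℝ) ^ k = (2 : ℝ) ^ (3 * (k : ℝ)) := by
  rw [show (8 : ℝ) = (2 : ℝ) ^ (3 : ℝ) by norm_num, Real.rpow_mul (by norm_num), Real.rpow_natCast]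

lemma powh2 (k : ℕ) : (1 / 2 : ℝ) ^ k = (2 : ℝ) ^ (-(k : ℝ)) := by
  rw [one_div, inv_pow, pow2, ← Real.rpow_neg (by norm_num)]

lemma powh4 (k : ℕ) : (1 / 4 : ℝ) ^ k = (2 : ℝ) ^ (-(2 * (k : ℝ))) := by
  rw [one_div, inv_pow, pow4, ← Real.rpow_neg (by norm_num)]

lemma powh8 (k : ℕ) : (1 / 8 : ℝ) ^ k = (2 : ℝ) ^ (-(3 * (k : ℝ))) := by
  rw [one_div, inv_pow, pow8, ← Real.rpow_neg (by norm_num)]

lemma qq_eq (p i : ℕ) : qq p i = (2 : ℝ) ^ ((p : ℝ) - i) := by
  rw [qq, pow2, pow2, ← Real.rpow_sub (by norm_num)]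

lemma qq_pos (p i : ℕ) : 0 < qq p i := by unfold qq; positivity

lemma ee_eq (p j : ℕ) : ee p j = (2 : ℝ) ^ (-(5 / 8 * ((p : ℝ) - j))) := by
  rw [ee, qq_eq, ← Real.rpow_mul (by norm_num)]
  congr 1; ring

lemma ee_pos (p j : ℕ) : 0 < ee p j := by rw [ee_eq]; positivity

lemma dl_pos {c₁ : ℝ} (hc : 0 < c₁) (p j : ℕ) : 0 < dl c₁ p j := by unfold dl; positivity

lemma DD_pos (p j m l : ℕ) : 0 < DD p j m l := by unfold DD; positivity

lemma dl_le_c {c₁ : ℝ} (hc : 0 < c₁) (p j : ℕ) : dl c₁ p j ≤ c₁ * (1 / 4) ^ j := by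
  unfold dl
  rw [div_le_iff₀ (by positivity)]
  have h1 : (1 / 4 : ℝ) ^ j * 4 ^ j = 1 := by rw [← mul_pow]; norm_num
  have : c₁ * (1 / 4) ^ j * (4 ^ j + 2 ^ j * (1 + p)) = c₁ * ((1 / 4 : ℝ) ^ j * 4 ^ j)
      + c₁ * (1 / 4) ^ j * (2 ^ j * (1 + p)) := by ring
  rw [this, h1]
  have : 0 ≤ c₁ * (1 / 4) ^ j * (2 ^ j * (1 + p)) := by positivity
  linarith only [this]

lemma dl_le {c₁ : ℝ} (hc : 0 < c₁) (hc1 : c₁ ≤ 1) (p j : ℕ) :
    dl c₁ p j ≤ (2 : ℝ) ^ (-(2 * (j : ℝ))) := by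
  refine (dl_le_c hc p j).trans ?_
  rw [← powh4]
  have : (0 : ℝ) < (1 / 4) ^ j := by positivity
  nlinarith only [hc1, this]

/-- The large parameter `4 (1+p) / c₁`. -/
noncomputable def La (c₁ : ℝ) (p : ℕ) : ℝ := 4 * (1 + p) / c₁

lemma La_ge {c₁ : ℝ} (hc : 0 < c₁) (hc1 : c₁ ≤ 1) (p : ℕ) : 4 ≤ La c₁ p := by
  unfold La
  rw [le_div_iff₀ hc]
  have : (0 : ℝ) ≤ p := by positivity
  nlinarith only [hc1]

lemma La_pos {c₁ : ℝ} (hc : 0 < c₁) (p : ℕ) : 0 < La c₁ p := by unfold La; positivity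

lemma la_ge {c₁ : ℝ} (hc : 0 < c₁) (hc1 : c₁ ≤ 1) (p : ℕ) : 2 ≤ Real.logb 2 (La c₁ p) := by
  rw [Real.le_logb_iff_rpow_le (by norm_num) (La_pos hc p)]
  have := La_ge hc hc1 p
  norm_num
  exact this

lemma La_eq {c₁ : ℝ} (hc : 0 < c₁) (p : ℕ) : La c₁ p = (2 : ℝ) ^ (Real.logb 2 (La c₁ p)) :=
  (Real.rpow_logb (by norm_num) (by norm_num) (La_pos hc p)).symm

lemma inv_dl_le {c₁ : ℝ} (hc : 0 < c₁) (p i : ℕ) :
    1 / dl c₁ p i ≤ La c₁ p / 2 * 4 ^ i := by
  unfold dl La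
  rw [one_div_div, div_le_iff₀ hc]
  have h1 : 4 * (1 + (p : ℝ)) / c₁ / 2 * 4 ^ i * c₁ = 2 * (1 + p) * 4 ^ i := by field_simp; ring
  rw [h1]
  have h2 : (2 : ℝ) ^ i ≤ 4 ^ i := by gcongr; norm_num
  have h3 : (0 : ℝ) ≤ p := by positivity
  have h4 : (0 : ℝ) < 4 ^ i := by positivity
  nlinarith only [h2, h4]

/-- `2^{-k} ≤ δ_j` implies `2 j ≤ k`; the converse case. -/
lemma near_far {c₁ : ℝ} (hc : 0 < c₁) (hc1 : c₁ ≤ 1) (p j k : ℕ) :
    ((1 / 2 : ℝ) ^ k ≤ dl c₁ p j ∧ 2 * (j : ℝ) ≤ k) ∨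
    (dl c₁ p j < (1 / 2 : ℝ) ^ k ∧ (k : ℝ) ≤ 2 * j + Real.logb 2 (La c₁ p) - 1) := by
  rcases le_or_gt ((1 / 2 : ℝ) ^ k) (dl c₁ p j) with h | h
  · left
    refine ⟨h, ?_⟩
    have h2 := h.trans (dl_le hc hc1 p j)
    rw [powh2, Real.rpow_le_rpow_left_iff (by norm_num)] at h2
    linarith only [h2]
  · right
    refine ⟨h, ?_⟩
    have h1 := inv_dl_le hc p j
    have h2 : (2 : ℝ) ^ k ≤ 1 / dl c₁ p j := by
      rw [le_div_iff₀ (dl_pos hc p j)]
      have : (2 : ℝ) ^ k * (1 / 2) ^ k = 1 := by rw [← mul_pow]; norm_num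
      calc (2 : ℝ) ^ k * dl c₁ p j ≤ 2 ^ k * (1 / 2) ^ k := by gcongr
        _ = 1 := this
    have h3 : (2 : ℝ) ^ (k : ℝ) ≤ (2 : ℝ) ^ (2 * (j : ℝ) + Real.logb 2 (La c₁ p) - 1) := by
      rw [← pow2]
      refine h2.trans (h1.trans (le_of_eq ?_))
      rw [pow4, Real.rpow_sub (by norm_num), Real.rpow_add (by norm_num), ← La_eq hc p]
      simp only [Real.rpow_one]
      ring
    rwa [Real.rpow_le_rpow_left_iff (by norm_num)] at h3

/-- The sum `δ_j + 2^{-k}` in both cases. -/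
lemma sum_le {c₁ : ℝ} (hc : 0 < c₁) (hc1 : c₁ ≤ 1) (p j k : ℕ) :
    (2 * (j : ℝ) ≤ k ∧ (1 / 2 : ℝ) ^ k ≤ dl c₁ p j ∧
      dl c₁ p j + (1 / 2) ^ k ≤ (2 : ℝ) ^ (1 - 2 * (j : ℝ))) ∨
    ((k : ℝ) ≤ 2 * j + Real.logb 2 (La c₁ p) - 1 ∧ dl c₁ p j < (1 / 2 : ℝ) ^ k ∧
      dl c₁ p j + (1 / 2) ^ k ≤ (2 : ℝ) ^ (1 - (k : ℝ))) := by
  rcases near_far hc hc1 p j k with ⟨h1, h2⟩ | ⟨h1, h2⟩
  · left
    refine ⟨h2, h1, ?_⟩
    have h3 := dl_le hc hc1 p j
    rw [sub_eq_add_neg, Real.rpow_add (by norm_num), Real.rpow_one]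
    linarith only [h1, h3]
  · right
    refine ⟨h2, h1, ?_⟩
    rw [sub_eq_add_neg, Real.rpow_add (by norm_num), Real.rpow_one, ← powh2]
    linarith only [h1]

/-- The number of windows. -/
lemma KK_le {c₁ : ℝ} (hc : 0 < c₁) (hc1 : c₁ ≤ 1) (p j i k : ℕ) :
    KK c₁ p j i k ≤ (2 : ℝ) ^ (Real.logb 2 (La c₁ p) + 1) ∨
    KK c₁ p j i k ≤ (2 : ℝ) ^ (Real.logb 2 (La c₁ p) + 1 + (2 * (i : ℝ) - 2 * j)) ∨
    KK c₁ p j i k ≤ (2 : ℝ) ^ (Real.logb 2 (La c₁ p) + 1 + (2 * (i : ℝ) - k)) := by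
  have hLa := La_ge hc hc1 p
  have h1 := inv_dl_le hc p i
  have h2 := dl_le hc hc1 p j
  set x : ℝ := (2 : ℝ) ^ (2 * (i : ℝ) - 2 * j) with hx
  set y : ℝ := (2 : ℝ) ^ (2 * (i : ℝ) - k) with hy
  have hKK : KK c₁ p j i k ≤ 1 + La c₁ p / 2 * (x + y) := by
    unfold KK
    have h3 : (dl c₁ p j + (1 / 2) ^ k) / dl c₁ p i
        ≤ ((2 : ℝ) ^ (-(2 * (j : ℝ))) + (2 : ℝ) ^ (-(k : ℝ))) * (La c₁ p / 2 * 4 ^ i) := by
      rw [div_eq_mul_one_div]
      have := dl_pos hc p i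
      have h4 := La_pos hc p
      rw [powh2]
      gcongr
    have h5 : ((2 : ℝ) ^ (-(2 * (j : ℝ))) + (2 : ℝ) ^ (-(k : ℝ))) * (La c₁ p / 2 * 4 ^ i)
        = La c₁ p / 2 * (x + y) := by
      have hx' : x = (2 : ℝ) ^ (-(2 * (j : ℝ))) * 4 ^ i := by
        rw [hx, pow4, ← Real.rpow_add (by norm_num)]; congr 1; ring
      have hy' : y = (2 : ℝ) ^ (-(k : ℝ)) * 4 ^ i := by
        rw [hy, pow4, ← Real.rpow_add (by norm_num)]; congr 1; ring
      rw [hx', hy']; ring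
    linarith only [h3, h5]
  have key : ∀ z : ℝ, 0 < z → 1 ≤ z → x ≤ z → y ≤ z →
      KK c₁ p j i k ≤ La c₁ p * 2 * z := by
    intro z hz h1z hxz hyz
    have : La c₁ p / 2 * (x + y) ≤ La c₁ p / 2 * (z + z) := by
      have := La_pos hc p
      (clear * - hLa hxz hyz; gcongr)
    nlinarith only [hLa, hKK, h1z, this]
  have e1 : (2 : ℝ) ^ (Real.logb 2 (La c₁ p) + 1) = La c₁ p * 2 * 1 := by
    rw [Real.rpow_add (by norm_num), ← La_eq hc p, Real.rpow_one, mul_one]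
  have e2 : (2 : ℝ) ^ (Real.logb 2 (La c₁ p) + 1 + (2 * (i : ℝ) - 2 * j)) = La c₁ p * 2 * x := by
    rw [Real.rpow_add (by norm_num), Real.rpow_add (by norm_num), ← La_eq hc p, Real.rpow_one]
  have e3 : (2 : ℝ) ^ (Real.logb 2 (La c₁ p) + 1 + (2 * (i : ℝ) - k)) = La c₁ p * 2 * y := by
    rw [Real.rpow_add (by norm_num), Real.rpow_add (by norm_num), ← La_eq hc p, Real.rpow_one]
  rw [e1, e2, e3]
  have hx0 : 0 < x := by positivity
  have hy0 : 0 < y := by positivity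
  rcases le_total x 1 with hx1 | hx1
  · rcases le_total y 1 with hy1 | hy1
    · left; exact key 1 one_pos le_rfl hx1 hy1
    · right; right; exact key y hy0 hy1 (hx1.trans hy1) le_rfl
  · rcases le_total y x with hyx | hyx
    · right; left; exact key x hx0 hx1 le_rfl hyx
    · right; right; exact key y hy0 (hx1.trans hyx) hyx le_rfl

/-! ### `1 / DD` -/

lemma invDD_le1 (p j m l : ℕ) : 1 / DD p j m l ≤ (2 : ℝ) ^ (2 * (l : ℝ)) := by
  rw [← pow4, div_le_iff₀ (DD_pos p j m l)]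
  unfold DD
  have : (4 : ℝ) ^ l * (1 / 4) ^ l = 1 := by rw [← mul_pow]; norm_num
  have h2 : 0 ≤ (4 : ℝ) ^ l * ((1 / 4) ^ j * ((1 / 4) ^ m + ee p j ^ 2)) := by positivity
  nlinarith only [this, h2]

lemma invDD_le2 (p j m l : ℕ) : 1 / DD p j m l ≤ (2 : ℝ) ^ (2 * (j : ℝ) + 2 * m) := by
  rw [Real.rpow_add (by norm_num), ← pow4, ← pow4, div_le_iff₀ (DD_pos p j m l)]
  unfold DD
  have h1 : (4 : ℝ) ^ j * (1 / 4) ^ j = 1 := by rw [← mul_pow]; norm_num
  have h2 : (4 : ℝ) ^ m * (1 / 4) ^ m = 1 := by rw [← mul_pow]; norm_num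
  have h3 : (4 : ℝ) ^ j * 4 ^ m * ((1 / 4) ^ l + (1 / 4) ^ j * ((1 / 4) ^ m + ee p j ^ 2))
      = 4 ^ j * 4 ^ m * (1 / 4) ^ l + (4 ^ j * (1 / 4) ^ j) * (4 ^ m * (1 / 4) ^ m)
        + (4 ^ j * (1 / 4) ^ j) * (4 ^ m * ee p j ^ 2) := by ring
  rw [h3, h1, h2]
  have : 0 ≤ (4 : ℝ) ^ j * 4 ^ m * (1 / 4) ^ l := by positivity
  have : 0 ≤ (4 : ℝ) ^ m * ee p j ^ 2 := by positivity
  linarith

lemma invDD_le3 (p j m l : ℕ) :
    1 / DD p j m l ≤ (2 : ℝ) ^ (2 * (j : ℝ) + 5 / 4 * ((p : ℝ) - j)) := by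
  have he : ee p j ^ 2 = (2 : ℝ) ^ (-(5 / 4 * ((p : ℝ) - j))) := by
    rw [ee_eq, ← Real.rpow_natCast, ← Real.rpow_mul (by norm_num)]
    congr 1; push_cast; ring
  rw [Real.rpow_add (by norm_num), ← pow4, div_le_iff₀ (DD_pos p j m l)]
  unfold DD
  have h1 : (4 : ℝ) ^ j * (1 / 4) ^ j = 1 := by rw [← mul_pow]; norm_num
  have h2 : (2 : ℝ) ^ (5 / 4 * ((p : ℝ) - j)) * ee p j ^ 2 = 1 := by
    rw [he, ← Real.rpow_add (by norm_num)]; simp
  have h3 : (4 : ℝ) ^ j * 2 ^ (5 / 4 * ((p : ℝ) - j))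
        * ((1 / 4) ^ l + (1 / 4) ^ j * ((1 / 4) ^ m + ee p j ^ 2))
      = 4 ^ j * 2 ^ (5 / 4 * ((p : ℝ) - j)) * (1 / 4) ^ l
        + (4 ^ j * (1 / 4) ^ j) * (2 ^ (5 / 4 * ((p : ℝ) - j)) * (1 / 4) ^ m)
        + (4 ^ j * (1 / 4) ^ j) * (2 ^ (5 / 4 * ((p : ℝ) - j)) * ee p j ^ 2) := by ring
  rw [h3, h1, h2]
  have : 0 ≤ (4 : ℝ) ^ j * 2 ^ (5 / 4 * ((p : ℝ) - j)) * (1 / 4) ^ l := by positivity
  have : 0 ≤ (2 : ℝ) ^ (5 / 4 * ((p : ℝ) - j)) * (1 / 4) ^ m := by positivity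
  linarith

/-! ### Good and bad scales -/

lemma gd_iff (p j i a : ℕ) : gd p j i ((1 / 2) ^ a) ↔
    12 * (i : ℝ) ≤ 5 * p ∧ 10 - 5 / 8 * ((p : ℝ) - i) ≤ -(a : ℝ) ∧
      10 - 5 / 8 * ((p : ℝ) - j) ≤ -(a : ℝ) := by
  unfold gd
  have h1024 : (1024 : ℝ) = (2 : ℝ) ^ (10 : ℝ) := by norm_num
  have hx : ∀ b : ℕ, 1024 * ee p b ≤ (1 / 2 : ℝ) ^ a ↔
      10 - 5 / 8 * ((p : ℝ) - b) ≤ -(a : ℝ) := by
    intro b
    rw [ee_eq, h1024, ← Real.rpow_add (by norm_num), powh2,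
      Real.rpow_le_rpow_left_iff (by norm_num)]
    constructor <;> intro h <;> linarith only [h]
  rw [hx, hx]
  constructor
  · rintro ⟨h1, h2, h3⟩
    exact ⟨by exact_mod_cast h1, h2, h3⟩
  · rintro ⟨h1, h2, h3⟩
    exact ⟨by exact_mod_cast h1, h2, h3⟩

end Vale.Agent.P107.Ar.Tl
end
end
end

section

section

attribute [-instance] ProperSMul.toContinuousSMul IsTopologicalTorsor.toContinuousSMul
  IdemSemiring.toCanonicallyOrderedAdd IdemSemiring.toMulLeftMono IdemSemiring.toMulRightMono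
  AddQuantale.instAddLeftMono AddQuantale.instAddRightMono Quantale.instMulLeftMono
  Quantale.instMulRightMono FiniteDimensional.rclike_to_real IsScalarTower.complexToReal
  FiniteDimensional.complexToReal

section

/-!
Values of the kernel bounds `bTT`, `bS`, `bC` on the cells.
-/

open Set Filter Topology
open scoped RealInnerProductSpace ENNReal NNReal

namespace Vale.Agent.P107.CK

open Ar

/-! ### Scalars -/

lemma inv_le_of {A L : ℝ} (hL : 0 < L) (h : L ^ 2 ≤ 2 * A) : A⁻¹ ≤ 2 * (L ^ 2)⁻¹ := by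
  have hL2 : 0 < L ^ 2 := by positivity
  have hA : 0 < A := by linarith only [h, hL2]
  rw [inv_le_comm₀ hA (by positivity), mul_inv, inv_inv]
  linarith only [h]

lemma sqrt_le_of {A L : ℝ} (hL : 0 < L) (h : A ≤ 2 * L ^ 2) : √A ≤ 1.5 * L := by
  rw [Real.sqrt_le_left (by positivity)]
  nlinarith only [h]

/-- The denominator. -/
lemma DD_le_of {A B L M J e : ℝ} (hA : L ^ 2 ≤ 2 * A) (hB : M ^ 2 ≤ 2 * B) :
    L ^ 2 + J ^ 2 * (M ^ 2 + e ^ 2) ≤ 2 * (A + J ^ 2 * (B + e ^ 2)) := by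
  have h1 : J ^ 2 * (M ^ 2 + e ^ 2) ≤ J ^ 2 * (2 * (B + e ^ 2)) :=
    mul_le_mul_of_nonneg_left (by nlinarith only [hB]) (sq_nonneg J)
  linarith only [hA, h1]

/-! ### Vectors -/

/-- The point `(w, a)` is in the cell with indices `i, m, l` for the test velocity `b`. -/
structure IsCell (p i m l : ℕ) (w a b : E3) : Prop where
  hw : ‖w‖ = 1
  ha : ‖a‖ < 1
  hb : ‖b‖ < 1
  a1 : (1 / 4) ^ l ≤ 2 * al w a
  a2 : al w a ≤ 2 * (1 / 4) ^ l
  b1 : (1 / 4) ^ m ≤ 2 * al w b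
  b2 : al w b ≤ 2 * (1 / 4) ^ m
  qa : 1 - ‖a‖ ^ 2 ≤ 4 / qq p i ^ 2

lemma h4 (n : ℕ) : (1 / 4 : ℝ) ^ n = ((1 / 2) ^ n) ^ 2 := by
  rw [← pow_mul, mul_comm, pow_mul]
  norm_num

lemma i4 (n : ℕ) : (4 : ℝ) ^ n = (((1 / 2) ^ n) ^ 2)⁻¹ := by
  rw [← h4, one_div, inv_pow, inv_inv]

lemma i2 (n : ℕ) : (2 : ℝ) ^ n = ((1 / 2) ^ n)⁻¹ := by
  rw [one_div, inv_pow, inv_inv]

lemma sqrt_eps (j : ℕ) : √((1 / 4 : ℝ) ^ j) = (1 / 2) ^ j := by
  rw [h4, Real.sqrt_sq (by positivity)]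

variable {p i j m l n : ℕ} {w a b : E3}

lemma pow_comp {l m : ℕ} (h : l ≤ m + 3) : (1 / 2 : ℝ) ^ m ≤ 8 * (1 / 2) ^ l := by
  have h1 : (1 / 2 : ℝ) ^ (m + 3) ≤ (1 / 2) ^ l :=
    pow_le_pow_of_le_one (by norm_num) (by norm_num) h
  rw [pow_add] at h1
  linarith only [h1]

/-! ### Bounds for `bS` and `bC` -/

lemma Dn_eq : Dn ((1 / 4) ^ j) (Ar.ee p j) w a b
        = al w a + ((1 / 2) ^ j) ^ 2 * (al w b + Ar.ee p j ^ 2) := by
  unfold Dn
  rw [h4 j]

lemma DD_eq : DD p j m l = ((1 / 2) ^ l) ^ 2 + ((1 / 2) ^ j) ^ 2 *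
        (((1 / 2) ^ m) ^ 2 + Ar.ee p j ^ 2) := by
  unfold DD
  rw [h4 m, h4 j, h4 l]

lemma inv_Dn_le (h : IsCell p i m l w a b) :
    (Dn ((1 / 4) ^ j) (Ar.ee p j) w a b)⁻¹ ≤ 2 * (DD p j m l)⁻¹ := by
  obtain ⟨hw, ha, hb, a1, a2, b1, b2, qa⟩ := h
  rw [h4] at a1 a2 b1 b2
  have h1 := DD_le_of (J := (1 / 2) ^ j) (e := Ar.ee p j) a1 b1
  rw [← Dn_eq, ← DD_eq] at h1
  have h2 : 0 < Dn ((1 / 4) ^ j) (Ar.ee p j) w a b := KA.Dn_pos hw ha hb (by positivity)
  have h3 := Tl.DD_pos p j m l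
  rw [inv_le_comm₀ h2 (by positivity), mul_inv, inv_inv]
  linarith only [h1]

theorem bS_A (h : IsCell p i m l w a b) :
    bS ((1 / 4) ^ j) (Ar.ee p j) w a b ≤ 3 * sA p j m l := by
  have h5 := inv_Dn_le (j := j) h
  obtain ⟨hw, ha, hb, a1, a2, b1, b2, qa⟩ := h
  have hL : (0 : ℝ) < (1 / 2) ^ l := by positivity
  have hM : (0 : ℝ) < (1 / 2) ^ m := by positivity
  have he := Tl.ee_pos p j
  have h2 : 0 < Dn ((1 / 4) ^ j) (Ar.ee p j) w a b := KA.Dn_pos hw ha hb (by positivity)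
  have h3 := Tl.DD_pos p j m l
  have hal := KA.al_pos hw ha
  have hbe := KA.al_pos hw hb
  rw [h4] at a1 a2 b1 b2
  have hy := sqrt_le_of hM b2
  have h6 : √(al w b) / Dn ((1 / 4) ^ j) (Ar.ee p j) w a b ≤ 3 * ((1 / 2) ^ m / DD p j m l) := by
    calc _ = √(al w b) * (Dn ((1 / 4) ^ j) (Ar.ee p j) w a b)⁻¹ := by rw [div_eq_mul_inv]
      _ ≤ (1.5 * (1 / 2) ^ m) * (2 * (DD p j m l)⁻¹) := by gcongr
      _ = _ := by ring
  have h7 : Ar.ee p j / al w a * ((1 / 4) ^ j * (al w b + Ar.ee p j ^ 2) /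
      Dn ((1 / 4) ^ j) (Ar.ee p j) w a b) ≤ 2 * (Ar.ee p j * 4 ^ l) := by
    have h8 : (1 / 4) ^ j * (al w b + Ar.ee p j ^ 2) / Dn ((1 / 4) ^ j) (Ar.ee p j) w a b ≤ 1 := by
      rw [div_le_one h2]
      unfold Dn
      linarith only [hal]
    have h9 := inv_le_of hL a1
    rw [i4 l]
    calc _ ≤ Ar.ee p j / al w a * 1 := by gcongr
      _ = Ar.ee p j * (al w a)⁻¹ := by rw [mul_one, div_eq_mul_inv]
      _ ≤ Ar.ee p j * (2 * (((1 / 2) ^ l) ^ 2)⁻¹) := by (clear * - he h9; gcongr)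
      _ = _ := by ring
  unfold bS sA
  have h10 : 0 ≤ Ar.ee p j * 4 ^ l := by positivity
  linarith only [h6, h7, h10]

theorem bS_N (h : IsCell p i m l w a b) :
    bS ((1 / 4) ^ j) (Ar.ee p j) w a b ≤ 8 * sN p j m l := by
  obtain ⟨hw, ha, hb, a1, a2, b1, b2, qa⟩ := h
  have hL : (0 : ℝ) < (1 / 2) ^ l := by positivity
  have hM : (0 : ℝ) < (1 / 2) ^ m := by positivity
  have he := Tl.ee_pos p j
  have h2 : 0 < Dn ((1 / 4) ^ j) (Ar.ee p j) w a b := KA.Dn_pos hw ha hb (by positivity)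
  have hal := KA.al_pos hw ha
  have hbe := KA.al_pos hw hb
  rw [h4] at a1 a2 b1
  have b2' := b2
  rw [h4] at b2
  have hy := sqrt_le_of hM b2
  have h9 := inv_le_of hL a1
  rw [← i4 l] at h9
  have h11 : al w a ≤ Dn ((1 / 4) ^ j) (Ar.ee p j) w a b := by
    unfold Dn
    have : 0 ≤ (1 / 4 : ℝ) ^ j * (al w b + Ar.ee p j ^ 2) := by positivity
    linarith only [this]
  have h12 : (Dn ((1 / 4) ^ j) (Ar.ee p j) w a b)⁻¹ ≤ 2 * 4 ^ l :=
    (inv_anti₀ hal h11).trans h9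
  have h6 : √(al w b) / Dn ((1 / 4) ^ j) (Ar.ee p j) w a b ≤ 3 * ((1 / 2) ^ m * 4 ^ l) := by
    calc _ = √(al w b) * (Dn ((1 / 4) ^ j) (Ar.ee p j) w a b)⁻¹ := by rw [div_eq_mul_inv]
      _ ≤ (1.5 * (1 / 2) ^ m) * (2 * 4 ^ l) := by (clear * - h2 hy h12; gcongr)
      _ = _ := by ring
  have h7 : Ar.ee p j / al w a * ((1 / 4) ^ j * (al w b + Ar.ee p j ^ 2) /
      Dn ((1 / 4) ^ j) (Ar.ee p j) w a b) ≤ 8 * (Ar.ee p j * 4 ^ l *
        min 1 ((1 / 4) ^ j * ((1 / 4) ^ m + Ar.ee p j ^ 2) * 4 ^ l)) := by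
    have h8 : (1 / 4) ^ j * (al w b + Ar.ee p j ^ 2) / Dn ((1 / 4) ^ j) (Ar.ee p j) w a b ≤
        4 * min 1 ((1 / 4) ^ j * ((1 / 4) ^ m + Ar.ee p j ^ 2) * 4 ^ l) := by
      rw [mul_min_of_nonneg _ _ (by norm_num : (0 : ℝ) ≤ 4)]
      apply le_min
      · rw [div_le_iff₀ h2]
        unfold Dn
        have : 0 ≤ (1 / 4 : ℝ) ^ j * (al w b + Ar.ee p j ^ 2) := by (clear * - he hbe; positivity)
        linarith only [hal, this]
      · calc _ = (1 / 4) ^ j * (al w b + Ar.ee p j ^ 2)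
            * (Dn ((1 / 4) ^ j) (Ar.ee p j) w a b)⁻¹ := by rw [div_eq_mul_inv]
          _ ≤ (1 / 4) ^ j * (2 * (1 / 4) ^ m + 2 * Ar.ee p j ^ 2) * (2 * 4 ^ l) := by
            gcongr
            nlinarith only []
          _ = _ := by ring
    calc _ = Ar.ee p j * (al w a)⁻¹ * ((1 / 4) ^ j * (al w b + Ar.ee p j ^ 2) /
      Dn ((1 / 4) ^ j) (Ar.ee p j) w a b) := by rw [div_eq_mul_inv]
      _ ≤ Ar.ee p j * (2 * 4 ^ l) *
        (4 * min 1 ((1 / 4) ^ j * ((1 / 4) ^ m + Ar.ee p j ^ 2) * 4 ^ l)) := by (clear * - he h2 hbe h9 h8; gcongr)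
      _ = _ := by ring
  unfold bS sN
  have h10 : 0 ≤ (1 / 2 : ℝ) ^ m * 4 ^ l := by positivity
  linarith only [h6, h7, h10]

theorem bS_D (h : IsCell p i m l w a b) (hml : l ≤ m + 3) :
    bS ((1 / 4) ^ j) (Ar.ee p j) w a b ≤ 192 * sD p j m := by
  obtain ⟨hw, ha, hb, a1, a2, b1, b2, qa⟩ := h
  have hL : (0 : ℝ) < (1 / 2) ^ l := by positivity
  have hM : (0 : ℝ) < (1 / 2) ^ m := by positivity
  have hML := pow_comp hml
  have he := Tl.ee_pos p j
  have h2 : 0 < Dn ((1 / 4) ^ j) (Ar.ee p j) w a b := KA.Dn_pos hw ha hb (by positivity)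
  have hal := KA.al_pos hw ha
  have hbe := KA.al_pos hw hb
  rw [h4] at a1 a2 b1 b2
  have hy := sqrt_le_of hM b2
  have hM8 : 0 < (1 / 2 : ℝ) ^ m / 8 := by positivity
  have a1' : ((1 / 2 : ℝ) ^ m / 8) ^ 2 ≤ 2 * al w a := by
    refine le_trans ?_ a1
    gcongr
    linarith only [hML]
  have h9 := inv_le_of hM8 a1'
  have h9' : 2 * (((1 / 2 : ℝ) ^ m / 8) ^ 2)⁻¹ = 128 * 4 ^ m := by
    rw [i4 m, div_pow]
    field_simp
    norm_num
  rw [h9'] at h9
  have h11 : al w a ≤ Dn ((1 / 4) ^ j) (Ar.ee p j) w a b := by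
    unfold Dn
    have : 0 ≤ (1 / 4 : ℝ) ^ j * (al w b + Ar.ee p j ^ 2) := by positivity
    linarith only [this]
  have h12 : (Dn ((1 / 4) ^ j) (Ar.ee p j) w a b)⁻¹ ≤ 128 * 4 ^ m :=
    (inv_anti₀ hal h11).trans h9
  have h24 : (1 / 2 : ℝ) ^ m * 4 ^ m = 2 ^ m := by
    rw [← mul_pow]
    norm_num
  have h6 : √(al w b) / Dn ((1 / 4) ^ j) (Ar.ee p j) w a b ≤ 192 * 2 ^ m := by
    calc _ = √(al w b) * (Dn ((1 / 4) ^ j) (Ar.ee p j) w a b)⁻¹ := by rw [div_eq_mul_inv]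
      _ ≤ (1.5 * (1 / 2) ^ m) * (128 * 4 ^ m) := by (clear * - h2 hy h12; gcongr)
      _ = 192 * ((1 / 2) ^ m * 4 ^ m) := by ring
      _ = _ := by rw [h24]
  have h7 : Ar.ee p j / al w a * ((1 / 4) ^ j * (al w b + Ar.ee p j ^ 2) /
      Dn ((1 / 4) ^ j) (Ar.ee p j) w a b) ≤ 128 * (Ar.ee p j * 4 ^ m) := by
    have h8 : (1 / 4) ^ j * (al w b + Ar.ee p j ^ 2) / Dn ((1 / 4) ^ j) (Ar.ee p j) w a b ≤ 1 := by
      rw [div_le_one h2]
      unfold Dn
      linarith only [hal]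
    calc _ ≤ Ar.ee p j / al w a * 1 := by (clear * - he hal h8; gcongr)
      _ = Ar.ee p j * (al w a)⁻¹ := by rw [mul_one, div_eq_mul_inv]
      _ ≤ Ar.ee p j * (128 * 4 ^ m) := by gcongr
      _ = _ := by ring
  unfold bS sD
  have h10 : 0 ≤ Ar.ee p j * 4 ^ m := by positivity
  linarith only [h6, h7, h10]

/-! ### Cells of the decomposition -/

lemma norm_dir {z : E3} (hz : 0 < ‖z‖) : ‖dir z‖ = 1 := by
  unfold dir
  rw [norm_smul, norm_inv, norm_norm, inv_mul_cancel₀ hz.ne']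

lemma shellI_pos {T₁ : ℝ} (hT : 0 < T₁) {k : ℕ} {z : E3} (h : shellI T₁ k z) : 0 < ‖z‖ := by
  have : 0 < T₁ * (1 / 2) ^ (k + 1) := by positivity
  exact this.trans h.1

lemma alI_low {m : ℕ} {x : ℝ} (h : alI m x) : (1 / 4) ^ m ≤ 2 * x := by
  have := h.1
  rw [pow_succ] at this
  linarith only [this]

lemma qa_of {p i : ℕ} {v : E3} (h : qI p i (q v)) : 1 - ‖u v‖ ^ 2 ≤ 4 / qq p i ^ 2 := by
  rw [norm_u_sq]
  have hQ := Tl.qq_pos p i
  have h1 : (qq p i / 2) ^ 2 ≤ q v ^ 2 := by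
    gcongr
    exact h.1.le
  have h2 : 4 / qq p i ^ 2 = ((qq p i / 2) ^ 2)⁻¹ := by
    field_simp
    norm_num
  rw [h2]
  exact inv_anti₀ (by positivity) h1

/-- Points of the cells. -/
lemma isCell_of {T₁ : ℝ} (hT : 0 < T₁) {p k m l i : ℕ} {z v V : E3} (hz : shellI T₁ k z)
    (hm : alI m (al (dir z) (u V))) (hl : alI l (al (dir z) (u v))) (hi : qI p i (q v)) :
    IsCell p i m l (dir z) (u v) (u V) where
  hw := norm_dir (shellI_pos hT hz)
  ha := norm_u_lt_one v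
  hb := norm_u_lt_one V
  a1 := alI_low hl
  a2 := hl.2
  b1 := alI_low hm
  b2 := hm.2
  qa := qa_of hi

lemma inv_norm_le {T₁ : ℝ} (hT : 1 ≤ T₁) {k : ℕ} {z : E3} (h : shellI T₁ k z) :
    ‖z‖⁻¹ ≤ 2 * 2 ^ k := by
  have h1 : (1 / 2 : ℝ) ^ k / 2 ≤ ‖z‖ := by
    refine le_trans ?_ h.1.le
    rw [pow_succ]
    have : (0 : ℝ) < (1 / 2) ^ k := by positivity
    nlinarith only [hT, this]
  have h2 : (2 : ℝ) * 2 ^ k = ((1 / 2 : ℝ) ^ k / 2)⁻¹ := by
    rw [inv_div, i2 k, div_eq_mul_inv (2 : ℝ)]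
  rw [h2]
  exact inv_anti₀ (by positivity) h1

/-! ### Every point is in a cell -/

end Vale.Agent.P107.CK
end
end
end

section

section

attribute [-instance] ProperSMul.toContinuousSMul IsTopologicalTorsor.toContinuousSMul
  IdemSemiring.toCanonicallyOrderedAdd IdemSemiring.toMulLeftMono IdemSemiring.toMulRightMono
  AddQuantale.instAddLeftMono AddQuantale.instAddRightMono Quantale.instMulLeftMono
  Quantale.instMulRightMono FiniteDimensional.rclike_to_real IsScalarTower.complexToReal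
  FiniteDimensional.complexToReal

section

/-!
Cauchy-Schwarz for cells with small velocity sections.
-/

open MeasureTheory Set Filter Topology
open scoped RealInnerProductSpace ENNReal NNReal

namespace Vale.Agent.P107

open Vale.Agent.P107.Ar

variable {T : ℝ} {f : ℝ → E3 → E3 → ℝ} {E B : ℝ → E3 → E3}

lemma fl_le_of_sup {ta : ℝ} {F₀ : ℝ≥0} (hF : ∀ t ∈ Ico ta T, ∀ x v, f t x v ≤ F₀)
    (τ : ℝ) (x v : E3) : fl ta T f τ x v ≤ F₀ := by
  unfold fl
  split_ifs with h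
  · have := hF τ ⟨h.1, h.2⟩ x v
    calc ENNReal.ofReal (f τ x v) ≤ ENNReal.ofReal (F₀ : ℝ) := ENNReal.ofReal_le_ofReal this
      _ = F₀ := ENNReal.ofReal_coe_nnreal
  · exact zero_le

/-- Cauchy-Schwarz for a set `c` whose velocity sections have volume at most `ν`, with a weight
`W (s, z)`, supported where `c` is. -/
theorem cs_cell (h : IsClassicalSolution T f E B) {t₀ : ℝ} (h0 : 0 < t₀) (h0T : t₀ < T) :
    ∃ C : ℝ≥0, ∀ (X : ℝ → E3) (t₁ t₂ : ℝ), t₀ ≤ t₁ → t₁ ≤ t₂ → t₂ < T →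
      ContinuousOn X (Icc t₁ t₂) → ∀ (c : Set (ℝ × E3 × E3)), MeasurableSet c →
      ∀ (ν : ℝ≥0∞), (∀ s z, volume {v | (s, z, v) ∈ c} ≤ ν) →
      ∀ (W : ℝ → E3 → ℝ≥0∞), Measurable (Function.uncurry W) →
      ∀ (A : Set (ℝ × E3)), MeasurableSet A → (∀ s z v, (s, z, v) ∈ c → (s, z) ∈ A) →
      pathInt (t₀ / 2) T f X t₁ t₂ (fun s z v => c.indicator (fun _ => W s z) (s, z, v))
        ≤ C * (∫⁻ s in Icc t₁ t₂, ∫⁻ z, A.indicator (fun _ => W s z ^ 2) (s, z)) ^ (1 / 2 : ℝ)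
          * (ν * mass (t₀ / 2) T f X t₁ t₂ c) ^ (1 / 2 : ℝ) := by
  obtain ⟨F₀, hF₀⟩ := exists_sup_bound h (ta := t₀ / 2) (by linarith only [h0]) (by linarith only [h0, h0T])
  refine ⟨F₀ ^ (1 / 2 : ℝ), ?_⟩
  intro X t₁ t₂ ht₁ h12 h2T hX c hc ν hν W hW A hA hcA
  -- a continuous extension of the path
  set X' : ℝ → E3 := IccExtend h12 ((Icc t₁ t₂).domRestrict X) with hX'
  have hX'c : Continuous X' := hX.domRestrict.Icc_extend'
  have hXX : ∀ s ∈ Icc t₁ t₂, X' s = X s := fun s hs => by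
    rw [hX', IccExtend_of_mem h12 _ hs]
    rfl
  set F : ℝ × E3 × E3 → ℝ≥0∞ := fun y =>
    fl (t₀ / 2) T f (y.1 - ‖y.2.1‖) (X' y.1 + y.2.1) y.2.2 with hF
  have hFm : Measurable F := by
    have hΨ : Continuous fun y : ℝ × E3 × E3 => (y.1 - ‖y.2.1‖, X' y.1 + y.2.1, y.2.2) := by
      have : Continuous fun y : ℝ × E3 × E3 => X' y.1 := hX'c.comp continuous_fst
      (clear * - hX'c; fun_prop)
    exact (measurable_fl h (ta := t₀ / 2) (by linarith only [h0])).comp hΨ.measurable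
  set g : ℝ × E3 → ℝ≥0∞ := fun y => ∫⁻ v, c.indicator (fun _ => (1 : ℝ≥0∞)) (y.1, y.2, v) *
    F (y.1, y.2, v) with hg
  have hcm : Measurable (c.indicator (fun _ => (1 : ℝ≥0∞))) := measurable_const.indicator hc
  have hassoc : Measurable fun y : (ℝ × E3) × E3 => (y.1.1, y.1.2, y.2) := by fun_prop
  have hgm : Measurable g := by
    have h1 : Measurable fun y : (ℝ × E3) × E3 =>
        c.indicator (fun _ => (1 : ℝ≥0∞)) (y.1.1, y.1.2, y.2) * F (y.1.1, y.1.2, y.2) :=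
      (hcm.comp hassoc).mul (hFm.comp hassoc)
    exact h1.lintegral_prod_right'
  set a : ℝ × E3 → ℝ≥0∞ := A.indicator (Function.uncurry W) with ha
  have ham : Measurable a := hW.indicator hA
  -- the two integrals
  have e1 : pathInt (t₀ / 2) T f X t₁ t₂ (fun s z v => c.indicator (fun _ => W s z) (s, z, v)) =
      ∫⁻ s in Icc t₁ t₂, ∫⁻ z, a (s, z) * g (s, z) := by
    unfold pathInt coneInt
    refine setLIntegral_congr_fun measurableSet_Icc fun s hs => ?_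
    refine lintegral_congr fun z => ?_
    have e2 : ∀ v, c.indicator (fun _ => W s z) (s, z, v) * fl (t₀ / 2) T f (s - ‖z‖) (X s + z) v =
        a (s, z) * (c.indicator (fun _ => (1 : ℝ≥0∞)) (s, z, v) * F (s, z, v)) := by
      intro v
      by_cases hv : (s, z, v) ∈ c
      · have hA' := hcA s z v hv
        rw [indicator_of_mem hv, indicator_of_mem hv, ha, indicator_of_mem hA', one_mul, hF]
        simp only [hXX s hs]
        rfl
      · rw [indicator_of_notMem hv, indicator_of_notMem hv, zero_mul, zero_mul, mul_zero]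
    simp_rw [e2]
    rw [lintegral_const_mul]
    exact (hcm.comp (by fun_prop : Measurable fun v : E3 => (s, z, v))).mul
      (hFm.comp (by fun_prop : Measurable fun v : E3 => (s, z, v)))
  have e3 : mass (t₀ / 2) T f X t₁ t₂ c = ∫⁻ s in Icc t₁ t₂, ∫⁻ z, g (s, z) := by
    unfold mass pathInt coneInt
    refine setLIntegral_congr_fun measurableSet_Icc fun s hs => ?_
    refine lintegral_congr fun z => ?_
    refine lintegral_congr fun v => ?_
    simp only [hF, hXX s hs]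
  set μ : Measure (ℝ × E3) := (volume.restrict (Icc t₁ t₂)).prod volume with hμ
  have p1 : ∫⁻ s in Icc t₁ t₂, ∫⁻ z, a (s, z) * g (s, z) = ∫⁻ y, a y * g y ∂μ := by
    have ham' : Measurable fun y => a y * g y := ham.mul hgm
    rw [hμ, lintegral_prod _ ham'.aemeasurable]
  have p2 : ∫⁻ s in Icc t₁ t₂, ∫⁻ z, g (s, z) = ∫⁻ y, g y ∂μ := by
    rw [hμ, lintegral_prod _ hgm.aemeasurable]
  have p3 : ∫⁻ s in Icc t₁ t₂, ∫⁻ z, A.indicator (fun _ => W s z ^ 2) (s, z) =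
      ∫⁻ y, a y ^ (2 : ℝ) ∂μ := by
    rw [hμ, lintegral_prod _ (ham.pow_const 2).aemeasurable]
    refine lintegral_congr fun s => lintegral_congr fun z => ?_
    by_cases hy : (s, z) ∈ A
    · rw [indicator_of_mem hy, ha, indicator_of_mem hy, ENNReal.rpow_two]
      rfl
    · rw [indicator_of_notMem hy, ha, indicator_of_notMem hy, ENNReal.zero_rpow_of_pos (by norm_num)]
  have hgle : ∀ y, g y ≤ F₀ * ν := by
    intro y
    calc g y ≤ ∫⁻ v, c.indicator (fun _ => (1 : ℝ≥0∞)) (y.1, y.2, v) * F₀ := by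
          refine lintegral_mono fun v => ?_
          gcongr
          exact fl_le_of_sup hF₀ _ _ _
      _ = F₀ * ∫⁻ v, c.indicator (fun _ => (1 : ℝ≥0∞)) (y.1, y.2, v) := by
          simp_rw [mul_comm _ (F₀ : ℝ≥0∞)]
          rw [lintegral_const_mul' _ _ ENNReal.coe_ne_top]
      _ ≤ F₀ * ν := by
          gcongr
          have hset : MeasurableSet {v : E3 | (y.1, y.2, v) ∈ c} :=
            hc.preimage (by fun_prop : Measurable fun v : E3 => (y.1, y.2, v))
          have e4 : ∀ v, c.indicator (fun _ => (1 : ℝ≥0∞)) (y.1, y.2, v) =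
              {v : E3 | (y.1, y.2, v) ∈ c}.indicator (fun _ => (1 : ℝ≥0∞)) v := by
            intro v
            by_cases hv : (y.1, y.2, v) ∈ c
            · rw [indicator_of_mem hv, indicator_of_mem (by exact hv)]
            · rw [indicator_of_notMem hv, indicator_of_notMem (by exact hv)]
          simp_rw [e4]
          rw [lintegral_indicator_const hset, one_mul]
          exact hν _ _
  have hg2 : ∫⁻ y, g y ^ (2 : ℝ) ∂μ ≤ F₀ * (ν * mass (t₀ / 2) T f X t₁ t₂ c) := by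
    rw [e3, p2, ← mul_assoc, ← lintegral_const_mul _ hgm]
    refine lintegral_mono fun y => ?_
    rw [ENNReal.rpow_two, pow_two]
    exact mul_le_mul_left (hgle y) _
  rw [e1, p1, p3]
  have hpq : (2 : ℝ).HolderConjugate 2 := Real.HolderConjugate.two_two
  have hCS := ENNReal.lintegral_mul_le_Lp_mul_Lq μ hpq ham.aemeasurable hgm.aemeasurable
  refine hCS.trans ?_
  have hlast : (∫⁻ y, g y ^ (2 : ℝ) ∂μ) ^ (1 / 2 : ℝ) ≤
      ((F₀ ^ (1 / 2 : ℝ) : ℝ≥0) : ℝ≥0∞) * (ν * mass (t₀ / 2) T f X t₁ t₂ c) ^ (1 / 2 : ℝ) := by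
    refine (ENNReal.rpow_le_rpow hg2 (by norm_num)).trans ?_
    rw [ENNReal.mul_rpow_of_nonneg _ _ (by norm_num), ENNReal.coe_rpow_of_nonneg _ (by norm_num)]
  calc (∫⁻ y, a y ^ (2 : ℝ) ∂μ) ^ (1 / 2 : ℝ) * (∫⁻ y, g y ^ (2 : ℝ) ∂μ) ^ (1 / 2 : ℝ) ≤
      (∫⁻ y, a y ^ (2 : ℝ) ∂μ) ^ (1 / 2 : ℝ) *
        (((F₀ ^ (1 / 2 : ℝ) : ℝ≥0) : ℝ≥0∞) * (ν * mass (t₀ / 2) T f X t₁ t₂ c) ^ (1 / 2 : ℝ)) := by
        (clear * - hlast; gcongr)
    _ = _ := by ring

end Vale.Agent.P107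
end
end
end
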