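import Mathlib
import Vale.Agent.P107.Bdl.B2

set_option linter.all false

section

section

attribute [-instance] ProperSMul.toContinuousSMul IsTopologicalTorsor.toContinuousSMul
  IdemSemiring.toCanonicallyOrderedAdd IdemSemiring.toMulLeftMono IdemSemiring.toMulRightMono
  AddQuantale.instAddLeftMono AddQuantale.instAddRightMono Quantale.instMulLeftMono
  Quantale.instMulRightMono FiniteDimensional.rclike_to_real IsScalarTower.complexToReal
  FiniteDimensional.complexToReal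

section

/-!
Uniqueness for late Maxwell fields, from Jefimenko's formula.
-/

open MeasureTheory Set Filter Topology
open scoped RealInnerProductSpace ENNReal NNReal ContDiff

namespace Vale.Agent.P107.LE

lemma SF.late_comp {W : ℝ × E3 → E3} (hW : SF W) {η : ℝ} (hη : 0 < η)
    (hv : ∀ p : ℝ × E3, p.1 ≤ η → W p = 0) (T : ℝ) (i : Fin 3) :
    Late T (fun y => W y i) := by
  refine ⟨?_, η, hη, fun p hp => by simp [hv p hp]⟩
  have h1 : ContDiff ℝ ∞ (fun y => W y i) := by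
    have := hW.smooth
    fun_prop
  exact (h1.of_le (by norm_cast)).contDiffOn

lemma lateC_zero (T : ℝ) : LateC T (fun _ : ℝ × E3 => (0 : ℝ)) :=
  ⟨continuousOn_const, fun _ _ => rfl⟩

lemma sph_real_pos : 0 < sph.real univ := by
  rw [Measure.toSphere_real_apply_univ, finrank_euclideanSpace_fin]
  have h1 : 0 < (volume : Measure E3).real (Metric.ball 0 1) :=
    ENNReal.toReal_pos (Metric.measure_ball_pos _ _ one_pos).ne' measure_ball_lt_top.ne
  positivity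

lemma pxd_neg (e : E3) (G : ℝ × E3 → ℝ) (p : ℝ × E3) :
    pxd e (fun y => - G y) p = - pxd e G p := by
  unfold pxd
  rw [fderiv_fun_neg]
  rfl

lemma ptd_neg (G : ℝ × E3 → ℝ) (p : ℝ × E3) :
    ptd (fun y => - G y) p = - ptd G p := by
  unfold ptd
  rw [fderiv_fun_neg]
  rfl

/-- Source free late Maxwell fields vanish before time `s`. -/
lemma mx_late_zero_aux {E B : Fin 3 → ℝ × E3 → ℝ} {s : ℝ}
    (hE : ∀ i, Late s (E i)) (hB : ∀ i, Late s (B i))
    (ampere : ∀ i, ∀ p ∈ Iio s ×ˢ (univ : Set E3), ptd (E i) p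
      = pxd (ee (i + 1)) (B (i + 2)) p - pxd (ee (i + 2)) (B (i + 1)) p)
    (faraday : ∀ i, ∀ p ∈ Iio s ×ˢ (univ : Set E3), ptd (B i) p
      = - (pxd (ee (i + 1)) (E (i + 2)) p - pxd (ee (i + 2)) (E (i + 1)) p))
    (gauss : ∀ p ∈ Iio s ×ˢ (univ : Set E3),
      0 = pxd (ee 0) (E 0) p + pxd (ee 1) (E 1) p + pxd (ee 2) (E 2) p)
    {t : ℝ} (ht : t < s) (x : E3) (i : Fin 3) : E i (t, x) = 0 := by
  have hz : ∀ p ∈ Iio s ×ˢ (univ : Set E3),
      HasDerivAt (fun r => (fun _ : ℝ × E3 => (0 : ℝ)) (r, p.2)) 0 p.1 :=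
    fun p _ => hasDerivAt_const _ _
  have hM : MaxwellLate s E B (fun _ _ => 0) (fun _ _ => 0) (fun _ _ => 0) (fun _ _ => 0)
      (fun _ => 0) (fun _ => 0) :=
    { hE := hE
      hB := hB
      hJ := fun _ => lateC_zero s
      hM := fun _ => lateC_zero s
      hR := lateC_zero s
      hJ' := fun _ => lateC_zero s
      hM' := fun _ => lateC_zero s
      hR' := lateC_zero s
      dJ := fun _ => hz
      dM := fun _ => hz
      dR := hz
      ampere := fun i p hp => by rw [ampere i p hp, sub_zero]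
      faraday := fun i p hp => by rw [faraday i p hp, sub_zero]
      gauss := gauss }
  have h := hM.jefimenko ht x i (i + 1) (i + 2) rfl rfl
  simp only [br, mul_zero, integral_zero, add_zero, sub_zero, neg_eq_zero, mul_eq_zero] at h
  exact h.resolve_left sph_real_pos.ne'

/-- W6. Uniqueness for late Maxwell fields (from Jefimenko's formula). -/
theorem mx_late_unique {E B : ℝ × E3 → E3} (hE : SF E) (hB : SF B) {η s : ℝ} (hη : 0 < η)
    (hv : ∀ p : ℝ × E3, p.1 ≤ η → E p = 0 ∧ B p = 0) {ρ : ℝ × E3 → ℝ} {j : ℝ × E3 → E3}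
    (hM : Mx univ E B ρ j) (hs : ∀ p : ℝ × E3, p.1 ≤ s → ρ p = 0 ∧ j p = 0) :
    ∀ p : ℝ × E3, p.1 ≤ s → E p = 0 ∧ B p = 0 := by
  have hEl := fun i => hE.late_comp hη (fun p hp => (hv p hp).1) s i
  have hBl := fun i => hB.late_comp hη (fun p hp => (hv p hp).2) s i
  have key : ∀ t < s, ∀ x : E3, E (t, x) = 0 ∧ B (t, x) = 0 := by
    intro t ht x
    constructor
    · ext i
      refine mx_late_zero_aux (E := fun i y => E y i) (B := fun i y => B y i) hEl hBl ?_ ?_ ?_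
        ht x i
      · intro i p hp
        have := hM.ampere p (mem_univ _) i
        rw [this, (hs p (le_of_lt hp.1)).2]
        simp
      · intro i p hp
        exact hM.faraday p (mem_univ _) i
      · intro p hp
        have := hM.gauss p (mem_univ _)
        rw [(hs p (le_of_lt hp.1)).1, Fin.sum_univ_three] at this
        exact this.symm
    · ext i
      refine mx_late_zero_aux (E := fun i y => B y i) (B := fun i y => - E y i) hBl ?_ ?_ ?_ ?_
        ht x i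
      · intro i
        obtain ⟨η', h1, h2⟩ := (hEl i).vanish
        exact ⟨(hEl i).contDiffOn.neg, η', h1, fun p hp => by simp [h2 p hp]⟩
      · intro i p hp
        rw [hM.faraday p (mem_univ _) i, pxd_neg, pxd_neg]
        ring
      · intro i p hp
        rw [ptd_neg, hM.ampere p (mem_univ _) i, (hs p (le_of_lt hp.1)).2]
        simp
      · intro p hp
        have := hM.gaussm p (mem_univ _)
        rw [Fin.sum_univ_three] at this
        exact this.symm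
  intro p hp
  rcases hp.lt_or_eq with h | h
  · exact key p.1 h p.2
  · have hcl : p.1 ∈ closure (Iio s) := by
      rw [closure_Iio]; exact hp
    have hcE : Continuous fun r : ℝ => E (r, p.2) := by
      have := hE.smooth.continuous
      fun_prop
    have hcB : Continuous fun r : ℝ => B (r, p.2) := by
      have := hB.smooth.continuous
      fun_prop
    constructor
    · have h1 : closure (Iio s) ⊆ {r : ℝ | E (r, p.2) = 0} :=
        closure_minimal (fun r hr => (key r hr p.2).1)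
          (isClosed_eq hcE continuous_const)
      exact h1 hcl
    · have h1 : closure (Iio s) ⊆ {r : ℝ | B (r, p.2) = 0} :=
        closure_minimal (fun r hr => (key r hr p.2).2)
          (isClosed_eq hcB continuous_const)
      exact h1 hcl

end Vale.Agent.P107.LE
end
end
end

section

section

attribute [-instance] ProperSMul.toContinuousSMul IsTopologicalTorsor.toContinuousSMul
  IdemSemiring.toCanonicallyOrderedAdd IdemSemiring.toMulLeftMono IdemSemiring.toMulRightMono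
  AddQuantale.instAddLeftMono AddQuantale.instAddRightMono Quantale.instMulLeftMono
  Quantale.instMulRightMono FiniteDimensional.rclike_to_real IsScalarTower.complexToReal
  FiniteDimensional.complexToReal

section

/-!
The Vlasov equation with given smooth fields, assuming the flow.
-/

open MeasureTheory Set Filter Topology
open scoped RealInnerProductSpace ENNReal NNReal ContDiff

namespace Vale.Agent.P107.LE

/-- `Z` is the flow of the characteristic system. -/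
def IsFlow (E B : ℝ × E3 → E3) (Z : ℝ × ℝ × (E3 × E3) → E3 × E3) : Prop :=
  ContDiff ℝ ∞ Z ∧ (∀ s z, Z (s, s, z) = z) ∧
      ∀ t s z, HasDerivAt (fun r => Z (r, s, z))
        (u (Z (t, s, z)).2,
          lor (E (t, (Z (t, s, z)).1)) (B (t, (Z (t, s, z)).1)) (Z (t, s, z)).2) t

/-! ### Bounds of the fields -/

lemma sf_bound {F : Type*} [NormedAddCommGroup F] [NormedSpace ℝ F] {W : ℝ × E3 → F}
    (h : SF W) (T : ℝ) : ∃ C : ℝ, 0 ≤ C ∧ ∀ p : ℝ × E3, |p.1| ≤ T → ‖W p‖ ≤ C := by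
  obtain ⟨C, hC⟩ := h.bdd 0 T
  refine ⟨max C 0, le_max_right _ _, fun p hp => ?_⟩
  have := hC p hp
  rw [norm_iteratedFDeriv_zero] at this
  exact this.trans (le_max_left _ _)

lemma sf_lip {F : Type*} [NormedAddCommGroup F] [NormedSpace ℝ F] {W : ℝ × E3 → F}
    (h : SF W) (T : ℝ) : ∃ C : ℝ, 0 ≤ C ∧ ∀ p p' : ℝ × E3, |p.1| ≤ T → |p'.1| ≤ T →
      ‖W p - W p'‖ ≤ C * (|p.1 - p'.1| + ‖p.2 - p'.2‖) := by
  obtain ⟨C, hC⟩ := h.bdd 1 T
  refine ⟨max C 0, le_max_right _ _, fun p p' hp hp' => ?_⟩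
  have hconv : Convex ℝ {p : ℝ × E3 | |p.1| ≤ T} := by
    have h1 : {p : ℝ × E3 | |p.1| ≤ T} = Prod.fst ⁻¹' (Icc (-T) T) := by
      ext p
      simp only [mem_ofPred_eq, mem_preimage, mem_Icc, abs_le]
    rw [h1]
    exact (convex_Icc (-T) T).linear_preimage (LinearMap.fst ℝ ℝ E3)
  have hd := h.smooth.differentiable (by simp)
  have h2 := hconv.norm_image_sub_le_of_norm_fderiv_le (f := W) (C := max C 0)
    (fun x _ => hd x) (fun x hx => ?_) hp' hp
  · refine h2.trans ?_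
    gcongr
    rw [Prod.norm_def]
    exact max_le (le_add_of_nonneg_right (norm_nonneg _)) (le_add_of_nonneg_left (abs_nonneg _))
  · have := hC x hx
    rw [norm_iteratedFDeriv_one] at this
    exact this.trans (le_max_left _ _)

lemma sf_lipField {E B : ℝ × E3 → E3} (hE : SF E) (hB : SF B) (T : ℝ) :
    ∃ K : ℝ, LipField (fun t x => E (t, x)) (fun t x => B (t, x)) (-T) T K := by
  obtain ⟨C1, h10, h1⟩ := sf_bound hE T
  obtain ⟨C2, h20, h2⟩ := sf_bound hB T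
  obtain ⟨C3, h30, h3⟩ := sf_lip hE T
  obtain ⟨C4, h40, h4⟩ := sf_lip hB T
  have ha : ∀ t ∈ Icc (-T) T, |t| ≤ T := fun t ht => abs_le.2 ht
  refine ⟨C1 + C2 + C3 + C4, by (clear * - h10 h20 h30 h40; positivity), ?_, ?_, ?_, ?_⟩
  · intro t ht x
    have := h1 (t, x) (ha t ht)
    linarith only [h20, h30, h40, this]
  · intro t ht x
    have := h2 (t, x) (ha t ht)
    linarith only [h10, h30, h40, this]
  · intro t ht t' ht' x x'
    refine (h3 (t, x) (t', x') (ha t ht) (ha t' ht')).trans ?_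
    gcongr
    linarith only [h10, h20, h40]
  · intro t ht t' ht' x x'
    refine (h4 (t, x) (t', x') (ha t ht) (ha t' ht')).trans ?_
    gcongr
    linarith only [h10, h20, h30]

/-! ### Characteristics -/

/-- `c` is a characteristic at the time `r`. -/
def Ch (E B : ℝ × E3 → E3) (c : ℝ → E3 × E3) (r : ℝ) : Prop :=
  HasDerivAt c (u (c r).2, lor (E (r, (c r).1)) (B (r, (c r).1)) (c r).2) r

lemma ch_unique {E B : ℝ × E3 → E3} (hE : SF E) (hB : SF B) {c c' : ℝ → E3 × E3}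
    (h : ∀ r, Ch E B c r) (h' : ∀ r, Ch E B c' r) {t₀ : ℝ} (h0 : c t₀ = c' t₀) : c = c' := by
  funext r
  set T : ℝ := |r| + |t₀| + 1 with hT
  obtain ⟨K, hK⟩ := sf_lipField hE hB T
  have hr := abs_le.1 (le_refl |r|)
  have ht₀ := abs_le.1 (le_refl |t₀|)
  have hr0 := abs_nonneg r
  have ht0 := abs_nonneg t₀
  have hK0 := hK.K_nonneg
  refine ODE_solution_unique_of_mem_Ioo (E := E3 × E3)
    (v := fun t z => (u z.2, lor (E (t, z.1)) (B (t, z.1)) z.2)) (s := fun _ => univ)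
    (K := (1 + 3 * K).toNNReal) (a := -T) (b := T) (t₀ := t₀) ?_ ⟨by linarith only [hr, ht₀], by linarith only [hr, ht₀]⟩
    (fun t _ => ⟨h t, mem_univ _⟩) (fun t _ => ⟨h' t, mem_univ _⟩) h0
    ⟨by linarith only [hr, ht₀], by linarith only [hr, ht₀]⟩
  intro t ht
  refine LipschitzOnWith.of_dist_le_mul fun z _ z' _ => ?_
  rw [dist_eq_norm, dist_eq_norm, Real.coe_toNNReal _ (by linarith only [hK0])]
  have := hK.lip (Ioo_subset_Icc_self ht) (Ioo_subset_Icc_self ht) z z'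
  rwa [sub_self, abs_zero, zero_add] at this

lemma norm_ch_le {E B : ℝ × E3 → E3} {c : ℝ → E3 × E3} {t₁ t₂ k : ℝ}
    (h : ∀ r ∈ Icc t₁ t₂, Ch E B c r)
    (hk : ∀ p : ℝ × E3, t₁ ≤ p.1 → p.1 ≤ t₂ → ‖E p‖ + ‖B p‖ ≤ k) {a b : ℝ}
    (ha : a ∈ Icc t₁ t₂) (hb : b ∈ Icc t₁ t₂) :
    ‖(c b).1 - (c a).1‖ ≤ |b - a| ∧ ‖(c b).2 - (c a).2‖ ≤ k * |b - a| := by
  constructor
  · have := (convex_Icc t₁ t₂).norm_image_sub_le_of_norm_hasDerivWithin_le
      (f := fun r => (c r).1) (f' := fun r => u (c r).2) (C := 1)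
      (fun r hr => ((hasFDerivAt_fst (p := c r)).comp_hasDerivAt r (h r hr)).hasDerivWithinAt)
      (fun r _ => (norm_u_lt_one _).le) ha hb
    rwa [one_mul] at this
  · exact (convex_Icc t₁ t₂).norm_image_sub_le_of_norm_hasDerivWithin_le
      (f := fun r => (c r).2) (f' := fun r => lor (E (r, (c r).1)) (B (r, (c r).1)) (c r).2)
      (C := k)
      (fun r hr => ((hasFDerivAt_snd (p := c r)).comp_hasDerivAt r (h r hr)).hasDerivWithinAt)
      (fun r hr => by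
        refine le_trans ?_ (hk (r, (c r).1) hr.1 hr.2)
        refine (norm_add_le _ _).trans ?_
        gcongr
        refine (norm_cross_le _ _).trans ?_
        have := (norm_u_lt_one (c r).2).le
        calc ‖u (c r).2‖ * ‖B (r, (c r).1)‖ ≤ 1 * ‖B (r, (c r).1)‖ := by (clear * - this; gcongr)
          _ = _ := one_mul _) ha hb

/-- Derivative of a function along a characteristic. -/
lemma hasDerivAt_along {E B : ℝ × E3 → E3} {f : ℝ × E3 × E3 → ℝ} (hf : ContDiff ℝ 1 f)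
    {c : ℝ → E3 × E3} {r : ℝ} (hc : Ch E B c r) :
    HasDerivAt (fun r => f (r, c r)) (fderiv ℝ f (r, (c r).1, (c r).2)
      (1, u (c r).2, lor (E (r, (c r).1)) (B (r, (c r).1)) (c r).2)) r := by
  have h1 : HasFDerivAt f (fderiv ℝ f (r, c r)) (r, c r) :=
    (hf.differentiable (by simp) _).hasFDerivAt
  have h2 : HasDerivAt (fun r => (r, c r))
      (1, u (c r).2, lor (E (r, (c r).1)) (B (r, (c r).1)) (c r).2) r :=
    (hasDerivAt_id r).prodMk hc
  exact h1.comp_hasDerivAt r h2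

/-- A solution of the Vlasov equation is constant along a characteristic. -/
lemma const_along {E B : ℝ × E3 → E3} {f : ℝ × E3 × E3 → ℝ} (hf : ContDiff ℝ 1 f)
    (hV : Vl E B f) {c : ℝ → E3 × E3} {s : ℝ} (hc : ∀ r ≤ s, Ch E B c r) {a b : ℝ} (ha : a ≤ s)
    (hb : b ≤ s) : f (a, c a) = f (b, c b) := by
  have hd : ∀ r ≤ s, HasDerivAt (fun r => f (r, c r)) 0 r := by
    intro r hr
    have := hasDerivAt_along hf (hc r hr)
    rwa [hV r (c r).1 (c r).2] at this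
  have key : ∀ a b : ℝ, a ≤ b → b ≤ s → f (b, c b) = f (a, c a) := by
    intro a b hab hbs
    exact constant_of_has_deriv_right_zero (f := fun r => f (r, c r)) (a := a) (b := b)
      (fun r hr => (hd r (hr.2.trans hbs)).continuousAt.continuousWithinAt)
      (fun r hr => (hd r (hr.2.le.trans hbs)).hasDerivWithinAt) b ⟨hab, le_rfl⟩
  rcases le_total a b with h | h
  · exact (key a b h hb).symm
  · exact key b a h ha

/-- V3. Uniqueness and causality of the linear Vlasov equation. -/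
theorem transport_unique_core {E B E' B' : ℝ × E3 → E3} (hflow : ∃ Z, IsFlow E B Z) {f f' : ℝ × E3 × E3 → ℝ} (hf : ContDiff ℝ 1 f) (hf' : ContDiff ℝ 1 f')
    (h : Vl E B f) (h' : Vl E' B' f') (h0 : ∀ z, f (0, z) = f' (0, z)) {s : ℝ} (hs : 0 ≤ s)
    (heq : ∀ p : ℝ × E3, p.1 ≤ s → E p = E' p ∧ B p = B' p) :
    ∀ t ≤ s, ∀ z, f (t, z) = f' (t, z) := by
  intro t ht z
  obtain ⟨Z, _, hZ0, hZd⟩ := hflow
  set c : ℝ → E3 × E3 := fun r => Z (r, t, z) with hc
  have hcd : ∀ r, Ch E B c r := fun r => hZd r t z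
  have hcd' : ∀ r ≤ s, Ch E' B' c r := by
    intro r hr
    have h1 := hcd r
    unfold Ch at h1 ⊢
    rw [(heq (r, (c r).1) hr).1, (heq (r, (c r).1) hr).2] at h1
    exact h1
  have hct : c t = z := hZ0 t z
  calc f (t, z) = f (t, c t) := by rw [hct]
    _ = f (0, c 0) := const_along hf h (s := s) (fun r _ => hcd r) ht hs
    _ = f' (0, c 0) := h0 _
    _ = f' (t, c t) := const_along hf' h' hcd' hs ht
    _ = f' (t, z) := by rw [hct]

/-- V4. Propagation of the support. -/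
theorem supp_growth_core {E B : ℝ × E3 → E3} (hflow : ∃ Z, IsFlow E B Z) {f : ℝ × E3 × E3 → ℝ}
    (hf : ContDiff ℝ 1 f) (h : Vl E B f) {k t₁ t₂ : ℝ} (h12 : t₁ ≤ t₂)
    (hk : ∀ p : ℝ × E3, t₁ ≤ p.1 → p.1 ≤ t₂ → ‖E p‖ + ‖B p‖ ≤ k) (x v : E3) :
    ∃ x' v' : E3, f (t₁, x', v') = f (t₂, x, v) ∧ ‖v' - v‖ ≤ k * (t₂ - t₁) ∧
      ‖x' - x‖ ≤ t₂ - t₁ := by
  obtain ⟨Z, _, hZ0, hZd⟩ := hflow
  set c : ℝ → E3 × E3 := fun r => Z (r, t₂, (x, v)) with hc
  have hcd : ∀ r, Ch E B c r := fun r => hZd r t₂ (x, v)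
  have hct : c t₂ = (x, v) := hZ0 t₂ _
  have h1 := norm_ch_le (fun r _ => hcd r) hk (a := t₂) (b := t₁) ⟨h12, le_rfl⟩ ⟨le_rfl, h12⟩
  rw [hct, abs_sub_comm, abs_of_nonneg (by linarith only [t₁, t₂, h12])] at h1
  refine ⟨(c t₁).1, (c t₁).2, ?_, h1.2, h1.1⟩
  have h2 := const_along hf h (s := t₂) (fun r _ => hcd r) h12 le_rfl
  rw [hct] at h2
  exact h2

/-- V5. Bounds for the transport equation with a source. -/
theorem transport_bound_core {E B : ℝ × E3 → E3} (hflow : ∃ Z, IsFlow E B Z)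
    (hE : SF E) (hB : SF B)
    {g h : ℝ × E3 × E3 → ℝ} (hg : ContDiff ℝ 1 g) {T a : ℝ} {b : ℝ → ℝ} (hb : Monotone b)
    (hgh : ∀ t x v, 0 ≤ t → t ≤ T →
      fderiv ℝ g (t, x, v) (1, u v, lor (E (t, x)) (B (t, x)) v) = h (t, x, v))
    (h0 : ∀ z, |g (0, z)| ≤ a) (hh : ∀ t z, 0 ≤ t → t ≤ T → |h (t, z)| ≤ b t) :
    ∀ t, 0 ≤ t → t ≤ T → ∀ z, |g (t, z)| ≤ a + ∫ s in (0 : ℝ)..t, b s := by
  intro t ht htT z
  obtain ⟨Z, _, hZ0, hZd⟩ := hflow
  set c : ℝ → E3 × E3 := fun r => Z (r, t, z) with hc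
  have hcd : ∀ r, Ch E B c r := fun r => hZd r t z
  have hct : c t = z := hZ0 t z
  have hcc : Continuous c := continuous_iff_continuousAt.2 fun r => (hcd r).continuousAt
  set D : ℝ → ℝ := fun r => fderiv ℝ g (r, (c r).1, (c r).2)
      (1, u (c r).2, lor (E (r, (c r).1)) (B (r, (c r).1)) (c r).2) with hD
  have hDc : Continuous D := by
    have h1 : Continuous fun r => (r, (c r).1, (c r).2) :=
      continuous_id.prodMk ((continuous_fst.comp hcc).prodMk (continuous_snd.comp hcc))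
    have h2 : Continuous fun r => E (r, (c r).1) :=
      hE.smooth.continuous.comp (continuous_id.prodMk (continuous_fst.comp hcc))
    have h3 : Continuous fun r => B (r, (c r).1) :=
      hB.smooth.continuous.comp (continuous_id.prodMk (continuous_fst.comp hcc))
    have h4 : Continuous fun r => u (c r).2 := u_contDiff.continuous.comp (continuous_snd.comp hcc)
    have h5 : Continuous fun r => lor (E (r, (c r).1)) (B (r, (c r).1)) (c r).2 := by
      unfold lor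
      refine h2.add ?_
      have h6 : Continuous fun p : E3 × E3 => cross p.1 p.2 := by
        unfold cross
        (clear * -; fun_prop)
      exact h6.comp (h4.prodMk h3)
    have h7 : Continuous fun r => fderiv ℝ g (r, (c r).1, (c r).2) :=
      (hg.continuous_fderiv (by simp)).comp h1
    exact h7.clm_apply (continuous_const.prodMk (h4.prodMk h5))
  have hFTC : ∫ r in (0 : ℝ)..t, D r = g (t, c t) - g (0, c 0) :=
    intervalIntegral.integral_eq_sub_of_hasDerivAt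
      (fun r _ => hasDerivAt_along (E := E) (B := B) hg (hcd r)) (hDc.intervalIntegrable _ _)
  have hint : ‖∫ r in (0 : ℝ)..t, D r‖ ≤ ∫ r in (0 : ℝ)..t, b r := by
    refine intervalIntegral.norm_integral_le_of_norm_le ht ?_ (hb.intervalIntegrable)
    refine Eventually.of_forall fun r hr => ?_
    rw [Real.norm_eq_abs, hD]
    simp only
    rw [hgh r _ _ hr.1.le (hr.2.trans htT)]
    exact hh r _ hr.1.le (hr.2.trans htT)
  rw [Real.norm_eq_abs, hFTC, hct] at hint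
  have h3 := h0 (c 0)
  have h4 : |g (t, z)| ≤ |g (t, z) - g (0, c 0)| + |g (0, c 0)| := by
    have := abs_add_le (g (t, z) - g (0, c 0)) (g (0, c 0))
    rwa [sub_add_cancel] at this
  linarith only [g, a, b, t, z, c, hint, h3, h4]

/-- V2. Solution of the linear Vlasov equation. -/
theorem exists_transport_core {E B : ℝ × E3 → E3} (hflow : ∃ Z, IsFlow E B Z)
    (hE : SF E) (hB : SF B) {f₀ : E3 × E3 → ℝ}
    (hf : ContDiff ℝ ∞ f₀) (hc : HasCompactSupport f₀) (h0 : ∀ z, 0 ≤ f₀ z) :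
    ∃ f : ℝ × E3 × E3 → ℝ, SD f ∧ Vl E B f ∧ (∀ z, f (0, z) = f₀ z) ∧ ∀ p, 0 ≤ f p := by
  obtain ⟨Z, hZs, hZ0, hZd⟩ := hflow
  set f : ℝ × E3 × E3 → ℝ := fun p => f₀ (Z (0, p.1, p.2)) with hfd
  have hfs : ContDiff ℝ ∞ f := by
    refine hf.comp (hZs.comp ?_)
    exact contDiff_const.prodMk (contDiff_fst.prodMk contDiff_snd)
  have hch : ∀ s z r, Ch E B (fun r => Z (r, s, z)) r := fun s z r => hZd r s z
  have hcomp : ∀ r s z, Z (0, r, Z (r, s, z)) = Z (0, s, z) := by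
    intro r s z
    have h1 := ch_unique hE hB (c := fun t => Z (t, r, Z (r, s, z))) (c' := fun t => Z (t, s, z))
      (hch r _) (hch s z) (t₀ := r) (hZ0 r _)
    exact congrFun h1 0
  refine ⟨f, ⟨hfs, ?_⟩, ?_, ?_, fun p => h0 _⟩
  · intro T
    obtain ⟨R₀, hR₀⟩ := hc.isCompact.isBounded.exists_norm_le
    obtain ⟨C1, h10, h1⟩ := sf_bound hE |T|
    obtain ⟨C2, h20, h2⟩ := sf_bound hB |T|
    refine ⟨max R₀ (‖(0 : ℝ)‖) + (1 + (C1 + C2)) * |T|, fun t x v ht hne => ?_⟩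
    have htT : |t| ≤ |T| := ht.trans (le_abs_self T)
    have hz : ‖Z (0, t, (x, v))‖ ≤ R₀ := hR₀ _ (subset_tsupport _ hne)
    set c : ℝ → E3 × E3 := fun r => Z (r, t, (x, v)) with hcdef
    have hct : c t = (x, v) := hZ0 t _
    have habs := abs_le.1 htT
    have hT0 := abs_nonneg T
    have hb := norm_ch_le (E := E) (B := B) (c := c) (t₁ := -|T|) (t₂ := |T|) (k := C1 + C2)
      (fun r _ => hch t (x, v) r)
      (fun p hp1 hp2 => add_le_add (h1 p (abs_le.2 ⟨hp1, hp2⟩)) (h2 p (abs_le.2 ⟨hp1, hp2⟩)))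
      (a := 0) (b := t) ⟨by linarith only [habs], by linarith only [habs]⟩ ⟨habs.1, habs.2⟩
    rw [hct, sub_zero] at hb
    have hz1 : ‖(c 0).1‖ ≤ R₀ := (norm_fst_le _).trans hz
    have hz2 : ‖(c 0).2‖ ≤ R₀ := (norm_snd_le _).trans hz
    have hmax := le_max_left R₀ ‖(0 : ℝ)‖
    constructor
    · have h5 : ‖x‖ ≤ ‖x - (c 0).1‖ + ‖(c 0).1‖ := by
        have := norm_add_le (x - (c 0).1) (c 0).1
        rwa [sub_add_cancel] at this
      have h6 : ‖x - (c 0).1‖ ≤ |t| := hb.1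
      nlinarith only [h10, h20, htT, habs, hb, hz1, hmax, h5]
    · have h5 : ‖v‖ ≤ ‖v - (c 0).2‖ + ‖(c 0).2‖ := by
        have := norm_add_le (v - (c 0).2) (c 0).2
        rwa [sub_add_cancel] at this
      have h6 : ‖v - (c 0).2‖ ≤ (C1 + C2) * |t| := hb.2
      have h7 : (C1 + C2) * |t| ≤ (C1 + C2) * |T| := by (clear * - h10 h20 htT; gcongr)
      nlinarith only [habs, hb, hz2, hmax, h5, h7]
  · intro t x v
    have h1 := hasDerivAt_along (E := E) (B := B) (hfs.of_le (by simp)) (hch t (x, v) t)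
    simp only [hZ0] at h1
    have h2 : (fun r => f (r, Z (r, t, (x, v)))) = fun _ => f₀ (Z (0, t, (x, v))) := by
      funext r
      simp only [hfd]
      rw [hcomp]
    rw [h2] at h1
    exact h1.unique (hasDerivAt_const _ _)
  · intro z
    simp only [hfd]
    rw [hZ0]

end Vale.Agent.P107.LE
end
end
end

section

section

attribute [-instance] ProperSMul.toContinuousSMul IsTopologicalTorsor.toContinuousSMul
  IdemSemiring.toCanonicallyOrderedAdd IdemSemiring.toMulLeftMono IdemSemiring.toMulRightMono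
  AddQuantale.instAddLeftMono AddQuantale.instAddRightMono Quantale.instMulLeftMono
  Quantale.instMulRightMono FiniteDimensional.rclike_to_real IsScalarTower.complexToReal
  FiniteDimensional.complexToReal

section

/-!
Complete smooth flows on finite-dimensional spaces.
-/

open Set Filter Topology
open scoped ContDiff Manifold

namespace Vale.Agent.P107.LE

variable {F : Type} [NormedAddCommGroup F] [NormedSpace ℝ F] [FiniteDimensional ℝ F]

omit [FiniteDimensional ℝ F] in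
lemma fg_hasMFDeriv {γ : ℝ → F} {w : F} {t : ℝ} :
    HasMFDerivAt 𝓘(ℝ, ℝ) 𝓘(ℝ, F) γ t ((1 : ℝ →L[ℝ] ℝ).smulRight w) ↔ HasDerivAt γ w t := by
  have h1 : HasMFDerivAt 𝓘(ℝ, ℝ) 𝓘(ℝ, F) γ t ((1 : ℝ →L[ℝ] ℝ).smulRight w) ↔
      HasFDerivAt γ ((1 : ℝ →L[ℝ] ℝ).smulRight w : ℝ →L[ℝ] F) t := hasMFDerivAt_iff_hasFDerivAt
  have h2 : ((1 : ℝ →L[ℝ] ℝ).smulRight w : ℝ →L[ℝ] F)
      = ContinuousLinearMap.toSpanSingleton ℝ w := by
    ext
    simp
  refine h1.trans ?_
  rw [hasDerivAt_iff_hasFDerivAt, h2]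

omit [FiniteDimensional ℝ F] in
lemma fg_curveOn {γ : ℝ → F} {g : F → F} {s : Set ℝ} (hs : IsOpen s) :
    IsMIntegralCurveOn (I := 𝓘(ℝ, F)) γ (fun x => (g x : TangentSpace 𝓘(ℝ, F) x)) s ↔
      ∀ t ∈ s, HasDerivAt γ (g (γ t)) t := by
  unfold IsMIntegralCurveOn
  constructor
  · intro h t ht
    exact fg_hasMFDeriv.1 ((h t ht).hasMFDerivAt (hs.mem_nhds ht))
  · intro h t ht
    exact (fg_hasMFDeriv.2 (h t ht)).hasMFDerivWithinAt

omit [FiniteDimensional ℝ F] in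
lemma fg_curve {γ : ℝ → F} {g : F → F} :
    IsMIntegralCurve (I := 𝓘(ℝ, F)) γ (fun x => (g x : TangentSpace 𝓘(ℝ, F) x)) ↔
      ∀ t, HasDerivAt γ (g (γ t)) t := by
  unfold IsMIntegralCurve
  exact forall_congr' fun t => fg_hasMFDeriv

omit [FiniteDimensional ℝ F] in
lemma fg_section {g : F → F} (hg : ContDiff ℝ 1 g) :
    ContMDiff 𝓘(ℝ, F) 𝓘(ℝ, F).tangent 1
      (fun x => (⟨x, (g x : TangentSpace 𝓘(ℝ, F) x)⟩ : TangentBundle 𝓘(ℝ, F) F)) :=
  contMDiff_vectorSpace_iff_contDiff.2 hg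

/-- Uniqueness of integral curves on intervals. -/
lemma fg_unique {g : F → F} (hg : ContDiff ℝ 1 g) {γ γ' : ℝ → F} {a b t₀ : ℝ}
    (ht₀ : t₀ ∈ Ioo a b) (h : ∀ t ∈ Ioo a b, HasDerivAt γ (g (γ t)) t)
    (h' : ∀ t ∈ Ioo a b, HasDerivAt γ' (g (γ' t)) t) (h0 : γ t₀ = γ' t₀) :
    EqOn γ γ' (Ioo a b) := by
  have : CompleteSpace F := FiniteDimensional.complete ℝ F
  exact isMIntegralCurveOn_Ioo_eqOn_of_contMDiff_boundaryless (I := 𝓘(ℝ, F)) ht₀ (fg_section hg)
    ((fg_curveOn isOpen_Ioo).2 h) ((fg_curveOn isOpen_Ioo).2 h') h0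

/-- A complete smooth vector field has a smooth global flow. -/
theorem complete_flow {g : F → F} (hg : ContDiff ℝ ∞ g)
    (hex : ∀ (p : F) (a : ℝ), ∃ γ : ℝ → F, γ 0 = p ∧ ∀ t ∈ Ioo (-a) a, HasDerivAt γ (g (γ t)) t) :
    ∃ Ψ : ℝ × F → F, ContDiff ℝ ∞ Ψ ∧ (∀ p, Ψ (0, p) = p) ∧
      ∀ t p, HasDerivAt (fun r => Ψ (r, p)) (g (Ψ (t, p))) t := by
  have hcomp : CompleteSpace F := FiniteDimensional.complete ℝ F
  have hg1 : ContDiff ℝ 1 g := hg.of_le (by simp)
  have hglob : ∀ p : F, ∃ γ : ℝ → F, γ 0 = p ∧ ∀ t, HasDerivAt γ (g (γ t)) t := by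
    intro p
    obtain ⟨γ, h0, h1⟩ := (exists_isMIntegralCurve_iff_exists_isMIntegralCurveOn_Ioo
      (I := 𝓘(ℝ, F)) (fg_section hg1) p).2 (by
        intro a
        obtain ⟨γ, h0, h1⟩ := hex p a
        exact ⟨γ, h0, (fg_curveOn isOpen_Ioo).2 h1⟩)
    exact ⟨γ, h0, fg_curve.1 h1⟩
  choose γ hγ0 hγ using hglob
  -- the group property
  have hgroup : ∀ (σ τ : ℝ) (p : F), γ p (τ + σ) = γ (γ p σ) τ := by
    intro σ τ p
    have h1 : ∀ t, HasDerivAt (fun r => γ p (r + σ)) (g (γ p (t + σ))) t := by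
      intro t
      exact (hγ p (t + σ)).comp_add_const t σ
    have h2 : (fun r => γ p (r + σ)) 0 = γ (γ p σ) 0 := by
      simp only [zero_add, hγ0]
    have h3 := fg_unique (a := -(|τ| + 1)) (b := |τ| + 1) (t₀ := 0) hg1
      (by constructor <;> linarith only [τ, abs_nonneg τ]) (fun t _ => h1 t)
      (fun t _ => hγ (γ p σ) t) h2
    exact h3 (by constructor <;> linarith only [τ, neg_abs_le τ, le_abs_self τ])
  -- local smoothness
  have hloc : ∀ y : F, ∃ ε > 0, ∃ W : Set F, IsOpen W ∧ y ∈ W ∧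
      ContDiffOn ℝ ∞ (fun p : ℝ × F => γ p.2 p.1) (Ioo (-ε) ε ×ˢ W) := by
    intro y
    obtain ⟨ε, hε, W, hW, hy, Φ, h0, h1, h2⟩ :=
      Vale.Agent.P255.exists_flow_smooth g univ isOpen_univ hg.contDiffOn y (mem_univ y)
    refine ⟨ε, hε, W, hW, hy, h2.congr ?_⟩
    rintro ⟨t, x⟩ ⟨ht, hx⟩
    have h3 := fg_unique (t₀ := 0) hg1 (by constructor <;> linarith) (fun t _ => hγ x t)
      (fun t ht => (h1 x hx t ht).2) (by rw [hγ0, h0 x hx])
    exact h3 ht
  -- smoothness in the initial point for fixed time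
  have hB : ∀ (p : F) (τ : ℝ), ContDiffAt ℝ ∞ (fun x => γ x τ) p := by
    intro p
    set B : Set ℝ := {τ | ContDiffAt ℝ ∞ (fun x => γ x τ) p} with hBdef
    have key : ∀ τ₀ : ℝ, ∃ ε > 0, ∀ σ ∈ Ioo (τ₀ - ε) (τ₀ + ε), σ ∈ B →
        ∀ τ ∈ Ioo (τ₀ - ε) (τ₀ + ε), τ ∈ B := by
      intro τ₀
      obtain ⟨ε, hε, W, hW, hy, hcd⟩ := hloc (γ p τ₀)
      have hcont : ContinuousAt (γ p) τ₀ := (hγ p τ₀).continuousAt
      obtain ⟨δ, hδ, hδW⟩ := Metric.eventually_nhds_iff.1 (hcont.eventually (hW.mem_nhds hy))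
      refine ⟨min (ε / 2) δ, lt_min (by linarith only [hε]) hδ, ?_⟩
      intro σ hσ hσB τ hτ
      have hm1 := min_le_left (ε / 2) δ
      have hm2 := min_le_right (ε / 2) δ
      have hσW : γ p σ ∈ W := by
        apply hδW
        rw [Real.dist_eq, abs_lt]
        constructor <;> linarith only [hm2, hσ.1, hσ.2]
      have hd : τ - σ ∈ Ioo (-ε) ε := by
        constructor <;> linarith only [hm1, hσ.2, hτ.1, hσ.1, hτ.2]
      have h1 : ContDiffAt ℝ ∞ (fun q : ℝ × F => γ q.2 q.1) (τ - σ, γ p σ) :=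
        hcd.contDiffAt ((isOpen_Ioo.prod hW).mem_nhds ⟨hd, hσW⟩)
      have h2 : ContDiffAt ℝ ∞ (fun x : F => ((τ - σ, γ x σ) : ℝ × F)) p :=
        contDiffAt_const.prodMk hσB
      have h3 := ContDiffAt.comp p (f := fun x : F => ((τ - σ, γ x σ) : ℝ × F)) h1 h2
      have h4 : ((fun q : ℝ × F => γ q.2 q.1) ∘ fun x : F => ((τ - σ, γ x σ) : ℝ × F))
          = fun x => γ x τ := by
        funext x
        simp only [Function.comp]
        rw [← hgroup]
        congr 1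
        ring
      rw [h4] at h3
      exact h3
    have hopen : IsOpen B := by
      rw [isOpen_iff_mem_nhds]
      intro τ₀ hτ₀
      obtain ⟨ε, hε, h⟩ := key τ₀
      have hmem : τ₀ ∈ Ioo (τ₀ - ε) (τ₀ + ε) := by constructor <;> linarith only [τ₀, ε, hε]
      exact mem_of_superset (Ioo_mem_nhds hmem.1 hmem.2) (h τ₀ hmem hτ₀)
    have hclosed : IsClosed B := by
      rw [← isOpen_compl_iff, isOpen_iff_mem_nhds]
      intro τ₀ hτ₀
      obtain ⟨ε, hε, h⟩ := key τ₀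
      have hmem : τ₀ ∈ Ioo (τ₀ - ε) (τ₀ + ε) := by constructor <;> linarith only [τ₀, ε, hε]
      refine mem_of_superset (Ioo_mem_nhds hmem.1 hmem.2) ?_
      intro σ hσ hσB
      exact hτ₀ (h σ hσ hσB τ₀ hmem)
    have hne : B.Nonempty := by
      refine ⟨0, ?_⟩
      have : (fun x => γ x 0) = id := by
        funext x
        rw [hγ0]
        rfl
      simp only [hBdef, mem_ofPred_eq]
      rw [this]
      exact contDiffAt_id
    have huniv := IsClopen.eq_univ ⟨hclosed, hopen⟩ hne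
    intro τ
    have : τ ∈ B := by rw [huniv]; trivial
    exact this
  refine ⟨fun q => γ q.2 q.1, ?_, fun p => hγ0 p, fun t p => hγ p t⟩
  rw [contDiff_iff_contDiffAt]
  rintro ⟨τ₀, p⟩
  obtain ⟨ε, hε, W, hW, hy, hcd⟩ := hloc (γ p τ₀)
  have h1 : ContDiffAt ℝ ∞ (fun q : ℝ × F => γ q.2 q.1) (0, γ p τ₀) :=
    hcd.contDiffAt ((isOpen_Ioo.prod hW).mem_nhds ⟨by constructor <;> linarith only [F, γ, τ₀, p, ε, hε], hy⟩)
  have h2 : ContDiffAt ℝ ∞ (fun q : ℝ × F => ((q.1 - τ₀, γ q.2 τ₀) : ℝ × F)) (τ₀, p) := by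
    refine ContDiffAt.prodMk (contDiffAt_fst.sub contDiffAt_const) ?_
    exact ContDiffAt.comp (τ₀, p) (g := fun x => γ x τ₀) (hB p τ₀) contDiffAt_snd
  have h1' : ContDiffAt ℝ ∞ (fun q : ℝ × F => γ q.2 q.1)
      ((fun q : ℝ × F => ((q.1 - τ₀, γ q.2 τ₀) : ℝ × F)) (τ₀, p)) := by
    simpa using h1
  have h3 := ContDiffAt.comp (τ₀, p) h1' h2
  have h4 : ((fun q : ℝ × F => γ q.2 q.1) ∘ fun q : ℝ × F => ((q.1 - τ₀, γ q.2 τ₀) : ℝ × F))
      = fun q : ℝ × F => γ q.2 q.1 := by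
    funext q
    simp only [Function.comp]
    rw [← hgroup]
    congr 1
    ring
  rw [h4] at h3
  exact h3

end Vale.Agent.P107.LE
end
end
end

section

section

attribute [-instance] ProperSMul.toContinuousSMul IsTopologicalTorsor.toContinuousSMul
  IdemSemiring.toCanonicallyOrderedAdd IdemSemiring.toMulLeftMono IdemSemiring.toMulRightMono
  AddQuantale.instAddLeftMono AddQuantale.instAddRightMono Quantale.instMulLeftMono
  Quantale.instMulRightMono FiniteDimensional.rclike_to_real IsScalarTower.complexToReal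
  FiniteDimensional.complexToReal

section

/-!
The characteristic flow of smooth fields.
-/

open MeasureTheory Set Filter Topology
open scoped RealInnerProductSpace ENNReal NNReal ContDiff

namespace Vale.Agent.P107.LE

lemma flow_contDiff_q : ContDiff ℝ ∞ q := by
  unfold q
  exact (contDiff_const.add (contDiff_norm_sq ℝ)).sqrt fun v => by positivity

lemma flow_contDiff_u : ContDiff ℝ ∞ u := by
  unfold u
  exact (flow_contDiff_q.inv fun v => (q_pos v).ne').smul contDiff_id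

lemma flow_contDiff_lor {X : Type*} [NormedAddCommGroup X] [NormedSpace ℝ X] {e b v : X → E3}
    (he : ContDiff ℝ ∞ e) (hb : ContDiff ℝ ∞ b) (hv : ContDiff ℝ ∞ v) :
    ContDiff ℝ ∞ (fun x => lor (e x) (b x) (v x)) := by
  unfold lor
  refine he.add ?_
  have hu : ContDiff ℝ ∞ (fun x => u (v x)) := flow_contDiff_u.comp hv
  have h1 : ∀ k : Fin 3, ContDiff ℝ ∞ (fun x => u (v x) k) := fun k =>
    (EuclideanSpace.proj k : E3 →L[ℝ] ℝ).contDiff.comp hu
  have h2 : ∀ k : Fin 3, ContDiff ℝ ∞ (fun x => b x k) := fun k =>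
    (EuclideanSpace.proj k : E3 →L[ℝ] ℝ).contDiff.comp hb
  rw [contDiff_euclidean]
  intro k
  simp only [cross_apply]
  exact ((h1 _).mul (h2 _)).sub ((h1 _).mul (h2 _))

/-- Solutions of nonautonomous equations with a field which is bounded on bounded time
intervals. -/
lemma flow_exists_sol {Z : Type} [NormedAddCommGroup Z] [NormedSpace ℝ Z] [FiniteDimensional ℝ Z]
    {h : ℝ × Z → Z} (hh : ContDiff ℝ 1 h)
    (hb : ∀ T : ℝ, ∃ L : ℝ, ∀ (t : ℝ) (z : Z), |t| ≤ T → ‖h (t, z)‖ ≤ L) (s : ℝ) (z : Z) {a : ℝ}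
    (ha : 0 < a) :
    ∃ α : ℝ → Z, α s = z ∧ ∀ t ∈ Ioo (s - a) (s + a), HasDerivAt α (h (t, α t)) t := by
  have hcomp : CompleteSpace Z := FiniteDimensional.complete ℝ Z
  obtain ⟨L, hL⟩ := hb (|s| + a)
  set L' : ℝ≥0 := Real.toNNReal L with hL'
  set a' : ℝ≥0 := Real.toNNReal a with ha'
  have haa : (a' : ℝ) = a := Real.coe_toNNReal a ha.le
  have habs : ∀ t ∈ Icc (s - a) (s + a), |t| ≤ |s| + a := by
    intro t ht
    have h1 : |t - s| ≤ a := by
      rw [abs_le]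
      constructor <;> linarith only [ht.1, ht.2]
    calc |t| = |(t - s) + s| := by ring_nf
      _ ≤ |t - s| + |s| := abs_add_le _ _
      _ ≤ |s| + a := by linarith only [h1]
  set K₀ : Set (ℝ × Z) := Icc (s - a) (s + a) ×ˢ Metric.closedBall z ((L' * a' : ℝ≥0) : ℝ) with hK₀
  have hK₀c : IsCompact K₀ := isCompact_Icc.prod (isCompact_closedBall _ _)
  have hK₀v : Convex ℝ K₀ := (convex_Icc _ _).prod (convex_closedBall _ _)
  obtain ⟨C, hC⟩ := hK₀c.exists_bound_of_continuousOn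
    (hh.continuous_fderiv one_ne_zero).continuousOn
  have hlip : LipschitzOnWith (Real.toNNReal C) h K₀ := by
    refine hK₀v.lipschitzOnWith_of_nnnorm_fderiv_le (𝕜 := ℝ)
      (fun x _ => hh.differentiable one_ne_zero x) ?_
    intro x hx
    rw [← NNReal.coe_le_coe, coe_nnnorm]
    exact (hC x hx).trans (Real.le_coe_toNNReal C)
  have hPL : IsPicardLindelof (fun t x => h (t, x))
      (⟨s, by constructor <;> linarith only [ha, s, a]⟩ : Icc (s - a) (s + a)) z (L' * a') 0 L'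
      (Real.toNNReal C) := by
    refine ⟨?_, ?_, ?_, ?_⟩
    · intro t ht
      rw [lipschitzOnWith_iff_dist_le_mul]
      intro x hx y hy
      have h1 := hlip.dist_le_mul (t, x) ⟨ht, hx⟩ (t, y) ⟨ht, hy⟩
      refine h1.trans ?_
      gcongr
      rw [Prod.dist_eq]
      simp
    · intro x _
      exact (hh.continuous.comp (by fun_prop)).continuousOn
    · intro t ht x _
      exact (hL t x (habs t ht)).trans (Real.le_coe_toNNReal L)
    · simp only [add_sub_cancel_left, sub_sub_cancel, max_self, NNReal.coe_zero, sub_zero,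
        NNReal.coe_mul, haa]
      exact le_rfl
  obtain ⟨α, h1, h2⟩ := hPL.exists_eq_forall_mem_Icc_hasDerivWithinAt₀
  refine ⟨α, h1, ?_⟩
  intro t ht
  exact (h2 t (Ioo_subset_Icc_self ht)).hasDerivAt (Icc_mem_nhds ht.1 ht.2)

/-- V1. The characteristic flow. -/
theorem exists_flow {E B : ℝ × E3 → E3} (hE : SF E) (hB : SF B) :
    ∃ Z : ℝ × ℝ × (E3 × E3) → E3 × E3, ContDiff ℝ ∞ Z ∧ (∀ s z, Z (s, s, z) = z) ∧
      ∀ t s z, HasDerivAt (fun r => Z (r, s, z))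
        (u (Z (t, s, z)).2,
          lor (E (t, (Z (t, s, z)).1)) (B (t, (Z (t, s, z)).1)) (Z (t, s, z)).2) t := by
  set h : ℝ × (E3 × E3) → E3 × E3 := fun y =>
    (u y.2.2, lor (E (y.1, y.2.1)) (B (y.1, y.2.1)) y.2.2) with hh
  set g : ℝ × (E3 × E3) → ℝ × (E3 × E3) := fun y => (1, h y) with hg
  have hpos : ContDiff ℝ ∞ fun y : ℝ × (E3 × E3) => ((y.1, y.2.1) : ℝ × E3) :=
    contDiff_fst.prodMk (contDiff_fst.comp contDiff_snd)
  have hmom : ContDiff ℝ ∞ fun y : ℝ × (E3 × E3) => y.2.2 := contDiff_snd.comp contDiff_snd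
  have hhs : ContDiff ℝ ∞ h := (flow_contDiff_u.comp hmom).prodMk
    (flow_contDiff_lor (hE.smooth.comp hpos) (hB.smooth.comp hpos) hmom)
  have hgs : ContDiff ℝ ∞ g := contDiff_const.prodMk hhs
  have hb : ∀ T : ℝ, ∃ L : ℝ, ∀ (t : ℝ) (z : E3 × E3), |t| ≤ T → ‖h (t, z)‖ ≤ L := by
    intro T
    obtain ⟨C₁, h1⟩ := hE.bdd 0 T
    obtain ⟨C₂, h2⟩ := hB.bdd 0 T
    refine ⟨max 1 (C₁ + C₂), ?_⟩
    intro t z ht
    rw [Prod.norm_def]
    refine max_le_max (norm_u_lt_one _).le ?_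
    refine (norm_lor_le _ _ _).trans (add_le_add ?_ ?_)
    · have := h1 (t, z.1) ht
      rwa [norm_iteratedFDeriv_zero] at this
    · have := h2 (t, z.1) ht
      rwa [norm_iteratedFDeriv_zero] at this
  obtain ⟨Ψ, hΨs, hΨ0, hΨ⟩ := complete_flow hgs (by
    rintro ⟨s, z⟩ a
    rcases le_or_gt a 0 with ha | ha
    · exact ⟨fun _ => (s, z), rfl, fun t ht => absurd (ht.1.trans ht.2) (by linarith only [ha])⟩
    · obtain ⟨α, h1, h2⟩ := flow_exists_sol (hhs.of_le (by simp)) hb s z ha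
      refine ⟨fun τ => (s + τ, α (s + τ)), by simp [h1], ?_⟩
      intro τ hτ
      have h3 := h2 (s + τ) (by constructor <;> linarith only [hτ.1, s, a, τ, hτ, hτ.2])
      have h4 : HasDerivAt (fun τ => s + τ) (1 : ℝ) τ := by
        simpa using (hasDerivAt_id τ).const_add s
      have h5 : HasDerivAt (fun τ => α (s + τ)) (h (s + τ, α (s + τ))) τ :=
        h3.comp_const_add s τ
      exact h4.prodMk h5)
  -- the time component
  have htime : ∀ (τ s : ℝ) (z : E3 × E3), (Ψ (τ, (s, z))).1 = s + τ := by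
    intro τ s z
    have h1 : ∀ t, HasDerivAt (fun r => (Ψ (r, (s, z))).1 - r) 0 t := by
      intro t
      have h2 : HasDerivAt (fun r => (Ψ (r, (s, z))).1) 1 t := (hΨ t (s, z)).fst
      have h3 := h2.sub (hasDerivAt_id' t)
      rw [sub_self] at h3
      exact h3
    have h3 : ∀ x y, (fun r => (Ψ (r, (s, z))).1 - r) x = (fun r => (Ψ (r, (s, z))).1 - r) y :=
      is_const_of_deriv_eq_zero (fun t => (h1 t).differentiableAt) (fun t => (h1 t).deriv)
    have h4 := h3 τ 0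
    simp only [hΨ0, sub_zero] at h4
    linarith only [h4]
  refine ⟨fun y => (Ψ (y.1 - y.2.1, (y.2.1, y.2.2))).2, ?_, ?_, ?_⟩
  · refine contDiff_snd.comp (hΨs.comp ?_)
    exact (contDiff_fst.sub (contDiff_fst.comp contDiff_snd)).prodMk
      ((contDiff_fst.comp contDiff_snd).prodMk (contDiff_snd.comp contDiff_snd))
  · intro s z
    simp only [sub_self, hΨ0]
  · intro t s z
    have h1 : HasDerivAt (fun r => Ψ (r, (s, z))) (g (Ψ (t - s, (s, z)))) (t - s) :=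
      hΨ (t - s) (s, z)
    have h2 : HasDerivAt (fun r => Ψ (r - s, (s, z))) (g (Ψ (t - s, (s, z)))) t :=
      h1.comp_sub_const t s
    have h3 : HasDerivAt (fun r => (Ψ (r - s, (s, z))).2) (g (Ψ (t - s, (s, z)))).2 t := h2.snd
    have h4 : (g (Ψ (t - s, (s, z)))).2
        = (u (Ψ (t - s, (s, z))).2.2, lor (E (t, (Ψ (t - s, (s, z))).2.1))
          (B (t, (Ψ (t - s, (s, z))).2.1)) (Ψ (t - s, (s, z))).2.2) := by
      simp only [hg, hh, htime]
      have h5 : s + (t - s) = t := by ring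
      rw [h5]
    rw [h4] at h3
    exact h3

end Vale.Agent.P107.LE
end
end
end

section

section

attribute [-instance] ProperSMul.toContinuousSMul IsTopologicalTorsor.toContinuousSMul
  IdemSemiring.toCanonicallyOrderedAdd IdemSemiring.toMulLeftMono IdemSemiring.toMulRightMono
  AddQuantale.instAddLeftMono AddQuantale.instAddRightMono Quantale.instMulLeftMono
  Quantale.instMulRightMono FiniteDimensional.rclike_to_real IsScalarTower.complexToReal
  FiniteDimensional.complexToReal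

section

/-!
The Vlasov equation with given smooth fields.
-/

open MeasureTheory Set Filter Topology
open scoped RealInnerProductSpace ENNReal NNReal ContDiff

namespace Vale.Agent.P107.LE

/-- V2. Solution of the linear Vlasov equation. -/
theorem exists_transport {E B : ℝ × E3 → E3} (hE : SF E) (hB : SF B) {f₀ : E3 × E3 → ℝ}
    (hf : ContDiff ℝ ∞ f₀) (hc : HasCompactSupport f₀) (h0 : ∀ z, 0 ≤ f₀ z) :
    ∃ f : ℝ × E3 × E3 → ℝ, SD f ∧ Vl E B f ∧ (∀ z, f (0, z) = f₀ z) ∧ ∀ p, 0 ≤ f p :=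
  exists_transport_core (exists_flow hE hB) hE hB hf hc h0

/-- V3. Uniqueness and causality of the linear Vlasov equation. -/
theorem transport_unique {E B E' B' : ℝ × E3 → E3} (hE : SF E) (hB : SF B) (hE' : SF E')
    (hB' : SF B') {f f' : ℝ × E3 × E3 → ℝ} (hf : ContDiff ℝ 1 f) (hf' : ContDiff ℝ 1 f')
    (h : Vl E B f) (h' : Vl E' B' f') (h0 : ∀ z, f (0, z) = f' (0, z)) {s : ℝ} (hs : 0 ≤ s)
    (heq : ∀ p : ℝ × E3, p.1 ≤ s → E p = E' p ∧ B p = B' p) :
    ∀ t ≤ s, ∀ z, f (t, z) = f' (t, z) :=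
  transport_unique_core (exists_flow hE hB) hf hf' h h' h0 hs heq

/-- V4. Propagation of the support. -/
theorem supp_growth {E B : ℝ × E3 → E3} (hE : SF E) (hB : SF B) {f : ℝ × E3 × E3 → ℝ}
    (hf : ContDiff ℝ 1 f) (h : Vl E B f) {k t₁ t₂ : ℝ} (h12 : t₁ ≤ t₂)
    (hk : ∀ p : ℝ × E3, t₁ ≤ p.1 → p.1 ≤ t₂ → ‖E p‖ + ‖B p‖ ≤ k) (x v : E3) :
    ∃ x' v' : E3, f (t₁, x', v') = f (t₂, x, v) ∧ ‖v' - v‖ ≤ k * (t₂ - t₁) ∧
      ‖x' - x‖ ≤ t₂ - t₁ :=
  supp_growth_core (exists_flow hE hB) hf h h12 hk x v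

/-- V5. Bounds for the transport equation with a source. -/
theorem transport_bound {E B : ℝ × E3 → E3} (hE : SF E) (hB : SF B)
    {g h : ℝ × E3 × E3 → ℝ} (hg : ContDiff ℝ 1 g) {T a : ℝ} {b : ℝ → ℝ} (hb : Monotone b)
    (hgh : ∀ t x v, 0 ≤ t → t ≤ T →
      fderiv ℝ g (t, x, v) (1, u v, lor (E (t, x)) (B (t, x)) v) = h (t, x, v))
    (h0 : ∀ z, |g (0, z)| ≤ a) (hh : ∀ t z, 0 ≤ t → t ≤ T → |h (t, z)| ≤ b t) :
    ∀ t, 0 ≤ t → t ≤ T → ∀ z, |g (t, z)| ≤ a + ∫ s in (0 : ℝ)..t, b s :=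
  transport_bound_core (exists_flow hE hB) hE hB hg hb hgh h0 hh

end Vale.Agent.P107.LE
end
end
end

section

section

attribute [-instance] ProperSMul.toContinuousSMul IsTopologicalTorsor.toContinuousSMul
  IdemSemiring.toCanonicallyOrderedAdd IdemSemiring.toMulLeftMono IdemSemiring.toMulRightMono
  AddQuantale.instAddLeftMono AddQuantale.instAddRightMono Quantale.instMulLeftMono
  Quantale.instMulRightMono FiniteDimensional.rclike_to_real IsScalarTower.complexToReal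
  FiniteDimensional.complexToReal

section

/-!
P107 module LE: the delay operator (smoothness, causality, bounds).
-/

open MeasureTheory Set Filter Topology
open scoped RealInnerProductSpace ENNReal NNReal ContDiff

namespace Vale.Agent.P107.LE

section slices

variable {X Y F : Type*} [NormedAddCommGroup X] [NormedSpace ℝ X] [NormedAddCommGroup Y]
  [NormedSpace ℝ Y] [NormedAddCommGroup F] [NormedSpace ℝ F]

lemma iteratedFDeriv_affine {f : Y → F} (hf : ContDiff ℝ ∞ f) (L : X →L[ℝ] Y) (c : Y) (n : ℕ)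
    (x : X) : iteratedFDeriv ℝ n (fun x => f (L x + c)) x
      = (iteratedFDeriv ℝ n f (L x + c)).compContinuousLinearMap (fun _ => L) := by
  have h1 : (fun x : X => f (L x + c)) = (fun z => f (z + c)) ∘ L := rfl
  have h2 : ContDiff ℝ ∞ (fun z => f (z + c)) := hf.comp (by fun_prop)
  rw [h1, L.iteratedFDeriv_comp_right h2 x (i := n) (by exact_mod_cast le_top),
    iteratedFDeriv_comp_add_right]

lemma norm_iteratedFDeriv_affine {f : Y → F} (hf : ContDiff ℝ ∞ f) (L : X →L[ℝ] Y)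
    (hL : ‖L‖ ≤ 1) (c : Y) (n : ℕ) (x : X) :
    ‖iteratedFDeriv ℝ n (fun x => f (L x + c)) x‖ ≤ ‖iteratedFDeriv ℝ n f (L x + c)‖ := by
  rw [iteratedFDeriv_affine hf]
  refine (ContinuousMultilinearMap.norm_compContinuousLinearMap_le _ _).trans ?_
  have : ∏ _i : Fin n, ‖L‖ ≤ 1 := by
    simp only [Finset.prod_const, Finset.card_univ, Fintype.card_fin]
    exact pow_le_one₀ (norm_nonneg _) hL
  exact mul_le_of_le_one_right (norm_nonneg _) this

lemma iteratedFDeriv_slice {Φ : X × Y → F} (hΦ : ContDiff ℝ ∞ Φ) (n : ℕ) (x : X) (y : Y) :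
    iteratedFDeriv ℝ n (fun x => Φ (x, y)) x
      = (iteratedFDeriv ℝ n Φ (x, y)).compContinuousLinearMap
          (fun _ => ContinuousLinearMap.inl ℝ X Y) := by
  have h := iteratedFDeriv_affine hΦ (ContinuousLinearMap.inl ℝ X Y) ((0 : X), y) n x
  simpa using h

lemma continuous_iteratedFDeriv_slice {Φ : X × Y → F} (hΦ : ContDiff ℝ ∞ Φ) (n : ℕ) :
    Continuous (fun p : X × Y => iteratedFDeriv ℝ n (fun x => Φ (x, p.2)) p.1) := by
  have h1 : (fun p : X × Y => iteratedFDeriv ℝ n (fun x => Φ (x, p.2)) p.1)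
      = fun p : X × Y => ContinuousMultilinearMap.compContinuousLinearMapL
          (fun _ : Fin n => ContinuousLinearMap.inl ℝ X Y) (iteratedFDeriv ℝ n Φ p) := by
    ext1 p
    rw [iteratedFDeriv_slice hΦ]
    rfl
  rw [h1]
  have h2 : Continuous (iteratedFDeriv ℝ n Φ) :=
    hΦ.continuous_iteratedFDeriv (by exact_mod_cast le_top)
  exact (ContinuousLinearMap.continuous _).comp h2

end slices

lemma contDiff_th : ContDiff ℝ ∞ th := bmp.contDiff_normed

lemma th_nonneg (s : ℝ) : 0 ≤ th s := bmp.nonneg_normed s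

lemma integral_th : ∫ s, th s = 1 := bmp.integral_normed

lemma th_eq_zero {s : ℝ} (hs : s ∉ Icc (1 : ℝ) 2) : th s = 0 := by
  have h1 : s ∉ Function.support th := by
    have : Function.support th = Metric.ball (3 / 2 : ℝ) bmp.rOut := bmp.support_normed_eq
    rw [this]
    intro h
    apply hs
    have h2 : bmp.rOut = 1 / 2 := rfl
    rw [h2, Real.ball_eq_Ioo] at h
    exact ⟨by linarith only [h.1], by linarith only [h.2]⟩
  simpa using h1

lemma hasCompactSupport_th : HasCompactSupport th := bmp.hasCompactSupport_normed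

lemma integrable_th : Integrable th := contDiff_th.continuous.integrable_of_hasCompactSupport hasCompactSupport_th

section delay

variable {ε : ℝ} {W : ℝ × E3 → E3}

lemma dl_integrable (hW : ContDiff ℝ ∞ W) (ε : ℝ) (p : ℝ × E3) :
    Integrable fun s => th s • W (max (p.1 - ε * s) 0, p.2) := by
  have hc : Continuous fun s => th s • W (max (p.1 - ε * s) 0, p.2) := by
    have h1 : Continuous W := hW.continuous
    have h2 : Continuous th := contDiff_th.continuous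
    exact h2.smul (h1.comp (by fun_prop))
  refine hc.integrable_of_hasCompactSupport ?_
  exact hasCompactSupport_th.smul_right

theorem dl_early {ε : ℝ} (hε : 0 < ε) {W : ℝ × E3 → E3} (hW : SF W) {p : ℝ × E3}
    (hp : p.1 ≤ ε) : dl ε W p = W (0, p.2) := by
  have h1 : (fun s => th s • W (max (p.1 - ε * s) 0, p.2)) = fun s => th s • W (0, p.2) := by
    ext1 s
    by_cases hs : s ∈ Icc (1 : ℝ) 2
    · have : max (p.1 - ε * s) 0 = 0 := max_eq_right (by nlinarith only [hε, hp, hs.1])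
      rw [this]
    · rw [th_eq_zero hs, zero_smul, zero_smul]
  unfold dl
  rw [h1, integral_smul_const, integral_th, one_smul]

theorem dl_congr {ε : ℝ} (hε : 0 < ε) {W W' : ℝ × E3 → E3} {s : ℝ} (hs : 0 ≤ s)
    (h : ∀ p : ℝ × E3, 0 ≤ p.1 → p.1 ≤ s → W p = W' p) {p : ℝ × E3} (hp : p.1 ≤ s + ε) :
    dl ε W p = dl ε W' p := by
  unfold dl
  congr 1
  ext1 r
  by_cases hr : r ∈ Icc (1 : ℝ) 2
  · rw [h _ (le_max_right _ _) (max_le (by nlinarith only [hε, hp, hr.1]) hs)]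
  · rw [th_eq_zero hr, zero_smul, zero_smul]

lemma norm_dl_le_of {G : Type*} [NormedAddCommGroup G] [NormedSpace ℝ G] {V : ℝ → G} {C : ℝ}
    (hC : ∀ s ∈ Icc (1 : ℝ) 2, ‖V s‖ ≤ C) : ‖∫ s, th s • V s‖ ≤ C := by
  have h2 : Integrable fun s => th s * C := integrable_th.mul_const C
  have h3 : ∀ s, ‖th s • V s‖ ≤ th s * C := by
    intro s
    by_cases hs : s ∈ Icc (1 : ℝ) 2
    · rw [norm_smul, Real.norm_of_nonneg (th_nonneg s)]
      exact mul_le_mul_of_nonneg_left (hC s hs) (th_nonneg s)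
    · rw [th_eq_zero hs]; simp
  calc ‖∫ s, th s • V s‖ ≤ ∫ s, th s * C :=
        norm_integral_le_of_norm_le h2 (Eventually.of_forall h3)
    _ = C := by rw [integral_mul_const, integral_th, one_mul]

lemma norm_dl_le_of_set {G : Type*} [NormedAddCommGroup G] [NormedSpace ℝ G] {V : ℝ → G} {C : ℝ}
    (hC : ∀ s ∈ Icc (1 : ℝ) 2, ‖V s‖ ≤ C) : ‖∫ s in Icc (1 : ℝ) 2, th s • V s‖ ≤ C := by
  rw [setIntegral_eq_integral_of_forall_compl_eq_zero]
  · exact norm_dl_le_of hC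
  · intro s hs
    rw [th_eq_zero hs, zero_smul]

theorem dl_bound {ε : ℝ} (hε : 0 < ε) {W : ℝ × E3 → E3} (hW : SF W) {p : ℝ × E3} {C : ℝ}
    (h : ∀ r : ℝ × E3, 0 ≤ r.1 → r.1 ≤ max p.1 0 → ‖W r‖ ≤ C) : ‖dl ε W p‖ ≤ C := by
  refine norm_dl_le_of fun s hs => h _ (le_max_right _ _) ?_
  exact max_le_max (by nlinarith only [hε, hs.1]) le_rfl

lemma convex_strip (a : ℝ) : Convex ℝ {r : ℝ × E3 | 0 ≤ r.1 ∧ r.1 ≤ a} := by
  have : {r : ℝ × E3 | 0 ≤ r.1 ∧ r.1 ≤ a} = Icc 0 a ×ˢ univ := by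
    ext r; simp
  rw [this]
  exact (convex_Icc 0 a).prod convex_univ

lemma lip_strip (hW : ContDiff ℝ ∞ W) {a C : ℝ}
    (h : ∀ r : ℝ × E3, 0 ≤ r.1 → r.1 ≤ a → ‖fderiv ℝ W r‖ ≤ C) {r r' : ℝ × E3}
    (h0 : 0 ≤ r.1) (h1 : r.1 ≤ a) (h0' : 0 ≤ r'.1) (h1' : r'.1 ≤ a) :
    ‖W r' - W r‖ ≤ C * ‖r' - r‖ :=
  (convex_strip a).norm_image_sub_le_of_norm_fderiv_le (𝕜 := ℝ)
    (fun x _ => (hW.differentiable (by simp)) x) (fun x hx => h x hx.1 hx.2)
    (show r ∈ {r : ℝ × E3 | 0 ≤ r.1 ∧ r.1 ≤ a} from ⟨h0, h1⟩) ⟨h0', h1'⟩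

theorem dl_close {ε : ℝ} (hε : 0 < ε) {W : ℝ × E3 → E3} (hW : SF W) {p : ℝ × E3}
    (hp : 0 ≤ p.1) {C : ℝ} (h : ∀ r : ℝ × E3, 0 ≤ r.1 → r.1 ≤ p.1 → ‖fderiv ℝ W r‖ ≤ C) :
    ‖dl ε W p - W p‖ ≤ 2 * ε * C := by
  have hC : 0 ≤ C := (norm_nonneg _).trans (h p hp le_rfl)
  have h1 : dl ε W p - W p = ∫ s, th s • (W (max (p.1 - ε * s) 0, p.2) - W p) := by
    have h2 : ∫ s, th s • W p = W p := by
      rw [integral_smul_const, integral_th, one_smul]
    have h3 : Integrable fun s => th s • W p := integrable_th.smul_const _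
    simp only [smul_sub]
    rw [integral_sub (dl_integrable hW.smooth ε p) h3, h2]
    rfl
  rw [h1]
  refine norm_dl_le_of fun s hs => ?_
  have h4 : max (p.1 - ε * s) 0 ≤ p.1 := max_le (by nlinarith only [hε, hs.1]) hp
  have h5 := lip_strip hW.smooth h hp le_rfl
    (show (0 : ℝ) ≤ ((max (p.1 - ε * s) 0, p.2) : ℝ × E3).1 from le_max_right _ _) h4
  refine h5.trans ?_
  have h6 : ‖((max (p.1 - ε * s) 0, p.2) : ℝ × E3) - p‖ ≤ 2 * ε := by
    rw [Prod.norm_def]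
    simp only [Prod.fst_sub, Prod.snd_sub, sub_self, norm_zero]
    refine max_le ?_ (by positivity)
    rw [Real.norm_eq_abs, abs_le]
    constructor
    · have := le_max_left (p.1 - ε * s) 0
      nlinarith only [hε, this, hs.2]
    · linarith only [hε, h4]
  nlinarith only [hC, h6]

/-- The delayed field as an integral over absolute times. -/
lemma dl_eq {ε : ℝ} (hε : 0 < ε) (W : ℝ × E3 → E3) {T : ℝ} {p : ℝ × E3}
    (hp : |p.1| < T) :
    dl ε W p = ∫ r in Icc (-T - 2 * ε) T, (ε⁻¹ * th ((p.1 - r) / ε)) • W (max r 0, p.2) := by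
  have hp' := abs_lt.1 hp
  have h1 : dl ε W p = ∫ s, (fun y => th ((p.1 - (p.1 - y)) / ε) • W (max (p.1 - y) 0, p.2))
      (ε * s) := by
    unfold dl
    congr 1
    ext1 s
    have : (p.1 - (p.1 - ε * s)) / ε = s := by field_simp; ring
    simp only [this]
  rw [h1, Measure.integral_comp_mul_left
      (fun y => th ((p.1 - (p.1 - y)) / ε) • W (max (p.1 - y) 0, p.2)) ε, abs_of_pos (inv_pos.2 hε),
    integral_sub_left_eq_self (fun r => th ((p.1 - r) / ε) • W (max r 0, p.2)) volume p.1,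
    ← integral_smul]
  rw [setIntegral_eq_integral_of_forall_compl_eq_zero]
  · congr 1
    ext1 r
    rw [smul_smul]
  · intro r hr
    have : (p.1 - r) / ε ∉ Icc (1 : ℝ) 2 := by
      intro h
      apply hr
      have h2 := (le_div_iff₀ hε).1 h.1
      have h3 := (div_le_iff₀ hε).1 h.2
      exact ⟨by linarith only [hp', h3], by linarith only [hε, hp', h2]⟩
    rw [th_eq_zero this, mul_zero, zero_smul]

/-- The kernel of the delay operator. -/
noncomputable def dk (ε : ℝ) (W : ℝ × E3 → E3) (z : (ℝ × E3) × ℝ × ℝ) : E3 :=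
  (ε⁻¹ * th ((z.1.1 - z.2.1) / ε)) • W (z.2.2, z.1.2)

lemma contDiff_dk (ε : ℝ) (hW : ContDiff ℝ ∞ W) : ContDiff ℝ ∞ (dk ε W) := by
  unfold dk
  have h1 : ContDiff ℝ ∞ fun z : (ℝ × E3) × ℝ × ℝ => th ((z.1.1 - z.2.1) / ε) :=
    contDiff_th.comp (by fun_prop)
  have h2 : ContDiff ℝ ∞ fun z : (ℝ × E3) × ℝ × ℝ => W (z.2.2, z.1.2) :=
    hW.comp (by fun_prop)
  exact (contDiff_const.mul h1).smul h2

lemma dk_bound {ε : ℝ} (hε : 0 < ε) (hW : SF W) (n : ℕ) (T : ℝ) :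
    ∃ C : ℝ, ∀ (p : ℝ × E3) (y : ℝ × ℝ), |y.2| ≤ T →
      ‖iteratedFDeriv ℝ n (fun p => dk ε W (p, y)) p‖ ≤ C := by
  have hk : ContDiff ℝ ∞ fun s => ε⁻¹ * th (s / ε) := by
    have : ContDiff ℝ ∞ fun s => th (s / ε) := contDiff_th.comp (by fun_prop)
    exact contDiff_const.mul this
  have hks : HasCompactSupport fun s => ε⁻¹ * th (s / ε) := by
    refine HasCompactSupport.intro (isCompact_Icc (a := ε) (b := 2 * ε)) fun s hs => ?_
    have : s / ε ∉ Icc (1 : ℝ) 2 := by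
      intro h
      apply hs
      have h2 := (le_div_iff₀ hε).1 h.1
      have h3 := (div_le_iff₀ hε).1 h.2
      exact ⟨by linarith only [h2], by linarith only [h3]⟩
    rw [th_eq_zero this, mul_zero]
  have hK : ∀ i : ℕ, ∃ C : ℝ, ∀ s, ‖iteratedFDeriv ℝ i (fun s => ε⁻¹ * th (s / ε)) s‖ ≤ C := by
    intro i
    obtain ⟨C, hC⟩ := (hks.iteratedFDeriv (𝕜 := ℝ) i).exists_bound_of_continuous
      (hk.continuous_iteratedFDeriv (by exact_mod_cast le_top))
    exact ⟨C, hC⟩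
  choose K hK using hK
  choose M hM using fun i => hW.bdd i T
  refine ⟨∑ i ∈ Finset.range (n + 1), (n.choose i : ℝ) * K i * M (n - i), fun p y hy => ?_⟩
  have hf : ContDiff ℝ ∞ fun p : ℝ × E3 => ε⁻¹ * th ((p.1 - y.1) / ε) := hk.comp (f := fun p : ℝ × E3 => p.1 - y.1) (by fun_prop)
  have hg : ContDiff ℝ ∞ fun p : ℝ × E3 => W (y.2, p.2) := hW.smooth.comp (by fun_prop)
  refine (norm_iteratedFDeriv_smul_le (N := ∞) hf hg p (n := n) (by exact_mod_cast le_top)).trans ?_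
  refine Finset.sum_le_sum fun i _ => ?_
  have e1 : ‖iteratedFDeriv ℝ i (fun p : ℝ × E3 => ε⁻¹ * th ((p.1 - y.1) / ε)) p‖ ≤ K i := by
    have := norm_iteratedFDeriv_affine hk (ContinuousLinearMap.fst ℝ ℝ E3)
      (ContinuousLinearMap.norm_fst_le ℝ ℝ E3) (-y.1) i p
    simp only [ContinuousLinearMap.coe_fst', ← sub_eq_add_neg] at this
    exact this.trans (hK i _)
  have e2 : ‖iteratedFDeriv ℝ (n - i) (fun p : ℝ × E3 => W (y.2, p.2)) p‖ ≤ M (n - i) := by
    have hL : ‖((ContinuousLinearMap.inr ℝ ℝ E3).comp (ContinuousLinearMap.snd ℝ ℝ E3))‖ ≤ 1 := by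
      refine ContinuousLinearMap.opNorm_le_bound _ zero_le_one fun z => ?_
      rw [one_mul]
      simp only [ContinuousLinearMap.comp_apply, ContinuousLinearMap.coe_snd',
        ContinuousLinearMap.inr_apply, Prod.norm_def, norm_zero]
      exact max_le ((norm_nonneg _).trans (le_max_left _ _)) (le_max_right _ _)
    have := norm_iteratedFDeriv_affine hW.smooth
      ((ContinuousLinearMap.inr ℝ ℝ E3).comp (ContinuousLinearMap.snd ℝ ℝ E3)) hL
      ((y.2, 0) : ℝ × E3) (n - i) p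
    simp only [ContinuousLinearMap.comp_apply, ContinuousLinearMap.coe_snd',
        ContinuousLinearMap.inr_apply, Prod.mk_add_mk, zero_add, add_zero] at this
    exact this.trans (hM (n - i) _ hy)
  have e3 : 0 ≤ K i := (norm_nonneg _).trans e1
  (clear * - e1 e2 e3; gcongr)

lemma dl_local {ε : ℝ} (hε : 0 < ε) (hW : SF W) (T : ℝ) :
    ContDiff ℝ ∞ (fun p : ℝ × E3 =>
        ∫ r in Icc (-T - 2 * ε) T, (ε⁻¹ * th ((p.1 - r) / ε)) • W (max r 0, p.2)) ∧
      ∀ n : ℕ, ∃ C : ℝ, ∀ p : ℝ × E3, ‖iteratedFDeriv ℝ n (fun p : ℝ × E3 =>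
        ∫ r in Icc (-T - 2 * ε) T, (ε⁻¹ * th ((p.1 - r) / ε)) • W (max r 0, p.2)) p‖ ≤ C := by
  have hcd := contDiff_dk ε hW.smooth
  have key := param_integral (X := ℝ × E3) (Y := ℝ) (F := E3)
    (μ := volume.restrict (Icc (-T - 2 * ε) T))
    (K := Icc (-T - 2 * ε) T) isCompact_Icc (by
      rw [Measure.restrict_apply measurableSet_Icc.compl]; simp)
    (h := fun p r => dk ε W (p, (r, max r 0)))
    (fun r => hcd.comp (by fun_prop))
    (fun n => by
      have h1 := continuous_iteratedFDeriv_slice hcd n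
      exact h1.comp (f := fun p : (ℝ × E3) × ℝ => (p.1, (p.2, max p.2 0))) (by fun_prop))
  refine ⟨key.1, fun n => ?_⟩
  obtain ⟨C, hC⟩ := dk_bound hε hW n |T|
  refine ⟨C * (volume.restrict (Icc (-T - 2 * ε) T)).real univ, fun p => ?_⟩
  have h2 := key.2 n p
  simp only [dk] at h2
  rw [h2]
  refine norm_integral_le_of_norm_le_const ?_
  rw [ae_restrict_iff' measurableSet_Icc]
  refine Eventually.of_forall fun r hr => ?_
  refine hC p (r, max r 0) ?_
  rw [abs_of_nonneg (le_max_right _ _)]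
  exact max_le (hr.2.trans (le_abs_self T)) (abs_nonneg T)

theorem dl_SF {ε : ℝ} (hε : 0 < ε) {W : ℝ × E3 → E3} (hW : SF W) : SF (dl ε W) := by
  have hev : ∀ (T : ℝ) (p : ℝ × E3), |p.1| < T → dl ε W =ᶠ[𝓝 p] fun p : ℝ × E3 =>
      ∫ r in Icc (-T - 2 * ε) T, (ε⁻¹ * th ((p.1 - r) / ε)) • W (max r 0, p.2) := by
    intro T p hp
    have : {q : ℝ × E3 | |q.1| < T} ∈ 𝓝 p :=
      (isOpen_lt (by fun_prop) continuous_const).mem_nhds hp
    filter_upwards [this] with q hq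
    exact dl_eq hε W hq
  refine ⟨?_, fun n T => ?_⟩
  · rw [contDiff_iff_contDiffAt]
    intro p
    exact (dl_local hε hW (|p.1| + 1)).1.contDiffAt.congr_of_eventuallyEq
      (hev _ p (lt_add_one _))
  · obtain ⟨C, hC⟩ := (dl_local hε hW (T + 1)).2 n
    refine ⟨C, fun p hp => ?_⟩
    rw [((hev (T + 1) p (by linarith only [hp])).iteratedFDeriv ℝ n).eq_of_nhds]
    exact hC p

lemma dl_fderiv_bound_aux {ε : ℝ} (hε : 0 < ε) {W : ℝ × E3 → E3} (hW : SF W) {p : ℝ × E3}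
    {C : ℝ} (h : ∀ r : ℝ × E3, 0 ≤ r.1 → r.1 ≤ max p.1 0 → ‖fderiv ℝ W r‖ ≤ C) (e : ℝ × E3)
    (he : e.1 ≤ 0) : ‖fderiv ℝ (dl ε W) p e‖ ≤ C * ‖e‖ := by
  have hC : 0 ≤ C := (norm_nonneg _).trans (h (0, 0) le_rfl (le_max_right _ _))
  have hd : HasDerivAt (fun τ : ℝ => dl ε W (p + τ • e)) (fderiv ℝ (dl ε W) p e) 0 := by
    have h1 : HasDerivAt (fun τ : ℝ => p + τ • e) e 0 := by
      simpa using ((hasDerivAt_id (0 : ℝ)).smul_const e).const_add p
    have h2 : DifferentiableAt ℝ (dl ε W) p := ((dl_SF hε hW).smooth.differentiable (by simp)) _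
    exact h2.hasFDerivAt.comp_hasDerivAt_of_eq (0 : ℝ) h1 (by simp)
  have hlip : ∀ τ : ℝ, 0 < τ → ‖dl ε W (p + τ • e) - dl ε W p‖ ≤ C * ‖e‖ * τ := by
    intro τ hτ
    have e1 : dl ε W (p + τ • e) - dl ε W p
        = ∫ s, th s • (W (max ((p + τ • e).1 - ε * s) 0, (p + τ • e).2)
            - W (max (p.1 - ε * s) 0, p.2)) := by
      simp only [smul_sub]
      rw [integral_sub (dl_integrable hW.smooth ε _) (dl_integrable hW.smooth ε _)]
      rfl
    rw [e1]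
    refine norm_dl_le_of fun s hs => ?_
    have a1 : max (p.1 - ε * s) 0 ≤ max p.1 0 := max_le_max (by nlinarith only [hε, hs.1]) le_rfl
    have a2 : max ((p + τ • e).1 - ε * s) 0 ≤ max p.1 0 := by
      refine max_le_max ?_ le_rfl
      simp only [Prod.fst_add, Prod.smul_fst, smul_eq_mul]
      nlinarith only [hε, he, hτ, hs.1]
    have e2 := lip_strip hW.smooth h
      (show (0 : ℝ) ≤ ((max (p.1 - ε * s) 0, p.2) : ℝ × E3).1 from le_max_right _ _) a1
      (show (0 : ℝ) ≤ ((max ((p + τ • e).1 - ε * s) 0, (p + τ • e).2) : ℝ × E3).1 from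
        le_max_right _ _) a2
    refine e2.trans ?_
    have e3 : ‖((max ((p + τ • e).1 - ε * s) 0, (p + τ • e).2) : ℝ × E3)
        - (max (p.1 - ε * s) 0, p.2)‖ ≤ τ * ‖e‖ := by
      rw [Prod.norm_def]
      simp only [Prod.fst_sub, Prod.snd_sub, Prod.fst_add, Prod.snd_add, Prod.smul_fst,
        Prod.smul_snd, smul_eq_mul, add_sub_cancel_left]
      refine max_le ?_ ?_
      · rw [Real.norm_eq_abs]
        refine (abs_max_sub_max_le_abs _ _ _).trans ?_
        have : p.1 + τ * e.1 - ε * s - (p.1 - ε * s) = τ * e.1 := by ring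
        rw [this, abs_mul, abs_of_pos hτ]
        exact mul_le_mul_of_nonneg_left (norm_fst_le e) hτ.le
      · rw [norm_smul, Real.norm_of_nonneg hτ.le]
        exact mul_le_mul_of_nonneg_left (norm_snd_le e) hτ.le
    calc C * _ ≤ C * (τ * ‖e‖) := mul_le_mul_of_nonneg_left e3 hC
      _ = _ := by ring
  have ht := hd.tendsto_slope.mono_left (nhdsWithin_mono (0 : ℝ)
    (show Ioi (0 : ℝ) ⊆ {0}ᶜ from fun x hx => ne_of_gt hx))
  refine le_of_tendsto ht.norm ?_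
  filter_upwards [self_mem_nhdsWithin] with τ hτ
  have hτ' : (0 : ℝ) < τ := hτ
  rw [slope_def_module, norm_smul, sub_zero, norm_inv, Real.norm_of_nonneg hτ'.le]
  have h4 := hlip τ hτ'
  simp only [zero_smul, add_zero]
  rw [inv_mul_le_iff₀ hτ']
  linarith only [h4]

theorem dl_fderiv_bound {ε : ℝ} (hε : 0 < ε) {W : ℝ × E3 → E3} (hW : SF W) {p : ℝ × E3}
    {C : ℝ} (h : ∀ r : ℝ × E3, 0 ≤ r.1 → r.1 ≤ max p.1 0 → ‖fderiv ℝ W r‖ ≤ C) :
    ‖fderiv ℝ (dl ε W) p‖ ≤ C := by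
  have hC : 0 ≤ C := (norm_nonneg _).trans (h (0, 0) le_rfl (le_max_right _ _))
  refine ContinuousLinearMap.opNorm_le_bound _ hC fun e => ?_
  rcases le_total e.1 0 with he | he
  · exact dl_fderiv_bound_aux hε hW h e he
  · have := dl_fderiv_bound_aux hε hW h (-e) (by simpa using he)
    simpa using this

theorem dl_hess_bound {ε : ℝ} (hε : 0 < ε) {W : ℝ × E3 → E3} (hW : SF W) {t C : ℝ}
    (h : ∀ r : ℝ, 0 ≤ r → r ≤ max t 0 → ∀ x, ‖iteratedFDeriv ℝ 2 (fun y => W (r, y)) x‖ ≤ C)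
    (x : E3) : ‖iteratedFDeriv ℝ 2 (fun y => dl ε W (t, y)) x‖ ≤ C := by
  have hΦ : ContDiff ℝ ∞ fun z : E3 × ℝ × ℝ => th z.2.1 • W (z.2.2, z.1) :=
    (contDiff_th.comp (by fun_prop)).smul (hW.smooth.comp (by fun_prop))
  have key := param_integral (X := E3) (Y := ℝ) (F := E3)
    (μ := volume.restrict (Icc (1 : ℝ) 2))
    (K := Icc (1 : ℝ) 2) isCompact_Icc (by
      rw [Measure.restrict_apply measurableSet_Icc.compl]; simp)
    (h := fun y s => th s • W (max (t - ε * s) 0, y))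
    (fun s => hΦ.comp (f := fun y : E3 => (y, (s, max (t - ε * s) 0))) (by fun_prop))
    (fun n => by
      have h1 := continuous_iteratedFDeriv_slice hΦ n
      exact h1.comp (f := fun p : E3 × ℝ => (p.1, (p.2, max (t - ε * p.2) 0))) (by fun_prop))
  have e1 : (fun y => dl ε W (t, y))
      = fun y => ∫ s in Icc (1 : ℝ) 2, th s • W (max (t - ε * s) 0, y) := by
    ext1 y
    rw [setIntegral_eq_integral_of_forall_compl_eq_zero]
    · rfl
    · intro s hs
      rw [th_eq_zero hs, zero_smul]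
  rw [e1, key.2 2 x]
  have hC : 0 ≤ C := (norm_nonneg _).trans (h 0 le_rfl (le_max_right _ _) 0)
  have e2 : ∀ s, iteratedFDeriv ℝ 2 (fun y => th s • W (max (t - ε * s) 0, y)) x
      = th s • iteratedFDeriv ℝ 2 (fun y => W (max (t - ε * s) 0, y)) x := by
    intro s
    have h1 : ContDiff ℝ ∞ fun y => W (max (t - ε * s) 0, y) := hW.smooth.comp (by fun_prop)
    have h2 : ContDiffAt ℝ (2 : ℕ) (fun y => W (max (t - ε * s) 0, y)) x :=
      (h1.of_le (WithTop.coe_le_coe.mpr le_top)).contDiffAt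
    exact iteratedFDeriv_const_smul_apply' h2
  simp only [e2]
  refine norm_dl_le_of_set (G := ContinuousMultilinearMap ℝ (fun _ : Fin 2 => E3) E3) fun s hs => ?_
  exact h _ (le_max_right _ _) (max_le_max (by nlinarith only [hε, hs.1]) le_rfl) x

end delay

end Vale.Agent.P107.LE
end
end
end

section

section

attribute [-instance] ProperSMul.toContinuousSMul IsTopologicalTorsor.toContinuousSMul
  IdemSemiring.toCanonicallyOrderedAdd IdemSemiring.toMulLeftMono IdemSemiring.toMulRightMono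
  AddQuantale.instAddLeftMono AddQuantale.instAddRightMono Quantale.instMulLeftMono
  Quantale.instMulRightMono FiniteDimensional.rclike_to_real IsScalarTower.complexToReal
  FiniteDimensional.complexToReal

section

/-!
P107 module LE: velocity moments of smooth densities and the continuity equation.
-/

open MeasureTheory Set Filter Topology
open scoped RealInnerProductSpace ENNReal NNReal ContDiff

namespace Vale.Agent.P107.LE

section mom

variable {F : Type*} [NormedAddCommGroup F] [NormedSpace ℝ F]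

/-- The moment of `g` with weight `w`. -/
noncomputable def mom (g : ℝ × E3 × E3 → ℝ) (w : E3 → F) (p : ℝ × E3) : F :=
  ∫ v, g (p.1, p.2, v) • w v

lemma mom_phi_smooth {g : ℝ × E3 × E3 → ℝ} (hg : ContDiff ℝ ∞ g) {w : E3 → F}
    (hw : ContDiff ℝ ∞ w) :
    ContDiff ℝ ∞ fun z : (ℝ × E3) × E3 => g (z.1.1, z.1.2, z.2) • w z.2 :=
  (hg.comp (by fun_prop)).smul (hw.comp (by fun_prop))

lemma mom_eq {g : ℝ × E3 × E3 → ℝ} (w : E3 → F) {p : ℝ × E3} {R : ℝ}
    (hR : ∀ v, g (p.1, p.2, v) ≠ 0 → ‖v‖ ≤ R) :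
    mom g w p = ∫ v in Metric.closedBall (0 : E3) R, g (p.1, p.2, v) • w v := by
  rw [setIntegral_eq_integral_of_forall_compl_eq_zero]
  · rfl
  · intro v hv
    have : g (p.1, p.2, v) = 0 := by
      by_contra h
      exact hv (by simpa using hR v h)
    rw [this, zero_smul]

variable [CompleteSpace F]

lemma mom_local {g : ℝ × E3 × E3 → ℝ} (hg : ContDiff ℝ ∞ g) {w : E3 → F}
    (hw : ContDiff ℝ ∞ w) (R : ℝ) :
    ContDiff ℝ ∞ (fun p : ℝ × E3 =>
        ∫ v in Metric.closedBall (0 : E3) R, g (p.1, p.2, v) • w v) ∧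
      ∀ (n : ℕ) (p : ℝ × E3), iteratedFDeriv ℝ n (fun p : ℝ × E3 =>
        ∫ v in Metric.closedBall (0 : E3) R, g (p.1, p.2, v) • w v) p
        = ∫ v in Metric.closedBall (0 : E3) R,
            iteratedFDeriv ℝ n (fun p : ℝ × E3 => g (p.1, p.2, v) • w v) p := by
  have hΦ := mom_phi_smooth hg hw
  have : IsFiniteMeasure (volume.restrict (Metric.closedBall (0 : E3) R)) :=
    ⟨by rw [Measure.restrict_apply_univ]; exact measure_closedBall_lt_top⟩
  exact param_integral (X := ℝ × E3) (Y := E3) (F := F)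
    (μ := volume.restrict (Metric.closedBall (0 : E3) R))
    (K := Metric.closedBall (0 : E3) R) (isCompact_closedBall _ _) (by
      rw [Measure.restrict_apply measurableSet_closedBall.compl]; simp)
    (h := fun p v => g (p.1, p.2, v) • w v)
    (fun v => hΦ.comp (f := fun p : ℝ × E3 => (p, v)) (by fun_prop))
    (fun n => continuous_iteratedFDeriv_slice hΦ n)

lemma mom_ev {g : ℝ × E3 × E3 → ℝ} (w : E3 → F) {T R : ℝ}
    (hR : ∀ (t : ℝ) (x v : E3), |t| ≤ T → g (t, x, v) ≠ 0 → ‖x‖ ≤ R ∧ ‖v‖ ≤ R) {p : ℝ × E3}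
    (hp : |p.1| < T) : mom g w =ᶠ[𝓝 p] fun p : ℝ × E3 =>
        ∫ v in Metric.closedBall (0 : E3) R, g (p.1, p.2, v) • w v := by
  have : {q : ℝ × E3 | |q.1| < T} ∈ 𝓝 p :=
    (isOpen_lt (by fun_prop) continuous_const).mem_nhds hp
  filter_upwards [this] with q hq
  exact mom_eq w fun v hv => (hR q.1 q.2 v (le_of_lt hq) hv).2

theorem mom_smooth {g : ℝ × E3 × E3 → ℝ} (hg : SD g) {w : E3 → F} (hw : ContDiff ℝ ∞ w) :
    ContDiff ℝ ∞ (mom g w) := by
  rw [contDiff_iff_contDiffAt]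
  intro p
  obtain ⟨R, hR⟩ := hg.supp (|p.1| + 1)
  exact (mom_local hg.smooth hw R).1.contDiffAt.congr_of_eventuallyEq
    (mom_ev w hR (lt_add_one _))

theorem mom_SF {g : ℝ × E3 × E3 → ℝ} (hg : SD g) {w : E3 → F} (hw : ContDiff ℝ ∞ w) :
    SF (mom g w) := by
  have hs := mom_smooth hg hw
  refine ⟨hs, fun n T => ?_⟩
  obtain ⟨R, hR⟩ := hg.supp (T + 1)
  have hcomp : IsCompact (Icc (-T) T ×ˢ Metric.closedBall (0 : E3) R) :=
    isCompact_Icc.prod (isCompact_closedBall _ _)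
  obtain ⟨C, hC⟩ := hcomp.exists_bound_of_continuousOn
    (hs.continuous_iteratedFDeriv (m := n) (by exact_mod_cast le_top)).continuousOn
  refine ⟨max C 0, fun p hp => ?_⟩
  by_cases hx : ‖p.2‖ ≤ R
  · refine (hC p ⟨⟨?_, ?_⟩, by simpa using hx⟩).trans (le_max_left _ _)
    · exact (abs_le.1 hp).1
    · exact (abs_le.1 hp).2
  · push Not at hx
    have hev : mom g w =ᶠ[𝓝 p] fun _ => (0 : F) := by
      have h1 : {q : ℝ × E3 | |q.1| < T + 1} ∈ 𝓝 p :=
        (isOpen_lt (by fun_prop) continuous_const).mem_nhds (by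
          simp only [mem_ofPred_eq]; linarith only [hp])
      have h2 : {q : ℝ × E3 | R < ‖q.2‖} ∈ 𝓝 p :=
        (isOpen_lt continuous_const (by fun_prop)).mem_nhds hx
      filter_upwards [h1, h2] with q hq1 hq2
      have : ∀ v, g (q.1, q.2, v) • w v = 0 := by
        intro v
        have : g (q.1, q.2, v) = 0 := by
          by_contra h
          have h1' : |q.1| < T + 1 := hq1
          have h2' : R < ‖q.2‖ := hq2
          linarith only [hq2, (hR q.1 q.2 v h1'.le h).1]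
        rw [this, zero_smul]
      unfold mom
      simp only [this, integral_zero]
    rw [(hev.iteratedFDeriv ℝ n).eq_of_nhds]
    have : iteratedFDeriv ℝ n (fun _ : ℝ × E3 => (0 : F)) p = 0 := by
      have h0 := iteratedFDeriv_fun_zero (𝕜 := ℝ) (E := ℝ × E3) (F := F) (n := n)
      exact congrFun h0 p
    rw [this, norm_zero]
    exact le_max_right _ _

theorem mom_fderiv {g : ℝ × E3 × E3 → ℝ} (hg : SD g) {w : E3 → F} (hw : ContDiff ℝ ∞ w)
    (p e : ℝ × E3) :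
    fderiv ℝ (mom g w) p e = ∫ v, fderiv ℝ g (p.1, p.2, v) (e.1, e.2, 0) • w v := by
  obtain ⟨R, hR⟩ := hg.supp (|p.1| + 1)
  have hev := mom_ev w hR (p := p) (lt_add_one _)
  have hΦ := mom_phi_smooth hg.smooth hw
  rw [hev.fderiv_eq]
  have h1 := (mom_local hg.smooth hw R).2 1 p
  have h2 := congrArg (fun L : ContinuousMultilinearMap ℝ (fun _ : Fin 1 => ℝ × E3) F =>
    L (fun _ => e)) h1
  simp only [iteratedFDeriv_one_apply] at h2
  rw [h2]
  have h3 : Continuous fun v : E3 =>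
      iteratedFDeriv ℝ 1 (fun p : ℝ × E3 => g (p.1, p.2, v) • w v) p :=
    (continuous_iteratedFDeriv_slice hΦ 1).comp (f := fun v : E3 => (p, v)) (by fun_prop)
  have h4 : IntegrableOn (fun v : E3 =>
      iteratedFDeriv ℝ 1 (fun p : ℝ × E3 => g (p.1, p.2, v) • w v) p)
      (Metric.closedBall (0 : E3) R) :=
    h3.continuousOn.integrableOn_compact (isCompact_closedBall _ _)
  rw [ContinuousMultilinearMap.integral_apply h4 (fun _ => e)]
  have h5 : ∀ v : E3, iteratedFDeriv ℝ 1 (fun p : ℝ × E3 => g (p.1, p.2, v) • w v) p (fun _ => e)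
      = fderiv ℝ g (p.1, p.2, v) (e.1, e.2, 0) • w v := by
    intro v
    rw [iteratedFDeriv_one_apply]
    have d1 : HasFDerivAt (fun p : ℝ × E3 => ((p.1, p.2, v) : ℝ × E3 × E3))
        ((ContinuousLinearMap.fst ℝ ℝ E3).prod ((ContinuousLinearMap.snd ℝ ℝ E3).prod 0)) p :=
      hasFDerivAt_fst.prodMk (hasFDerivAt_snd.prodMk (hasFDerivAt_const v p))
    have d2 : HasFDerivAt g (fderiv ℝ g (p.1, p.2, v)) (p.1, p.2, v) :=
      (hg.smooth.differentiable (by simp) _).hasFDerivAt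
    have d3 := (d2.comp p d1).smul_const (w v)
    have d4 := congrArg (fun L : ℝ × E3 →L[ℝ] F => L e) d3.fderiv
    simpa using d4
  simp only [h5]
  rw [setIntegral_eq_integral_of_forall_compl_eq_zero]
  intro v hv
  have : g =ᶠ[𝓝 (p.1, p.2, v)] fun _ => 0 := by
    have h1 : {q : ℝ × E3 × E3 | |q.1| < |p.1| + 1} ∈ 𝓝 (p.1, p.2, v) :=
      (isOpen_lt (by fun_prop) continuous_const).mem_nhds (by
        simp only [mem_ofPred_eq]; linarith only [])
    have h2 : {q : ℝ × E3 × E3 | R < ‖q.2.2‖} ∈ 𝓝 (p.1, p.2, v) :=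
      (isOpen_lt continuous_const (by fun_prop)).mem_nhds (by
        simpa using hv)
    filter_upwards [h1, h2] with q hq1 hq2
    by_contra h
    have h1' : |q.1| < |p.1| + 1 := hq1
    have h2' : R < ‖q.2.2‖ := hq2
    linarith only [hq2, (hR q.1 q.2.1 q.2.2 h1'.le h).2]
  rw [this.fderiv_eq]
  simp

end mom

lemma rhoD_eq_mom (g : ℝ × E3 × E3 → ℝ) : LE.rhoD g = mom g (fun _ => (1 : ℝ)) := by
  ext p
  simp [LE.rhoD, mom]

lemma curD_eq_mom (g : ℝ × E3 × E3 → ℝ) : LE.curD g = mom g u := rfl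

theorem SD.rhoD {g : ℝ × E3 × E3 → ℝ} (h : SD g) : SF (rhoD g) := by
  rw [rhoD_eq_mom]
  exact mom_SF h contDiff_const

theorem SD.curD {g : ℝ × E3 × E3 → ℝ} (h : SD g) : SF (curD g) := by
  rw [curD_eq_mom]
  exact mom_SF h alg_u_smooth

theorem pxd_rhoD {g : ℝ × E3 × E3 → ℝ} (h : SD g) (e : E3) (p : ℝ × E3) :
    pxd e (LE.rhoD g) p = LE.rhoD (fun y => fderiv ℝ g y (0, e, 0)) p := by
  unfold pxd
  rw [rhoD_eq_mom, mom_fderiv h contDiff_const]
  simp [LE.rhoD]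

theorem fderiv_curD {g : ℝ × E3 × E3 → ℝ} (h : SD g) (e : E3) (p : ℝ × E3) :
    fderiv ℝ (LE.curD g) p (0, e) = LE.curD (fun y => fderiv ℝ g y (0, e, 0)) p := by
  rw [curD_eq_mom, mom_fderiv h alg_u_smooth]
  rfl

theorem pxd_curD {g : ℝ × E3 × E3 → ℝ} (h : SD g) (e : E3) (i : Fin 3) (p : ℝ × E3) :
    pxd e (fun y => LE.curD g y i) p = LE.curD (fun y => fderiv ℝ g y (0, e, 0)) p i := by
  unfold pxd
  rw [alg_comp ((SD.curD h).smooth.differentiable (by simp) p), fderiv_curD h]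

lemma SD.integrable_smul {F : Type*} [NormedAddCommGroup F] [NormedSpace ℝ F]
    {g : ℝ × E3 × E3 → ℝ} (h : SD g) {w : E3 → F} (hw : Continuous w)
    (p : ℝ × E3) : Integrable fun v => g (p.1, p.2, v) • w v := by
  have hc : Continuous fun v => g (p.1, p.2, v) • w v := by
    have := h.smooth.continuous
    exact (this.comp (by fun_prop)).smul hw
  refine hc.integrable_of_hasCompactSupport ?_
  obtain ⟨R, hR⟩ := h.supp |p.1|
  refine HasCompactSupport.intro (isCompact_closedBall (0 : E3) R) fun v hv => ?_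
  have : g (p.1, p.2, v) = 0 := by
    by_contra hne
    exact hv (by simpa using (hR p.1 p.2 v le_rfl hne).2)
  rw [this, zero_smul]

/-- The velocity divergence of a smooth flux integrates to zero. -/
lemma integral_div_eq_zero {H : ℝ × E3 × E3 → E3} (hH : SD H) (t : ℝ) (x : E3) :
    ∫ v, div (fun w => H (t, x, w)) v = 0 := by
  obtain ⟨R, hR⟩ := hH.supp |t|
  have hHs : ∀ k : Fin 3, ContDiff ℝ 1 fun w => H (t, x, w) k := fun k =>
    ((EuclideanSpace.proj k : E3 →L[ℝ] ℝ).contDiff.comp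
      ((hH.smooth.of_le (by exact_mod_cast le_top)).comp (by fun_prop)))
  have hHc : ∀ k : Fin 3, HasCompactSupport fun w => H (t, x, w) k := by
    intro k
    refine HasCompactSupport.intro (isCompact_closedBall (0 : E3) R) fun v hv => ?_
    have : H (t, x, v) = 0 := by
      by_contra hne
      exact hv (by simpa using (hR t x v le_rfl hne).2)
    rw [this]; rfl
  have hd : ∀ k : Fin 3, Integrable fun v => fderiv ℝ (fun w => H (t, x, w) k) v (ee k) :=
    fun k => (((hHs k).continuous_fderiv (by norm_num)).clm_apply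
      continuous_const).integrable_of_hasCompactSupport ((hHc k).fderiv_apply (𝕜 := ℝ) _)
  unfold div pd
  rw [integral_finsetSum _ fun k _ => hd k]
  refine Finset.sum_eq_zero fun k _ => ?_
  have key := integral_mul_fderiv_eq_neg_fderiv_mul_of_integrable (μ := (volume : Measure E3))
    (f := fun _ : E3 => (1 : ℝ)) (g := fun w => H (t, x, w) k) (v := ee k)
    (by simp) (by simpa using hd k)
    (by simpa using (hHs k).continuous.integrable_of_hasCompactSupport (hHc k))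
    (fun v _ => differentiableAt_const _)
    (fun v _ => (hHs k).differentiable (by norm_num) v)
  simpa using key

theorem continuity {g : ℝ × E3 × E3 → ℝ} {H : ℝ × E3 × E3 → E3} (hg : SD g) (hH : SD H)
    (h : Tr g H) (p : ℝ × E3) :
    ptd (LE.rhoD g) p + ∑ i : Fin 3, pxd (ee i) (fun y => LE.curD g y i) p = 0 := by
  have e1 : ptd (LE.rhoD g) p = ∫ v, fderiv ℝ g (p.1, p.2, v) (1, 0, 0) := by
    unfold ptd
    rw [rhoD_eq_mom, mom_fderiv hg contDiff_const]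
    simp
  have hdi : ∀ e : ℝ × E3 × E3, SD (fun y => fderiv ℝ g y e) := fun e => SD.dir hg e
  have e2 : ∀ i : Fin 3, pxd (ee i) (fun y => LE.curD g y i) p
      = ∫ v, fderiv ℝ g (p.1, p.2, v) (0, ee i, 0) * u v i := by
    intro i
    rw [pxd_curD hg]
    unfold LE.curD
    have hi : Integrable fun v => fderiv ℝ g (p.1, p.2, v) (0, ee i, 0) • u v :=
      SD.integrable_smul (hdi (0, ee i, 0)) cont_u p
    have := (EuclideanSpace.proj i : E3 →L[ℝ] ℝ).integral_comp_comm hi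
    exact this.symm
  have i1 : Integrable fun v => fderiv ℝ g (p.1, p.2, v) (1, 0, 0) := by
    simpa using SD.integrable_smul (hdi (1, 0, 0)) (w := fun _ => (1 : ℝ)) continuous_const p
  have i2 : ∀ i : Fin 3, Integrable fun v => fderiv ℝ g (p.1, p.2, v) (0, ee i, 0) * u v i := by
    intro i
    have := SD.integrable_smul (hdi (0, ee i, 0)) (w := fun v => u v i)
      ((EuclideanSpace.proj i : E3 →L[ℝ] ℝ).continuous.comp cont_u) p
    simpa using this
  rw [e1]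
  simp only [e2]
  rw [← integral_finsetSum _ fun i _ => i2 i,
    ← integral_add i1 (integrable_finsetSum _ fun i _ => i2 i)]
  have e3 : ∀ v, fderiv ℝ g (p.1, p.2, v) (1, 0, 0)
      + ∑ i : Fin 3, fderiv ℝ g (p.1, p.2, v) (0, ee i, 0) * u v i
      = - div (fun w => H (p.1, p.2, w)) v := by
    intro v
    rw [← h p.1 p.2 v]
    have e4 : ((1, u v, 0) : ℝ × E3 × E3) = (1, 0, 0) + ContinuousLinearMap.inr ℝ ℝ (E3 × E3)
        (ContinuousLinearMap.inl ℝ E3 E3 (u v)) := by simp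
    rw [e4, map_add]
    congr 1
    have e5 := clm_apply_eq_sum ((fderiv ℝ g (p.1, p.2, v)).comp
      ((ContinuousLinearMap.inr ℝ ℝ (E3 × E3)).comp (ContinuousLinearMap.inl ℝ E3 E3))) (u v)
    simp only [ContinuousLinearMap.comp_apply] at e5
    rw [e5]
    refine Finset.sum_congr rfl fun i _ => ?_
    rw [mul_comm]
    rfl
  simp only [e3]
  rw [integral_neg, integral_div_eq_zero hH, neg_zero]

end Vale.Agent.P107.LE
end
end
end

section

section

attribute [-instance] ProperSMul.toContinuousSMul IsTopologicalTorsor.toContinuousSMul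
  IdemSemiring.toCanonicallyOrderedAdd IdemSemiring.toMulLeftMono IdemSemiring.toMulRightMono
  AddQuantale.instAddLeftMono AddQuantale.instAddRightMono Quantale.instMulLeftMono
  Quantale.instMulRightMono FiniteDimensional.rclike_to_real IsScalarTower.complexToReal
  FiniteDimensional.complexToReal

section

/-!
Existence of the layer solution and of the solutions of the delayed system (task X1).
-/

open MeasureTheory Set Filter Topology
open scoped RealInnerProductSpace ENNReal NNReal ContDiff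

namespace Vale.Agent.P107.LE

section generic

variable {F : Type*} [NormedAddCommGroup F] [NormedSpace ℝ F]

theorem X1_SF_sub {W W' : ℝ × E3 → F} (h : SF W) (h' : SF W') : SF (fun p => W p - W' p) := by
  refine ⟨h.smooth.sub h'.smooth, fun n T => ?_⟩
  obtain ⟨C, hC⟩ := h.bdd n T
  obtain ⟨C', hC'⟩ := h'.bdd n T
  refine ⟨C + C', fun p hp => ?_⟩
  have e : iteratedFDeriv ℝ n (fun p => W p - W' p) p =
      iteratedFDeriv ℝ n W p - iteratedFDeriv ℝ n W' p := by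
    have h1 : ContDiff ℝ n W := h.smooth.of_le (by exact_mod_cast le_top)
    have h2 : ContDiff ℝ n W' := h'.smooth.of_le (by exact_mod_cast le_top)
    exact fun_iteratedFDeriv_sub_apply h1.contDiffAt h2.contDiffAt
  rw [e]
  exact (norm_sub_le _ _).trans (add_le_add (hC p hp) (hC' p hp))

theorem X1_SD_sub {g g' : ℝ × E3 × E3 → F} (h : SD g) (h' : SD g') :
    SD (fun y => g y - g' y) := by
  refine ⟨h.smooth.sub h'.smooth, fun T => ?_⟩
  obtain ⟨R, hR⟩ := h.supp T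
  obtain ⟨R', hR'⟩ := h'.supp T
  refine ⟨max R R', fun t x v ht hne => ?_⟩
  by_cases hg : g (t, x, v) = 0
  · have hg' : g' (t, x, v) ≠ 0 := by
      intro h0
      apply hne
      rw [hg, h0, sub_zero]
    obtain ⟨a, b⟩ := hR' t x v ht hg'
    exact ⟨a.trans (le_max_right _ _), b.trans (le_max_right _ _)⟩
  · obtain ⟨a, b⟩ := hR t x v ht hg
    exact ⟨a.trans (le_max_left _ _), b.trans (le_max_left _ _)⟩

theorem X1_SF_static {W : E3 → F} (h : SB W) : SF (fun p : ℝ × E3 => W p.2) := by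
  refine ⟨h.smooth.comp contDiff_snd, fun n T => ?_⟩
  obtain ⟨C, hC⟩ := h.bdd n
  refine ⟨C, fun p _ => ?_⟩
  have e : iteratedFDeriv ℝ n (fun p : ℝ × E3 => W p.2) p =
      (iteratedFDeriv ℝ n W p.2).compContinuousLinearMap
        fun _ => ContinuousLinearMap.snd ℝ ℝ E3 :=
    ContinuousLinearMap.iteratedFDeriv_comp_right (ContinuousLinearMap.snd ℝ ℝ E3) h.smooth p
      (by exact_mod_cast le_top)
  rw [e]
  refine (ContinuousMultilinearMap.norm_compContinuousLinearMap_le _ _).trans ?_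
  have h1 : ∏ _i : Fin n, ‖ContinuousLinearMap.snd ℝ ℝ E3‖ ≤ 1 :=
    Finset.prod_le_one (fun _ _ => norm_nonneg _)
      (fun _ _ => ContinuousLinearMap.norm_snd_le ℝ ℝ E3)
  calc ‖iteratedFDeriv ℝ n W p.2‖ * ∏ _i : Fin n, ‖ContinuousLinearMap.snd ℝ ℝ E3‖
      ≤ ‖iteratedFDeriv ℝ n W p.2‖ * 1 := mul_le_mul_of_nonneg_left h1 (norm_nonneg _)
    _ ≤ C := by rw [mul_one]; exact hC _

theorem X1_SB_zero : SB (fun _ : E3 => (0 : F)) := by
  refine ⟨contDiff_const, fun n => ⟨0, fun x => ?_⟩⟩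
  have : iteratedFDeriv ℝ n (fun _ : E3 => (0 : F)) x = 0 := by
    rw [iteratedFDeriv_fun_zero]
    rfl
  rw [this, norm_zero]

/-- Gluing of a sequence of functions which is eventually constant, locally in time. -/
theorem X1_glue {α G : Type*} {τ : α → ℝ} {ε : ℝ} (hε : 0 < ε) (W : ℕ → α → G)
    (h : ∀ (n : ℕ) a, τ a ≤ (n + 1) * ε → W (n + 1) a = W n a) :
    ∃ W' : α → G, ∀ (n : ℕ) a, τ a ≤ n * ε → W' a = W n a := by
  have key : ∀ (a : α) (k : ℕ), τ a ≤ k * ε → ∀ m, k ≤ m → W m a = W k a := by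
    intro a k hk m hm
    induction m, hm using Nat.le_induction with
    | base => rfl
    | succ m hm ih =>
      rw [h m a, ih]
      have : (k : ℝ) ≤ m := by exact_mod_cast hm
      nlinarith only [hε, hk, this]
  refine ⟨fun a => W ⌈τ a / ε⌉₊ a, fun n a hn => ?_⟩
  have h1 : ⌈τ a / ε⌉₊ ≤ n := Nat.ceil_le.2 ((div_le_iff₀ hε).2 hn)
  have h2 : τ a ≤ (⌈τ a / ε⌉₊ : ℕ) * ε := (div_le_iff₀ hε).1 (Nat.le_ceil _)
  exact (key a _ h2 n h1).symm

theorem X1_exists_nat {ε : ℝ} (hε : 0 < ε) (T : ℝ) : ∃ n : ℕ, T < n * ε := by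
  obtain ⟨n, hn⟩ := exists_nat_gt (T / ε)
  exact ⟨n, (div_lt_iff₀ hε).1 hn⟩

theorem X1_eventually {α G : Type*} [TopologicalSpace α] {τ : α → ℝ} (hτ : Continuous τ) {ε : ℝ}
    {W : ℕ → α → G} {W' : α → G} (h : ∀ (n : ℕ) a, τ a ≤ n * ε → W' a = W n a) {n : ℕ} {a : α}
    (ha : τ a < n * ε) : W' =ᶠ[𝓝 a] W n := by
  filter_upwards [(hτ.tendsto a).eventually (Iio_mem_nhds ha)] with b hb
  exact h n b (le_of_lt hb)

theorem X1_glue_SF {ε : ℝ} (hε : 0 < ε) {W : ℕ → ℝ × E3 → F} {W' : ℝ × E3 → F}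
    (hW : ∀ n, SF (W n)) (h : ∀ (n : ℕ) (p : ℝ × E3), p.1 ≤ n * ε → W' p = W n p) : SF W' := by
  refine ⟨contDiff_iff_contDiffAt.2 fun p => ?_, fun n T => ?_⟩
  · obtain ⟨m, hm⟩ := X1_exists_nat hε p.1
    exact (hW m).smooth.contDiffAt.congr_of_eventuallyEq
      (X1_eventually (τ := fun p : ℝ × E3 => p.1) continuous_fst h hm)
  · obtain ⟨m, hm⟩ := X1_exists_nat hε T
    obtain ⟨C, hC⟩ := (hW m).bdd n T
    refine ⟨C, fun p hp => ?_⟩
    have h1 : p.1 < m * ε := (le_abs_self _).trans_lt (hp.trans_lt hm)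
    have h2 := ((X1_eventually (τ := fun p : ℝ × E3 => p.1) continuous_fst h h1).iteratedFDeriv
      ℝ n).eq_of_nhds
    rw [h2]
    exact hC p hp

theorem X1_glue_SD {ε : ℝ} (hε : 0 < ε) {g : ℕ → ℝ × E3 × E3 → F} {g' : ℝ × E3 × E3 → F}
    (hg : ∀ n, SD (g n)) (h : ∀ (n : ℕ) (y : ℝ × E3 × E3), y.1 ≤ n * ε → g' y = g n y) :
    SD g' := by
  refine ⟨contDiff_iff_contDiffAt.2 fun p => ?_, fun T => ?_⟩
  · obtain ⟨m, hm⟩ := X1_exists_nat hε p.1
    exact (hg m).smooth.contDiffAt.congr_of_eventuallyEq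
      (X1_eventually (τ := fun p : ℝ × E3 × E3 => p.1) continuous_fst h hm)
  · obtain ⟨m, hm⟩ := X1_exists_nat hε T
    obtain ⟨R, hR⟩ := (hg m).supp T
    refine ⟨R, fun t x v ht hne => ?_⟩
    have h1 : t ≤ m * ε := (le_abs_self _).trans (ht.trans hm.le)
    rw [h m (t, x, v) h1] at hne
    exact hR t x v ht hne

end generic

/-! ### moments -/

theorem X1_continuous_u : Continuous (u : E3 → E3) := contDiff_uu.continuous

theorem X1_compact {g : ℝ × E3 × E3 → ℝ} (h : SD g) (t : ℝ) (x : E3) :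
    HasCompactSupport fun v => g (t, x, v) := by
  obtain ⟨R, hR⟩ := h.supp |t|
  refine HasCompactSupport.intro (isCompact_closedBall (0 : E3) R) fun v hv => ?_
  by_contra hne
  apply hv
  rw [mem_closedBall_zero_iff]
  exact (hR t x v le_rfl hne).2

theorem X1_cont {g : ℝ × E3 × E3 → ℝ} (h : SD g) (t : ℝ) (x : E3) :
    Continuous fun v => g (t, x, v) :=
  h.smooth.continuous.comp (by fun_prop : Continuous fun v : E3 => (t, x, v))

theorem X1_integrable {g : ℝ × E3 × E3 → ℝ} (h : SD g) (t : ℝ) (x : E3) :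
    Integrable fun v => g (t, x, v) :=
  (X1_cont h t x).integrable_of_hasCompactSupport (X1_compact h t x)

theorem X1_integrable_u {g : ℝ × E3 × E3 → ℝ} (h : SD g) (t : ℝ) (x : E3) :
    Integrable fun v => g (t, x, v) • u v :=
  ((X1_cont h t x).smul X1_continuous_u).integrable_of_hasCompactSupport
    (X1_compact h t x).smul_right

theorem X1_rhoD_sub {g g' : ℝ × E3 × E3 → ℝ} (h : SD g) (h' : SD g') (p : ℝ × E3) :
    rhoD (fun y => g y - g' y) p = rhoD g p - rhoD g' p := by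
  unfold rhoD
  exact integral_sub (X1_integrable h _ _) (X1_integrable h' _ _)

theorem X1_curD_sub {g g' : ℝ × E3 × E3 → ℝ} (h : SD g) (h' : SD g') (p : ℝ × E3) :
    curD (fun y => g y - g' y) p = curD g p - curD g' p := by
  unfold curD
  rw [← integral_sub (X1_integrable_u h _ _) (X1_integrable_u h' _ _)]
  refine integral_congr_ae (Eventually.of_forall fun v => ?_)
  simp only [sub_smul]

theorem X1_rhoD_congr {g g' : ℝ × E3 × E3 → ℝ} {p : ℝ × E3} (h : ∀ z, g (p.1, z) = g' (p.1, z)) :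
    rhoD g p = rhoD g' p := by
  unfold rhoD
  simp only [h]

theorem X1_curD_congr {g g' : ℝ × E3 × E3 → ℝ} {p : ℝ × E3} (h : ∀ z, g (p.1, z) = g' (p.1, z)) :
    curD g p = curD g' p := by
  unfold curD
  simp only [h]

theorem X1_div_zero (x : E3) : div (fun _ : E3 => (0 : E3)) x = 0 := by
  unfold div pd
  simp

/-- The Maxwell system is local. -/
theorem X1_Mx_congr {s : Set ℝ} {E B : ℝ × E3 → E3} {ρ : ℝ × E3 → ℝ} {j : ℝ × E3 → E3}
    (h : ∀ p : ℝ × E3, p.1 ∈ s → ∃ (E' B' : ℝ × E3 → E3) (ρ' : ℝ × E3 → ℝ) (j' : ℝ × E3 → E3),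
      Mx s E' B' ρ' j' ∧ E =ᶠ[𝓝 p] E' ∧ B =ᶠ[𝓝 p] B' ∧ ρ p = ρ' p ∧ j p = j' p) :
    Mx s E B ρ j := by
  have hc : ∀ {W W' : ℝ × E3 → E3} {p : ℝ × E3} (_ : W =ᶠ[𝓝 p] W') (i : Fin 3),
      fderiv ℝ (fun y => W y i) p = fderiv ℝ (fun y => W' y i) p := by
    intro W W' p hW i
    exact Filter.EventuallyEq.fderiv_eq (hW.mono fun y hy => by simp only [hy])
  refine ⟨fun p hp i => ?_, fun p hp i => ?_, fun p hp => ?_, fun p hp => ?_⟩
  · obtain ⟨E', B', ρ', j', hM, hE, hB, hρ, hj⟩ := h p hp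
    have := hM.ampere p hp i
    simp only [ptd, pxd] at this ⊢
    rw [hc hE, hc hB, hc hB, hj]
    exact this
  · obtain ⟨E', B', ρ', j', hM, hE, hB, hρ, hj⟩ := h p hp
    have := hM.faraday p hp i
    simp only [ptd, pxd] at this ⊢
    rw [hc hB, hc hE, hc hE]
    exact this
  · obtain ⟨E', B', ρ', j', hM, hE, hB, hρ, hj⟩ := h p hp
    have := hM.gauss p hp
    simp only [pxd] at this ⊢
    simp only [hc hE, hρ]
    exact this
  · obtain ⟨E', B', ρ', j', hM, hE, hB, hρ, hj⟩ := h p hp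
    have := hM.gaussm p hp
    simp only [pxd] at this ⊢
    simp only [hc hB]
    exact this

/-! ### the layer solution -/

theorem exists_layer {f₀ : E3 × E3 → ℝ} {E₀ B₀ : E3 → E3} (hD : Dat f₀ E₀ B₀) :
    ∃ fL EL BL, Layer f₀ E₀ B₀ fL EL BL := by
  have sE := X1_SF_static hD.sE
  have sB := X1_SF_static hD.sB
  obtain ⟨fL, sf, hV, h0, hn⟩ := exists_transport sE sB hD.f_smooth hD.f_supp hD.f_nonneg
  obtain ⟨EL, BL, tE, tB, hM, hE0, hB0, -⟩ := exists_maxwell sf.rhoD sf.curD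
    (continuity sf (SD.flx sE sB sf) (Vl.tr sf hV)) hD.sE hD.sB
    (fun x => by
      rw [hD.gauss x]
      simp only [rhoD, h0]) hD.gaussm
  exact ⟨fL, EL, BL, ⟨sf, tE, tB, hn, hV, hM, h0, hE0, hB0⟩⟩

/-! ### one step of the iteration -/

section step

variable {f₀ : E3 × E3 → ℝ} {E₀ B₀ : E3 → E3} {fL : ℝ × E3 × E3 → ℝ} {EL BL : ℝ × E3 → E3}
  {ε : ℝ}

theorem X1_step (hD : Dat f₀ E₀ B₀) (hL : Layer f₀ E₀ B₀ fL EL BL) (hε : 0 < ε)
    {E B : ℝ × E3 → E3} (hE : SF E) (hB : SF B) (aE : ∀ t ≤ ε, ∀ x, E (t, x) = EL (t, x))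
    (aB : ∀ t ≤ ε, ∀ x, B (t, x) = BL (t, x)) :
    ∃ (f : ℝ × E3 × E3 → ℝ) (E' B' : ℝ × E3 → E3), SD f ∧ SF E' ∧ SF B' ∧ (∀ p, 0 ≤ f p) ∧
      Vl (dl ε E) (dl ε B) f ∧ Mx (Ici 0) E' B' (rhoD f) (curD f) ∧ (∀ z, f (0, z) = f₀ z) ∧
      (∀ t ≤ ε, ∀ z, f (t, z) = fL (t, z)) ∧ (∀ t ≤ ε, ∀ x, E' (t, x) = EL (t, x)) ∧
      (∀ t ≤ ε, ∀ x, B' (t, x) = BL (t, x)) := by
  have sE := X1_SF_static hD.sE
  have sB := X1_SF_static hD.sB
  have dE := dl_SF hε hE
  have dB := dl_SF hε hB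
  obtain ⟨f, sf, hV, h0, hn⟩ := exists_transport dE dB hD.f_smooth hD.f_supp hD.f_nonneg
  -- agreement with the layer
  have hag : ∀ t ≤ ε, ∀ z, f (t, z) = fL (t, z) := by
    refine transport_unique dE dB sE sB (sf.smooth.of_le (by exact_mod_cast le_top))
      (hL.sd.smooth.of_le (by exact_mod_cast le_top)) hV hL.vl (fun z => by rw [h0, hL.f0])
      hε.le fun p hp => ?_
    rw [dl_early hε hE hp, dl_early hε hB hp, aE 0 hε.le, aB 0 hε.le, hL.E0, hL.B0]
    exact ⟨rfl, rfl⟩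
  -- the Maxwell fields of the difference
  have sg : SD (fun y => fL y - f y) := X1_SD_sub hL.sd sf
  have hTr := Tr.sub hL.sd sf (SD.flx sE sB hL.sd) (SD.flx dE dB sf) (Vl.tr hL.sd hL.vl)
    (Vl.tr sf hV)
  have hz : ∀ p : ℝ × E3, p.1 ≤ ε → rhoD (fun y => fL y - f y) p = 0 ∧
      curD (fun y => fL y - f y) p = 0 := by
    intro p hp
    rw [X1_rhoD_sub hL.sd sf, X1_curD_sub hL.sd sf, X1_rhoD_congr (hag p.1 hp),
      X1_curD_congr (hag p.1 hp), sub_self, sub_self]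
    exact ⟨rfl, rfl⟩
  obtain ⟨G, K, sG, sK, hM, hG0, hK0, hlate⟩ := exists_maxwell sg.rhoD sg.curD
    (continuity sg (X1_SD_sub (SD.flx sE sB hL.sd) (SD.flx dE dB sf)) hTr)
    (X1_SB_zero (F := E3)) (X1_SB_zero (F := E3))
    (fun x => by rw [X1_div_zero, (hz (0, x) hε.le).1]) X1_div_zero
  have hlate' := hlate ε hε.le (fun _ => rfl) (fun _ => rfl) hz
  refine ⟨f, fun p => EL p - G p, fun p => BL p - K p, sf, X1_SF_sub hL.sE sG,
    X1_SF_sub hL.sB sK, hn, hV, ?_, h0, hag, fun t ht x => ?_, fun t ht x => ?_⟩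
  · have h1 := Mx.sub hL.sE hL.sB sG sK hL.mx hM
    have e1 : (fun p => rhoD fL p - rhoD (fun y => fL y - f y) p) = rhoD f := by
      funext p
      rw [X1_rhoD_sub hL.sd sf]
      ring
    have e2 : (fun p => curD fL p - curD (fun y => fL y - f y) p) = curD f := by
      funext p
      rw [X1_curD_sub hL.sd sf]
      abel
    rw [e1, e2] at h1
    exact h1
  · simp only [(hlate' (t, x) ht).1, sub_zero]
  · simp only [(hlate' (t, x) ht).2, sub_zero]

theorem X1_causal_f (hε : 0 < ε) {E B E' B' : ℝ × E3 → E3} (hE : SF E) (hB : SF B)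
    (hE' : SF E') (hB' : SF B') {s : ℝ} (hs : 0 ≤ s)
    (h : ∀ p : ℝ × E3, p.1 ≤ s → E p = E' p ∧ B p = B' p) {f f' : ℝ × E3 × E3 → ℝ} (hf : SD f)
    (hf' : SD f') (hV : Vl (dl ε E) (dl ε B) f) (hV' : Vl (dl ε E') (dl ε B') f')
    (h0 : ∀ z, f (0, z) = f' (0, z)) : ∀ t ≤ s + ε, ∀ z, f (t, z) = f' (t, z) :=
  transport_unique (dl_SF hε hE) (dl_SF hε hB) (dl_SF hε hE') (dl_SF hε hB')
    (hf.smooth.of_le (by exact_mod_cast le_top)) (hf'.smooth.of_le (by exact_mod_cast le_top))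
    hV hV' h0 (by linarith only [hε, hs]) fun _ hp =>
      ⟨dl_congr hε hs (fun r _ hr => (h r hr).1) hp, dl_congr hε hs (fun r _ hr => (h r hr).2) hp⟩

theorem X1_causal_E (hε : 0 < ε) {E B E' B' : ℝ × E3 → E3} (hE : SF E) (hB : SF B)
    (hE' : SF E') (hB' : SF B') {f f' : ℝ × E3 × E3 → ℝ}
    (hM : Mx (Ici 0) E B (rhoD f) (curD f)) (hM' : Mx (Ici 0) E' B' (rhoD f') (curD f'))
    (he : ∀ p : ℝ × E3, p.1 ≤ ε → E p = E' p ∧ B p = B' p)
    (hfe : ∀ t ≤ ε, ∀ z, f (t, z) = f' (t, z)) {s : ℝ}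
    (hfs : ∀ t ≤ s, ∀ z, f (t, z) = f' (t, z)) :
    ∀ p : ℝ × E3, p.1 ≤ s → E p = E' p ∧ B p = B' p := by
  have h1 := Mx.sub hE hB hE' hB' hM hM'
  have hv : ∀ p : ℝ × E3, p.1 ≤ ε → E p - E' p = 0 ∧ B p - B' p = 0 := by
    intro p hp
    rw [(he p hp).1, (he p hp).2, sub_self, sub_self]
    exact ⟨rfl, rfl⟩
  have h2 : ∀ t, (∀ p : ℝ × E3, p.1 ≤ t → ∀ z, f (p.1, z) = f' (p.1, z)) → ∀ p : ℝ × E3, p.1 ≤ t →
      rhoD f p - rhoD f' p = 0 ∧ curD f p - curD f' p = 0 := by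
    intro t ht p hp
    rw [X1_rhoD_congr (ht p hp), X1_curD_congr (ht p hp), sub_self, sub_self]
    exact ⟨rfl, rfl⟩
  have h3 := Mx.of_late hε h1 hv (h2 ε fun p hp => hfe p.1 hp)
  intro p hp
  have h4 := mx_late_unique (X1_SF_sub hE hE') (X1_SF_sub hB hB') hε hv h3
    (h2 s fun p hp => hfs p.1 hp) p hp
  exact ⟨sub_eq_zero.1 h4.1, sub_eq_zero.1 h4.2⟩

/-- The states of the iteration. -/
structure X1St (EL BL : ℝ × E3 → E3) (ε : ℝ) : Type where
  E : ℝ × E3 → E3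
  B : ℝ × E3 → E3
  hE : SF E
  hB : SF B
  aE : ∀ t ≤ ε, ∀ x, E (t, x) = EL (t, x)
  aB : ∀ t ≤ ε, ∀ x, B (t, x) = BL (t, x)

theorem exists_eps {f₀ : E3 × E3 → ℝ} {E₀ B₀ : E3 → E3} (hD : Dat f₀ E₀ B₀)
    {fL : ℝ × E3 × E3 → ℝ} {EL BL : ℝ × E3 → E3} (hL : Layer f₀ E₀ B₀ fL EL BL) {ε : ℝ}
    (hε : 0 < ε) : ∃ f E B, EpsSol fL EL BL ε f E B := by
  have key : ∀ S : X1St EL BL ε, ∃ (f : ℝ × E3 × E3 → ℝ) (S' : X1St EL BL ε), SD f ∧
      (∀ p, 0 ≤ f p) ∧ Vl (dl ε S.E) (dl ε S.B) f ∧ Mx (Ici 0) S'.E S'.B (rhoD f) (curD f) ∧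
      (∀ z, f (0, z) = f₀ z) ∧ (∀ t ≤ ε, ∀ z, f (t, z) = fL (t, z)) := by
    intro S
    obtain ⟨f, E', B', h1, h2, h3, h4, h5, h6, h7, h8, h9, h10⟩ :=
      X1_step hD hL hε S.hE S.hB S.aE S.aB
    exact ⟨f, ⟨E', B', h2, h3, h9, h10⟩, h1, h4, h5, h6, h7, h8⟩
  choose φ N hsd hnn hvl hmx hf0 hag using key
  let S0 : X1St EL BL ε := ⟨EL, BL, hL.sE, hL.sB, fun _ _ _ => rfl, fun _ _ _ => rfl⟩
  let S : ℕ → X1St EL BL ε := fun n => Nat.rec S0 (fun _ T => N T) n
  have hS : ∀ n, S (n + 1) = N (S n) := fun _ => rfl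
  let f : ℕ → ℝ × E3 × E3 → ℝ := fun n => φ (S n)
  -- agreement of the fields
  have hEB : ∀ (n : ℕ) (p : ℝ × E3), p.1 ≤ (n + 1) * ε →
      (S n).E p = (S (n + 1)).E p ∧ (S n).B p = (S (n + 1)).B p := by
    intro n
    induction n with
    | zero =>
      intro p hp
      have hp' : p.1 ≤ ε := by simpa using hp
      have e1 := (S 0).aE p.1 hp' p.2
      have e2 := (S (0 + 1)).aE p.1 hp' p.2
      have e3 := (S 0).aB p.1 hp' p.2
      have e4 := (S (0 + 1)).aB p.1 hp' p.2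
      exact ⟨e1.trans e2.symm, e3.trans e4.symm⟩
    | succ n ih =>
      have hs : (0 : ℝ) ≤ (n + 1) * ε := by positivity
      have h1 := X1_causal_f hε (S n).hE (S n).hB (S (n + 1)).hE (S (n + 1)).hB hs ih
        (hsd (S n)) (hsd (S (n + 1))) (hvl (S n)) (hvl (S (n + 1)))
        (fun z => by rw [hf0, hf0])
      have h2 : ∀ p : ℝ × E3, p.1 ≤ ε → (S (n + 1)).E p = (S (n + 1 + 1)).E p ∧
          (S (n + 1)).B p = (S (n + 1 + 1)).B p := by
        intro p hp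
        have e1 := (S (n + 1)).aE p.1 hp p.2
        have e2 := (S (n + 1 + 1)).aE p.1 hp p.2
        have e3 := (S (n + 1)).aB p.1 hp p.2
        have e4 := (S (n + 1 + 1)).aB p.1 hp p.2
        exact ⟨e1.trans e2.symm, e3.trans e4.symm⟩
      have h3 := X1_causal_E hε (S (n + 1)).hE (S (n + 1)).hB (S (n + 1 + 1)).hE
        (S (n + 1 + 1)).hB (hmx (S n)) (hmx (S (n + 1))) h2
        (fun t ht z => by rw [hag _ t ht, hag _ t ht]) h1
      intro p hp
      refine h3 p (hp.trans_eq ?_)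
      push_cast
      ring
  have hff : ∀ (n : ℕ) (y : ℝ × E3 × E3), y.1 ≤ (n + 1) * ε → f (n + 1) y = f n y := by
    intro n y hy
    have hs : (0 : ℝ) ≤ (n + 1) * ε := by positivity
    have h1 := X1_causal_f hε (S n).hE (S n).hB (S (n + 1)).hE (S (n + 1)).hB hs (hEB n)
        (hsd (S n)) (hsd (S (n + 1))) (hvl (S n)) (hvl (S (n + 1)))
        (fun z => by rw [hf0, hf0])
    exact (h1 y.1 (by linarith only [hε, hy]) y.2).symm
  -- the limits
  obtain ⟨E, hE⟩ := X1_glue (τ := fun p : ℝ × E3 => p.1) hε (fun n => (S n).E)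
    (fun n p hp => (hEB n p hp).1.symm)
  obtain ⟨B, hB⟩ := X1_glue (τ := fun p : ℝ × E3 => p.1) hε (fun n => (S n).B)
    (fun n p hp => (hEB n p hp).2.symm)
  obtain ⟨g, hg⟩ := X1_glue (τ := fun p : ℝ × E3 × E3 => p.1) hε f hff
  have sE : SF E := X1_glue_SF hε (fun n => (S n).hE) hE
  have sB : SF B := X1_glue_SF hε (fun n => (S n).hB) hB
  have sg : SD g := X1_glue_SD hε (fun n => hsd (S n)) hg
  refine ⟨g, E, B, sg, sE, sB, ?_, ?_, ?_, ?_, ?_, ?_⟩
  · intro y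
    obtain ⟨n, hn⟩ := X1_exists_nat hε y.1
    rw [hg n y hn.le]
    exact hnn _ _
  · intro t x v
    obtain ⟨n, hn⟩ := X1_exists_nat hε (max t 0)
    have hn1 : t < n * ε := (le_max_left _ _).trans_lt hn
    have hn0 : (0 : ℝ) ≤ n * ε := (le_max_right t 0).trans hn.le
    have h1 : g =ᶠ[𝓝 (t, x, v)] f n :=
      X1_eventually (τ := fun p : ℝ × E3 × E3 => p.1) continuous_fst hg hn1
    have h2 : dl ε E (t, x) = dl ε (S n).E (t, x) :=
      dl_congr hε hn0 (fun p _ hp => hE n p hp) (by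
        change t ≤ n * ε + ε
        linarith only [hε, hn1])
    have h3 : dl ε B (t, x) = dl ε (S n).B (t, x) :=
      dl_congr hε hn0 (fun p _ hp => hB n p hp) (by
        change t ≤ n * ε + ε
        linarith only [ε, hε, t, n, hn1])
    rw [h1.fderiv_eq, h2, h3]
    exact hvl (S n) t x v
  · refine X1_Mx_congr fun p hp => ?_
    obtain ⟨n, hn⟩ := X1_exists_nat hε p.1
    have hn' : p.1 < ((n + 1 : ℕ) : ℝ) * ε := by
      push_cast
      linarith
    refine ⟨(S (n + 1)).E, (S (n + 1)).B, rhoD (f n), curD (f n), hmx (S n),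
      X1_eventually (τ := fun p : ℝ × E3 => p.1) continuous_fst hE hn',
      X1_eventually (τ := fun p : ℝ × E3 => p.1) continuous_fst hB hn', ?_, ?_⟩
    · exact X1_rhoD_congr fun z => hg n (p.1, z) hn.le
    · exact X1_curD_congr fun z => hg n (p.1, z) hn.le
  · intro t ht z
    obtain ⟨n, hn⟩ := X1_exists_nat hε t
    rw [hg n (t, z) hn.le]
    exact hag _ t ht z
  · intro t ht x
    obtain ⟨n, hn⟩ := X1_exists_nat hε t
    rw [hE n (t, x) hn.le]
    exact (S n).aE t ht x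
  · intro t ht x
    obtain ⟨n, hn⟩ := X1_exists_nat hε t
    rw [hB n (t, x) hn.le]
    exact (S n).aB t ht x

end step

end Vale.Agent.P107.LE
end
end
end

section

section

attribute [-instance] ProperSMul.toContinuousSMul IsTopologicalTorsor.toContinuousSMul
  IdemSemiring.toCanonicallyOrderedAdd IdemSemiring.toMulLeftMono IdemSemiring.toMulRightMono
  AddQuantale.instAddLeftMono AddQuantale.instAddRightMono Quantale.instMulLeftMono
  Quantale.instMulRightMono FiniteDimensional.rclike_to_real IsScalarTower.complexToReal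
  FiniteDimensional.complexToReal

section

/-!
Gronwall's inequality for monotone functions and an interpolation inequality.
-/

open MeasureTheory Set Filter Topology
open scoped RealInnerProductSpace ENNReal NNReal ContDiff

namespace Vale.Agent.P107.LE

/-- A2. Gronwall for monotone functions. -/
theorem gronwall_monotone {A : ℝ → ℝ} {C T : ℝ} (hC : 0 ≤ C) (hA : MonotoneOn A (Icc 0 T))
    (h0 : ∀ t ∈ Icc 0 T, 0 ≤ A t)
    (h : ∀ t ∈ Icc 0 T, A t ≤ C + C * ∫ s in (0 : ℝ)..t, A s) :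
    ∀ t ∈ Icc 0 T, A t ≤ C * Real.exp (C * t) := by
  intro t₀ ht₀
  have hT : 0 ≤ T := ht₀.1.trans ht₀.2
  have hint : ∀ a ∈ Icc 0 T, ∀ b ∈ Icc 0 T, IntervalIntegrable A volume a b := by
    intro a ha b hb
    refine MonotoneOn.intervalIntegrable (hA.mono ?_)
    exact uIcc_subset_Icc ha hb
  have h0T : (0 : ℝ) ∈ Icc 0 T := left_mem_Icc.2 hT
  -- `Φ t = C + C * ∫ A`
  set I : ℝ → ℝ := fun t => ∫ s in (0 : ℝ)..t, A s with hI
  set Φ : ℝ → ℝ := fun t => C + C * I t with hΦ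
  have hdiff : ∀ a ∈ Icc 0 T, ∀ b ∈ Icc 0 T, I b - I a = ∫ s in a..b, A s := by
    intro a ha b hb
    rw [hI]
    exact intervalIntegral.integral_interval_sub_left (hint 0 h0T b hb) (hint 0 h0T a ha)
  have hA_le : ∀ t ∈ Icc 0 T, A t ≤ Φ t := h
  have hIcont : ContinuousOn I (Icc 0 T) := by
    have := intervalIntegral.continuousOn_primitive_interval' (hint 0 h0T T (right_mem_Icc.2 hT))
      (left_mem_uIcc)
    rwa [uIcc_of_le hT] at this
  have hΦcont : ContinuousOn Φ (Icc 0 T) := continuousOn_const.add (continuousOn_const.mul hIcont)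
  have hImono : ∀ a ∈ Icc 0 T, ∀ b ∈ Icc 0 T, a ≤ b → I a ≤ I b := by
    intro a ha b hb hab
    have h1 := hdiff a ha b hb
    have h2 : 0 ≤ ∫ s in a..b, A s :=
      intervalIntegral.integral_nonneg hab fun s hs => h0 s ⟨ha.1.trans hs.1, hs.2.trans hb.2⟩
    linarith only [h1, h2]
  have hΦ0 : ∀ t ∈ Icc 0 T, 0 ≤ Φ t := fun t ht => (h0 t ht).trans (hA_le t ht)
  -- Gronwall for the continuous function `Φ` via the `liminf` version
  have key := le_gronwallBound_of_liminf_deriv_right_le (f := Φ) (f' := fun t => C * Φ t)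
    (δ := C) (K := C) (ε := 0) (a := 0) (b := T) hΦcont ?_ ?_ ?_ t₀ ht₀
  · rw [gronwallBound_ε0, sub_zero] at key
    exact (hA_le t₀ ht₀).trans key
  · intro t ht r hr
    have htI : t ∈ Icc 0 T := ⟨ht.1, ht.2.le⟩
    -- the difference quotients are at most `C * Φ (z)` with `z → t`
    have hcl : Tendsto (fun z => C * Φ z) (𝓝[>] t) (𝓝 (C * Φ t)) := by
      have h1 : ContinuousWithinAt Φ (Icc 0 T) t := hΦcont t htI
      have h2 : ContinuousWithinAt Φ (Ioi t ∩ Iic T) t :=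
        h1.mono fun z hz => ⟨ht.1.trans hz.1.le, hz.2⟩
      have h3 : 𝓝[Ioi t ∩ Iic T] t = 𝓝[>] t :=
        nhdsWithin_inter_of_mem' (mem_nhdsWithin_of_mem_nhds (Iic_mem_nhds ht.2))
      rw [ContinuousWithinAt, h3] at h2
      exact h2.const_mul C
    have h5 : ∀ᶠ z in 𝓝[>] t, C * Φ z < r := hcl.eventually_lt_const hr
    have h6 : ∀ᶠ z in 𝓝[>] t, z ≤ T := by
      filter_upwards [mem_nhdsWithin_of_mem_nhds (Iic_mem_nhds ht.2)] with z hz using hz
    refine Eventually.frequently ?_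
    filter_upwards [h5, h6, self_mem_nhdsWithin] with z h7 h8 h9
    have hz : z ∈ Icc 0 T := ⟨ht.1.trans (le_of_lt h9), h8⟩
    have hzt : 0 < z - t := sub_pos.2 h9
    refine lt_of_le_of_lt ?_ h7
    rw [inv_mul_le_iff₀ hzt]
    have h10 : Φ z - Φ t = C * (I z - I t) := by simp only [hΦ]; ring
    rw [h10, hdiff t htI z hz]
    have h11 : ∫ s in t..z, A s ≤ ∫ s in t..z, A z :=
      intervalIntegral.integral_mono_on (le_of_lt h9) (hint t htI z hz)
        intervalIntegrable_const fun s hs => hA ⟨ht.1.trans hs.1, hs.2.trans h8⟩ hz hs.2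
    rw [intervalIntegral.integral_const, smul_eq_mul] at h11
    calc C * ∫ s in t..z, A s ≤ C * ((z - t) * A z) := by (clear * - hC h11; gcongr)
      _ ≤ C * ((z - t) * Φ z) := by gcongr; exact hA_le z hz
      _ = (z - t) * (C * Φ z) := by ring
  · simp [hΦ, hI]
  · intro t ht
    simp

/-- A3. Interpolation. -/
theorem interp {X F : Type*} [NormedAddCommGroup X] [NormedSpace ℝ X] [NormedAddCommGroup F]
    [NormedSpace ℝ F] {h : X → F} (hh : ContDiff ℝ 2 h) {a b : ℝ} (h0 : ∀ x, ‖h x‖ ≤ a)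
    (h2 : ∀ x, ‖iteratedFDeriv ℝ 2 h x‖ ≤ b) (x : X) :
    ‖fderiv ℝ h x‖ ≤ 2 * Real.sqrt (a * b) := by
  have ha : 0 ≤ a := (norm_nonneg _).trans (h0 x)
  have hb : 0 ≤ b := (norm_nonneg _).trans (h2 x)
  have hd : Differentiable ℝ h := hh.differentiable (by norm_num)
  have hd1 : ContDiff ℝ 1 (fderiv ℝ h) := hh.fderiv_right (by norm_num)
  have hlip : ∀ y, ‖fderiv ℝ h y - fderiv ℝ h x‖ ≤ b * ‖y - x‖ := by
    intro y
    refine Convex.norm_image_sub_le_of_norm_fderiv_le (𝕜 := ℝ) (s := univ) (fun z _ =>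
      (hd1.differentiable (by norm_num)) z) (fun z _ => ?_) convex_univ (mem_univ _) (mem_univ _)
    rw [← norm_iteratedFDeriv_one, norm_iteratedFDeriv_fderiv]
    exact h2 z
  -- for all `r > 0`
  have main : ∀ r : ℝ, 0 < r → ‖fderiv ℝ h x‖ ≤ a / r + b * r := by
    intro r hr
    refine ContinuousLinearMap.opNorm_le_bound _ (by (clear * - ha hb hr; positivity)) fun e => ?_
    rcases eq_or_ne e 0 with rfl | he
    · simp
    · have hpos : 0 < ‖e‖ := norm_pos_iff.2 he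
      set w : X := (r / ‖e‖) • e with hw
      have hwn : ‖w‖ = r := by
        rw [hw, norm_smul, Real.norm_of_nonneg (by positivity)]; field_simp
      have hmem1 : x + w ∈ Metric.closedBall x r := by simp [hwn]
      have hmem2 : x - w ∈ Metric.closedBall x r := by simp [hwn]
      have h3 := Convex.norm_image_sub_le_of_norm_fderiv_le' (𝕜 := ℝ) (f := h)
        (φ := fderiv ℝ h x) (C := b * r) (s := Metric.closedBall x r) (x := x - w) (y := x + w)
        (fun z _ => hd z) (fun z hz => (hlip z).trans (by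
          gcongr
          rw [← dist_eq_norm]
          exact hz)) (convex_closedBall _ _) hmem2 hmem1
      have h4 : x + w - (x - w) = (2 : ℝ) • w := by rw [two_smul]; abel
      rw [h4, norm_smul, hwn, map_smul] at h3
      have h5 : ‖(2 : ℝ) • fderiv ℝ h x w‖ ≤ 2 * a + b * r * (2 * r) := by
        calc ‖(2 : ℝ) • fderiv ℝ h x w‖
            = ‖(h (x + w) - h (x - w)) - (h (x + w) - h (x - w) - (2 : ℝ) • fderiv ℝ h x w)‖ := by
              congr 1; abel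
          _ ≤ ‖h (x + w) - h (x - w)‖ + ‖h (x + w) - h (x - w) - (2 : ℝ) • fderiv ℝ h x w‖ :=
              norm_sub_le _ _
          _ ≤ (a + a) + b * r * (2 * r) := by
              refine add_le_add ((norm_sub_le _ _).trans (add_le_add (h0 _) (h0 _))) ?_
              simpa using h3
          _ = 2 * a + b * r * (2 * r) := by ring
      rw [norm_smul, hw, map_smul, norm_smul, Real.norm_of_nonneg (by positivity : 0 ≤ r / ‖e‖),
        Real.norm_of_nonneg (by norm_num : (0 : ℝ) ≤ 2)] at h5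
      have h6 : r / ‖e‖ * ‖fderiv ℝ h x e‖ ≤ a + b * r * r := by linarith only [h5]
      have h7 : ‖fderiv ℝ h x e‖ ≤ (a + b * r * r) * (‖e‖ / r) := by
        calc ‖fderiv ℝ h x e‖ = (r / ‖e‖ * ‖fderiv ℝ h x e‖) * (‖e‖ / r) := by
              (clear * - hr he; field_simp)
          _ ≤ (a + b * r * r) * (‖e‖ / r) := by (clear * - hr he h6; gcongr)
      refine h7.trans (le_of_eq ?_)
      (clear * - hr he; field_simp)
  have hquad : ∀ r : ℝ, 0 ≤ b * (r * r) + (-‖fderiv ℝ h x‖) * r + a := by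
    intro r
    rcases le_or_gt r 0 with hr | hr
    · have h8 : 0 ≤ b * (r * r) := mul_nonneg hb (mul_self_nonneg r)
      have h9 : 0 ≤ (-‖fderiv ℝ h x‖) * r :=
        mul_nonneg_of_nonpos_of_nonpos (neg_nonpos.2 (norm_nonneg _)) hr
      linarith
    · have h8 := main r hr
      have h9 : ‖fderiv ℝ h x‖ * r ≤ (a / r + b * r) * r := by gcongr
      have h10 : (a / r + b * r) * r = a + b * (r * r) := by (clear * - hr; field_simp)
      linarith only [h9, h10]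
  have h11 := discrim_le_zero hquad
  rw [discrim] at h11
  have h12 : ‖fderiv ℝ h x‖ ^ 2 ≤ 2 ^ 2 * (a * b) := by nlinarith only [h11]
  calc ‖fderiv ℝ h x‖ = Real.sqrt (‖fderiv ℝ h x‖ ^ 2) := (Real.sqrt_sq (norm_nonneg _)).symm
    _ ≤ Real.sqrt (2 ^ 2 * (a * b)) := Real.sqrt_le_sqrt h12
    _ = 2 * Real.sqrt (a * b) := by
      rw [Real.sqrt_mul (by positivity), Real.sqrt_sq (by norm_num)]

end Vale.Agent.P107.LE
end
end
end

section

section

attribute [-instance] ProperSMul.toContinuousSMul IsTopologicalTorsor.toContinuousSMul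
  IdemSemiring.toCanonicallyOrderedAdd IdemSemiring.toMulLeftMono IdemSemiring.toMulRightMono
  AddQuantale.instAddLeftMono AddQuantale.instAddRightMono Quantale.instMulLeftMono
  Quantale.instMulRightMono FiniteDimensional.rclike_to_real IsScalarTower.complexToReal
  FiniteDimensional.complexToReal

section

/-!
The Glassey-Strauss representation of late fields.
-/

open MeasureTheory Set Filter Topology
open scoped RealInnerProductSpace ENNReal NNReal ContDiff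

namespace Vale.Agent.P107.LE

/-- Integration by parts for a `C¹` function and a compactly supported `C¹` vector field. -/
theorem ibp_vector_supp {g : E3 → ℝ} {W : E3 → E3} (hg : ContDiff ℝ 1 g)
    (hW : ContDiff ℝ 1 W) (hWs : HasCompactSupport W) :
    ∫ v, g v * (- div W v) = ∫ v, fderiv ℝ g v (W v) := by
  have hWk : ∀ k : Fin 3, ContDiff ℝ 1 (fun v => W v k) := fun k =>
    (EuclideanSpace.proj k : E3 →L[ℝ] ℝ).contDiff.comp hW
  have hWks : ∀ k : Fin 3, HasCompactSupport (fun v => W v k) := fun k =>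
    hWs.comp_left (g := fun w : E3 => w k) (by simp)
  have hgd : ∀ k : Fin 3, Continuous fun v => fderiv ℝ g v (ee k) := fun k =>
    (hg.continuous_fderiv (by norm_num)).clm_apply continuous_const
  have hWd : ∀ k : Fin 3, Continuous fun v => fderiv ℝ (fun v => W v k) v (ee k) := fun k =>
    ((hWk k).continuous_fderiv (by norm_num)).clm_apply continuous_const
  have hWds : ∀ k : Fin 3, HasCompactSupport fun v => fderiv ℝ (fun v => W v k) v (ee k) :=
    fun k => (hWks k).fderiv_apply (𝕜 := ℝ) _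
  have key : ∀ k : Fin 3, ∫ v, W v k * fderiv ℝ g v (ee k)
      = - ∫ v, fderiv ℝ (fun v => W v k) v (ee k) * g v := by
    intro k
    refine integral_mul_fderiv_eq_neg_fderiv_mul_of_integrable ?_ ?_ ?_ ?_ ?_
    · exact ((hWd k).mul hg.continuous).integrable_of_hasCompactSupport (hWds k).mul_right
    · exact ((hWk k).continuous.mul (hgd k)).integrable_of_hasCompactSupport (hWks k).mul_right
    · exact ((hWk k).continuous.mul hg.continuous).integrable_of_hasCompactSupport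
        (hWks k).mul_right
    · intro v _; exact (hWk k).differentiable (by norm_num) v
    · intro v _; exact hg.differentiable (by norm_num) v
  have i1 : ∀ k : Fin 3, Integrable fun v => W v k * fderiv ℝ g v (ee k) := fun k =>
    ((hWk k).continuous.mul (hgd k)).integrable_of_hasCompactSupport (hWks k).mul_right
  have i2 : ∀ k : Fin 3, Integrable fun v => fderiv ℝ (fun v => W v k) v (ee k) * g v := fun k =>
    ((hWd k).mul hg.continuous).integrable_of_hasCompactSupport (hWds k).mul_right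
  have e1 : ∫ v, fderiv ℝ g v (W v) = ∑ k, ∫ v, W v k * fderiv ℝ g v (ee k) := by
    rw [← integral_finsetSum _ (fun k _ => i1 k)]
    congr 1
    ext v
    exact clm_apply_eq_sum (fderiv ℝ g v) (W v)
  have e2 : ∫ v, g v * (- div W v)
      = - ∑ k, ∫ v, fderiv ℝ (fun v => W v k) v (ee k) * g v := by
    rw [← integral_finsetSum _ (fun k _ => i2 k), ← integral_neg]
    congr 1
    ext v
    unfold div pd
    rw [mul_neg, Finset.mul_sum]
    congr 1
    refine Finset.sum_congr rfl fun k _ => ?_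
    ring
  rw [e1, e2, ← Finset.sum_neg_distrib]
  exact Finset.sum_congr rfl fun k _ => (key k).symm

section late

variable {g : ℝ × E3 × E3 → ℝ}

/-- A continuous function with locally bounded velocity support, vanishing for early times. -/
lemma lateV_of {φ : ℝ × E3 × E3 → ℝ} (hc : Continuous φ) {η : ℝ} (hη : 0 < η)
    (hv : ∀ t ≤ η, ∀ z, φ (t, z) = 0)
    (hs : ∀ T : ℝ, ∃ R : ℝ, ∀ (t : ℝ) (x v : E3), |t| ≤ T → R < ‖v‖ → φ (t, x, v) = 0) (T : ℝ) :
    LateV T (fun p v => φ (p.1, p.2, v)) := by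
  refine ⟨?_, fun p hp v => hv p.1 (hp.trans hη.le) (p.2, v), fun t _ => ?_⟩
  · exact (hc.comp (by fun_prop :
      Continuous fun z : (ℝ × E3) × E3 => (z.1.1, z.1.2, z.2))).continuousOn
  · obtain ⟨R, hR⟩ := hs |t|
    refine ⟨R, fun p hp v hvv => ?_⟩
    by_cases h0 : p.1 ≤ 0
    · exact hv p.1 (h0.trans hη.le) (p.2, v)
    · push Not at h0
      exact hR p.1 p.2 v (abs_le_abs_of_nonneg h0.le hp) hvv

lemma SD.zero_of_lt {F : Type*} [NormedAddCommGroup F] [NormedSpace ℝ F]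
    {g : ℝ × E3 × E3 → F} (hg : SD g) (T : ℝ) :
    ∃ R : ℝ, ∀ (t : ℝ) (x v : E3), |t| ≤ T → R < ‖v‖ → g (t, x, v) = 0 := by
  obtain ⟨R, hR⟩ := hg.supp T
  refine ⟨R, fun t x v ht hv => ?_⟩
  by_contra hne
  linarith only [hv, (hR t x v ht hne).2]

lemma SD.fderiv_zero_of_lt {F : Type*} [NormedAddCommGroup F] [NormedSpace ℝ F]
    {g : ℝ × E3 × E3 → F} (hg : SD g) (T : ℝ) :
    ∃ R : ℝ, ∀ (t : ℝ) (x v : E3), |t| ≤ T → R < ‖v‖ → fderiv ℝ g (t, x, v) = 0 := by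
  obtain ⟨R, hR⟩ := hg.zero_of_lt (T + 1)
  refine ⟨R, fun t x v ht hv => ?_⟩
  have : g =ᶠ[𝓝 (t, x, v)] fun _ => 0 := by
    have hm1 : {y : ℝ × E3 × E3 | |y.1| < T + 1} ∈ 𝓝 (t, x, v) :=
      (isOpen_lt (by fun_prop) continuous_const).mem_nhds (by
        simp only [mem_ofPred_eq]; linarith only [ht])
    have hm2 : {y : ℝ × E3 × E3 | R < ‖y.2.2‖} ∈ 𝓝 (t, x, v) :=
      (isOpen_lt continuous_const (by fun_prop)).mem_nhds (by
        simp only [mem_ofPred_eq]; linarith only [R, v, hv])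
    filter_upwards [hm1, hm2] with y hy1 hy2
    exact hR y.1 y.2.1 y.2.2 (le_of_lt hy1) hy2
  rw [this.fderiv_eq]; simp

lemma fderiv_zero_of_early {F : Type*} [NormedAddCommGroup F] [NormedSpace ℝ F]
    {g : ℝ × E3 × E3 → F} {η : ℝ} (hv : ∀ t ≤ η, ∀ z, g (t, z) = 0) {t : ℝ} (ht : t < η)
    (z : E3 × E3) : fderiv ℝ g (t, z) = 0 := by
  have : g =ᶠ[𝓝 (t, z)] fun _ => 0 := by
    have hm1 : {y : ℝ × E3 × E3 | y.1 < η} ∈ 𝓝 (t, z) :=
      (isOpen_lt continuous_fst continuous_const).mem_nhds (by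
        simp only [mem_ofPred_eq]; linarith only [ht])
    filter_upwards [hm1] with y hy1
    exact hv y.1 (le_of_lt hy1) y.2
  rw [this.fderiv_eq]; simp

lemma SD.contDiff_one {F : Type*} [NormedAddCommGroup F] [NormedSpace ℝ F]
    {g : ℝ × E3 × E3 → F} (hg : SD g) : ContDiff ℝ 1 g := hg.smooth.of_le (by simp)

lemma SD.lateV_self (hg : SD g) {η : ℝ} (hη : 0 < η) (hv : ∀ t ≤ η, ∀ z, g (t, z) = 0) (T : ℝ) :
    LateV T (fun p v => g (p.1, p.2, v)) :=
  lateV_of hg.smooth.continuous hη hv hg.zero_of_lt T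

lemma SD.lateV_fderiv (hg : SD g) {η : ℝ} (hη : 0 < η) (hv : ∀ t ≤ η, ∀ z, g (t, z) = 0)
    {d : E3 → ℝ × E3 × E3} (hd : Continuous d) (T : ℝ) :
    LateV T (fun p v => fderiv ℝ g (p.1, p.2, v) (d v)) := by
  refine lateV_of (φ := fun y => fderiv ℝ g y (d y.2.2)) ?_ (half_pos hη) ?_ ?_ T
  · exact (hg.contDiff_one.continuous_fderiv (by norm_num)).clm_apply (by fun_prop)
  · intro t ht z
    rw [fderiv_zero_of_early hv (by linarith only [hη, ht]) z]
    simp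
  · intro T
    obtain ⟨R, hR⟩ := hg.fderiv_zero_of_lt T
    exact ⟨R, fun t x v ht hv => by rw [hR t x v ht hv]; simp⟩

lemma SD.late_fix (hg : SD g) {η : ℝ} (hη : 0 < η) (hv : ∀ t ≤ η, ∀ z, g (t, z) = 0) (v : E3)
    (T : ℝ) : Late T (fun p => g (p.1, p.2, v)) := by
  refine ⟨?_, η, hη, fun p hp => hv p.1 hp (p.2, v)⟩
  exact (hg.contDiff_one.comp (by fun_prop :
    ContDiff ℝ 1 fun p : ℝ × E3 => (p.1, p.2, v))).contDiffOn

lemma SD.hasFDerivAt_fix (hg : SD g) (v : E3) (p d : ℝ × E3) :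
    fderiv ℝ (fun p : ℝ × E3 => g (p.1, p.2, v)) p d
      = fderiv ℝ g (p.1, p.2, v) (d.1, d.2, 0) := by
  have h1 : DifferentiableAt ℝ g (p.1, p.2, v) :=
    (hg.contDiff_one.differentiable (by norm_num)) _
  have h2 : HasFDerivAt (fun p : ℝ × E3 => (p.1, p.2, v))
      ((ContinuousLinearMap.fst ℝ ℝ E3).prod ((ContinuousLinearMap.snd ℝ ℝ E3).prod 0)) p :=
    hasFDerivAt_fst.prodMk (hasFDerivAt_snd.prodMk (hasFDerivAt_const _ _))
  have h3 : HasFDerivAt (fun p : ℝ × E3 => g (p.1, p.2, v))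
      ((fderiv ℝ g (p.1, p.2, v)).comp
        ((ContinuousLinearMap.fst ℝ ℝ E3).prod ((ContinuousLinearMap.snd ℝ ℝ E3).prod 0))) p :=
    HasFDerivAt.comp (g := g) p h1.hasFDerivAt h2
  rw [h3.fderiv]
  rfl

lemma SF.late {W : ℝ × E3 → E3} (hW : SF W) {η : ℝ} (hη : 0 < η)
    (hv : ∀ t ≤ η, ∀ x, W (t, x) = 0) (i : Fin 3) (T : ℝ) : Late T (fun y => W y i) := by
  refine ⟨?_, η, hη, fun p hp => by
    have := hv p.1 hp p.2
    rw [Prod.mk.eta] at this
    rw [this]; rfl⟩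
  exact ((EuclideanSpace.proj i : E3 →L[ℝ] ℝ).contDiff.comp
    (hW.smooth.of_le (by simp))).contDiffOn

lemma curD_apply (hg : SD g) (p : ℝ × E3) (i : Fin 3) :
    curD g p i = ∫ v, (u v) i * g (p.1, p.2, v) := by
  have hc : Continuous fun v => g (p.1, p.2, v) := hg.smooth.continuous.comp (by fun_prop)
  have hs : HasCompactSupport fun v => g (p.1, p.2, v) := by
    obtain ⟨R, hR⟩ := hg.zero_of_lt |p.1|
    refine HasCompactSupport.intro (isCompact_closedBall (0 : E3) R) fun v hv => ?_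
    rw [Metric.mem_closedBall, dist_zero_right, not_le] at hv
    exact hR p.1 p.2 v le_rfl hv
  have hint : Integrable fun v => g (p.1, p.2, v) • u v :=
    (hc.smul cont_u).integrable_of_hasCompactSupport hs.smul_right
  have := (EuclideanSpace.proj i : E3 →L[ℝ] ℝ).integral_comp_comm hint
  unfold curD
  have h2 : (∫ v, g (p.1, p.2, v) • u v) i
      = (EuclideanSpace.proj i : E3 →L[ℝ] ℝ) (∫ v, g (p.1, p.2, v) • u v) := rfl
  rw [h2, ← this]
  congr 1
  ext v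
  simp [mul_comm]

end late

lemma cont_ui (i : Fin 3) : Continuous fun v : E3 => (u v) i :=
  (EuclideanSpace.proj i : E3 →L[ℝ] ℝ).continuous.comp cont_u

lemma abs_ui_le (v : E3) (i : Fin 3) : |(u v) i| ≤ 1 :=
  (abs_component_le (u v) i).trans (norm_u_lt_one v).le

lemma kerV_mul_left {κ : E3 → E3 → ℝ} (hκ : KerV κ) {c : E3 → ℝ} (hc : Continuous c)
    (hc1 : ∀ v, |c v| ≤ 1) : KerV (fun v z => c v * κ v z) := by
  refine ⟨(hc.measurable.comp measurable_fst).mul hκ.measurable, fun R => ?_⟩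
  obtain ⟨C, hC⟩ := hκ.bound R
  refine ⟨C, fun v hv z => ?_⟩
  rw [abs_mul]
  exact (mul_le_of_le_one_left (abs_nonneg _) (hc1 v)).trans (hC v hv z)

lemma kerV_sub {κ κ' : E3 → E3 → ℝ} (hκ : KerV κ) (hκ' : KerV κ') :
    KerV (fun v z => κ v z - κ' v z) := by
  refine ⟨hκ.measurable.sub hκ'.measurable, fun R => ?_⟩
  obtain ⟨C, hC⟩ := hκ.bound R
  obtain ⟨C', hC'⟩ := hκ'.bound R
  refine ⟨C + C', fun v hv z => ?_⟩
  refine (abs_sub _ _).trans ?_
  rw [add_mul]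
  exact add_le_add (hC v hv z) (hC' v hv z)

lemma kerV_kTB (i : Fin 3) : KerV (fun v z => kTB i v z) :=
  kerV_sub (kerV_mul_left (kerV_kT (i + 1)) (cont_ui (i + 2)) fun v => abs_ui_le v _)
    (kerV_mul_left (kerV_kT (i + 2)) (cont_ui (i + 1)) fun v => abs_ui_le v _)

lemma kerV_kSB (i : Fin 3) : KerV (fun v z => kSB i v z) :=
  kerV_sub (kerV_mul_left (kerV_kS (i + 1)) (cont_ui (i + 2)) fun v => abs_ui_le v _)
    (kerV_mul_left (kerV_kS (i + 2)) (cont_ui (i + 1)) fun v => abs_ui_le v _)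

lemma contDiff_ui (i : Fin 3) : ContDiff ℝ 1 fun v : E3 => (u v) i :=
  (EuclideanSpace.proj i : E3 →L[ℝ] ℝ).contDiff.comp contDiff_uu

lemma contDiff_kSB (i : Fin 3) {z : E3} (hz : z ≠ 0) : ContDiff ℝ 1 (fun v => kSB i v z) :=
  ((contDiff_ui _).mul (contDiff_kS_u _ hz)).sub ((contDiff_ui _).mul (contDiff_kS_u _ hz))

lemma integral_comb4 {f g h k : E3 → ℝ} (hf : Integrable f) (hg : Integrable g)
    (hh : Integrable h) (hk : Integrable k) :
    (∫ z, f z) - (∫ z, g z) + (∫ z, h z) - (∫ z, k z) = ∫ z, (f z - g z + h z - k z) := by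
  have h1 : Integrable fun z => f z - g z := hf.sub hg
  have h2 : Integrable fun z => f z - g z + h z := h1.add hh
  rw [integral_sub h2 hk, integral_add h1 hh, integral_sub hf hg]

/-- The magnetic analogue of `GS_representation`. -/
theorem GSB_representation {T : ℝ} {H0 H1 HS : ℝ × E3 → E3 → ℝ} (h0 : LateV T H0)
    (h1 : LateV T H1) (hS : LateV T HS) (hL : ∀ v, Late T (fun p => H0 p v))
    (hpt : ∀ v, ∀ p ∈ Iio T ×ˢ (univ : Set E3), ptd (fun p => H0 p v) p = H1 p v)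
    (hps : ∀ v, ∀ p ∈ Iio T ×ˢ (univ : Set E3),
      ptd (fun p => H0 p v) p + pxd (u v) (fun p => H0 p v) p = HS p v)
    {t : ℝ} (ht : t < T) (x : E3) (i : Fin 3) :
    br t x (k3 (i + 1)) (fun p => ∫ v, (u v) (i + 2) * H0 p v)
      - br t x (k3 (i + 2)) (fun p => ∫ v, (u v) (i + 1) * H0 p v)
      + br t x (k2l (i + 1)) (fun p => ∫ v, (u v) (i + 2) * H1 p v)
      - br t x (k2l (i + 2)) (fun p => ∫ v, (u v) (i + 1) * H1 p v)
    = (∫ z, ∫ v, kTB i v z * H0 (rp t x z) v) + ∫ z, ∫ v, kSB i v z * HS (rp t x z) v := by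
  rw [(ker_k3 (i + 1)).br_integral (h0.mul_right (cont_ui (i + 2))) ht x,
    (ker_k3 (i + 2)).br_integral (h0.mul_right (cont_ui (i + 1))) ht x,
    (ker_k2l (i + 1)).br_integral (h1.mul_right (cont_ui (i + 2))) ht x,
    (ker_k2l (i + 2)).br_integral (h1.mul_right (cont_ui (i + 1))) ht x,
    ← (kerV_kTB i).swap h0 ht x, ← (kerV_kSB i).swap hS ht x]
  have e3 : ∀ (κ : E3 → ℝ) (H : ℝ × E3 → E3 → ℝ) (k : Fin 3) (v : E3),
      br t x κ (fun p => (u v) k * H p v) = (u v) k * br t x κ (fun p => H p v) := by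
    intro κ H k v
    unfold br
    rw [← integral_const_mul]
    congr 1
    ext z
    ring
  have hkS : ∀ v, LateC T (fun p => ptd (fun p => H0 p v) p + pxd (u v) (fun p => H0 p v) p) :=
    fun v => (hL v).ptd_lateC.add ((hL v).pxd_lateC _)
  have key : ∀ v, br t x (k3 (i + 1)) (fun p => (u v) (i + 2) * H0 p v)
      - br t x (k3 (i + 2)) (fun p => (u v) (i + 1) * H0 p v)
      + br t x (k2l (i + 1)) (fun p => (u v) (i + 2) * H1 p v)
      - br t x (k2l (i + 2)) (fun p => (u v) (i + 1) * H1 p v)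
      = br t x (kTB i v) (fun p => H0 p v) + br t x (kSB i v) (fun p => HS p v) := by
    intro v
    have hg1 := (hL v).glassey_strauss ht x (norm_u_lt_one v) (i + 1)
    have hg2 := (hL v).glassey_strauss ht x (norm_u_lt_one v) (i + 2)
    rw [br_congr ht x (hpt v), br_congr ht x (hpt v), br_congr ht x (hps v)] at hg1 hg2
    rw [e3 _ H0, e3 _ H0, e3 _ H1, e3 _ H1]
    have eT : br t x (kTB i v) (fun p => H0 p v)
        = (u v) (i + 2) * br t x (kT (u v) (i + 1)) (fun p => H0 p v)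
          - (u v) (i + 1) * br t x (kT (u v) (i + 2)) (fun p => H0 p v) := by
      unfold br
      rw [← integral_const_mul, ← integral_const_mul, ← integral_sub]
      · congr 1
        ext z
        unfold kTB
        ring
      · exact (((kerV_kT (i + 1)).ker v).integrable (hL v).lateC ht x).const_mul _
      · exact (((kerV_kT (i + 2)).ker v).integrable (hL v).lateC ht x).const_mul _
    have eS : br t x (kSB i v) (fun p => HS p v)
        = (u v) (i + 2) * br t x (kS (u v) (i + 1)) (fun p => HS p v)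
          - (u v) (i + 1) * br t x (kS (u v) (i + 2)) (fun p => HS p v) := by
      unfold br
      rw [← integral_const_mul, ← integral_const_mul, ← integral_sub]
      · congr 1
        ext z
        unfold kSB
        ring
      · exact (((kerV_kS (i + 1)).ker v).integrable (hS.lateC_fix v) ht x).const_mul _
      · exact (((kerV_kS (i + 2)).ker v).integrable (hS.lateC_fix v) ht x).const_mul _
    rw [eT, eS]
    linear_combination (u v) (i + 2) * hg1 - (u v) (i + 1) * hg2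
  have int_of : ∀ {κ : E3 → E3 → ℝ} {H : ℝ × E3 → E3 → ℝ}, KerV κ → LateV T H →
      Integrable (fun v => br t x (κ v) (fun p => H p v)) := by
    intro κ H hκ hH
    exact (hκ.integrable hH ht x).integral_prod_left
  have i1 := int_of (ker_k3 (i + 1)).kerV (h0.mul_right (cont_ui (i + 2)))
  have i2 := int_of (ker_k3 (i + 2)).kerV (h0.mul_right (cont_ui (i + 1)))
  have i3 := int_of (ker_k2l (i + 1)).kerV (h1.mul_right (cont_ui (i + 2)))
  have i4 := int_of (ker_k2l (i + 2)).kerV (h1.mul_right (cont_ui (i + 1)))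
  have i5 := int_of (kerV_kTB i) h0
  have i6 := int_of (kerV_kSB i) hS
  rw [← integral_add i5 i6, integral_comb4 i1 i2 i3 i4]
  exact integral_congr_ae (ae_of_all _ key)

section rep

variable {g : ℝ × E3 × E3 → ℝ} {H : ℝ × E3 × E3 → E3} {E B : ℝ × E3 → E3}

lemma HS_swap (hH : SD H) (htr : Tr g H) {K : E3 → E3 → ℝ}
    (hK : ∀ z ≠ 0, ContDiff ℝ 1 (fun v => K v z)) (t : ℝ) (x : E3) :
    ∫ z, ∫ v, K v z * fderiv ℝ g ((rp t x z).1, (rp t x z).2, v) (1, u v, 0)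
      = ∫ z, ∫ v, fderiv ℝ (fun w => K w z) v (H (t - ‖z‖, x + z, v)) := by
  refine integral_congr_ae ?_
  filter_upwards [ae_ne_zero] with z hz
  have hW : ContDiff ℝ 1 (fun w => H (t - ‖z‖, x + z, w)) :=
    hH.contDiff_one.comp (by fun_prop)
  have hWs : HasCompactSupport (fun w => H (t - ‖z‖, x + z, w)) := by
    obtain ⟨R, hR⟩ := hH.zero_of_lt |t - ‖z‖|
    refine HasCompactSupport.intro (isCompact_closedBall (0 : E3) R) fun v hv => ?_
    rw [Metric.mem_closedBall, dist_zero_right, not_le] at hv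
    exact hR _ _ v le_rfl hv
  have h1 := ibp_vector_supp (hK z hz) hW hWs
  rw [← h1]
  refine integral_congr_ae (ae_of_all _ fun v => ?_)
  simp only [rp]
  rw [htr (t - ‖z‖) (x + z) v]

lemma LateSys.basic (h : LateSys g H E B) : ∃ η > 0, (∀ t ≤ η, ∀ z, g (t, z) = 0) ∧
    (∀ t ≤ η, ∀ x, E (t, x) = 0) ∧ ∀ t ≤ η, ∀ x, B (t, x) = 0 := by
  obtain ⟨η, hη, h1⟩ := h.late
  exact ⟨η, hη, fun t ht z => ((h1 t ht).1 z).1, fun t ht x => ((h1 t ht).2 x).1,
    fun t ht x => ((h1 t ht).2 x).2⟩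

lemma SD.hasDerivAt_fix (hg : SD g) {η : ℝ} (hη : 0 < η) (hv : ∀ t ≤ η, ∀ z, g (t, z) = 0)
    {T : ℝ} (v : E3) (p : ℝ × E3) (hp : p ∈ Iio T ×ˢ (univ : Set E3)) :
    HasDerivAt (fun s => g (s, p.2, v)) (fderiv ℝ g (p.1, p.2, v) (1, 0, 0)) p.1 := by
  have h1 := (hg.late_fix hη hv v T).hasDerivAt_ptd p hp
  have h2 : ptd (fun p : ℝ × E3 => g (p.1, p.2, v)) p = fderiv ℝ g (p.1, p.2, v) (1, 0, 0) := by
    unfold ptd
    rw [hg.hasFDerivAt_fix]
  rw [h2] at h1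
  exact h1

lemma lateC_zero_bd210 (T : ℝ) : LateC T (fun _ => (0 : ℝ)) := ⟨continuousOn_const, fun _ _ => rfl⟩

/-- The Maxwell system of late fields. -/
lemma LateSys.maxwellLate (h : LateSys g H E B) (T : ℝ) :
    MaxwellLate T (fun i y => E y i) (fun i y => B y i)
      (fun i p => ∫ v, (u v) i * g (p.1, p.2, v)) (fun _ _ => 0)
      (fun i p => ∫ v, (u v) i * fderiv ℝ g (p.1, p.2, v) (1, 0, 0)) (fun _ _ => 0)
      (fun p => ∫ v, g (p.1, p.2, v)) (fun p => ∫ v, fderiv ℝ g (p.1, p.2, v) (1, 0, 0)) := by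
  obtain ⟨η, hη, hg, hE, hB⟩ := h.basic
  have V0 := h.sg.lateV_self hη hg T
  have V1 := h.sg.lateV_fderiv hη hg (d := fun _ => (1, 0, 0)) continuous_const T
  refine ⟨fun i => h.sE.late hη hE i T, fun i => h.sB.late hη hB i T,
    fun i => (V0.mul_right (cont_ui i)).lateC_integral, fun _ => lateC_zero_bd210 T, V0.lateC_integral,
    fun i => (V1.mul_right (cont_ui i)).lateC_integral, fun _ => lateC_zero_bd210 T,
    V1.lateC_integral, ?_, ?_, ?_, ?_, ?_, ?_⟩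
  · intro i p hp
    refine (V0.mul_right (cont_ui i)).hasDerivAt_integral (V1.mul_right (cont_ui i)) ?_ p hp
    intro v p hp
    exact (h.sg.hasDerivAt_fix hη hg v p hp).const_mul _
  · intro i p _
    exact hasDerivAt_const _ _
  · intro p hp
    exact V0.hasDerivAt_integral V1 (fun v p hp => h.sg.hasDerivAt_fix hη hg v p hp) p hp
  · intro i p _
    have h1 := h.mx.ampere p (mem_univ _) i
    rw [curD_apply h.sg] at h1
    exact h1
  · intro i p _
    have h1 := h.mx.faraday p (mem_univ _) i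
    rw [h1, sub_zero]
  · intro p _
    have h1 := h.mx.gauss p (mem_univ _)
    rw [Fin.sum_univ_three] at h1
    exact h1.symm

/-- The dual Maxwell system of late fields. -/
lemma LateSys.maxwellLateB (h : LateSys g H E B) (T : ℝ) :
    MaxwellLate T (fun i y => B y i) (fun i y => - E y i)
      (fun _ _ => 0) (fun i p => - ∫ v, (u v) i * g (p.1, p.2, v)) (fun _ _ => 0)
      (fun i p => - ∫ v, (u v) i * fderiv ℝ g (p.1, p.2, v) (1, 0, 0))
      (fun _ => 0) (fun _ => 0) := by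
  obtain ⟨η, hη, hg, hE, hB⟩ := h.basic
  have V0 := h.sg.lateV_self hη hg T
  have V1 := h.sg.lateV_fderiv hη hg (d := fun _ => (1, 0, 0)) continuous_const T
  have hneg : ∀ i, Late T (fun y => - E y i) := fun i => by
    obtain ⟨h1, η', hη', h2⟩ := h.sE.late hη hE i T
    exact ⟨h1.neg, η', hη', fun p hp => by rw [h2 p hp, neg_zero]⟩
  have hfd : ∀ (i : Fin 3) (p d : ℝ × E3), fderiv ℝ (fun y => - E y i) p d
      = - fderiv ℝ (fun y => E y i) p d := by
    intro i p d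
    rw [fderiv_fun_neg]
    rfl
  refine ⟨fun i => h.sB.late hη hB i T, hneg, fun _ => lateC_zero_bd210 T,
    fun i => (V0.mul_right (cont_ui i)).lateC_integral.neg, lateC_zero_bd210 T, fun _ => lateC_zero_bd210 T,
    fun i => (V1.mul_right (cont_ui i)).lateC_integral.neg, lateC_zero_bd210 T, ?_, ?_, ?_, ?_, ?_, ?_⟩
  · intro i p _
    exact hasDerivAt_const _ _
  · intro i p hp
    refine HasDerivAt.neg ?_
    refine (V0.mul_right (cont_ui i)).hasDerivAt_integral (V1.mul_right (cont_ui i)) ?_ p hp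
    intro v p hp
    exact (h.sg.hasDerivAt_fix hη hg v p hp).const_mul _
  · intro p _
    exact hasDerivAt_const _ _
  · intro i p _
    have h1 := h.mx.faraday p (mem_univ _) i
    rw [h1]
    simp only [pxd, hfd]
    ring
  · intro i p _
    have h1 := h.mx.ampere p (mem_univ _) i
    rw [curD_apply h.sg] at h1
    simp only [ptd, pxd, hfd] at h1 ⊢
    linarith only [h1]
  · intro p _
    have h1 := h.mx.gaussm p (mem_univ _)
    rw [Fin.sum_univ_three] at h1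
    exact h1.symm

/-- R1. The Glassey-Strauss representation of `E`. -/
theorem rep_E (h : LateSys g H E B) (t : ℝ) (x : E3) (i : Fin 3) :
    - (sph.real univ * E (t, x) i)
      = (∫ z, ∫ v, kT (u v) i z * g (t - ‖z‖, x + z, v))
        + ∫ z, ∫ v, dkS i v z (H (t - ‖z‖, x + z, v)) := by
  obtain ⟨η, hη, hg, hE, hB⟩ := h.basic
  have ht : t < t + 1 := by linarith only []
  have V0 := h.sg.lateV_self hη hg (t + 1)
  have V1 := h.sg.lateV_fderiv hη hg (d := fun _ => (1, 0, 0)) continuous_const (t + 1)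
  have VS := h.sg.lateV_fderiv hη hg (d := fun v => (1, u v, 0))
    (continuous_const.prodMk (cont_u.prodMk continuous_const)) (t + 1)
  have hGS := GS_representation V0 V1 VS (fun v => h.sg.late_fix hη hg v (t + 1))
    (fun v p _ => by unfold ptd; rw [h.sg.hasFDerivAt_fix])
    (fun v p _ => by
      unfold ptd pxd
      rw [h.sg.hasFDerivAt_fix, h.sg.hasFDerivAt_fix, ← map_add]
      simp) ht x i
  have hJ := (h.maxwellLate (t + 1)).jefimenko ht x i (i + 1) (i + 2) rfl rfl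
  have hz : ∀ κ : E3 → ℝ, br t x κ (fun _ => 0) = 0 := fun κ => by simp [br]
  rw [hz, hz, hz, hz] at hJ
  rw [HS_swap h.sH h.tr (fun z hz => contDiff_kS_u i hz)] at hGS
  have hdk : ∫ z, ∫ v, fderiv ℝ (fun w => kS (u w) i z) v (H (t - ‖z‖, x + z, v))
      = ∫ z, ∫ v, dkS i v z (H (t - ‖z‖, x + z, v)) := by
    refine integral_congr_ae ?_
    filter_upwards [ae_ne_zero] with z hz
    refine integral_congr_ae (ae_of_all _ fun v => ?_)
    simp only [fderiv_kS_u i hz]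
  rw [hdk] at hGS
  simp only [rp] at hGS
  linarith only [hGS, hJ]

/-- R1'. The Glassey-Strauss representation of `B`. -/
theorem rep_B (h : LateSys g H E B) (t : ℝ) (x : E3) (i : Fin 3) :
    sph.real univ * B (t, x) i
      = (∫ z, ∫ v, kTB i v z * g (t - ‖z‖, x + z, v))
        + ∫ z, ∫ v, fderiv ℝ (fun w => kSB i w z) v (H (t - ‖z‖, x + z, v)) := by
  obtain ⟨η, hη, hg, hE, hB⟩ := h.basic
  have ht : t < t + 1 := by linarith only []
  have V0 := h.sg.lateV_self hη hg (t + 1)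
  have V1 := h.sg.lateV_fderiv hη hg (d := fun _ => (1, 0, 0)) continuous_const (t + 1)
  have VS := h.sg.lateV_fderiv hη hg (d := fun v => (1, u v, 0))
    (continuous_const.prodMk (cont_u.prodMk continuous_const)) (t + 1)
  have hGS := GSB_representation V0 V1 VS (fun v => h.sg.late_fix hη hg v (t + 1))
    (fun v p _ => by unfold ptd; rw [h.sg.hasFDerivAt_fix])
    (fun v p _ => by
      unfold ptd pxd
      rw [h.sg.hasFDerivAt_fix, h.sg.hasFDerivAt_fix, ← map_add]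
      simp) ht x i
  have hJ := (h.maxwellLateB (t + 1)).jefimenko ht x i (i + 1) (i + 2) rfl rfl
  have hz : ∀ κ : E3 → ℝ, br t x κ (fun _ => 0) = 0 := fun κ => by simp [br]
  rw [hz, hz, hz, br_neg, br_neg, br_neg, br_neg] at hJ
  rw [HS_swap h.sH h.tr (fun z hz => contDiff_kSB i hz)] at hGS
  simp only [rp] at hGS
  linarith only [hGS, hJ]

end rep

end Vale.Agent.P107.LE
end
end
end

section

section

attribute [-instance] ProperSMul.toContinuousSMul IsTopologicalTorsor.toContinuousSMul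
  IdemSemiring.toCanonicallyOrderedAdd IdemSemiring.toMulLeftMono IdemSemiring.toMulRightMono
  AddQuantale.instAddLeftMono AddQuantale.instAddRightMono Quantale.instMulLeftMono
  Quantale.instMulRightMono FiniteDimensional.rclike_to_real IsScalarTower.complexToReal
  FiniteDimensional.complexToReal

section

/-!
The linear bound for late solutions of the Maxwell system whose sources are moments of a
solution of a transport equation.
-/

open MeasureTheory Set Filter Topology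
open scoped RealInnerProductSpace ENNReal NNReal ContDiff

namespace Vale.Agent.P107.LE

namespace LinB

lemma norm_le_sum3 (y : E3) : ‖y‖ ≤ ∑ i, |y i| := by
  rw [EuclideanSpace.norm_eq, Fin.sum_univ_three, Fin.sum_univ_three]
  refine Real.sqrt_le_iff.2 ⟨by positivity, ?_⟩
  simp only [Real.norm_eq_abs]
  nlinarith only [mul_nonneg (abs_nonneg (y 0)) (abs_nonneg (y 1)), mul_nonneg (abs_nonneg (y 0)) (abs_nonneg (y 2)), mul_nonneg (abs_nonneg (y 1)) (abs_nonneg (y 2))]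

/-- The radial majorant. -/
noncomputable def rmaj (a : ℝ → ℝ) (t r : ℝ) : ℝ := if r ≤ t then (r⁻¹) ^ 2 * a (t - r) else 0

lemma rmaj_smul {a : ℝ → ℝ} {t y : ℝ} (hy : y ∈ Ioi (0 : ℝ)) :
    y ^ (Module.finrank ℝ E3 - 1) • rmaj a t y = (Iic t).indicator (fun y => a (t - y)) y := by
  have hy0 : (0 : ℝ) < y := hy
  rw [finrank_E3]
  unfold rmaj
  by_cases h : y ≤ t
  · rw [if_pos h, indicator_of_mem (mem_Iic.2 h), smul_eq_mul]
    field_simp
  · rw [if_neg h, indicator_of_notMem (by simpa using h), smul_zero]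

lemma intervalIntegrable_sub {a : ℝ → ℝ} (ha : Monotone a) (t : ℝ) :
    IntervalIntegrable (fun y => a (t - y)) volume 0 t := by
  have h : Antitone (fun y => a (t - y)) := fun x y hxy => ha (by linarith only [hxy])
  exact h.intervalIntegrable

lemma integrable_rmaj {a : ℝ → ℝ} (ha : Monotone a) {t : ℝ} (ht : 0 ≤ t) :
    Integrable (fun z : E3 => rmaj a t ‖z‖) := by
  rw [integrable_fun_norm_addHaar (volume : Measure E3) (f := rmaj a t)]
  have h1 : IntegrableOn ((Iic t).indicator (fun y => a (t - y))) (Ioi 0) := by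
    rw [integrableOn_indicator_iff measurableSet_Iic]
    have h2 : Iic t ∩ Ioi 0 = Ioc 0 t := by
      ext y; simp [and_comm]
    rw [h2]
    exact (intervalIntegrable_iff_integrableOn_Ioc_of_le ht).1 (intervalIntegrable_sub ha t)
  exact h1.congr_fun (fun y hy => (rmaj_smul hy).symm) measurableSet_Ioi

lemma integral_rmaj {a : ℝ → ℝ} {t : ℝ} (ht : 0 ≤ t) :
    ∫ z : E3, rmaj a t ‖z‖
      = 3 * (volume : Measure E3).real (Metric.ball 0 1) * ∫ s in (0 : ℝ)..t, a s := by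
  rw [integral_fun_norm_addHaar (volume : Measure E3) (rmaj a t),
    setIntegral_congr_fun measurableSet_Ioi (fun y hy => rmaj_smul hy),
    setIntegral_indicator measurableSet_Iic]
  have h2 : Ioi 0 ∩ Iic t = Ioc 0 t := by
    ext y; simp
  rw [h2, ← intervalIntegral.integral_of_le ht, intervalIntegral.integral_comp_sub_left,
    finrank_E3, sub_self, sub_zero, nsmul_eq_mul, smul_eq_mul]
  push_cast
  ring

/-- The bound of a double integral. -/
lemma double_bound {t c P : ℝ} (ht : 0 ≤ t) {a : ℝ → ℝ} (ha : Monotone a)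
    {Φ : E3 → E3 → ℝ}
    (h1 : ∀ z v, ‖v‖ ≤ P → z ≠ 0 → ‖z‖ ≤ t → |Φ z v| ≤ c * ((‖z‖⁻¹) ^ 2 * a (t - ‖z‖)))
    (h2 : ∀ z v, P < ‖v‖ → Φ z v = 0) (h3 : ∀ z v, t < ‖z‖ → Φ z v = 0) :
    |∫ z, ∫ v, Φ z v| ≤ c * (volume : Measure E3).real (Metric.closedBall 0 P)
      * (3 * (volume : Measure E3).real (Metric.ball 0 1)) * ∫ s in (0 : ℝ)..t, a s := by
  set V := (volume : Measure E3).real (Metric.closedBall 0 P) with hV
  have hV0 : 0 ≤ V := measureReal_nonneg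
  have hint : Integrable (fun z : E3 => c * V * rmaj a t ‖z‖) :=
    (integrable_rmaj ha ht).const_mul _
  have hae : ∀ᵐ z : E3, ‖∫ v, Φ z v‖ ≤ c * V * rmaj a t ‖z‖ := by
    have h0 : ∀ᵐ z : E3, z ≠ 0 := by
      rw [ae_iff]
      simp
    filter_upwards [h0] with z hz
    by_cases hzt : ‖z‖ ≤ t
    · have hle : ∀ v, ‖Φ z v‖
          ≤ (Metric.closedBall (0 : E3) P).indicator
            (fun _ => c * ((‖z‖⁻¹) ^ 2 * a (t - ‖z‖))) v := by
        intro v
        by_cases hv : ‖v‖ ≤ P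
        · rw [indicator_of_mem (by simpa using hv)]
          exact h1 z v hv hz hzt
        · rw [indicator_of_notMem (by simpa using hv), h2 z v (not_le.1 hv), norm_zero]
      have hi : Integrable ((Metric.closedBall (0 : E3) P).indicator
            (fun _ => c * ((‖z‖⁻¹) ^ 2 * a (t - ‖z‖)))) := by
        refine (integrable_indicator_iff Metric.isClosed_closedBall.measurableSet).2 ?_
        exact integrableOn_const (measure_closedBall_lt_top.ne)
      refine (norm_integral_le_of_norm_le hi (ae_of_all _ hle)).trans ?_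
      rw [integral_indicator Metric.isClosed_closedBall.measurableSet, setIntegral_const,
        smul_eq_mul, rmaj, if_pos hzt, ← hV]
      apply le_of_eq
      ring
    · have : ∀ v, Φ z v = 0 := fun v => h3 z v (not_le.1 hzt)
      simp [this, rmaj, hzt]
  refine (norm_integral_le_of_norm_le hint hae).trans ?_
  rw [integral_const_mul, integral_rmaj ht]
  apply le_of_eq
  ring

/-! ### Kernel bounds -/

/-- The bound of `(1 - |u(v)|)⁻¹` for `|v| ≤ P`. -/
noncomputable def uM (P : ℝ) : ℝ := 2 * (1 + |P|) ^ 2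

lemma one_le_uM (P : ℝ) : 1 ≤ uM P := by
  unfold uM
  nlinarith only [abs_nonneg P]

lemma inv_le_uM {v : E3} {P : ℝ} (hv : ‖v‖ ≤ P) : (1 - ‖u v‖)⁻¹ ≤ uM P := by
  refine (inv_one_sub_norm_u_le v).trans ?_
  unfold uM
  have hq : q v ≤ 1 + |P| := (q_le_one_add_norm v).trans (by linarith [le_abs_self P])
  have hq0 := (q_pos v).le
  (clear * - hq hq0; gcongr)

lemma kT_le {v z : E3} {P : ℝ} (hv : ‖v‖ ≤ P) (hz : z ≠ 0) (i : Fin 3) :
    |kT (u v) i z| ≤ 2 * uM P ^ 2 * (‖z‖⁻¹) ^ 2 := by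
  have h1a : 0 < 1 - ‖u v‖ := by linarith [norm_u_lt_one v]
  refine (abs_kT_le (norm_u_lt_one v) i hz).trans ?_
  have := inv_le_uM hv
  gcongr

lemma kS_le {v z : E3} {P : ℝ} (hv : ‖v‖ ≤ P) (hz : z ≠ 0) (i : Fin 3) :
    |kS (u v) i z| ≤ 2 * uM P * ‖z‖⁻¹ := by
  have h1a : 0 < 1 - ‖u v‖ := by linarith [norm_u_lt_one v]
  refine (abs_kS_le (norm_u_lt_one v) i hz).trans ?_
  have := inv_le_uM hv
  (clear * - hz this; gcongr)

lemma abs_u_le (v : E3) (i : Fin 3) : |u v i| ≤ 1 :=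
  (abs_component_le _ i).trans (norm_u_lt_one v).le

lemma kTB_le {v z : E3} {P : ℝ} (hv : ‖v‖ ≤ P) (hz : z ≠ 0) (i : Fin 3) :
    |kTB i v z| ≤ 4 * uM P ^ 2 * (‖z‖⁻¹) ^ 2 := by
  unfold kTB
  have h1 := kT_le hv hz (i + 1)
  have h2 := kT_le hv hz (i + 2)
  have h3 := abs_u_le v (i + 1)
  have h4 := abs_u_le v (i + 2)
  calc |u v (i + 2) * kT (u v) (i + 1) z - u v (i + 1) * kT (u v) (i + 2) z|
      ≤ |u v (i + 2) * kT (u v) (i + 1) z| + |u v (i + 1) * kT (u v) (i + 2) z| := abs_sub _ _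
    _ = |u v (i + 2)| * |kT (u v) (i + 1) z| + |u v (i + 1)| * |kT (u v) (i + 2) z| := by
        rw [abs_mul, abs_mul]
    _ ≤ 1 * (2 * uM P ^ 2 * (‖z‖⁻¹) ^ 2) + 1 * (2 * uM P ^ 2 * (‖z‖⁻¹) ^ 2) := by gcongr
    _ = _ := by ring

lemma norm_acc_le' (v F : E3) : ‖acc v F‖ ≤ ‖F‖ := by
  refine (norm_acc_le v F).trans ?_
  have h1 := one_le_q v
  have h2 : (q v)⁻¹ ≤ 1 := inv_le_one_of_one_le₀ h1
  exact mul_le_of_le_one_left (norm_nonneg _) h2

lemma dkS_le {v z F : E3} {P : ℝ} (hv : ‖v‖ ≤ P) (hz : z ≠ 0) (i : Fin 3) :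
    |dkS i v z F| ≤ 3 * uM P ^ 2 * ‖z‖⁻¹ * ‖F‖ := by
  have hpos : 0 < ‖z‖ := norm_pos_iff.2 hz
  have hu := norm_u_lt_one v
  have hD := denom_pos hu hz
  have h1a : 0 < 1 - ‖u v‖ := by linarith only [hu]
  have hM := inv_le_uM hv
  have h1M := one_le_uM P
  have hI : (‖z‖ + ⟪u v, z⟫)⁻¹ ≤ uM P * ‖z‖⁻¹ := by
    calc (‖z‖ + ⟪u v, z⟫)⁻¹ ≤ ((1 - ‖u v‖) * ‖z‖)⁻¹ := by
          gcongr
          exact denom_ge _ z
      _ = (1 - ‖u v‖)⁻¹ * ‖z‖⁻¹ := by rw [mul_inv]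
      _ ≤ _ := by gcongr
  have ha := norm_acc_le' v F
  have ha1 : |acc v F i| ≤ ‖F‖ := (abs_component_le _ i).trans ha
  have ha2 : |⟪acc v F, z⟫| ≤ ‖F‖ * ‖z‖ := (abs_real_inner_le_norm _ _).trans (by gcongr)
  have hn := abs_num_le hu.le z i
  have hD0 : 0 ≤ (‖z‖ + ⟪u v, z⟫)⁻¹ := (inv_pos.2 hD).le
  unfold dkS
  calc |(acc v F) i * (‖z‖ + ⟪u v, z⟫)⁻¹
    - (z i + ‖z‖ * (u v) i) * ⟪acc v F, z⟫ * ((‖z‖ + ⟪u v, z⟫)⁻¹) ^ 2 * ‖z‖⁻¹|
      ≤ |(acc v F) i * (‖z‖ + ⟪u v, z⟫)⁻¹|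
        + |(z i + ‖z‖ * (u v) i) * ⟪acc v F, z⟫ * ((‖z‖ + ⟪u v, z⟫)⁻¹) ^ 2 * ‖z‖⁻¹| :=
        abs_sub _ _
    _ = |(acc v F) i| * (‖z‖ + ⟪u v, z⟫)⁻¹
        + |z i + ‖z‖ * (u v) i| * |⟪acc v F, z⟫| * ((‖z‖ + ⟪u v, z⟫)⁻¹) ^ 2 * ‖z‖⁻¹ := by
        rw [abs_mul, abs_mul, abs_mul, abs_mul, abs_of_nonneg hD0,
          abs_of_nonneg (sq_nonneg ((‖z‖ + ⟪u v, z⟫)⁻¹)),
          abs_of_nonneg (inv_nonneg.2 hpos.le)]
    _ ≤ ‖F‖ * (uM P * ‖z‖⁻¹) + (2 * ‖z‖) * (‖F‖ * ‖z‖) * (uM P * ‖z‖⁻¹) ^ 2 * ‖z‖⁻¹ := by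
        gcongr
    _ = (uM P + 2 * uM P ^ 2) * ‖z‖⁻¹ * ‖F‖ := by
        field_simp
    _ ≤ _ := by
        gcongr
        nlinarith only [h1M]

lemma fderiv_kSB (i : Fin 3) {z : E3} (hz : z ≠ 0) (v F : E3) :
    fderiv ℝ (fun w => kSB i w z) v F
      = (acc v F (i + 2) * kS (u v) (i + 1) z + u v (i + 2) * dkS (i + 1) v z F)
        - (acc v F (i + 1) * kS (u v) (i + 2) z + u v (i + 1) * dkS (i + 2) v z F) := by
  have hud : HasFDerivAt u (fderiv ℝ u v) v :=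
    (contDiff_uu.differentiable (by norm_num) v).hasFDerivAt
  have hul : ∀ l : Fin 3, HasFDerivAt (fun v => (u v) l)
      ((EuclideanSpace.proj l : E3 →L[ℝ] ℝ).comp (fderiv ℝ u v)) v := fun l =>
    (EuclideanSpace.proj l : E3 →L[ℝ] ℝ).hasFDerivAt.comp v hud
  have hk : ∀ l : Fin 3, HasFDerivAt (fun v => kS (u v) l z)
      (fderiv ℝ (fun v => kS (u v) l z) v) v := fun l =>
    ((contDiff_kS_u l hz).differentiable (by norm_num) v).hasFDerivAt
  have h : HasFDerivAt (fun w => kSB i w z) _ v :=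
    ((hul (i + 2)).mul (hk (i + 1))).sub ((hul (i + 1)).mul (hk (i + 2)))
  rw [h.fderiv]
  simp only [sub_apply, add_apply, smul_apply, ContinuousLinearMap.comp_apply, smul_eq_mul,
    fderiv_u_apply, PiLp.proj_apply, fderiv_kS_u _ hz]
  ring

lemma fderiv_kSB_le {v z F : E3} {P : ℝ} (hv : ‖v‖ ≤ P) (hz : z ≠ 0) (i : Fin 3) :
    |fderiv ℝ (fun w => kSB i w z) v F| ≤ 10 * uM P ^ 2 * ‖z‖⁻¹ * ‖F‖ := by
  have hpos : 0 < ‖z‖ := norm_pos_iff.2 hz
  rw [fderiv_kSB i hz]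
  have h1M := one_le_uM P
  have hterm : ∀ j k : Fin 3, |acc v F j * kS (u v) k z + u v j * dkS k v z F|
      ≤ 5 * uM P ^ 2 * ‖z‖⁻¹ * ‖F‖ := by
    intro j k
    have h1 := kS_le hv hz k
    have h2 := dkS_le (F := F) hv hz k
    have h3 := abs_u_le v j
    have h4 : |acc v F j| ≤ ‖F‖ := (abs_component_le _ j).trans (norm_acc_le' v F)
    calc |acc v F j * kS (u v) k z + u v j * dkS k v z F|
        ≤ |acc v F j * kS (u v) k z| + |u v j * dkS k v z F| := abs_add_le _ _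
      _ = |acc v F j| * |kS (u v) k z| + |u v j| * |dkS k v z F| := by rw [abs_mul, abs_mul]
      _ ≤ ‖F‖ * (2 * uM P * ‖z‖⁻¹) + 1 * (3 * uM P ^ 2 * ‖z‖⁻¹ * ‖F‖) := by (clear * - h1 h2 h3 h4; gcongr)
      _ = (2 * uM P + 3 * uM P ^ 2) * ‖z‖⁻¹ * ‖F‖ := by ring
      _ ≤ _ := by
        gcongr
        nlinarith only [h1M]
  calc _ ≤ |acc v F (i + 2) * kS (u v) (i + 1) z + u v (i + 2) * dkS (i + 1) v z F|
        + |acc v F (i + 1) * kS (u v) (i + 2) z + u v (i + 1) * dkS (i + 2) v z F| :=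
        abs_sub _ _
    _ ≤ 5 * uM P ^ 2 * ‖z‖⁻¹ * ‖F‖ + 5 * uM P ^ 2 * ‖z‖⁻¹ * ‖F‖ :=
        add_le_add (hterm _ _) (hterm _ _)
    _ = _ := by ring

lemma sph_pos_le : 0 < sph.real univ := by
  rw [Measure.toSphere_real_apply_univ, finrank_E3]
  have : 0 < (volume : Measure E3).real (Metric.ball 0 1) :=
    ENNReal.toReal_pos (Metric.measure_ball_pos _ _ one_pos).ne' measure_ball_lt_top.ne
  positivity

lemma dkS_zero (i : Fin 3) (v z : E3) : dkS i v z 0 = 0 := by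
  simp [dkS, acc]

end LinB

open LinB in
/-- R2. The linear bound. -/
theorem linear_bound (T P : ℝ) : ∃ C : ℝ, 0 ≤ C ∧ ∀ g H E B, LateSys g H E B →
    ∀ T' ≤ T, (∀ t x v, t ≤ T' → P < ‖v‖ → g (t, x, v) = 0 ∧ H (t, x, v) = 0) →
    ∀ a : ℝ → ℝ, Monotone a → (∀ s z, s ≤ T' → |g (s, z)| + ‖H (s, z)‖ ≤ a s) →
    ∀ t x, 0 ≤ t → t ≤ T' → ‖E (t, x)‖ + ‖B (t, x)‖ ≤ C * ∫ s in (0 : ℝ)..t, a s := by
  set S := sph.real univ with hS
  have hS0 : 0 < S := sph_pos_le
  set W := (volume : Measure E3).real (Metric.closedBall 0 P)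
      * (3 * (volume : Measure E3).real (Metric.ball 0 1)) with hW
  have hW0 : 0 ≤ W := mul_nonneg measureReal_nonneg (mul_nonneg (by norm_num) measureReal_nonneg)
  set c₀ := 10 * uM P ^ 2 * (1 + |T|) with hc₀
  have hc0 : 0 ≤ c₀ := by positivity
  refine ⟨12 * (S⁻¹ * (c₀ * W)), by (clear * - T P hS0; positivity), ?_⟩
  intro g H E B hL T' hT' hsupp a ha hgH t x ht htT
  obtain ⟨η, hη, hlate⟩ := hL.late
  set A := ∫ s in (0 : ℝ)..t, a s with hA
  have ha0 : ∀ s, s ≤ T' → 0 ≤ a s := fun s hs =>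
    (add_nonneg (abs_nonneg _) (norm_nonneg _)).trans (hgH s 0 hs)
  have key1 : ∀ κ : E3 → E3 → ℝ,
      (∀ v z, ‖v‖ ≤ P → z ≠ 0 → |κ v z| ≤ 10 * uM P ^ 2 * (‖z‖⁻¹) ^ 2) →
      |∫ z, ∫ v, κ v z * g (t - ‖z‖, x + z, v)| ≤ c₀ * W * A := by
    intro κ hκ
    have h := double_bound (t := t) (c := c₀) (P := P) ht ha
      (Φ := fun z v => κ v z * g (t - ‖z‖, x + z, v)) ?_ ?_ ?_
    · refine h.trans (le_of_eq ?_)
      rw [hW]; ring
    · intro z v hv hz hzt
      have hs : t - ‖z‖ ≤ T' := by linarith only [htT, norm_nonneg z]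
      have h1 : |g (t - ‖z‖, x + z, v)| ≤ a (t - ‖z‖) :=
        (le_add_of_nonneg_right (norm_nonneg _)).trans (hgH _ _ hs)
      have h0 := ha0 _ hs
      have h2 := hκ v z hv hz
      rw [abs_mul]
      calc |κ v z| * |g (t - ‖z‖, x + z, v)|
          ≤ (10 * uM P ^ 2 * (‖z‖⁻¹) ^ 2) * a (t - ‖z‖) := by (clear * - hz h1 h2; gcongr)
        _ = 10 * uM P ^ 2 * 1 * ((‖z‖⁻¹) ^ 2 * a (t - ‖z‖)) := by ring
        _ ≤ 10 * uM P ^ 2 * (1 + |T|) * ((‖z‖⁻¹) ^ 2 * a (t - ‖z‖)) := by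
          gcongr
          linarith only [abs_nonneg T]
    · intro z v hv
      have hs : t - ‖z‖ ≤ T' := by linarith only [htT, norm_nonneg z]
      simp only [(hsupp _ _ _ hs hv).1, mul_zero]
    · intro z v hz
      have h1 := ((hlate (t - ‖z‖) (by linarith only [hη, hz])).1 (x + z, v)).1
      simp only [h1, mul_zero]
  have key2 : ∀ κ : E3 → E3 → E3 → ℝ,
      (∀ v z F, ‖v‖ ≤ P → z ≠ 0 → |κ v z F| ≤ 10 * uM P ^ 2 * ‖z‖⁻¹ * ‖F‖) →
      (∀ v z, κ v z 0 = 0) →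
      |∫ z, ∫ v, κ v z (H (t - ‖z‖, x + z, v))| ≤ c₀ * W * A := by
    intro κ hκ hκ0
    have h := double_bound (t := t) (c := c₀) (P := P) ht ha
      (Φ := fun z v => κ v z (H (t - ‖z‖, x + z, v))) ?_ ?_ ?_
    · refine h.trans (le_of_eq ?_)
      rw [hW]; ring
    · intro z v hv hz hzt
      have hpos : 0 < ‖z‖ := norm_pos_iff.2 hz
      have hs : t - ‖z‖ ≤ T' := by linarith only [htT, hpos]
      have h1 : ‖H (t - ‖z‖, x + z, v)‖ ≤ a (t - ‖z‖) :=
        (le_add_of_nonneg_left (abs_nonneg _)).trans (hgH _ _ hs)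
      have h0 := ha0 _ hs
      have hzT : ‖z‖ ≤ 1 + |T| := by
        have := le_abs_self T
        linarith only [hT', htT, hzt, this]
      have h3 : ‖z‖⁻¹ = ‖z‖ * (‖z‖⁻¹) ^ 2 := by field_simp
      calc |κ v z (H (t - ‖z‖, x + z, v))|
          ≤ 10 * uM P ^ 2 * ‖z‖⁻¹ * ‖H (t - ‖z‖, x + z, v)‖ := hκ v z _ hv hz
        _ ≤ 10 * uM P ^ 2 * ‖z‖⁻¹ * a (t - ‖z‖) := by (clear * - hz h1; gcongr)
        _ = 10 * uM P ^ 2 * ‖z‖ * ((‖z‖⁻¹) ^ 2 * a (t - ‖z‖)) := by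
          rw [h3]; (clear * - hz; field_simp)
        _ ≤ 10 * uM P ^ 2 * (1 + |T|) * ((‖z‖⁻¹) ^ 2 * a (t - ‖z‖)) := by (clear * - hz h0 hzT; gcongr)
    · intro z v hv
      have hs : t - ‖z‖ ≤ T' := by linarith only [htT, norm_nonneg z]
      simp only [(hsupp _ _ _ hs hv).2, hκ0]
    · intro z v hz
      have h1 := ((hlate (t - ‖z‖) (by linarith only [hη, hz])).1 (x + z, v)).2
      simp only [h1, hκ0]
  have hu1 := one_le_uM P
  have hEi : ∀ i : Fin 3, |E (t, x) i| ≤ S⁻¹ * (2 * (c₀ * W * A)) := by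
    intro i
    have h := rep_E hL t x i
    have h1 := key1 (fun v z => kT (u v) i z) (fun v z hv hz => (kT_le hv hz i).trans (by
      gcongr; norm_num))
    have h2 := key2 (fun v z F => dkS i v z F) (fun v z F hv hz => (dkS_le hv hz i).trans (by
      gcongr; norm_num)) (fun v z => dkS_zero i v z)
    rw [← hS] at h
    have h3 : S * |E (t, x) i| ≤ 2 * (c₀ * W * A) := by
      have h4 : S * |E (t, x) i| = |- (S * E (t, x) i)| := by
        rw [abs_neg, abs_mul, abs_of_pos hS0]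
      rw [h4, h]
      refine (abs_add_le _ _).trans ?_
      linarith only [h1, h2]
    rw [inv_mul_eq_div, le_div_iff₀ hS0]
    linarith only [h3]
  have hBi : ∀ i : Fin 3, |B (t, x) i| ≤ S⁻¹ * (2 * (c₀ * W * A)) := by
    intro i
    have h := rep_B hL t x i
    have h1 := key1 (fun v z => kTB i v z) (fun v z hv hz => (kTB_le hv hz i).trans (by
      gcongr; norm_num))
    have h2 := key2 (fun v z F => fderiv ℝ (fun w => kSB i w z) v F)
      (fun v z F hv hz => fderiv_kSB_le hv hz i) (fun v z => map_zero _)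
    rw [← hS] at h
    have h3 : S * |B (t, x) i| ≤ 2 * (c₀ * W * A) := by
      have h4 : S * |B (t, x) i| = |S * B (t, x) i| := by
        rw [abs_mul, abs_of_pos hS0]
      rw [h4, h]
      refine (abs_add_le _ _).trans ?_
      linarith only [h1, h2]
    rw [inv_mul_eq_div, le_div_iff₀ hS0]
    linarith only [h3]
  have hE : ‖E (t, x)‖ ≤ 3 * (S⁻¹ * (2 * (c₀ * W * A))) := by
    refine (norm_le_sum3 _).trans ?_
    rw [Fin.sum_univ_three]
    linarith only [hEi 0, hEi 1, hEi 2]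
  have hB : ‖B (t, x)‖ ≤ 3 * (S⁻¹ * (2 * (c₀ * W * A))) := by
    refine (norm_le_sum3 _).trans ?_
    rw [Fin.sum_univ_three]
    linarith only [hBi 0, hBi 1, hBi 2]
  calc ‖E (t, x)‖ + ‖B (t, x)‖ ≤ 3 * (S⁻¹ * (2 * (c₀ * W * A)))
        + 3 * (S⁻¹ * (2 * (c₀ * W * A))) := add_le_add hE hB
    _ = _ := by ring

end Vale.Agent.P107.LE
end
end
end

section

section

attribute [-instance] ProperSMul.toContinuousSMul IsTopologicalTorsor.toContinuousSMul
  IdemSemiring.toCanonicallyOrderedAdd IdemSemiring.toMulLeftMono IdemSemiring.toMulRightMono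
  AddQuantale.instAddLeftMono AddQuantale.instAddRightMono Quantale.instMulLeftMono
  Quantale.instMulRightMono FiniteDimensional.rclike_to_real IsScalarTower.complexToReal
  FiniteDimensional.complexToReal

section

/-!
The differences of solutions of the delayed system solve the linear system; uniform sup bounds.
-/

open MeasureTheory Set Filter Topology
open scoped RealInnerProductSpace ENNReal NNReal ContDiff

namespace Vale.Agent.P107.LE

section general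

variable {F : Type*} [NormedAddCommGroup F] [NormedSpace ℝ F]

lemma sup_SD_sub {g g' : ℝ × E3 × E3 → F} (h : SD g) (h' : SD g') :
    SD (fun y => g y - g' y) where
  smooth := h.smooth.sub h'.smooth
  supp := by
    intro T
    obtain ⟨R, hR⟩ := h.supp T
    obtain ⟨R', hR'⟩ := h'.supp T
    refine ⟨max R R', fun t x v ht hne => ?_⟩
    by_cases hg : g (t, x, v) = 0
    · have hg' : g' (t, x, v) ≠ 0 := by
        intro h0
        apply hne
        show g (t, x, v) - g' (t, x, v) = 0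
        rw [hg, h0, sub_zero]
      obtain ⟨h1, h2⟩ := hR' t x v ht hg'
      exact ⟨h1.trans (le_max_right _ _), h2.trans (le_max_right _ _)⟩
    · obtain ⟨h1, h2⟩ := hR t x v ht hg
      exact ⟨h1.trans (le_max_left _ _), h2.trans (le_max_left _ _)⟩

lemma sup_SF_sub {W W' : ℝ × E3 → F} (h : SF W) (h' : SF W') : SF (fun p => W p - W' p) where
  smooth := h.smooth.sub h'.smooth
  bdd := by
    intro n T
    obtain ⟨C, hC⟩ := h.bdd n T
    obtain ⟨C', hC'⟩ := h'.bdd n T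
    refine ⟨C + C', fun p hp => ?_⟩
    have e : iteratedFDeriv ℝ n (fun p => W p - W' p) p =
        iteratedFDeriv ℝ n W p - iteratedFDeriv ℝ n W' p :=
      iteratedFDeriv_sub_apply (h.smooth.of_le (by exact_mod_cast le_top)).contDiffAt
        (h'.smooth.of_le (by exact_mod_cast le_top)).contDiffAt
    rw [e]
    exact (norm_sub_le _ _).trans (add_le_add (hC p hp) (hC' p hp))

lemma sup_SB_SF {W : E3 → F} (h : SB W) : SF (fun p : ℝ × E3 => W p.2) where
  smooth := h.smooth.comp contDiff_snd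
  bdd := by
    intro n T
    obtain ⟨C, hC⟩ := h.bdd n
    refine ⟨C, fun p _ => ?_⟩
    have e := (ContinuousLinearMap.snd ℝ ℝ E3).iteratedFDeriv_comp_right h.smooth p
      (i := n) (by exact_mod_cast le_top)
    have e2 : iteratedFDeriv ℝ n (fun p : ℝ × E3 => W p.2) p =
        (iteratedFDeriv ℝ n W p.2).compContinuousLinearMap
          fun _ => ContinuousLinearMap.snd ℝ ℝ E3 := e
    rw [e2]
    refine (ContinuousMultilinearMap.norm_compContinuousLinearMap_le _ _).trans ?_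
    rw [Finset.prod_const]
    have h1 : ‖ContinuousLinearMap.snd ℝ ℝ E3‖ ^ (Finset.univ : Finset (Fin n)).card ≤ 1 :=
      pow_le_one₀ (norm_nonneg _) (ContinuousLinearMap.norm_snd_le ℝ ℝ E3)
    calc _ ≤ ‖iteratedFDeriv ℝ n W p.2‖ * 1 := by (clear * - h1; gcongr)
      _ ≤ C := by rw [mul_one]; exact hC p.2

lemma sup_SF_bound {W : ℝ × E3 → F} (h : SF W) (T : ℝ) :
    ∃ C : ℝ, 0 ≤ C ∧ ∀ p : ℝ × E3, |p.1| ≤ T → ‖W p‖ ≤ C := by
  obtain ⟨C, hC⟩ := h.bdd 0 T
  refine ⟨max C 0, le_max_right _ _, fun p hp => ?_⟩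
  have := hC p hp
  rw [norm_iteratedFDeriv_zero] at this
  exact this.trans (le_max_left _ _)

end general

lemma sup_int {F : Type*} [NormedAddCommGroup F] [NormedSpace ℝ F] {g : ℝ × E3 × E3 → F}
    (h : SD g) (t : ℝ) (x : E3) : Continuous (fun v => g (t, x, v)) ∧
      HasCompactSupport (fun v => g (t, x, v)) := by
  refine ⟨h.smooth.continuous.comp (by fun_prop), ?_⟩
  obtain ⟨R, hR⟩ := h.supp |t|
  apply HasCompactSupport.of_support_subset_isCompact (isCompact_closedBall (0 : E3) R)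
  intro v hv
  rw [mem_closedBall_zero_iff]
  exact (hR t x v le_rfl hv).2

lemma sup_rhoD_sub {g g' : ℝ × E3 × E3 → ℝ} (h : SD g) (h' : SD g') (p : ℝ × E3) :
    rhoD (fun y => g y - g' y) p = rhoD g p - rhoD g' p := by
  unfold rhoD
  obtain ⟨c, s⟩ := sup_int h p.1 p.2
  obtain ⟨c', s'⟩ := sup_int h' p.1 p.2
  exact integral_sub (c.integrable_of_hasCompactSupport s) (c'.integrable_of_hasCompactSupport s')

lemma sup_curD_sub {g g' : ℝ × E3 × E3 → ℝ} (h : SD g) (h' : SD g') (p : ℝ × E3) :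
    curD (fun y => g y - g' y) p = curD g p - curD g' p := by
  unfold curD
  obtain ⟨c, s⟩ := sup_int h p.1 p.2
  obtain ⟨c', s'⟩ := sup_int h' p.1 p.2
  have hu : Continuous u := contDiff_uu.continuous
  have i1 : Integrable fun v => g (p.1, p.2, v) • u v :=
    (c.smul hu).integrable_of_hasCompactSupport s.smul_right
  have i2 : Integrable fun v => g' (p.1, p.2, v) • u v :=
    (c'.smul hu).integrable_of_hasCompactSupport s'.smul_right
  rw [← integral_sub i1 i2]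
  congr 1
  ext1 v
  rw [sub_smul]

/-- General form of the two theorems on differences. -/
lemma sup_lateSys {f f' : ℝ × E3 × E3 → ℝ} {E B E' B' e b e' b' : ℝ × E3 → E3}
    (sd : SD f) (sd' : SD f') (sE : SF E) (sB : SF B) (sE' : SF E') (sB' : SF B')
    (se : SF e) (sb : SF b) (se' : SF e') (sb' : SF b') (vl : Vl e b f) (vl' : Vl e' b' f')
    (mx : Mx (Ici 0) E B (rhoD f) (curD f)) (mx' : Mx (Ici 0) E' B' (rhoD f') (curD f'))
    {η : ℝ} (hη : 0 < η) (hf : ∀ t ≤ η, ∀ z, f (t, z) = f' (t, z))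
    (hE : ∀ t ≤ η, ∀ x, E (t, x) = E' (t, x)) (hB : ∀ t ≤ η, ∀ x, B (t, x) = B' (t, x))
    (he : ∀ t ≤ η, ∀ x, e (t, x) = e' (t, x)) (hb : ∀ t ≤ η, ∀ x, b (t, x) = b' (t, x)) :
    LateSys (fun y => f y - f' y) (fun y => flx e b f y - flx e' b' f' y)
      (fun p => E p - E' p) (fun p => B p - B' p) := by
  have s1 : SD (flx e b f) := SD.flx se sb sd
  have s2 : SD (flx e' b' f') := SD.flx se' sb' sd'
  refine ⟨sup_SD_sub sd sd', sup_SD_sub s1 s2, sup_SF_sub sE sE', sup_SF_sub sB sB', ?_,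
    Tr.sub sd sd' s1 s2 (Vl.tr sd vl) (Vl.tr sd' vl'), ⟨η, hη, fun t ht => ⟨fun z => ⟨?_, ?_⟩,
      fun x => ⟨?_, ?_⟩⟩⟩⟩
  · have hm := Mx.sub sE sB sE' sB' mx mx'
    have e1 : (fun p => rhoD f p - rhoD f' p) = rhoD (fun y => f y - f' y) := by
      ext p
      rw [sup_rhoD_sub sd sd']
    have e2 : (fun p => curD f p - curD f' p) = curD (fun y => f y - f' y) := by
      ext1 p
      rw [sup_curD_sub sd sd']
    rw [e1, e2] at hm
    refine Mx.of_late hη hm (fun p hp => ⟨?_, ?_⟩) (fun p hp => ⟨?_, ?_⟩)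
    · have := hE p.1 hp p.2
      exact sub_eq_zero.mpr this
    · have := hB p.1 hp p.2
      exact sub_eq_zero.mpr this
    · have : ∀ v, f (p.1, p.2, v) - f' (p.1, p.2, v) = 0 := fun v =>
        sub_eq_zero.mpr (hf p.1 hp (p.2, v))
      simp [rhoD, this]
    · have : ∀ v, f (p.1, p.2, v) - f' (p.1, p.2, v) = 0 := fun v =>
        sub_eq_zero.mpr (hf p.1 hp (p.2, v))
      simp [curD, this]
  · exact sub_eq_zero.mpr (hf t ht z)
  · show f (t, z) • lor (e (t, z.1)) (b (t, z.1)) z.2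
      - f' (t, z) • lor (e' (t, z.1)) (b' (t, z.1)) z.2 = 0
    rw [hf t ht z, he t ht z.1, hb t ht z.1, sub_self]
  · exact sub_eq_zero.mpr (hE t ht x)
  · exact sub_eq_zero.mpr (hB t ht x)

section Eps

variable {f₀ : E3 × E3 → ℝ} {E₀ B₀ : E3 → E3} {fL : ℝ × E3 × E3 → ℝ} {EL BL : ℝ × E3 → E3}

/-- The difference of a solution of the delayed system and the layer solution. -/
theorem EpsSol.lateSys (hD : Dat f₀ E₀ B₀) (hL : Layer f₀ E₀ B₀ fL EL BL) {ε : ℝ} (hε : 0 < ε)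
    {f : ℝ × E3 × E3 → ℝ} {E B : ℝ × E3 → E3} (h : EpsSol fL EL BL ε f E B) :
    LateSys (fun y => f y - fL y)
      (fun y => flx (dl ε E) (dl ε B) f y - flx (fun p => E₀ p.2) (fun p => B₀ p.2) fL y)
      (fun p => E p - EL p) (fun p => B p - BL p) := by
  refine sup_lateSys h.sd hL.sd h.sE h.sB hL.sE hL.sB (dl_SF hε h.sE) (dl_SF hε h.sB)
    (sup_SB_SF hD.sE) (sup_SB_SF hD.sB) h.vl hL.vl h.mx hL.mx hε h.agf h.agE h.agB ?_ ?_
  · intro t ht x
    rw [dl_early hε h.sE (p := (t, x)) ht, h.agE 0 hε.le, hL.E0]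
  · intro t ht x
    rw [dl_early hε h.sB (p := (t, x)) ht, h.agB 0 hε.le, hL.B0]

/-- The difference of two solutions of delayed systems. -/
theorem EpsSol.lateSys₂ (hD : Dat f₀ E₀ B₀) (hL : Layer f₀ E₀ B₀ fL EL BL) {ε ε' : ℝ}
    (hε : 0 < ε) (hε' : 0 < ε') {f f' : ℝ × E3 × E3 → ℝ} {E B E' B' : ℝ × E3 → E3}
    (h : EpsSol fL EL BL ε f E B) (h' : EpsSol fL EL BL ε' f' E' B') :
    LateSys (fun y => f y - f' y) (fun y => flx (dl ε E) (dl ε B) f y
      - flx (dl ε' E') (dl ε' B') f' y) (fun p => E p - E' p) (fun p => B p - B' p) := by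
  refine sup_lateSys h.sd h'.sd h.sE h.sB h'.sE h'.sB (dl_SF hε h.sE) (dl_SF hε h.sB)
    (dl_SF hε' h'.sE) (dl_SF hε' h'.sB) h.vl h'.vl h.mx h'.mx (lt_min hε hε') ?_ ?_ ?_ ?_ ?_
  · intro t ht z
    rw [h.agf t (ht.trans (min_le_left _ _)), h'.agf t (ht.trans (min_le_right _ _))]
  · intro t ht z
    rw [h.agE t (ht.trans (min_le_left _ _)), h'.agE t (ht.trans (min_le_right _ _))]
  · intro t ht z
    rw [h.agB t (ht.trans (min_le_left _ _)), h'.agB t (ht.trans (min_le_right _ _))]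
  · intro t ht x
    rw [dl_early hε h.sE (p := (t, x)) (ht.trans (min_le_left _ _)),
      dl_early hε' h'.sE (p := (t, x)) (ht.trans (min_le_right _ _)), h.agE 0 hε.le,
      h'.agE 0 hε'.le]
  · intro t ht x
    rw [dl_early hε h.sB (p := (t, x)) (ht.trans (min_le_left _ _)),
      dl_early hε' h'.sB (p := (t, x)) (ht.trans (min_le_right _ _)), h.agB 0 hε.le,
      h'.agB 0 hε'.le]

/-- A solution of the Vlasov equation takes its values from time zero. -/
lemma sup_char {e b : ℝ × E3 → E3} {f : ℝ × E3 × E3 → ℝ} (se : SF e) (sb : SF b)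
    (hf : ContDiff ℝ 1 f) (vl : Vl e b f) (t : ℝ) (z : E3 × E3) :
    ∃ z' : E3 × E3, f (t, z) = f (0, z') := by
  obtain ⟨Z, -, h0, hd⟩ := exists_flow se sb
  refine ⟨Z (0, t, z), ?_⟩
  have hder : ∀ r : ℝ, HasDerivAt (fun r => f (r, Z (r, t, z))) 0 r := by
    intro r
    have h1 := (hasDerivAt_id r).prodMk (hd r t z)
    have h2 := ((hf.differentiable (by norm_num)) (r, Z (r, t, z))).hasFDerivAt
    have h3 := HasFDerivAt.comp_hasDerivAt r h2 h1
    have h4 := vl r (Z (r, t, z)).1 (Z (r, t, z)).2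
    have h5 : fderiv ℝ f (r, Z (r, t, z)) (1, u (Z (r, t, z)).2,
        lor (e (r, (Z (r, t, z)).1)) (b (r, (Z (r, t, z)).1)) (Z (r, t, z)).2) = 0 := h4
    rw [h5] at h3
    exact h3
  have hc := is_const_of_deriv_eq_zero (fun r => (hder r).differentiableAt)
    (fun r => (hder r).deriv) t 0
  simp only [h0] at hc
  exact hc

/-- The densities are bounded by the initial density. -/
theorem EpsSol.sup_f (hD : Dat f₀ E₀ B₀) (hL : Layer f₀ E₀ B₀ fL EL BL) : ∃ C : ℝ, 0 ≤ C ∧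
    (∀ p, |fL p| ≤ C) ∧
    ∀ ε f E B, 0 < ε → EpsSol fL EL BL ε f E B → ∀ p, |f p| ≤ C := by
  obtain ⟨C, hC⟩ := hD.f_smooth.continuous.bounded_above_of_compact_support hD.f_supp
  have hC0 : 0 ≤ C := (norm_nonneg _).trans (hC 0)
  refine ⟨C, hC0, ?_, ?_⟩
  · rintro ⟨t, z⟩
    obtain ⟨z', hz'⟩ := sup_char (sup_SB_SF hD.sE) (sup_SB_SF hD.sB)
      (hL.sd.smooth.of_le (by exact_mod_cast le_top)) hL.vl t z
    rw [hz', hL.f0]
    exact hC z'
  · rintro ε f E B hε h ⟨t, z⟩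
    obtain ⟨z', hz'⟩ := sup_char (dl_SF hε h.sE) (dl_SF hε h.sB)
      (h.sd.smooth.of_le (by exact_mod_cast le_top)) h.vl t z
    rw [hz', h.agf 0 hε.le, hL.f0]
    exact hC z'

lemma sup_flx_le {e b : ℝ × E3 → E3} {f : ℝ × E3 × E3 → ℝ} {C c : ℝ} (hC : 0 ≤ C) {t : ℝ}
    {z : E3 × E3} (hf : |f (t, z)| ≤ C) (he : ‖e (t, z.1)‖ + ‖b (t, z.1)‖ ≤ c) :
    ‖flx e b f (t, z)‖ ≤ C * c := by
  show ‖f (t, z) • lor (e (t, z.1)) (b (t, z.1)) z.2‖ ≤ C * c
  rw [norm_smul]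
  exact mul_le_mul hf ((norm_lor_le _ _ _).trans he) (norm_nonneg _) hC

/-- E0. Uniform sup bound. -/
theorem sup_bound (hD : Dat f₀ E₀ B₀) (hL : Layer f₀ E₀ B₀ fL EL BL) (T P : ℝ) :
    ∃ C : ℝ, 0 ≤ C ∧ ∀ ε f E B, 0 < ε → EpsSol fL EL BL ε f E B → ∀ T' ≤ T, MB P T' f →
      ∀ t x, 0 ≤ t → t ≤ T' → ‖E (t, x)‖ + ‖B (t, x)‖ ≤ C := by
  obtain ⟨Cf, hCf0, hfL, hfe⟩ := EpsSol.sup_f hD hL
  obtain ⟨R, hR⟩ := hL.sd.supp |T|
  obtain ⟨C1, hC1, hlin⟩ := linear_bound |T| (max P R)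
  obtain ⟨CE, hCE0, hCE⟩ := sup_SF_bound hL.sE |T|
  obtain ⟨CB, hCB0, hCB⟩ := sup_SF_bound hL.sB |T|
  obtain ⟨ME, hME0, hME⟩ := sup_SF_bound (sup_SB_SF hD.sE) |T|
  obtain ⟨MB', hMB0, hMB⟩ := sup_SF_bound (sup_SB_SF hD.sB) |T|
  have hMEx : ∀ x, ‖E₀ x‖ ≤ ME := fun x => hME (0, x) (by simp)
  have hMBx : ∀ x, ‖B₀ x‖ ≤ MB' := fun x => hMB (0, x) (by simp)
  set A0 : ℝ := 2 * Cf + Cf * (ME + MB') with hA0
  have hA0' : 0 ≤ A0 := by (clear * - Cf hCf0 ME hME0 MB' hMB0; positivity)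
  set K : ℝ := max (CE + CB + C1 * (A0 * |T|)) (C1 * (2 * Cf)) with hK
  have hK0 : 0 ≤ K := le_max_of_le_right (by (clear * - hCf0 hC1; positivity))
  refine ⟨K * Real.exp (K * |T|), by (clear * - Cf hCf0 C1 hC1 CE hCE0 CB hCB0 ME hME0 MB' hMB0 A0; positivity), ?_⟩
  intro ε f E B hε h T' hT' hMBf t x ht htT'
  have hT'0 : 0 ≤ T' := ht.trans htT'
  have hT'T : T' ≤ |T| := hT'.trans (le_abs_self T)
  obtain ⟨bE, hbE0, hbE⟩ := sup_SF_bound h.sE |T|
  obtain ⟨bB, hbB0, hbB⟩ := sup_SF_bound h.sB |T|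
  have hlate := EpsSol.lateSys hD hL hε h
  -- the running supremum
  set S : ℝ → Set ℝ := fun s => {y | ∃ r : ℝ × E3, 0 ≤ r.1 ∧ r.1 ≤ min (max s 0) T' ∧
    y = ‖E r‖ + ‖B r‖} with hS
  have hbdd : ∀ s, BddAbove (S s) := by
    intro s
    refine ⟨bE + bB, ?_⟩
    rintro y ⟨r, hr0, hr1, rfl⟩
    have hr : |r.1| ≤ |T| := by
      rw [abs_of_nonneg hr0]
      exact (hr1.trans (min_le_right _ _)).trans hT'T
    exact add_le_add (hbE r hr) (hbB r hr)
  have hne : ∀ s, (S s).Nonempty := fun s => ⟨_, (0, 0), le_rfl, le_min (le_max_right _ _) hT'0, rfl⟩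
  set Y : ℝ → ℝ := fun s => sSup (S s) with hY
  have hYle : ∀ s (r : ℝ × E3), 0 ≤ r.1 → r.1 ≤ min (max s 0) T' → ‖E r‖ + ‖B r‖ ≤ Y s :=
    fun s r h1 h2 => le_csSup (hbdd s) ⟨r, h1, h2, rfl⟩
  have hYmono : Monotone Y := by
    intro s s' hss
    refine csSup_le_csSup (hbdd s') (hne s) ?_
    rintro y ⟨r, h1, h2, rfl⟩
    exact ⟨r, h1, h2.trans (min_le_min_right _ (max_le_max_right _ hss)), rfl⟩
  have hY0 : ∀ s, 0 ≤ Y s := fun s =>
    (add_nonneg (norm_nonneg _) (norm_nonneg _)).trans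
      (hYle s (0, 0) le_rfl (le_min (le_max_right _ _) hT'0))
  have hYint : ∀ a b : ℝ, IntervalIntegrable Y volume a b := fun a b =>
    hYmono.intervalIntegrable
  have hdl : ∀ s, s ≤ T' → ∀ y : E3, ‖dl ε E (s, y)‖ + ‖dl ε B (s, y)‖ ≤ 2 * Y s := by
    intro s hs y
    have hmin : min (max s 0) T' = max s 0 := min_eq_left (max_le hs hT'0)
    have h1 : ‖dl ε E (s, y)‖ ≤ Y s := dl_bound hε h.sE (p := (s, y)) (fun r hr0 hr1 =>
      (le_add_of_nonneg_right (norm_nonneg _)).trans (hYle s r hr0 (by rw [hmin]; exact hr1)))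
    have h2 : ‖dl ε B (s, y)‖ ≤ Y s := dl_bound hε h.sB (p := (s, y)) (fun r hr0 hr1 =>
      (le_add_of_nonneg_left (norm_nonneg _)).trans (hYle s r hr0 (by rw [hmin]; exact hr1)))
    linarith only [h1, h2]
  -- the linear bound
  have hmain : ∀ t x, 0 ≤ t → t ≤ T' → ‖E (t, x) - EL (t, x)‖ + ‖B (t, x) - BL (t, x)‖
      ≤ C1 * ∫ s in (0 : ℝ)..t, (A0 + 2 * Cf * Y s) := by
    refine hlin _ _ _ _ hlate T' hT'T ?_ (fun s => A0 + 2 * Cf * Y s) ?_ ?_
    · intro t x v ht' hv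
      rcases le_or_gt t 0 with ht0 | ht0
      · obtain ⟨η, hη, hl⟩ := hlate.late
        exact (hl t (ht0.trans hη.le)).1 (x, v)
      · have h1 : f (t, x, v) = 0 := by
          by_contra hcon
          exact absurd (hMBf t x v ht0.le ht' hcon) (not_le.mpr ((le_max_left _ _).trans_lt hv))
        have h2 : fL (t, x, v) = 0 := by
          by_contra hcon
          have := (hR t x v (by rw [abs_of_nonneg ht0.le]; exact ht'.trans hT'T) hcon).2
          exact absurd this (not_le.mpr ((le_max_right _ _).trans_lt hv))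
        constructor
        · show f (t, x, v) - fL (t, x, v) = 0
          rw [h1, h2, sub_zero]
        · show f (t, x, v) • lor (dl ε E (t, x)) (dl ε B (t, x)) v
            - fL (t, x, v) • lor (E₀ x) (B₀ x) v = 0
          rw [h1, h2, zero_smul, zero_smul, sub_zero]
    · intro s s' hss
      have := hYmono hss
      have h2 : (0 : ℝ) ≤ 2 * Cf := by (clear * - hCf0; positivity)
      exact add_le_add le_rfl (mul_le_mul_of_nonneg_left this h2)
    · intro s z hs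
      have h1 : |f (s, z) - fL (s, z)| ≤ 2 * Cf := by
        refine (abs_sub _ _).trans ?_
        have := hfe ε f E B hε h (s, z)
        have := hfL (s, z)
        linarith
      have h2 := sup_flx_le (e := dl ε E) (b := dl ε B) hCf0 (hfe ε f E B hε h (s, z))
        (hdl s hs z.1)
      have h3 := sup_flx_le (e := fun p : ℝ × E3 => E₀ p.2) (b := fun p : ℝ × E3 => B₀ p.2)
        (c := ME + MB') hCf0 (hfL (s, z)) (add_le_add (hMEx z.1) (hMBx z.1))
      have h4 := norm_sub_le (flx (dl ε E) (dl ε B) f (s, z))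
        (flx (fun p => E₀ p.2) (fun p => B₀ p.2) fL (s, z))
      rw [hA0]
      calc _ ≤ 2 * Cf + (Cf * (2 * Y s) + Cf * (ME + MB')) :=
            add_le_add h1 (h4.trans (add_le_add h2 h3))
        _ = _ := by ring
  have hint : ∀ t, ∫ s in (0 : ℝ)..t, (A0 + 2 * Cf * Y s) = A0 * t + 2 * Cf * ∫ s in (0 : ℝ)..t, Y s := by
    intro t
    rw [intervalIntegral.integral_add intervalIntegrable_const ((hYint 0 t).const_mul _),
      intervalIntegral.integral_const, intervalIntegral.integral_const_mul, smul_eq_mul]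
    ring
  have hgr : ∀ t ∈ Icc 0 T', Y t ≤ K + K * ∫ s in (0 : ℝ)..t, Y s := by
    intro t ht
    have hY1 : 0 ≤ ∫ s in (0 : ℝ)..t, Y s :=
      intervalIntegral.integral_nonneg ht.1 fun s _ => hY0 s
    refine csSup_le (hne t) ?_
    rintro y ⟨r, h1, h2, rfl⟩
    have hrt : r.1 ≤ t := by
      have := h2.trans (min_le_left _ _)
      rwa [max_eq_left ht.1] at this
    have hrT : r.1 ≤ T' := h2.trans (min_le_right _ _)
    have hrabs : |r.1| ≤ |T| := by rw [abs_of_nonneg h1]; exact hrT.trans hT'T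
    have h3 := hmain r.1 r.2 h1 hrT
    have h4 : ∫ s in (0 : ℝ)..r.1, Y s ≤ ∫ s in (0 : ℝ)..t, Y s :=
      intervalIntegral.integral_mono_interval le_rfl h1 hrt
        (Eventually.of_forall fun s => hY0 s) (hYint 0 t)
    rw [hint] at h3
    have h5 : ‖E r‖ ≤ ‖E r - EL r‖ + CE := by
      calc ‖E r‖ = ‖(E r - EL r) + EL r‖ := by rw [sub_add_cancel]
        _ ≤ ‖E r - EL r‖ + ‖EL r‖ := norm_add_le _ _
        _ ≤ _ := by gcongr; exact hCE r hrabs
    have h6 : ‖B r‖ ≤ ‖B r - BL r‖ + CB := by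
      calc ‖B r‖ = ‖(B r - BL r) + BL r‖ := by rw [sub_add_cancel]
        _ ≤ ‖B r - BL r‖ + ‖BL r‖ := norm_add_le _ _
        _ ≤ _ := by gcongr; exact hCB r hrabs
    have h7 : A0 * r.1 ≤ A0 * |T| := mul_le_mul_of_nonneg_left (hrT.trans hT'T) hA0'
    have h8 : C1 * (A0 * r.1 + 2 * Cf * ∫ s in (0 : ℝ)..r.1, Y s) ≤
        C1 * (A0 * |T|) + C1 * (2 * Cf) * ∫ s in (0 : ℝ)..t, Y s := by
      have : A0 * r.1 + 2 * Cf * ∫ s in (0 : ℝ)..r.1, Y s ≤
          A0 * |T| + 2 * Cf * ∫ s in (0 : ℝ)..t, Y s :=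
        add_le_add h7 (mul_le_mul_of_nonneg_left h4 (by (clear * - hCf0; positivity)))
      calc _ ≤ C1 * (A0 * |T| + 2 * Cf * ∫ s in (0 : ℝ)..t, Y s) :=
            mul_le_mul_of_nonneg_left this hC1
        _ = _ := by ring
    have h9 : C1 * (2 * Cf) * ∫ s in (0 : ℝ)..t, Y s ≤ K * ∫ s in (0 : ℝ)..t, Y s :=
      mul_le_mul_of_nonneg_right (le_max_right _ _) hY1
    have h10 : CE + CB + C1 * (A0 * |T|) ≤ K := le_max_left _ _
    linarith only [h3, h5, h6, h8, h9, h10]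
  have hg := gronwall_monotone hK0 (hYmono.monotoneOn _) (fun s _ => hY0 s) hgr t ⟨ht, htT'⟩
  have hfin : ‖E (t, x)‖ + ‖B (t, x)‖ ≤ Y t :=
    hYle t (t, x) ht (le_min (le_max_left _ _) htT')
  refine hfin.trans (hg.trans ?_)
  gcongr
  exact htT'.trans hT'T

end Eps

end Vale.Agent.P107.LE
end
end
end

section

section

attribute [-instance] ProperSMul.toContinuousSMul IsTopologicalTorsor.toContinuousSMul
  IdemSemiring.toCanonicallyOrderedAdd IdemSemiring.toMulLeftMono IdemSemiring.toMulRightMono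
  AddQuantale.instAddLeftMono AddQuantale.instAddRightMono Quantale.instMulLeftMono
  Quantale.instMulRightMono FiniteDimensional.rclike_to_real IsScalarTower.complexToReal
  FiniteDimensional.complexToReal

section

/-!
Short time extension of the momentum bound for the solutions of the delayed system.
-/

open MeasureTheory Set Filter Topology
open scoped RealInnerProductSpace ENNReal NNReal ContDiff

namespace Vale.Agent.P107.LE

variable {f₀ : E3 × E3 → ℝ} {E₀ B₀ : E3 → E3} {fL : ℝ × E3 × E3 → ℝ} {EL BL : ℝ × E3 → E3}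

/-- One step of `supp_growth` for `MB`. -/
theorem MB_step {E B : ℝ × E3 → E3} (hE : SF E) (hB : SF B) {f : ℝ × E3 × E3 → ℝ}
    (hf : ContDiff ℝ 1 f) (h : Vl E B f) {k P a s s' : ℝ} (hs0 : 0 ≤ s) (ha : k * (s' - s) ≤ a)
    (hk0 : 0 ≤ k) (hk : ∀ p : ℝ × E3, s ≤ p.1 → p.1 ≤ s' → ‖E p‖ + ‖B p‖ ≤ k)
    (hMB : MB P s f) (ha0 : 0 ≤ a) : MB (P + a) s' f := by
  intro t x v ht0 ht hne
  rcases le_total t s with hts | hts
  · have := hMB t x v ht0 hts hne
    linarith only [ha0, this]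
  · obtain ⟨x', v', h1, h2, -⟩ := supp_growth hE hB hf h hts
      (fun p hp1 hp2 => hk p hp1 (hp2.trans ht)) x v
    have h3 := hMB s x' v' hs0 le_rfl (by rw [h1]; exact hne)
    have h4 : k * (t - s) ≤ k * (s' - s) := mul_le_mul_of_nonneg_left (by linarith only [ht]) hk0
    have h5 : ‖v‖ ≤ ‖v'‖ + ‖v' - v‖ := by
      have := norm_sub_norm_le v v'
      rw [norm_sub_rev] at this
      linarith only [this]
    linarith only [ha, h2, h3, h4, h5]

/-- EXT. Short time extension of the momentum bound. -/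
theorem extend_MB (hD : Dat f₀ E₀ B₀) (hL : Layer f₀ E₀ B₀ fL EL BL) (T P : ℝ) :
    ∃ h : ℝ, 0 < h ∧ ∀ ε f E B, 0 < ε → EpsSol fL EL BL ε f E B → ∀ T', 0 ≤ T' → T' ≤ T →
      MB P T' f → MB (P + 1) (T' + h) f := by
  obtain ⟨k, hk0, hk⟩ := sup_bound hD hL (T + 1) (P + 1)
  obtain ⟨h, hh⟩ : ∃ h : ℝ, h = min 1 (1 / (4 * k + 4)) := ⟨_, rfl⟩
  have h0 : 0 < h := by rw [hh]; positivity
  have h1 : h ≤ 1 := by rw [hh]; exact min_le_left _ _
  have h2 : 2 * k * h ≤ 1 / 2 := by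
    have h3 : h ≤ 1 / (4 * k + 4) := by rw [hh]; exact min_le_right _ _
    have h4 : 2 * k * h ≤ 2 * k * (1 / (4 * k + 4)) := mul_le_mul_of_nonneg_left h3 (by positivity)
    refine h4.trans ?_
    rw [mul_one_div, div_le_div_iff₀ (by positivity) (by norm_num)]
    linarith only []
  refine ⟨h, h0, fun ε f E B hε hS T' hT'0 hT'T hMB => ?_⟩
  have hsE := dl_SF hε hS.sE
  have hsB := dl_SF hε hS.sB
  have hf1 : ContDiff ℝ 1 f := hS.sd.smooth.of_le (by simp)
  obtain ⟨K1, hK1⟩ := hsE.bdd 0 (T + 1)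
  obtain ⟨K2, hK2⟩ := hsB.bdd 0 (T + 1)
  obtain ⟨K, hK⟩ : ∃ K : ℝ, K = max (K1 + K2) 0 := ⟨_, rfl⟩
  have hK0 : 0 ≤ K := by rw [hK]; exact le_max_right _ _
  have hKb : ∀ p : ℝ × E3, 0 ≤ p.1 → p.1 ≤ T + 1 → ‖dl ε E p‖ + ‖dl ε B p‖ ≤ K := by
    intro p hp0 hp
    have ha : |p.1| ≤ T + 1 := by rw [abs_of_nonneg hp0]; exact hp
    have h3 := hK1 p ha
    have h4 := hK2 p ha
    rw [norm_iteratedFDeriv_zero] at h3 h4
    rw [hK]
    exact (add_le_add h3 h4).trans (le_max_left _ _)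
  obtain ⟨d, hd⟩ : ∃ d : ℝ, d = 1 / (2 * K + 2) := ⟨_, rfl⟩
  have hd0 : 0 < d := by rw [hd]; (clear * - hK0; positivity)
  have hKd : K * d ≤ 1 / 2 := by
    rw [hd, mul_one_div, div_le_div_iff₀ (by positivity) (by norm_num)]
    linarith only []
  -- fields are bounded while the momenta are
  have hfield : ∀ s, s ≤ T + 1 → MB (P + 1) s f → ∀ p : ℝ × E3, T' ≤ p.1 → p.1 ≤ s →
      ‖dl ε E p‖ + ‖dl ε B p‖ ≤ 2 * k := by
    intro s hs hM p hp0 hp
    have hb := hk ε f E B hε hS s hs hM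
    have h3 : ‖dl ε E p‖ ≤ k := dl_bound hε hS.sE fun r hr0 hr => by
      rw [max_eq_left (hT'0.trans hp0)] at hr
      have := hb r.1 r.2 hr0 (hr.trans hp)
      have h5 : 0 ≤ ‖B (r.1, r.2)‖ := norm_nonneg _
      have h6 : ‖E (r.1, r.2)‖ = ‖E r‖ := rfl
      linarith only [this, h5]
    have h4 : ‖dl ε B p‖ ≤ k := dl_bound hε hS.sB fun r hr0 hr => by
      rw [max_eq_left (hT'0.trans hp0)] at hr
      have := hb r.1 r.2 hr0 (hr.trans hp)
      have h5 : 0 ≤ ‖E (r.1, r.2)‖ := norm_nonneg _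
      have h6 : ‖B (r.1, r.2)‖ = ‖B r‖ := rfl
      linarith only [this, h5]
    linarith only [h3, h4]
  -- induction over small steps
  have hind : ∀ n : ℕ, MB (P + 1 / 2) (min (T' + n * d) (T' + h)) f := by
    intro n
    induction n with
    | zero =>
      intro t x v ht0 ht hne
      have h3 : t ≤ T' := ht.trans ((min_le_left _ _).trans (by simp))
      have := hMB t x v ht0 h3 hne
      linarith only [this]
    | succ n ih =>
      obtain ⟨s, hs⟩ : ∃ s, s = min (T' + n * d) (T' + h) := ⟨_, rfl⟩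
      obtain ⟨s', hs'⟩ : ∃ s', s' = min (T' + ((n + 1 : ℕ) : ℝ) * d) (T' + h) := ⟨_, rfl⟩
      rw [← hs] at ih
      rw [← hs']
      have hn0 : 0 ≤ (n : ℝ) * d := by (clear * - hd0; positivity)
      have hsT' : T' ≤ s := by
        rw [hs]; exact le_min (by linarith only [hn0]) (by linarith only [h0])
      have hs's : s' ≤ s + d := by
        rw [hs, hs']
        push_cast
        rcases le_total (T' + n * d) (T' + h) with hc | hc
        · rw [min_eq_left hc]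
          refine (min_le_left _ _).trans ?_
          linarith only []
        · rw [min_eq_right hc]
          refine (min_le_right _ _).trans ?_
          linarith only [hd0]
      have hs'h : s' ≤ T' + h := by rw [hs']; exact min_le_right _ _
      have hs'1 : s' ≤ T + 1 := by linarith only [h1, hT'T, hs'h]
      have hstep : MB (P + 1 / 2 + 1 / 2) s' f := by
        refine MB_step hsE hsB hf1 hS.vl (k := K) (s := s) (hT'0.trans hsT') ?_ hK0
          (fun p hp1 hp2 => hKb p ((hT'0.trans hsT').trans hp1) (hp2.trans hs'1)) ih (by norm_num)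
        have : K * (s' - s) ≤ K * d := mul_le_mul_of_nonneg_left (by linarith only [hs's]) hK0
        linarith only [hKd, this]
      have hstep' : MB (P + 1) s' f := by
        have e : P + 1 / 2 + 1 / 2 = P + 1 := by ring
        rwa [e] at hstep
      refine MB_step hsE hsB hf1 hS.vl (k := 2 * k) (s := T') hT'0 ?_ (by (clear * - hk0; positivity))
        (hfield s' hs'1 hstep') hMB (by norm_num)
      have : 2 * k * (s' - T') ≤ 2 * k * h := mul_le_mul_of_nonneg_left (by linarith only [hs'h]) (by (clear * - hk0; positivity))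
      linarith only [h2, this]
  obtain ⟨n, hn⟩ := exists_nat_ge (h / d)
  have h3 := hind n
  have h4 : h ≤ n * d := by rwa [div_le_iff₀ hd0] at hn
  rw [min_eq_right (by linarith only [h4])] at h3
  intro t x v ht0 ht hne
  have := h3 t x v ht0 ht hne
  linarith only [this]

end Vale.Agent.P107.LE
end
end
end

section

section

attribute [-instance] ProperSMul.toContinuousSMul IsTopologicalTorsor.toContinuousSMul
  IdemSemiring.toCanonicallyOrderedAdd IdemSemiring.toMulLeftMono IdemSemiring.toMulRightMono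
  AddQuantale.instAddLeftMono AddQuantale.instAddRightMono Quantale.instMulLeftMono
  Quantale.instMulRightMono FiniteDimensional.rclike_to_real IsScalarTower.complexToReal
  FiniteDimensional.complexToReal

section

/-!
Limits of sequences of functions on space-time that are uniformly Cauchy with derivatives.
-/

open MeasureTheory Set Filter Topology
open scoped RealInnerProductSpace ENNReal NNReal ContDiff

namespace Vale.Agent.P107.LE

theorem limit_C1 {Y F : Type*} [NormedAddCommGroup Y] [NormedSpace ℝ Y] [NormedAddCommGroup F]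
    [NormedSpace ℝ F] [CompleteSpace F] {W : ℕ → ℝ × Y → F} (hW : ∀ n, ContDiff ℝ 1 (W n)) {T : ℝ}
    (h0 : ∀ T' < T, ∀ η > 0, ∃ N, ∀ n ≥ N, ∀ m ≥ N, ∀ p : ℝ × Y, p.1 ≤ T' →
      ‖W n p - W m p‖ ≤ η)
    (h1 : ∀ T' < T, ∀ η > 0, ∃ N, ∀ n ≥ N, ∀ m ≥ N, ∀ p : ℝ × Y, p.1 ≤ T' →
      ‖fderiv ℝ (W n) p - fderiv ℝ (W m) p‖ ≤ η) :
    ∃ G : ℝ × Y → F, ContDiffOn ℝ 1 G (Iio T ×ˢ univ) ∧
      (∀ p : ℝ × Y, p.1 < T → Tendsto (fun n => W n p) atTop (𝓝 (G p))) ∧
      (∀ p : ℝ × Y, p.1 < T →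
        Tendsto (fun n => fderiv ℝ (W n) p) atTop (𝓝 (fderiv ℝ G p))) ∧
      ∀ T' < T, ∀ η > 0, ∃ N, ∀ n ≥ N, ∀ p : ℝ × Y, p.1 ≤ T' → ‖W n p - G p‖ ≤ η := by
  have hs : IsOpen (Iio T ×ˢ (univ : Set Y)) := isOpen_Iio.prod isOpen_univ
  have c0 : ∀ p : ℝ × Y, p.1 < T → ∃ a, Tendsto (fun n => W n p) atTop (𝓝 a) := by
    intro p hp
    refine cauchySeq_tendsto_of_complete ?_
    rw [Metric.cauchySeq_iff]
    intro η hη
    obtain ⟨N, hN⟩ := h0 p.1 hp (η / 2) (by positivity)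
    refine ⟨N, fun n hn m hm => ?_⟩
    rw [dist_eq_norm]
    linarith only [hη, hN n hn m hm p le_rfl]
  have c1 : ∀ p : ℝ × Y, p.1 < T → ∃ a, Tendsto (fun n => fderiv ℝ (W n) p) atTop (𝓝 a) := by
    intro p hp
    refine cauchySeq_tendsto_of_complete ?_
    rw [Metric.cauchySeq_iff]
    intro η hη
    obtain ⟨N, hN⟩ := h1 p.1 hp (η / 2) (by positivity)
    refine ⟨N, fun n hn m hm => ?_⟩
    rw [dist_eq_norm]
    linarith only [hη, hN n hn m hm p le_rfl]
  choose! G hG using c0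
  choose! G' hG' using c1
  have u0 : ∀ T' < T, ∀ η > 0, ∃ N, ∀ n ≥ N, ∀ p : ℝ × Y, p.1 ≤ T' → ‖W n p - G p‖ ≤ η := by
    intro T' hT' η hη
    obtain ⟨N, hN⟩ := h0 T' hT' η hη
    refine ⟨N, fun n hn p hp => ?_⟩
    refine le_of_tendsto (tendsto_const_nhds.sub (hG p (hp.trans_lt hT'))).norm ?_
    filter_upwards [eventually_ge_atTop N] with m hm
    exact hN n hn m hm p hp
  have u1 : ∀ T' < T, ∀ η > 0, ∃ N, ∀ n ≥ N, ∀ p : ℝ × Y, p.1 ≤ T' →
      ‖fderiv ℝ (W n) p - G' p‖ ≤ η := by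
    intro T' hT' η hη
    obtain ⟨N, hN⟩ := h1 T' hT' η hη
    refine ⟨N, fun n hn p hp => ?_⟩
    refine le_of_tendsto (tendsto_const_nhds.sub (hG' p (hp.trans_lt hT'))).norm ?_
    filter_upwards [eventually_ge_atTop N] with m hm
    exact hN n hn m hm p hp
  have hloc : TendstoLocallyUniformlyOn (fun n => fderiv ℝ (W n)) G' atTop
      (Iio T ×ˢ (univ : Set Y)) := by
    rw [Metric.tendstoLocallyUniformlyOn_iff]
    intro η hη p hp
    have hpT : p.1 < T := hp.1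
    have hlt : (p.1 + T) / 2 < T := by linarith only [hpT]
    obtain ⟨N, hN⟩ := u1 _ hlt (η / 2) (by positivity)
    refine ⟨{q | q.1 < (p.1 + T) / 2}, mem_nhdsWithin_of_mem_nhds
      ((isOpen_lt continuous_fst continuous_const).mem_nhds (by
        change p.1 < (p.1 + T) / 2
        linarith only [hpT])), ?_⟩
    filter_upwards [eventually_ge_atTop N] with n hn q hq
    rw [dist_comm, dist_eq_norm]
    have := hN n hn q (le_of_lt hq)
    linarith only [hη, this]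
  have hder : ∀ p ∈ Iio T ×ˢ (univ : Set Y), HasFDerivAt G (G' p) p := by
    intro p hp
    exact hasFDerivAt_of_tendstoLocallyUniformlyOn hs hloc
      (fun n q _ => ((hW n).differentiable one_ne_zero q).hasFDerivAt)
      (fun q hq => hG q hq.1) hp
  refine ⟨G, ?_, hG, ?_, u0⟩
  · have hcont : ContinuousOn G' (Iio T ×ˢ (univ : Set Y)) := by
      refine hloc.continuousOn (Frequently.of_forall fun n => ?_)
      exact ((hW n).continuous_fderiv one_ne_zero).continuousOn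
    rw [show (1 : ℕ∞ω) = 0 + 1 from rfl, contDiffOn_succ_iff_fderiv_of_isOpen hs]
    refine ⟨fun p hp => (hder p hp).differentiableAt.differentiableWithinAt, by simp, ?_⟩
    rw [contDiffOn_zero]
    exact hcont.congr fun p hp => (hder p hp).fderiv
  · intro p hp
    rw [(hder p ⟨hp, mem_univ _⟩).fderiv]
    exact hG' p hp

end Vale.Agent.P107.LE
end
end
end

section

section

attribute [-instance] ProperSMul.toContinuousSMul IsTopologicalTorsor.toContinuousSMul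
  IdemSemiring.toCanonicallyOrderedAdd IdemSemiring.toMulLeftMono IdemSemiring.toMulRightMono
  AddQuantale.instAddLeftMono AddQuantale.instAddRightMono Quantale.instMulLeftMono
  Quantale.instMulRightMono FiniteDimensional.rclike_to_real IsScalarTower.complexToReal
  FiniteDimensional.complexToReal

section

/-!
Slices of functions on space-time, convergence of moments.
-/

open MeasureTheory Set Filter Topology
open scoped RealInnerProductSpace ENNReal NNReal ContDiff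

namespace Vale.Agent.P107.LE

theorem slice_t {Y F : Type*} [NormedAddCommGroup Y] [NormedSpace ℝ Y] [NormedAddCommGroup F]
    [NormedSpace ℝ F] {G : ℝ × Y → F} {T t : ℝ} (ht : t ∈ Ico 0 T) {y : Y}
    (hG : DifferentiableAt ℝ G (t, y)) :
    derivWithin (fun s => G (s, y)) (Ico 0 T) t = fderiv ℝ G (t, y) (1, 0) := by
  have h1 : HasDerivAt (fun s : ℝ => (s, y)) ((1 : ℝ), (0 : Y)) t :=
    (hasDerivAt_id t).prodMk (hasDerivAt_const t y)
  have h2 : HasDerivAt (fun s => G (s, y)) (fderiv ℝ G (t, y) (1, 0)) t :=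
    hG.hasFDerivAt.comp_hasDerivAt t h1
  exact h2.hasDerivWithinAt.derivWithin (uniqueDiffOn_Ico 0 T t ht)

theorem slice_x {Y F : Type*} [NormedAddCommGroup Y] [NormedSpace ℝ Y] [NormedAddCommGroup F]
    [NormedSpace ℝ F] {G : ℝ × Y → F} {t : ℝ} {y : Y} (hG : DifferentiableAt ℝ G (t, y)) (e : Y) :
    fderiv ℝ (fun z => G (t, z)) y e = fderiv ℝ G (t, y) (0, e) := by
  have h1 : HasFDerivAt (fun z : Y => (t, z)) (ContinuousLinearMap.inr ℝ ℝ Y) y :=
    (hasFDerivAt_const t y).prodMk (hasFDerivAt_id y)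
  have h2 : HasFDerivAt (fun z => G (t, z)) _ y := hG.hasFDerivAt.comp y h1
  rw [h2.fderiv]
  simp

theorem fderiv_coord {X : Type*} [NormedAddCommGroup X] [NormedSpace ℝ X] {W : X → E3} {p : X}
    (hW : DifferentiableAt ℝ W p) (i : Fin 3) (w : X) :
    fderiv ℝ (fun y => W y i) p w = (fderiv ℝ W p w) i := by
  have h := (EuclideanSpace.proj i : E3 →L[ℝ] ℝ).hasFDerivAt.comp p hW.hasFDerivAt
  have h2 : HasFDerivAt (fun y => W y i) _ p := h
  rw [h2.fderiv]
  rfl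

theorem pd_slice {G : ℝ × E3 → E3} {t : ℝ} {x : E3} (hG : DifferentiableAt ℝ G (t, x))
    (i j : Fin 3) : pd i (fun y => G (t, y) j) x = (fderiv ℝ G (t, x) (0, ee i)) j := by
  have h1 : DifferentiableAt ℝ (fun y => G (t, y)) x :=
    hG.comp x ((differentiableAt_const t).prodMk differentiableAt_id)
  unfold pd
  rw [fderiv_coord h1, slice_x hG]

theorem curl_coord (F : E3 → E3) (x : E3) (i : Fin 3) :
    curl F x i = pd (i + 1) (fun y => F y (i + 2)) x - pd (i + 2) (fun y => F y (i + 1)) x := by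
  fin_cases i <;> simp [curl]

theorem curl_slice {G : ℝ × E3 → E3} {t : ℝ} {x : E3} (hG : DifferentiableAt ℝ G (t, x))
    (i : Fin 3) : curl (fun y => G (t, y)) x i =
      (fderiv ℝ G (t, x) (0, ee (i + 1))) (i + 2) -
        (fderiv ℝ G (t, x) (0, ee (i + 2))) (i + 1) := by
  rw [curl_coord, pd_slice hG, pd_slice hG]

theorem div_slice {G : ℝ × E3 → E3} {t : ℝ} {x : E3} (hG : DifferentiableAt ℝ G (t, x)) :
    div (fun y => G (t, y)) x = ∑ i : Fin 3, (fderiv ℝ G (t, x) (0, ee i)) i := by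
  unfold div
  exact Finset.sum_congr rfl fun i _ => pd_slice hG i i

theorem tend_apply {X F : Type*} [NormedAddCommGroup X] [NormedSpace ℝ X]
    [NormedAddCommGroup F] [NormedSpace ℝ F] {A : ℕ → (X →L[ℝ] F)} {A' : X →L[ℝ] F}
    (h : Tendsto A atTop (𝓝 A')) {w : ℕ → X} {w' : X} (hw : Tendsto w atTop (𝓝 w')) :
    Tendsto (fun n => A n (w n)) atTop (𝓝 (A' w')) :=
  ((isBoundedBilinearMap_apply (𝕜 := ℝ) (E := X) (F := F)).continuous.tendsto (A', w')).comp
    (h.prodMk_nhds hw)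

theorem tend_coord {X : Type*} [NormedAddCommGroup X] [NormedSpace ℝ X]
    {A : ℕ → (X →L[ℝ] E3)} {A' : X →L[ℝ] E3} (h : Tendsto A atTop (𝓝 A')) (w : X) (i : Fin 3) :
    Tendsto (fun n => (A n w) i) atTop (𝓝 ((A' w) i)) := by
  have h1 : Tendsto (fun n => A n w) atTop (𝓝 (A' w)) := tend_apply h tendsto_const_nhds
  exact ((EuclideanSpace.proj i : E3 →L[ℝ] ℝ).continuous.tendsto _).comp h1

/-- Convergence of moments. -/
theorem tend_int {F : Type*} [NormedAddCommGroup F] [NormedSpace ℝ F] {a : ℕ → E3 → ℝ}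
    {b : E3 → ℝ} (ha : ∀ n, Continuous (a n)) (hb : Continuous b) {R : ℝ}
    (hR : ∀ᶠ n in atTop, ∀ v, a n v ≠ 0 → ‖v‖ ≤ R)
    (hab : ∀ᶠ n in atTop, ∀ v, ‖a n v - b v‖ ≤ 1)
    (hlim : ∀ v, Tendsto (fun n => a n v) atTop (𝓝 (b v))) {w : E3 → F} (hw : Continuous w)
    (hw1 : ∀ v, ‖w v‖ ≤ 1) :
    Tendsto (fun n => ∫ v, a n v • w v) atTop (𝓝 (∫ v, b v • w v)) := by
  refine tendsto_integral_filter_of_dominated_convergence
    (bound := (Metric.closedBall (0 : E3) R).indicator (fun v => ‖b v‖ + 1)) ?_ ?_ ?_ ?_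
  · exact Eventually.of_forall fun n => ((ha n).smul hw).aestronglyMeasurable
  · filter_upwards [hR, hab] with n h1 h2
    refine Eventually.of_forall fun v => ?_
    by_cases h0 : a n v = 0
    · rw [h0, zero_smul, norm_zero]
      exact indicator_nonneg (fun _ _ => by positivity) _
    · rw [indicator_of_mem (by
        rw [Metric.mem_closedBall, dist_zero_right]
        exact h1 v h0), norm_smul]
      have h3 : ‖a n v‖ ≤ ‖b v‖ + 1 := by
        have := norm_add_le (a n v - b v) (b v)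
        rw [sub_add_cancel] at this
        linarith only [this, h2 v]
      calc ‖a n v‖ * ‖w v‖ ≤ ‖a n v‖ * 1 :=
            mul_le_mul_of_nonneg_left (hw1 v) (norm_nonneg _)
        _ ≤ _ := by rw [mul_one]; exact h3
  · rw [integrable_indicator_iff measurableSet_closedBall]
    exact (hb.norm.add continuous_const).continuousOn.integrableOn_compact
      (isCompact_closedBall _ _)
  · exact Eventually.of_forall fun v => (hlim v).smul_const _

end Vale.Agent.P107.LE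
end
end
end

section

section

attribute [-instance] ProperSMul.toContinuousSMul IsTopologicalTorsor.toContinuousSMul
  IdemSemiring.toCanonicallyOrderedAdd IdemSemiring.toMulLeftMono IdemSemiring.toMulRightMono
  AddQuantale.instAddLeftMono AddQuantale.instAddRightMono Quantale.instMulLeftMono
  Quantale.instMulRightMono FiniteDimensional.rclike_to_real IsScalarTower.complexToReal
  FiniteDimensional.complexToReal

section

/-!
Decomposition of the acceleration part into cells.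
-/

open MeasureTheory Set Filter Topology
open scoped RealInnerProductSpace ENNReal NNReal

namespace Vale.Agent.P107

open Vale.Agent.P107.Ar

variable {T : ℝ} {f : ℝ → E3 → E3 → ℝ} {E B : ℝ → E3 → E3}

namespace DecS

/-! ### Pointwise bounds of the kernel -/

lemma cross_add_left (a b d : E3) : cross (a + b) d = cross a d + cross b d := by
  ext i
  fin_cases i <;> simp [cross] <;> ring

lemma lor_le {w v E₀ B₀ : E3} {l : ℕ} (hw : ‖w‖ = 1) (hl : al w (u v) ≤ 2 * (1 / 4) ^ l) :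
    ‖lor E₀ B₀ v‖ ≤ ‖E₀ - cross w B₀‖ + 2 * (1 / 2) ^ l * ‖B₀‖ := by
  have e1 : lor E₀ B₀ v = (E₀ - cross w B₀) + cross (w + u v) B₀ := by
    unfold lor
    rw [cross_add_left]
    abel
  have h1 : ‖w + u v‖ ≤ 2 * (1 / 2) ^ l := by
    refine (KA.norm_A_le hw (norm_u_lt_one v)).trans ?_
    have h2 : √(al w (u v)) ≤ √2 * (1 / 2) ^ l := by
      have e2 : √2 * (1 / 2 : ℝ) ^ l = √(2 * (1 / 4) ^ l) := by
        rw [Real.sqrt_mul (by norm_num), CK.sqrt_eps]
      rw [e2]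
      exact Real.sqrt_le_sqrt hl
    calc √2 * √(al w (u v)) ≤ √2 * (√2 * (1 / 2) ^ l) := by gcongr
      _ = (√2 * √2) * (1 / 2) ^ l := by ring
      _ = _ := by rw [Real.mul_self_sqrt (by norm_num)]
  rw [e1]
  refine (norm_add_le _ _).trans ?_
  gcongr
  refine (norm_cross_le _ _).trans ?_
  (clear * - h1; gcongr)

lemma kerS_le {κ ta s : ℝ} {X V X' : ℝ → E3} {z v : E3} {T₁ : ℝ} {p j k l i : ℕ} (hκ : 0 ≤ κ)
    (hT : 1 ≤ T₁) (hz : shellI T₁ k z) (hl : al (dir z) (u v) ≤ 2 * (1 / 4) ^ l)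
    (hi : qI p i (q v))
    (hb : bS ((1 / 4) ^ j) (Ar.ee p j) (dir z) (u v) (u (V s)) ≤ κ) (hta : ta ≤ s - ‖z‖)
    (hτ : s - ‖z‖ ∈ Ioo 0 T) (hXX : X s = X' s) :
    kerS j (Ar.ee p j) E B X V s z v ≤
      ENNReal.ofReal (4 * (2 ^ k * κ * (qq p i)⁻¹)) *
        (Wg T ta E B X' s z + ENNReal.ofReal (2 * (1 / 2) ^ l) * Wb T ta B X' s z) := by
  have hz0 := CK.shellI_pos (lt_of_lt_of_le one_pos hT) hz
  have hw := CK.norm_dir hz0
  have hQ := Tl.qq_pos p i
  unfold kerS Wg Wb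
  rw [if_pos hta, if_pos hta, Flux.tr_eq E hτ, Flux.tr_eq B hτ, ← hXX]
  set E₀ := E (s - ‖z‖) (X s + z)
  set B₀ := B (s - ‖z‖) (X s + z)
  rw [← ENNReal.ofReal_mul (by positivity), ← ENNReal.ofReal_add (by (clear * -; positivity)) (by (clear * -; positivity)),
    ← ENNReal.ofReal_mul (by (clear * - hκ hQ; positivity))]
  apply ENNReal.ofReal_le_ofReal
  have h1 := CK.inv_norm_le hT hz
  have h2 : (q v)⁻¹ ≤ 2 * (qq p i)⁻¹ := by
    have h3 : qq p i / 2 ≤ q v := hi.1.le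
    calc (q v)⁻¹ ≤ (qq p i / 2)⁻¹ := inv_anti₀ (by positivity) h3
      _ = _ := by rw [inv_div]; ring
  have h3 := lor_le (E₀ := E₀) (B₀ := B₀) hw hl
  have hq := q_pos v
  calc ‖z‖⁻¹ * ((q v)⁻¹ * ‖lor E₀ B₀ v‖ * bS ((1 / 4) ^ j) (Ar.ee p j) (dir z) (u v) (u (V s)))
      ≤ ‖z‖⁻¹ * ((q v)⁻¹ * ‖lor E₀ B₀ v‖ * κ) := by (clear * - hb hz0 hq; gcongr)
    _ ≤ (2 * 2 ^ k) * ((2 * (qq p i)⁻¹) *
        (‖E₀ - cross (dir z) B₀‖ + 2 * (1 / 2) ^ l * ‖B₀‖) * κ) := by (clear * - hκ hQ h1 h2 h3 hq; gcongr)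
    _ = _ := by ring

/-- The kernel as a measurable function. -/
lemma MK_W {W : ℝ → E3 → ℝ≥0∞} (hW : Measurable fun y : ℝ × E3 => W y.1 y.2) :
    MK (fun s z _ => W s z) := by
  unfold MK
  exact hW.comp (measurable_fst.prodMk (measurable_fst.comp measurable_snd))

lemma cellInt_le_of {t₀ th c₁ : ℝ} {p j : ℕ} {X V X' : ℝ → E3} {t₁ t₂ : ℝ}
    (h : IsClassicalSolution T f E B) (hc : Ctx T f E B t₀ th c₁ p j X V t₁ t₂)
    (hX' : Continuous X') (hXX : ∀ s ∈ Icc t₁ t₂, X s = X' s)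
    {c : Set (ℝ × E3 × E3)} (hcm : MeasurableSet c) {K lam : ℝ≥0∞} (hK : K ≠ ∞) (hlam : lam ≠ ∞)
    {g : ℝ → E3 → E3 → ℝ≥0∞}
    (hker : ∀ s ∈ Icc t₁ t₂, ∀ z v, (s, z, v) ∈ c →
      fl (t₀ / 2) T f (s - ‖z‖) (X s + z) v ≠ 0 →
      g s z v ≤ K * (Wg T (t₀ / 2) E B X' s z + lam * Wb T (t₀ / 2) B X' s z)) :
    cellInt (t₀ / 2) T f X t₁ t₂ c g ≤
      K * (cellInt (t₀ / 2) T f X t₁ t₂ c (fun s z _ => Wg T (t₀ / 2) E B X' s z) +
        lam * cellInt (t₀ / 2) T f X t₁ t₂ c (fun s z _ => Wb T (t₀ / 2) B X' s z)) := by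
  have hta : 0 < t₀ / 2 := by linarith only [hc.ht₀]
  have mg : MK (fun s z v => c.indicator (fun _ => Wg T (t₀ / 2) E B X' s z) (s, z, v)) :=
    MK.indicator hcm (MK_W (measurable_Wg h (t₀ / 2) hX'))
  have mb : MK (fun s z v => c.indicator (fun _ => Wb T (t₀ / 2) B X' s z) (s, z, v)) :=
    MK.indicator hcm (MK_W (measurable_Wb h (t₀ / 2) hX'))
  have mb' : MK (fun s z v => lam * c.indicator (fun _ => Wb T (t₀ / 2) B X' s z) (s, z, v)) :=
    Measurable.const_mul mb lam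
  have e1 : ∀ G : ℝ → E3 → E3 → ℝ≥0∞, pathInt (t₀ / 2) T f X t₁ t₂ G =
      pathInt (t₀ / 2) T f X' t₁ t₂ G := fun G =>
    pathInt_congr_path hXX (fun _ _ _ _ _ => rfl)
  unfold cellInt
  calc pathInt (t₀ / 2) T f X t₁ t₂ (fun s z v => c.indicator (fun _ => g s z v) (s, z, v))
      ≤ pathInt (t₀ / 2) T f X t₁ t₂ (fun s z v => K *
        (c.indicator (fun _ => Wg T (t₀ / 2) E B X' s z) (s, z, v) +
          lam * c.indicator (fun _ => Wb T (t₀ / 2) B X' s z) (s, z, v))) := by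
        refine pathInt_mono_ae V fun s hs z _ v _ hf => ?_
        by_cases hm : (s, z, v) ∈ c
        · rw [indicator_of_mem hm, indicator_of_mem hm, indicator_of_mem hm]
          exact hker s hs z v hm hf
        · rw [indicator_of_notMem hm]
          exact zero_le
    _ = _ := by
        rw [pathInt_const_mul hK, e1, pathInt_add h hta hX' mg mb', pathInt_const_mul hlam, e1, e1]

lemma rpow_prod {L : ℝ≥0∞} (hL : 1 ≤ L) {a b : ℝ≥0∞} {ν μ : ℝ} (hν : 0 ≤ ν)
    (ha : a ≤ L * ENNReal.ofReal ν) (hb : b ≤ L * ENNReal.ofReal μ) :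
    (a * b) ^ (1 / 2 : ℝ) ≤ L * L * ENNReal.ofReal (√(ν * μ)) := by
  have h1 : a * b ≤ L * L * ENNReal.ofReal (ν * μ) := by
    calc a * b ≤ (L * ENNReal.ofReal ν) * (L * ENNReal.ofReal μ) := by gcongr
      _ = L * L * (ENNReal.ofReal ν * ENNReal.ofReal μ) := by ring
      _ = _ := by rw [ENNReal.ofReal_mul hν]
  calc (a * b) ^ (1 / 2 : ℝ) ≤ (L * L * ENNReal.ofReal (ν * μ)) ^ (1 / 2 : ℝ) :=
        ENNReal.rpow_le_rpow h1 (by norm_num)
    _ ≤ L * L * ENNReal.ofReal (ν * μ) ^ (1 / 2 : ℝ) :=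
        rpow_half_const (by
          calc (1 : ℝ≥0∞) = 1 * 1 := by ring
            _ ≤ L * L := by gcongr) _
    _ = _ := by rw [ofReal_rpow_half]

lemma bet_ge (h : IsClassicalSolution T f E B) {T₁ ta t₁ t₂ : ℝ} {X V : ℝ → E3}
    (hX : Continuous X) (hV : Continuous V) (k m : ℕ) :
    ∫⁻ s in Icc t₁ t₂, ∫⁻ z, (Akm T₁ V k m).indicator (fun _ => Wb T ta B X s z ^ 2) (s, z) ≤
      ENNReal.ofReal (2 * 4 ^ m) * bet T ta B X V T₁ t₁ t₂ k m := by
  have hm := (measurable_wt h ta hX hV).indicator (measurableSet_Akm T₁ hV k m)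
  unfold bet
  rw [← lintegral_const_mul' _ _ ENNReal.ofReal_ne_top]
  refine lintegral_mono fun s => ?_
  rw [← lintegral_const_mul' _ _ ENNReal.ofReal_ne_top]
  refine lintegral_mono fun z => ?_
  by_cases hz : (s, z) ∈ Akm T₁ V k m
  · rw [indicator_of_mem hz, indicator_of_mem hz]
    have h1 := hz.2.1
    simp only at h1 ⊢
    rw [← mul_assoc, ← ENNReal.ofReal_mul (by positivity)]
    have h2 : (1 : ℝ) ≤ 2 * 4 ^ m * al (dir z) (u (V s)) := by
      have h3 : (4 : ℝ) ^ m * (1 / 4) ^ m = 1 := by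
        rw [← mul_pow]; norm_num
      rw [pow_succ] at h1
      have h4 : (0 : ℝ) < 4 ^ m := by positivity
      have h5 := mul_lt_mul_of_pos_left h1 h4
      nlinarith only [h3, h5]
    calc Wb T ta B X s z ^ 2 = 1 * Wb T ta B X s z ^ 2 := (one_mul _).symm
      _ ≤ _ := by
        gcongr
        rw [← ENNReal.ofReal_one]
        exact ENNReal.ofReal_le_ofReal h2
  · rw [indicator_of_notMem hz]
    exact zero_le

/-- The generic bound on a cell. -/
lemma cell_bound {t₀ th c₁ : ℝ} {p j : ℕ} {X V X' V' : ℝ → E3} {t₁ t₂ : ℝ}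
    (h : IsClassicalSolution T f E B) (hc : Ctx T f E B t₀ th c₁ p j X V t₁ t₂)
    (hX' : Continuous X') (hV' : Continuous V') (hXX : ∀ s ∈ Icc t₁ t₂, X s = X' s)
    {L : ℝ≥0∞} (hL : 1 ≤ L)
    (hcs : ∀ (c : Set (ℝ × E3 × E3)), MeasurableSet c →
      ∀ (ν : ℝ≥0∞), (∀ s z, volume {v | (s, z, v) ∈ c} ≤ ν) →
      ∀ (W : ℝ → E3 → ℝ≥0∞), Measurable (Function.uncurry W) →
      ∀ (A : Set (ℝ × E3)), MeasurableSet A → (∀ s z v, (s, z, v) ∈ c → (s, z) ∈ A) →
      cellInt (t₀ / 2) T f X t₁ t₂ c (fun s z _ => W s z)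
        ≤ L * (∫⁻ s in Icc t₁ t₂, ∫⁻ z, A.indicator (fun _ => W s z ^ 2) (s, z)) ^ (1 / 2 : ℝ)
          * (ν * mass (t₀ / 2) T f X t₁ t₂ c) ^ (1 / 2 : ℝ))
    (hg : ∫⁻ s in Icc t₁ t₂, ∫⁻ z, Wg T (t₀ / 2) E B X' s z ^ 2 ≤
      L * ENNReal.ofReal (dl c₁ p j))
    {c : Set (ℝ × E3 × E3)} (hcm : MeasurableSet c) {ν μ K lam : ℝ} (hν0 : 0 ≤ ν) (hK : 0 ≤ K)
    (hlam : 0 ≤ lam) (hν : ∀ s z, volume {v | (s, z, v) ∈ c} ≤ L * ENNReal.ofReal ν)
    (hμ : mass (t₀ / 2) T f X t₁ t₂ c ≤ L * ENNReal.ofReal μ) {T₁ : ℝ} (k m : ℕ)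
    (hA : ∀ s z v, (s, z, v) ∈ c → (s, z) ∈ Akm T₁ V' k m)
    {g : ℝ → E3 → E3 → ℝ≥0∞}
    (hker : ∀ s ∈ Icc t₁ t₂, ∀ z v, (s, z, v) ∈ c →
      fl (t₀ / 2) T f (s - ‖z‖) (X s + z) v ≠ 0 →
      g s z v ≤ ENNReal.ofReal K * (Wg T (t₀ / 2) E B X' s z +
        ENNReal.ofReal lam * Wb T (t₀ / 2) B X' s z)) :
    cellInt (t₀ / 2) T f X t₁ t₂ c g ≤
      L ^ 4 * ENNReal.ofReal (K * √(dl c₁ p j) * √(ν * μ)) +
      2 * L ^ 4 * (bet T (t₀ / 2) B X' V' T₁ t₁ t₂ k m ^ (1 / 2 : ℝ) *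
        ENNReal.ofReal (K * lam * 2 ^ m * √(ν * μ))) := by
  have hta : 0 < t₀ / 2 := by linarith only [hc.ht₀]
  have h1 := cellInt_le_of h hc hX' hXX hcm ENNReal.ofReal_ne_top ENNReal.ofReal_ne_top hker
  refine h1.trans ?_
  have hp := rpow_prod hL hν0 (le_refl (L * ENNReal.ofReal ν)) hμ
  have mWg : Measurable (Function.uncurry (Wg T (t₀ / 2) E B X')) :=
    measurable_Wg h (t₀ / 2) hX'
  have mWb : Measurable (Function.uncurry (Wb T (t₀ / 2) B X')) :=
    measurable_Wb h (t₀ / 2) hX'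
  have i1 : cellInt (t₀ / 2) T f X t₁ t₂ c (fun s z _ => Wg T (t₀ / 2) E B X' s z) ≤
      L ^ 4 * (ENNReal.ofReal (√(dl c₁ p j)) * ENNReal.ofReal (√(ν * μ))) := by
    have h2 := hcs c hcm _ hν _ mWg univ MeasurableSet.univ (fun _ _ _ _ => mem_univ _)
    simp only [indicator_univ] at h2
    refine h2.trans ?_
    have h3 : (∫⁻ s in Icc t₁ t₂, ∫⁻ z, Wg T (t₀ / 2) E B X' s z ^ 2) ^ (1 / 2 : ℝ) ≤
        L * ENNReal.ofReal (√(dl c₁ p j)) := by
      rw [← ofReal_rpow_half]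
      exact (ENNReal.rpow_le_rpow hg (by norm_num)).trans (rpow_half_const hL _)
    calc _ ≤ L * (L * ENNReal.ofReal (√(dl c₁ p j))) *
        (L * L * ENNReal.ofReal (√(ν * μ))) := by (clear * - hp h3; gcongr)
      _ = _ := by ring
  have i2 : cellInt (t₀ / 2) T f X t₁ t₂ c (fun s z _ => Wb T (t₀ / 2) B X' s z) ≤
      2 * L ^ 4 * (ENNReal.ofReal (2 ^ m) *
        (bet T (t₀ / 2) B X' V' T₁ t₁ t₂ k m ^ (1 / 2 : ℝ) * ENNReal.ofReal (√(ν * μ)))) := by
    have h2 := hcs c hcm _ hν _ mWb (Akm T₁ V' k m) (measurableSet_Akm T₁ hV' k m) hA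
    refine h2.trans ?_
    have h3 : (∫⁻ s in Icc t₁ t₂, ∫⁻ z, (Akm T₁ V' k m).indicator
        (fun _ => Wb T (t₀ / 2) B X' s z ^ 2) (s, z)) ^ (1 / 2 : ℝ) ≤
        2 * ENNReal.ofReal (2 ^ m) * bet T (t₀ / 2) B X' V' T₁ t₁ t₂ k m ^ (1 / 2 : ℝ) := by
      refine (ENNReal.rpow_le_rpow (bet_ge h hX' hV' k m) (by norm_num)).trans ?_
      rw [ENNReal.mul_rpow_of_nonneg _ _ (by norm_num), ofReal_rpow_half]
      gcongr
      have e2 : (2 : ℝ≥0∞) = ENNReal.ofReal 2 := by norm_num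
      rw [e2, ← ENNReal.ofReal_mul (by norm_num)]
      apply ENNReal.ofReal_le_ofReal
      rw [Real.sqrt_le_left (by positivity)]
      have e3 : (2 * 2 ^ m : ℝ) ^ 2 = 4 * 4 ^ m := by
        rw [mul_pow, ← pow_mul, mul_comm m 2, pow_mul]
        norm_num
      rw [e3]
      have : (0 : ℝ) < 4 ^ m := by positivity
      linarith only [this]
    calc _ ≤ L * (2 * ENNReal.ofReal (2 ^ m) * bet T (t₀ / 2) B X' V' T₁ t₁ t₂ k m ^ (1 / 2 : ℝ)) *
        (L * L * ENNReal.ofReal (√(ν * μ))) := by (clear * - hp h3; gcongr)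
      _ = 1 * (2 * L ^ 3 * (ENNReal.ofReal (2 ^ m) *
        (bet T (t₀ / 2) B X' V' T₁ t₁ t₂ k m ^ (1 / 2 : ℝ) * ENNReal.ofReal (√(ν * μ))))) := by ring
      _ ≤ L * (2 * L ^ 3 * (ENNReal.ofReal (2 ^ m) *
        (bet T (t₀ / 2) B X' V' T₁ t₁ t₂ k m ^ (1 / 2 : ℝ) * ENNReal.ofReal (√(ν * μ))))) := by
        gcongr
      _ = _ := by ring
  have e4 : ENNReal.ofReal (K * √(dl c₁ p j) * √(ν * μ)) = ENNReal.ofReal K *
      (ENNReal.ofReal (√(dl c₁ p j)) * ENNReal.ofReal (√(ν * μ))) := by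
    rw [mul_assoc, ENNReal.ofReal_mul hK, ENNReal.ofReal_mul (Real.sqrt_nonneg _)]
  have e5 : ENNReal.ofReal (K * lam * 2 ^ m * √(ν * μ)) = ENNReal.ofReal K *
      (ENNReal.ofReal lam * (ENNReal.ofReal (2 ^ m) * ENNReal.ofReal (√(ν * μ)))) := by
    rw [mul_assoc, mul_assoc, ENNReal.ofReal_mul hK, ENNReal.ofReal_mul hlam,
      ENNReal.ofReal_mul (by positivity)]
  rw [e4, e5]
  calc _ ≤ ENNReal.ofReal K * (L ^ 4 * (ENNReal.ofReal (√(dl c₁ p j)) *
        ENNReal.ofReal (√(ν * μ))) + ENNReal.ofReal lam * (2 * L ^ 4 * (ENNReal.ofReal (2 ^ m) *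
        (bet T (t₀ / 2) B X' V' T₁ t₁ t₂ k m ^ (1 / 2 : ℝ) * ENNReal.ofReal (√(ν * μ)))))) := by
        (clear * - i1 i2; gcongr)
    _ = _ := by ring

/-! ### Assembly -/

lemma measurable_kerS (h : IsClassicalSolution T f E B) {X V : ℝ → E3} (hX : Continuous X)
    (hV : Continuous V) (j : ℕ) (e : ℝ) :
    MK (kerS j e (Flux.tr T E) (Flux.tr T B) X V) := by
  have hback : Measurable fun y : ℝ × E3 × E3 =>
      ((y.1 - ‖y.2.1‖, X y.1 + y.2.1) : ℝ × E3) :=
    (continuous_back hX).measurable.comp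
      (measurable_fst.prodMk (measurable_fst.comp measurable_snd))
  have mE : Measurable fun y : ℝ × E3 × E3 => Flux.tr T E (y.1 - ‖y.2.1‖) (X y.1 + y.2.1) :=
    (measurable_trE h).comp hback
  have mB : Measurable fun y : ℝ × E3 × E3 => Flux.tr T B (y.1 - ‖y.2.1‖) (X y.1 + y.2.1) :=
    (measurable_trB h).comp hback
  have mu : Measurable fun y : ℝ × E3 × E3 => u y.2.2 :=
    continuous_u.measurable.comp (measurable_snd.comp measurable_snd)
  have mc : Measurable fun y : ℝ × E3 × E3 =>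
      cross (u y.2.2) (Flux.tr T B (y.1 - ‖y.2.1‖) (X y.1 + y.2.1)) :=
    Flux.continuous_cross2.measurable.comp (mu.prodMk mB)
  have ml : Measurable fun y : ℝ × E3 × E3 =>
      ‖lor (Flux.tr T E (y.1 - ‖y.2.1‖) (X y.1 + y.2.1))
        (Flux.tr T B (y.1 - ‖y.2.1‖) (X y.1 + y.2.1)) y.2.2‖ := by
    unfold lor
    exact (mE.add mc).norm
  have m0 := measurable_al0 hV
  have m1 := measurable_al1
  have mz : Measurable fun y : ℝ × E3 × E3 => ‖y.2.1‖⁻¹ :=
    (measurable_fst.comp measurable_snd).norm.inv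
  have mq := measurable_q2
  have mD : Measurable fun y : ℝ × E3 × E3 =>
      Dn ((1 / 4) ^ j) e (dir y.2.1) (u y.2.2) (u (V y.1)) := by
    unfold Dn
    exact m1.add ((m0.add_const _).const_mul _)
  have mS : Measurable fun y : ℝ × E3 × E3 =>
      bS ((1 / 4) ^ j) e (dir y.2.1) (u y.2.2) (u (V y.1)) := by
    unfold bS
    exact (m0.sqrt.div mD).add ((m1.const_div e).mul (((m0.add_const _).const_mul _).div mD))
  unfold MK kerS
  exact (mz.mul ((mq.inv.mul ml).mul mS)).ennreal_ofReal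

/-- The generic bound on a cell, in final form. -/
lemma cell_fin {t₀ th c₁ : ℝ} {p j : ℕ} {X V X' V' : ℝ → E3} {t₁ t₂ : ℝ}
    (h : IsClassicalSolution T f E B) (hc : Ctx T f E B t₀ th c₁ p j X V t₁ t₂)
    (hX' : Continuous X') (hV' : Continuous V') (hXX : ∀ s ∈ Icc t₁ t₂, X s = X' s)
    {L : ℝ≥0∞} (hL : 1 ≤ L)
    (hcs : ∀ (c : Set (ℝ × E3 × E3)), MeasurableSet c →
      ∀ (ν : ℝ≥0∞), (∀ s z, volume {v | (s, z, v) ∈ c} ≤ ν) →
      ∀ (W : ℝ → E3 → ℝ≥0∞), Measurable (Function.uncurry W) →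
      ∀ (A : Set (ℝ × E3)), MeasurableSet A → (∀ s z v, (s, z, v) ∈ c → (s, z) ∈ A) →
      cellInt (t₀ / 2) T f X t₁ t₂ c (fun s z _ => W s z)
        ≤ L * (∫⁻ s in Icc t₁ t₂, ∫⁻ z, A.indicator (fun _ => W s z ^ 2) (s, z)) ^ (1 / 2 : ℝ)
          * (ν * mass (t₀ / 2) T f X t₁ t₂ c) ^ (1 / 2 : ℝ))
    (hg : ∫⁻ s in Icc t₁ t₂, ∫⁻ z, Wg T (t₀ / 2) E B X' s z ^ 2 ≤
      L * ENNReal.ofReal (dl c₁ p j))
    {c : Set (ℝ × E3 × E3)} (hcm : MeasurableSet c) {ν μ a a' κ lam : ℝ} (hν0 : 0 ≤ ν)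
    (ha : 0 ≤ a) (ha' : 0 ≤ a') (hκ : 0 ≤ κ) (hκ' : κ ≤ 768) (hlam : 0 ≤ lam)
    (hν : ∀ s z, volume {v | (s, z, v) ∈ c} ≤ L * ENNReal.ofReal ν)
    (hμ : mass (t₀ / 2) T f X t₁ t₂ c ≤ L * ENNReal.ofReal μ) {T₁ : ℝ} (k m : ℕ)
    (hlam' : a * lam * 2 ^ m ≤ 16 * a')
    (hA : ∀ s z v, (s, z, v) ∈ c → (s, z) ∈ Akm T₁ V' k m)
    {g : ℝ → E3 → E3 → ℝ≥0∞}
    (hker : ∀ s ∈ Icc t₁ t₂, ∀ z v, (s, z, v) ∈ c →
      fl (t₀ / 2) T f (s - ‖z‖) (X s + z) v ≠ 0 →
      g s z v ≤ ENNReal.ofReal (κ * a) * (Wg T (t₀ / 2) E B X' s z +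
        ENNReal.ofReal lam * Wb T (t₀ / 2) B X' s z)) :
    cellInt (t₀ / 2) T f X t₁ t₂ c g ≤
      30000 * L ^ 4 * ENNReal.ofReal (a * √(dl c₁ p j) * √(ν * μ)) +
      30000 * L ^ 4 * (bet T (t₀ / 2) B X' V' T₁ t₁ t₂ k m ^ (1 / 2 : ℝ) *
        ENNReal.ofReal (a' ^ 2 * (ν * μ)) ^ (1 / 2 : ℝ)) := by
  have h1 := cell_bound h hc hX' hV' hXX hL hcs hg hcm hν0 (mul_nonneg hκ ha) hlam hν hμ k m hA
    hker
  refine h1.trans ?_
  have e0 : (30000 : ℝ≥0∞) = ENNReal.ofReal 30000 := by norm_num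
  have e1 : ENNReal.ofReal (κ * a * √(dl c₁ p j) * √(ν * μ)) ≤
      30000 * ENNReal.ofReal (a * √(dl c₁ p j) * √(ν * μ)) := by
    rw [e0, ← ENNReal.ofReal_mul (by norm_num)]
    apply ENNReal.ofReal_le_ofReal
    have : κ * a * √(dl c₁ p j) * √(ν * μ) = κ * (a * √(dl c₁ p j) * √(ν * μ)) := by ring
    rw [this]
    exact mul_le_mul_of_nonneg_right (by linarith only [hκ']) (by (clear * - ha; positivity))
  have e2 : 2 * ENNReal.ofReal (κ * a * lam * 2 ^ m * √(ν * μ)) ≤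
      30000 * ENNReal.ofReal (a' ^ 2 * (ν * μ)) ^ (1 / 2 : ℝ) := by
    rw [ofReal_rpow_half, Real.sqrt_mul (sq_nonneg a'), Real.sqrt_sq ha', e0,
      ← ENNReal.ofReal_mul (by norm_num)]
    have e3 : (2 : ℝ≥0∞) = ENNReal.ofReal 2 := by norm_num
    rw [e3, ← ENNReal.ofReal_mul (by norm_num)]
    apply ENNReal.ofReal_le_ofReal
    have h2 : κ * (a * lam * 2 ^ m) ≤ 768 * (16 * a') :=
      mul_le_mul hκ' hlam' (by positivity) (by norm_num)
    have h3 : κ * (a * lam * 2 ^ m) * √(ν * μ) ≤ 768 * (16 * a') * √(ν * μ) :=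
      mul_le_mul_of_nonneg_right h2 (Real.sqrt_nonneg _)
    have h4 : 0 ≤ a' * √(ν * μ) := by (clear * - ha'; positivity)
    linarith only [h3, h4]
  calc _ ≤ L ^ 4 * (30000 * ENNReal.ofReal (a * √(dl c₁ p j) * √(ν * μ))) +
      L ^ 4 * (bet T (t₀ / 2) B X' V' T₁ t₁ t₂ k m ^ (1 / 2 : ℝ) *
        (2 * ENNReal.ofReal (κ * a * lam * 2 ^ m * √(ν * μ)))) := by
        refine add_le_add (by gcongr) (le_of_eq (by ring))
    _ ≤ L ^ 4 * (30000 * ENNReal.ofReal (a * √(dl c₁ p j) * √(ν * μ))) +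
      L ^ 4 * (bet T (t₀ / 2) B X' V' T₁ t₁ t₂ k m ^ (1 / 2 : ℝ) *
        (30000 * ENNReal.ofReal (a' ^ 2 * (ν * μ)) ^ (1 / 2 : ℝ))) := by (clear * - e2; gcongr)
    _ = _ := by ring

open Classical in
lemma fam_sum {c₁ : ℝ} {p j : ℕ} {r : ℕ → ℕ → ℕ → Prop} {G w : ℕ → ℕ → ℕ → ℕ → ℝ}
    {β : ℕ → ℕ → ℝ≥0∞} {L D : ℝ≥0∞} (hL : 1 ≤ L) {a : ℕ → ℕ → ℕ → ℕ → ℝ≥0∞}
    (ha : ∀ k m l i, a k m l i ≤ if r m l i then D * ENNReal.ofReal (G k m l i) +
      D * (β k m ^ (1 / 2 : ℝ) * ENNReal.ofReal (w k m l i) ^ (1 / 2 : ℝ)) else 0)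
    (hfar : ∀ k, dl c₁ p j < (1 / 2 : ℝ) ^ k →
      ∑' m, β k m ≤ L * ENNReal.ofReal (dl c₁ p j + (1 / 2) ^ k))
    (hnear : ∑' (k : ℕ) (m : ℕ), (if (1 / 2 : ℝ) ^ k ≤ dl c₁ p j then β k m else 0) ≤
      L * ENNReal.ofReal (dl c₁ p j)) :
    ∑' (k : ℕ) (m : ℕ) (l : ℕ) (i : ℕ), a k m l i ≤
      D * (∑' (k : ℕ) (m : ℕ) (l : ℕ) (i : ℕ), if r m l i then
        ENNReal.ofReal (G k m l i) else 0) + D * (L * sumSb c₁ p j r w) := by
  have h1 := sum_budget (r := r) (w := w) hL hfar hnear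
  calc ∑' (k : ℕ) (m : ℕ) (l : ℕ) (i : ℕ), a k m l i ≤
      ∑' (k : ℕ) (m : ℕ) (l : ℕ) (i : ℕ), (D * (if r m l i then ENNReal.ofReal (G k m l i) else 0) +
        D * (if r m l i then β k m ^ (1 / 2 : ℝ) * ENNReal.ofReal (w k m l i) ^ (1 / 2 : ℝ)
          else 0)) := by
        gcongr with k m l i
        refine (ha k m l i).trans (le_of_eq ?_)
        by_cases hr : r m l i
        · simp only [if_pos hr]
        · simp only [if_neg hr, mul_zero, add_zero]
    _ = D * (∑' (k : ℕ) (m : ℕ) (l : ℕ) (i : ℕ), if r m l i then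
        ENNReal.ofReal (G k m l i) else 0) +
        D * (∑' (k : ℕ) (m : ℕ) (l : ℕ) (i : ℕ), if r m l i then
          β k m ^ (1 / 2 : ℝ) * ENNReal.ofReal (w k m l i) ^ (1 / 2 : ℝ) else 0) := by
        simp only [ENNReal.tsum_add, ENNReal.tsum_mul_left]
    _ ≤ _ := by (clear * - h1; gcongr)

lemma volAN {Cv : ℝ≥0} (hCv : ∀ (w : E3), ‖w‖ = 1 → ∀ Q ξ : ℝ, 0 < Q → 0 ≤ ξ →
    volume {v : E3 | q v ≤ Q ∧ al w (u v) ≤ ξ} ≤ Cv * ENNReal.ofReal (Q ^ 3 * ξ))
    {T₁ : ℝ} (hT : 0 < T₁) (p : ℕ) (V : ℝ → E3) (t₁ t₂ : ℝ) (k m l i : ℕ) (s : ℝ) (z : E3) :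
    volume {v | (s, z, v) ∈ cellAN T₁ p V t₁ t₂ k m l i} ≤
      (2 * Cv : ℝ≥0) * ENNReal.ofReal (qq p i ^ 3 * (1 / 4) ^ l) := by
  have hQ := Tl.qq_pos p i
  by_cases hz : shellI T₁ k z
  · have hw := CK.norm_dir (CK.shellI_pos hT hz)
    have h1 := hCv (dir z) hw (qq p i) (2 * (1 / 4) ^ l) hQ (by positivity)
    refine (measure_mono ?_).trans (h1.trans (le_of_eq ?_))
    · intro v hv
      exact ⟨hv.2.2.2.2.2, hv.2.2.2.1.2⟩
    · have e1 : qq p i ^ 3 * (2 * (1 / 4 : ℝ) ^ l) = 2 * (qq p i ^ 3 * (1 / 4) ^ l) := by ring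
      rw [e1, ENNReal.ofReal_mul (by norm_num)]
      push_cast
      rw [ENNReal.ofReal_ofNat]
      ring
  · have e : {v | (s, z, v) ∈ cellAN T₁ p V t₁ t₂ k m l i} = ∅ := by
      ext v
      simp only [mem_ofPred_eq, mem_empty_iff_false, iff_false]
      exact fun hv => hz hv.2.1
    rw [e, measure_empty]
    exact zero_le

lemma volD {Cr : ℝ≥0} (hCr : ∀ (b : E3) (Q φ : ℝ), 0 < Q → 0 ≤ φ →
    volume {v : E3 | q v ≤ Q ∧ ‖u v - b‖ ≤ φ} ≤ Cr * ENNReal.ofReal (Q ^ 3 * φ ^ 2))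
    {T₁ : ℝ} (p : ℕ) (V : ℝ → E3) (t₁ t₂ : ℝ) (k m n i : ℕ) (s : ℝ) (z : E3) :
    volume {v | (s, z, v) ∈ cellD T₁ p V t₁ t₂ k m n i} ≤
      (4 * Cr : ℝ≥0) * ENNReal.ofReal (qq p i ^ 3 * (1 / 4) ^ n) := by
  have hQ := Tl.qq_pos p i
  have h1 := hCr (u (V s)) (qq p i) (2 * (1 / 2) ^ n) hQ (by positivity)
  refine (measure_mono ?_).trans (h1.trans (le_of_eq ?_))
  · intro v hv
    exact ⟨hv.2.2.2.2.2.2, hv.2.2.2.2.1.2⟩
  · have e1 : qq p i ^ 3 * (2 * (1 / 2 : ℝ) ^ n) ^ 2 = 4 * (qq p i ^ 3 * (1 / 4) ^ n) := by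
      rw [CK.h4 n]; ring
    rw [e1, ENNReal.ofReal_mul (by norm_num)]
    push_cast
    rw [ENNReal.ofReal_ofNat]
    ring

lemma cellInt_empty {ta : ℝ} {X : ℝ → E3} {t₁ t₂ : ℝ} (g : ℝ → E3 → E3 → ℝ≥0∞) :
    cellInt ta T f X t₁ t₂ ∅ g = 0 := by
  unfold cellInt pathInt coneInt
  simp

end DecS

open DecS

open Classical in
/-- M2S. -/
theorem decompS (h : IsClassicalSolution T f E B) {t₀ : ℝ} (h0 : 0 < t₀) (h0T : t₀ < T) :
    ∃ (C : ℝ≥0) (p₀ : ℕ), ∀ (th c₁ : ℝ) (p j : ℕ) (X V : ℝ → E3) (t₁ t₂ : ℝ), p₀ ≤ p →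
      Ctx T f E B t₀ th c₁ p j X V t₁ t₂ →
      pathInt (t₀ / 2) T f X t₁ t₂ (kerS j (Ar.ee p j) E B X V)
        ≤ C * (∑' (k : ℕ) (m : ℕ) (l : ℕ) (i : ℕ), if rA p j i m l then
            ENNReal.ofReal (2 ^ k * sA p j m l * (qq p i)⁻¹ * √(dl c₁ p j)
              * √(qq p i ^ 3 * (1 / 4) ^ l * nA c₁ p j i k m l)) else 0)
        + C * (∑' (k : ℕ) (m : ℕ) (l : ℕ) (i : ℕ), if rN p j i m l then
            ENNReal.ofReal (2 ^ k * sN p j m l * (qq p i)⁻¹ * √(dl c₁ p j)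
              * √(qq p i ^ 3 * (1 / 4) ^ l * nN c₁ p j i k m l)) else 0)
        + C * (∑' (k : ℕ) (m : ℕ) (n : ℕ) (i : ℕ), if rD p j i m n then
            ENNReal.ofReal (2 ^ k * sD p j m * (qq p i)⁻¹ * √(dl c₁ p j)
              * √(qq p i ^ 3 * (1 / 4) ^ n * nD c₁ p j i k m n)) else 0)
        + C * sumSb c₁ p j (fun m l i => rA p j i m l) (fun k m l i =>
            (2 ^ k * sA p j m l * (qq p i)⁻¹ * 2 ^ m * (1 / 2) ^ l) ^ 2
              * (qq p i ^ 3 * (1 / 4) ^ l * nA c₁ p j i k m l))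
        + C * sumSb c₁ p j (fun m l i => rN p j i m l) (fun k m l i =>
            (2 ^ k * sN p j m l * (qq p i)⁻¹ * 2 ^ m * (1 / 2) ^ l) ^ 2
              * (qq p i ^ 3 * (1 / 4) ^ l * nN c₁ p j i k m l))
        + C * sumSb c₁ p j (fun m n i => rD p j i m n) (fun k m n i =>
            (2 ^ k * sD p j m * (qq p i)⁻¹) ^ 2
              * (qq p i ^ 3 * (1 / 4) ^ n * nD c₁ p j i k m n)) := by
  have hta : 0 < t₀ / 2 := by linarith only [h0]
  have htaT : t₀ / 2 < T := by linarith only [h0, h0T]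
  obtain ⟨Ccs, hcs⟩ := cs_cell h h0 h0T
  obtain ⟨Mg, hMg⟩ := Wg_budget h hta htaT
  obtain ⟨Lb, hLb1, hLb⟩ := bet_budget h hta htaT
  obtain ⟨Cv, hCv⟩ := vol_mom
  obtain ⟨Cr, hCr⟩ := vol_rel
  obtain ⟨Cm, p₀, hCm⟩ := mass_le_of (mass_basic h h0 h0T) (mass_stay h h0 h0T)
  set L : ℝ≥0 := Ccs + Mg + Lb + 2 * Cv + 4 * Cr + Cm + 1 with hLdef
  have l1 : Ccs ≤ L := by rw [hLdef]; simp only [add_assoc]; exact le_self_add
  have l2 : Mg ≤ L := by
    rw [hLdef]
    calc Mg ≤ Ccs + Mg := le_add_self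
      _ ≤ _ := by simp only [add_assoc]; gcongr; exact le_self_add
  have l3 : Lb ≤ L := by
    rw [hLdef]
    calc Lb ≤ Ccs + Mg + Lb := le_add_self
      _ ≤ _ := by
        rw [add_assoc (Ccs + Mg + Lb + 2 * Cv + 4 * Cr), add_assoc (Ccs + Mg + Lb + 2 * Cv),
          add_assoc (Ccs + Mg + Lb)]
        exact le_self_add
  have l4 : 2 * Cv ≤ L := by
    rw [hLdef]
    calc 2 * Cv ≤ Ccs + Mg + Lb + 2 * Cv := le_add_self
      _ ≤ _ := by
        rw [add_assoc (Ccs + Mg + Lb + 2 * Cv + 4 * Cr), add_assoc (Ccs + Mg + Lb + 2 * Cv)]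
        exact le_self_add
  have l5 : 4 * Cr ≤ L := by
    rw [hLdef]
    calc 4 * Cr ≤ Ccs + Mg + Lb + 2 * Cv + 4 * Cr := le_add_self
      _ ≤ _ := by
        rw [add_assoc (Ccs + Mg + Lb + 2 * Cv + 4 * Cr)]
        exact le_self_add
  have l6 : Cm ≤ L := by
    rw [hLdef]
    calc Cm ≤ Ccs + Mg + Lb + 2 * Cv + 4 * Cr + Cm := le_add_self
      _ ≤ _ := le_self_add
  have l7 : 1 ≤ L := by rw [hLdef]; exact le_add_self
  have hL1 : (1 : ℝ≥0∞) ≤ (L : ℝ≥0∞) := by exact_mod_cast l7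
  refine ⟨30000 * L ^ 5, p₀, fun th c₁ p j X V t₁ t₂ hp hc => ?_⟩
  obtain ⟨X', V', hX', hV', hXX, hVV⟩ := exists_ext hc
  have hT1 : 1 ≤ max T 1 := le_max_right _ _
  have hT0 : 0 < max T 1 := lt_of_lt_of_le one_pos hT1
  have ht₂ : t₂ < T := lt_of_le_of_lt hc.h2 hc.hth
  have hXc : ContinuousOn X (Icc t₁ t₂) := fun s hs => (hc.hchar.hX s hs).continuousWithinAt
  -- Cauchy-Schwarz, flux and magnetic budgets
  have hcs' : ∀ (c : Set (ℝ × E3 × E3)), MeasurableSet c →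
      ∀ (ν : ℝ≥0∞), (∀ s z, volume {v | (s, z, v) ∈ c} ≤ ν) →
      ∀ (W : ℝ → E3 → ℝ≥0∞), Measurable (Function.uncurry W) →
      ∀ (A : Set (ℝ × E3)), MeasurableSet A → (∀ s z v, (s, z, v) ∈ c → (s, z) ∈ A) →
      cellInt (t₀ / 2) T f X t₁ t₂ c (fun s z _ => W s z)
        ≤ L * (∫⁻ s in Icc t₁ t₂, ∫⁻ z, A.indicator (fun _ => W s z ^ 2) (s, z)) ^ (1 / 2 : ℝ)
          * (ν * mass (t₀ / 2) T f X t₁ t₂ c) ^ (1 / 2 : ℝ) := by
    intro c hcm ν hν W hW A hA hcA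
    refine (hcs X t₁ t₂ hc.ht₁ hc.h12 ht₂ hXc c hcm ν hν W hW A hA hcA).trans ?_
    (clear * - l1; gcongr)
  have hg' : ∫⁻ s in Icc t₁ t₂, ∫⁻ z, Wg T (t₀ / 2) E B X' s z ^ 2 ≤
      L * ENNReal.ofReal (dl c₁ p j) := by
    refine (hMg X' t₁ t₂ (by linarith only [h0, hc.ht₁]) hc.h12 ht₂).trans ?_
    gcongr
    exact hc.hlen
  obtain ⟨hfar, hnear⟩ := hLb hc hX' hV' hXX hVV
  have hfar' : ∀ k, dl c₁ p j < (1 / 2 : ℝ) ^ k →
      ∑' m, bet T (t₀ / 2) B X' V' (max T 1) t₁ t₂ k m ≤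
        L * ENNReal.ofReal (dl c₁ p j + (1 / 2) ^ k) := fun k hk =>
    (hfar k hk).trans (by (clear * - l3; gcongr))
  have hnear' : ∑' (k : ℕ) (m : ℕ), (if (1 / 2 : ℝ) ^ k ≤ dl c₁ p j then
      bet T (t₀ / 2) B X' V' (max T 1) t₁ t₂ k m else 0) ≤ L * ENNReal.ofReal (dl c₁ p j) :=
    hnear.trans (by (clear * - l3; gcongr))
  -- the measurable kernel
  set g := kerS j (Ar.ee p j) (Flux.tr T E) (Flux.tr T B) X' V' with hgdef
  have hMK : MK g := measurable_kerS h hX' hV' j (Ar.ee p j)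
  have hgeq : ∀ s ∈ Icc t₁ t₂, ∀ z v : E3, fl (t₀ / 2) T f (s - ‖z‖) (X s + z) v ≠ 0 →
      kerS j (Ar.ee p j) E B X V s z v = g s z v := by
    intro s hs z v hf
    obtain ⟨f1, f2, f3⟩ := fl_ne_zero hf
    have hτ : s - ‖z‖ ∈ Ioo 0 T := ⟨by linarith only [h0, f1], f2⟩
    rw [hgdef]
    unfold kerS
    rw [Flux.tr_eq E hτ, Flux.tr_eq B hτ, ← hXX s hs, ← hVV s hs]
  rw [pathInt_congr_path (X := X) (X' := X) (fun _ _ => rfl) hgeq]
  refine (cover_le h hc hMK).trans ?_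
  have mA := fun k m l i => measurableSet_cellAN hc (max T 1) p k m l i
  have mD := fun k m n i => measurableSet_cellD hc (max T 1) p k m n i
  have hee := Tl.ee_pos p j
  -- aligned cells
  have hfA : ∀ k m l i, (if m + 4 ≤ l then cellInt (t₀ / 2) T f X t₁ t₂
      (cellAN (max T 1) p V t₁ t₂ k m l i) g else 0) ≤ if rA p j i m l then
      (30000 * (L : ℝ≥0∞) ^ 4) * ENNReal.ofReal (2 ^ k * sA p j m l * (qq p i)⁻¹ * √(dl c₁ p j)
        * √(qq p i ^ 3 * (1 / 4) ^ l * nA c₁ p j i k m l)) +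
      (30000 * (L : ℝ≥0∞) ^ 4) * (bet T (t₀ / 2) B X' V' (max T 1) t₁ t₂ k m ^ (1 / 2 : ℝ) *
        ENNReal.ofReal ((2 ^ k * sA p j m l * (qq p i)⁻¹ * 2 ^ m * (1 / 2) ^ l) ^ 2
              * (qq p i ^ 3 * (1 / 4) ^ l * nA c₁ p j i k m l)) ^ (1 / 2 : ℝ)) else 0 := by
    intro k m l i
    by_cases hr : rA p j i m l
    · rw [if_pos hr, if_pos hr.1]
      have hQ := Tl.qq_pos p i
      have hsA : 0 ≤ sA p j m l := by
        have := Tl.DD_pos p j m l
        unfold sA; positivity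
      refine cell_fin h hc hX' hV' hXX hL1 hcs' hg' (mA k m l i)
        (κ := 12) (lam := 2 * (1 / 2) ^ l) (by positivity) (by (clear * - hQ hsA; positivity)) (by (clear * - hQ hsA; positivity))
        (by norm_num) (by norm_num) (by positivity) ?_ ?_ k m ?_ ?_ ?_
      · intro s z
        refine (volAN hCv hT0 p V t₁ t₂ k m l i s z).trans ?_
        (clear * - l4; gcongr)
      · refine ((hCm th c₁ p j X V t₁ t₂ hp hc k m l i 0).1 hr.1).trans ?_
        (clear * - l6; gcongr)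
      · have h5 : 0 ≤ 2 ^ k * sA p j m l * (qq p i)⁻¹ * 2 ^ m * (1 / 2) ^ l := by (clear * - hQ hsA; positivity)
        nlinarith only [h5]
      · intro s z v hm
        refine ⟨hm.2.1, ?_⟩
        have := hm.2.2.1
        simp only at this ⊢
        rw [← hVV s hm.1]
        exact this
      · intro s hs z v hm hf
        obtain ⟨f1, f2, f3⟩ := fl_ne_zero hf
        have hτ : s - ‖z‖ ∈ Ioo 0 T := ⟨by linarith only [h0, f1], f2⟩
        rw [← hgeq s hs z v hf]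
        have hcell := CK.isCell_of hT0 hm.2.1 hm.2.2.1 hm.2.2.2.1 hm.2.2.2.2
        have hb := CK.bS_A (j := j) hcell
        refine (kerS_le (κ := 3 * sA p j m l) (by (clear * - hsA; positivity)) hT1 hm.2.1 hm.2.2.2.1.2
          hm.2.2.2.2 hb f1 hτ (hXX s hs)).trans (le_of_eq ?_)
        congr 2
        ring
    · rw [if_neg hr]
      by_cases hml : m + 4 ≤ l
      · rw [if_pos hml]
        have hne : ¬ (i ≤ p ∧ m ≤ p - j + 3 ∧ l ≤ p - i + 1) := fun hh => hr ⟨hml, hh⟩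
        rw [(mass_zero h h0 h0T th c₁ p j X V t₁ t₂ hc k m l i 0).1 hne, cellInt_empty]
      · rw [if_neg hml]
  -- nonaligned cells
  have hfN : ∀ k m l i, (if l + 4 ≤ m then cellInt (t₀ / 2) T f X t₁ t₂
      (cellAN (max T 1) p V t₁ t₂ k m l i) g else 0) ≤ if rN p j i m l then
      (30000 * (L : ℝ≥0∞) ^ 4) * ENNReal.ofReal (2 ^ k * sN p j m l * (qq p i)⁻¹ * √(dl c₁ p j)
        * √(qq p i ^ 3 * (1 / 4) ^ l * nN c₁ p j i k m l)) +
      (30000 * (L : ℝ≥0∞) ^ 4) * (bet T (t₀ / 2) B X' V' (max T 1) t₁ t₂ k m ^ (1 / 2 : ℝ) *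
        ENNReal.ofReal ((2 ^ k * sN p j m l * (qq p i)⁻¹ * 2 ^ m * (1 / 2) ^ l) ^ 2
              * (qq p i ^ 3 * (1 / 4) ^ l * nN c₁ p j i k m l)) ^ (1 / 2 : ℝ)) else 0 := by
    intro k m l i
    by_cases hr : rN p j i m l
    · rw [if_pos hr, if_pos hr.1]
      have hQ := Tl.qq_pos p i
      have hsN : 0 ≤ sN p j m l := by
        unfold sN; positivity
      refine cell_fin h hc hX' hV' hXX hL1 hcs' hg' (mA k m l i)
        (κ := 32) (lam := 2 * (1 / 2) ^ l) (by positivity) (by (clear * - hQ hsN; positivity)) (by (clear * - hQ hsN; positivity))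
        (by norm_num) (by norm_num) (by positivity) ?_ ?_ k m ?_ ?_ ?_
      · intro s z
        refine (volAN hCv hT0 p V t₁ t₂ k m l i s z).trans ?_
        (clear * - l4; gcongr)
      · refine ((hCm th c₁ p j X V t₁ t₂ hp hc k m l i 0).2.1 hr.1).trans ?_
        (clear * - l6; gcongr)
      · have h5 : 0 ≤ 2 ^ k * sN p j m l * (qq p i)⁻¹ * 2 ^ m * (1 / 2) ^ l := by (clear * - hQ hsN; positivity)
        nlinarith only [h5]
      · intro s z v hm
        refine ⟨hm.2.1, ?_⟩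
        have := hm.2.2.1
        simp only at this ⊢
        rw [← hVV s hm.1]
        exact this
      · intro s hs z v hm hf
        obtain ⟨f1, f2, f3⟩ := fl_ne_zero hf
        have hτ : s - ‖z‖ ∈ Ioo 0 T := ⟨by linarith only [h0, f1], f2⟩
        rw [← hgeq s hs z v hf]
        have hcell := CK.isCell_of hT0 hm.2.1 hm.2.2.1 hm.2.2.2.1 hm.2.2.2.2
        have hb := CK.bS_N (j := j) hcell
        refine (kerS_le (κ := 8 * sN p j m l) (by (clear * - hsN; positivity)) hT1 hm.2.1 hm.2.2.2.1.2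
          hm.2.2.2.2 hb f1 hτ (hXX s hs)).trans (le_of_eq ?_)
        congr 2
        ring
    · rw [if_neg hr]
      by_cases hml : l + 4 ≤ m
      · rw [if_pos hml]
        have hne : ¬ (i ≤ p ∧ m ≤ p - j + 3 ∧ l ≤ p - i + 1) := fun hh => hr ⟨hml, hh⟩
        rw [(mass_zero h h0 h0T th c₁ p j X V t₁ t₂ hc k m l i 0).1 hne, cellInt_empty]
      · rw [if_neg hml]
  -- diagonal cells
  have hfD : ∀ k m n i, cellInt (t₀ / 2) T f X t₁ t₂
      (cellD (max T 1) p V t₁ t₂ k m n i) g ≤ if rD p j i m n then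
      (30000 * (L : ℝ≥0∞) ^ 4) * ENNReal.ofReal (2 ^ k * sD p j m * (qq p i)⁻¹ * √(dl c₁ p j)
        * √(qq p i ^ 3 * (1 / 4) ^ n * nD c₁ p j i k m n)) +
      (30000 * (L : ℝ≥0∞) ^ 4) * (bet T (t₀ / 2) B X' V' (max T 1) t₁ t₂ k m ^ (1 / 2 : ℝ) *
        ENNReal.ofReal ((2 ^ k * sD p j m * (qq p i)⁻¹) ^ 2
              * (qq p i ^ 3 * (1 / 4) ^ n * nD c₁ p j i k m n)) ^ (1 / 2 : ℝ)) else 0 := by
    intro k m n i
    by_cases hr : rD p j i m n
    · rw [if_pos hr]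
      have hQ := Tl.qq_pos p i
      have hsD : 0 ≤ sD p j m := by
        unfold sD; positivity
      refine cell_fin h hc hX' hV' hXX hL1 hcs' hg' (mD k m n i)
        (κ := 768) (lam := 16 * (1 / 2) ^ m) (by positivity) (by (clear * - hQ hsD; positivity)) (by (clear * - hQ hsD; positivity))
        (by norm_num) (by norm_num) (by positivity) ?_ ?_ k m ?_ ?_ ?_
      · intro s z
        refine (volD hCr p V t₁ t₂ k m n i s z).trans ?_
        (clear * - l5; gcongr)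
      · refine ((hCm th c₁ p j X V t₁ t₂ hp hc k m 0 i n).2.2 hr.1).trans ?_
        (clear * - l6; gcongr)
      · have h5 : (1 / 2 : ℝ) ^ m * 2 ^ m = 1 := by
          rw [← mul_pow]; norm_num
        have h6 : 2 ^ k * sD p j m * (qq p i)⁻¹ * (16 * (1 / 2) ^ m) * 2 ^ m =
            16 * (2 ^ k * sD p j m * (qq p i)⁻¹) * ((1 / 2 : ℝ) ^ m * 2 ^ m) := by ring
        rw [h6, h5, mul_one]
      · intro s z v hm
        refine ⟨hm.2.1, ?_⟩
        have := hm.2.2.1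
        simp only at this ⊢
        rw [← hVV s hm.1]
        exact this
      · intro s hs z v hm hf
        obtain ⟨f1, f2, f3⟩ := fl_ne_zero hf
        have hτ : s - ‖z‖ ∈ Ioo 0 T := ⟨by linarith only [h0, f1], f2⟩
        rw [← hgeq s hs z v hf]
        obtain ⟨l, hl1, hl2, hl⟩ := hm.2.2.2.1
        have hcell := CK.isCell_of hT0 hm.2.1 hm.2.2.1 hl hm.2.2.2.2.2
        have hb := CK.bS_D (j := j) hcell hl1
        refine (kerS_le (κ := 192 * sD p j m) (by (clear * - hsD; positivity)) hT1 hm.2.1 hl.2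
          hm.2.2.2.2.2 hb f1 hτ (hXX s hs)).trans ?_
        have hll : 2 * (1 / 2 : ℝ) ^ l ≤ 16 * (1 / 2) ^ m := by
          have h7 : (1 / 2 : ℝ) ^ (l + 3) ≤ (1 / 2) ^ m :=
            pow_le_pow_of_le_one (by norm_num) (by norm_num) hl2
          rw [pow_add] at h7
          linarith only [h7]
        have e1 : 4 * (2 ^ k * (192 * sD p j m) * (qq p i)⁻¹) =
            768 * (2 ^ k * sD p j m * (qq p i)⁻¹) := by ring
        rw [e1]
        (clear * - hll; gcongr)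
    · rw [if_neg hr, (mass_zero h h0 h0T th c₁ p j X V t₁ t₂ hc k m 0 i n).2 hr, cellInt_empty]
  have sA' := fam_sum hL1 hfA hfar' hnear'
  have sN' := fam_sum hL1 hfN hfar' hnear'
  have sD' := fam_sum hL1 hfD hfar' hnear'
  have hCc : ((30000 * L ^ 5 : ℝ≥0) : ℝ≥0∞) = 30000 * (L : ℝ≥0∞) ^ 4 * L := by
    push_cast
    ring
  have hCd : 30000 * (L : ℝ≥0∞) ^ 4 ≤ ((30000 * L ^ 5 : ℝ≥0) : ℝ≥0∞) := by
    rw [hCc]
    calc 30000 * (L : ℝ≥0∞) ^ 4 = 30000 * (L : ℝ≥0∞) ^ 4 * 1 := (mul_one _).symm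
      _ ≤ _ := by gcongr
  have hCe : ∀ x y : ℝ≥0∞, 30000 * (L : ℝ≥0∞) ^ 4 * x + 30000 * (L : ℝ≥0∞) ^ 4 * (L * y) ≤
      ((30000 * L ^ 5 : ℝ≥0) : ℝ≥0∞) * x + ((30000 * L ^ 5 : ℝ≥0) : ℝ≥0∞) * y := by
    intro x y
    refine add_le_add (by (clear * - hCd; gcongr)) (le_of_eq ?_)
    rw [hCc]
    ring
  refine (add_le_add (add_le_add (sA'.trans (hCe _ _)) (sN'.trans (hCe _ _)))
    (sD'.trans (hCe _ _))).trans (le_of_eq ?_)
  ring

end Vale.Agent.P107
end
end
end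

section

section

attribute [-instance] ProperSMul.toContinuousSMul IsTopologicalTorsor.toContinuousSMul
  IdemSemiring.toCanonicallyOrderedAdd IdemSemiring.toMulLeftMono IdemSemiring.toMulRightMono
  AddQuantale.instAddLeftMono AddQuantale.instAddRightMono Quantale.instMulLeftMono
  Quantale.instMulRightMono FiniteDimensional.rclike_to_real IsScalarTower.complexToReal
  FiniteDimensional.complexToReal

section

/-!
Decomposition of the momentum correction into cells.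
-/

open MeasureTheory Set Filter Topology
open scoped RealInnerProductSpace ENNReal NNReal

namespace Vale.Agent.P107

open Vale.Agent.P107.Ar

variable {T : ℝ} {f : ℝ → E3 → E3 → ℝ} {E B : ℝ → E3 → E3}

namespace DecB

/-! ### Dyadic indices -/

lemma qq_pos (p i : ℕ) : 0 < qq p i := by unfold qq; positivity

lemma idx_i {p i : ℕ} {x : ℝ} (hx : 1 ≤ x) (h : qI p i x) : i ≤ p := by
  have h1 : 1 ≤ qq p i := hx.trans h.2
  unfold qq at h1
  rw [le_div_iff₀ (by positivity), one_mul] at h1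
  exact (pow_le_pow_iff_right₀ (by norm_num : (1 : ℝ) < 2)).1 h1

/-- `α ≥ 1/(2 q²)`. -/
lemma al_ge (v w : E3) (hw : ‖w‖ ≤ 1) : 1 / (2 * q v ^ 2) ≤ al w (u v) := by
  unfold al
  rw [one_add_inner_u_eq, le_div_iff₀ (q_pos v)]
  have h1 := inv_le_q_add_inner v w hw
  have h2 := q_pos v
  calc 1 / (2 * q v ^ 2) * q v = (2 * q v)⁻¹ := by field_simp
    _ ≤ _ := h1

lemma idx_al {p i m : ℕ} {Q x c : ℝ} (d : ℕ) (hQ : 0 < Q) (hx : 1 / (2 * Q ^ 2) ≤ x)
    (hQq : Q ≤ c * qq p i) (hc : 0 < c) (hcd : 4 * c ^ 2 ≤ 4 ^ d) (hip : i ≤ p) (h : alI m x) :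
    m ≤ p - i + d := by
  have h1 : 1 / (2 * (c * qq p i) ^ 2) ≤ 2 * (1 / 4) ^ m := by
    refine le_trans ?_ (hx.trans h.2)
    (clear * - hQ hQq; gcongr)
  have hqq : 0 < qq p i := qq_pos p i
  have h2 : (4 : ℝ) ^ m ≤ 4 * c ^ 2 * qq p i ^ 2 := by
    rw [div_le_iff₀ (by positivity)] at h1
    have h3 : ((1 : ℝ) / 4) ^ m * 4 ^ m = 1 := by
      rw [← mul_pow]; norm_num
    have h4 : (0 : ℝ) < 4 ^ m := by positivity
    calc (4 : ℝ) ^ m = 1 * 4 ^ m := by ring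
      _ ≤ (2 * (1 / 4) ^ m * (2 * (c * qq p i) ^ 2)) * 4 ^ m := by gcongr
      _ = 4 * c ^ 2 * qq p i ^ 2 * ((1 / 4) ^ m * 4 ^ m) := by ring
      _ = _ := by rw [h3, mul_one]
  have h5 : qq p i ^ 2 = 4 ^ (p - i) := by
    unfold qq
    have : (2 : ℝ) ^ p = 2 ^ (p - i) * 2 ^ i := by
      rw [← pow_add]; congr 1; omega
    rw [this, mul_div_assoc, div_self (by positivity), mul_one, ← pow_mul, mul_comm, pow_mul]
    norm_num
  have h6 : (4 : ℝ) ^ m ≤ 4 ^ (p - i + d) := by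
    calc (4 : ℝ) ^ m ≤ 4 * c ^ 2 * qq p i ^ 2 := h2
      _ ≤ 4 ^ d * 4 ^ (p - i) := by rw [h5]; gcongr
      _ = _ := by rw [← pow_add]; congr 1; omega
  exact (pow_le_pow_iff_right₀ (by norm_num : (1 : ℝ) < 4)).1 h6

/-! ### Kernel values on a cell -/

lemma sqrt_le_of_alI {m : ℕ} {x : ℝ} (h : alI m x) : √x ≤ 3 / 2 * (1 / 2) ^ m := by
  rw [Real.sqrt_le_left (by positivity)]
  have h1 : (3 / 2 * ((1 : ℝ) / 2) ^ m) ^ 2 = 9 / 4 * (1 / 4) ^ m := by
    rw [mul_pow, ← pow_mul, mul_comm m 2, pow_mul]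
    norm_num
  rw [h1]
  have h2 : (0 : ℝ) < (1 / 4) ^ m := by positivity
  linarith only [h2, h.2]

lemma bC_cell {p j m l : ℕ} {w a b : E3} (hl : alI l (al w a)) (hm : alI m (al w b)) :
    bC ((1 / 4) ^ j) (Ar.ee p j) w a b
      ≤ 5 * ((1 / 4) ^ j * (1 / 2) ^ l * ((1 / 2) ^ m + Ar.ee p j) / DD p j m l) := by
  have he : 0 < Ar.ee p j := by
    unfold Ar.ee
    exact Real.rpow_pos_of_pos (qq_pos p j) _
  have hε : (0 : ℝ) < (1 / 4) ^ j := by positivity
  have h1 := sqrt_le_of_alI hl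
  have h2 := sqrt_le_of_alI hm
  have hDD : 0 < DD p j m l := by unfold DD; positivity
  have hDn : DD p j m l / 2 ≤ Dn ((1 / 4) ^ j) (Ar.ee p j) w a b := by
    unfold DD Dn
    have h3 := hl.1
    have h4 := hm.1
    rw [pow_succ] at h3 h4
    have h5 : (1 / 4 : ℝ) ^ j * ((1 / 4) ^ m / 2 + Ar.ee p j ^ 2)
        ≤ (1 / 4) ^ j * (al w b + Ar.ee p j ^ 2) := by
      gcongr
      linarith only [h4]
    have h6 : 0 ≤ (1 / 4 : ℝ) ^ j * Ar.ee p j ^ 2 := by positivity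
    linarith only [h3, h5, h6]
  unfold bC
  have hnum : (1 / 4 : ℝ) ^ j * √(al w a) * (√(al w b) + Ar.ee p j)
      ≤ (1 / 4) ^ j * (3 / 2 * (1 / 2) ^ l) * (3 / 2 * ((1 / 2) ^ m + Ar.ee p j)) := by
    gcongr
    linarith only [he, h2]
  calc (1 / 4 : ℝ) ^ j * √(al w a) * (√(al w b) + Ar.ee p j)
        / Dn ((1 / 4) ^ j) (Ar.ee p j) w a b
      ≤ ((1 / 4) ^ j * (3 / 2 * (1 / 2) ^ l) * (3 / 2 * ((1 / 2) ^ m + Ar.ee p j)))
        / (DD p j m l / 2) := by
        gcongr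
    _ = 9 / 2 * ((1 / 4) ^ j * (1 / 2) ^ l * ((1 / 2) ^ m + Ar.ee p j) / DD p j m l) := by
        field_simp
        ring
    _ ≤ _ := by
        gcongr
        norm_num

lemma inv_norm_le {T₁ : ℝ} (hT : 1 ≤ T₁) {k : ℕ} {z : E3} (h : shellI T₁ k z) :
    ‖z‖⁻¹ ≤ 2 * 2 ^ k := by
  have h1 : (1 / 2 : ℝ) ^ (k + 1) ≤ ‖z‖ := by
    refine le_trans ?_ h.1.le
    have : (0 : ℝ) < (1 / 2) ^ (k + 1) := by positivity
    nlinarith only [hT, this]
  have h2 : (2 * 2 ^ k : ℝ) = ((1 / 2 : ℝ) ^ (k + 1))⁻¹ := by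
    rw [one_div, inv_pow, inv_inv, pow_succ]
    ring
  rw [h2]
  exact inv_anti₀ (by positivity) h1

/-! ### Cells at a fixed time -/

/-- The cells at a fixed time, in `(z, v)` space. -/
def cell (T₁ : ℝ) (p : ℕ) (b : E3) (k m l i : ℕ) : Set (E3 × E3) :=
  {y | shellI T₁ k y.1 ∧ alI m (al (dir y.1) b) ∧ alI l (al (dir y.1) (u y.2)) ∧
    qI p i (q y.2)}

lemma measurable_dir' : Measurable dir := by
  unfold dir
  exact (measurable_norm.inv).smul measurable_id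

lemma measurable_al1 (b : E3) : Measurable fun y : E3 × E3 => al (dir y.1) b := by
  unfold al
  exact measurable_const.add (measurable_const.inner (measurable_dir'.comp measurable_fst))

lemma measurable_al2 : Measurable fun y : E3 × E3 => al (dir y.1) (u y.2) := by
  unfold al
  exact measurable_const.add
    ((continuous_u.measurable.comp measurable_snd).inner (measurable_dir'.comp measurable_fst))

lemma measurableSet_cell (T₁ : ℝ) (p : ℕ) (b : E3) (k m l i : ℕ) :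
    MeasurableSet (cell T₁ p b k m l i) := by
  have hI : ∀ (F : E3 × E3 → ℝ), Measurable F → ∀ c d : ℝ,
      MeasurableSet {y | c < F y ∧ F y ≤ d} := fun F hF c d =>
    (measurableSet_lt measurable_const hF).inter (measurableSet_le hF measurable_const)
  refine (hI _ measurable_fst.norm _ _).inter ((hI _ (measurable_al1 b) _ _).inter
    ((hI _ measurable_al2 _ _).inter (hI _ (continuous_q.measurable.comp measurable_snd) _ _)))

/-- The density on the backward cone of `(s, x)`. -/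
noncomputable def dens (T : ℝ) (f : ℝ → E3 → E3 → ℝ) (ta s : ℝ) (x : E3) (y : E3 × E3) : ℝ≥0∞ :=
  fl ta T f (s - ‖y.1‖) (x + y.1) y.2

lemma measurable_dens (h : IsClassicalSolution T f E B) {ta : ℝ} (h0 : 0 < ta) (s : ℝ) (x : E3) :
    Measurable (dens T f ta s x) := by
  have hc : Continuous fun y : E3 × E3 => (s - ‖y.1‖, x + y.1, y.2) := by fun_prop
  exact (measurable_fl h h0).comp hc.measurable

lemma measurable_kerB (j : ℕ) (e : ℝ) (V : ℝ → E3) (s : ℝ) :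
    Measurable fun y : E3 × E3 => kerB j e V s y.1 y.2 := by
  unfold kerB bC Dn
  have m1 := measurable_al1 (u (V s))
  have m2 := measurable_al2
  have m3 : Measurable fun y : E3 × E3 => ‖y.1‖⁻¹ := measurable_fst.norm.inv
  fun_prop

lemma mass_V (h : IsClassicalSolution T f E B) {ta : ℝ} (h0 : 0 < ta) (h0T : ta < T) :
    ∃ C : ℝ≥0, ∀ (s : ℝ) (x : E3) (p : ℕ) (b : E3) (k m l i : ℕ), ‖b‖ ≤ 1 →
      ∫⁻ y, (cell (max T 1) p b k m l i).indicator (dens T f ta s x) y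
        ≤ C * ENNReal.ofReal ((1 / 8) ^ k * (1 / 4) ^ m * (1 / 4) ^ l * qq p i ^ 3) := by
  obtain ⟨F0, hF0⟩ := exists_sup_bound h h0 h0T
  obtain ⟨C1, hC1⟩ := vol_shell
  obtain ⟨C2, hC2⟩ := vol_mom
  refine ⟨F0 * C1 * C2 * (4 * (max T 1) ^ 3).toNNReal, fun s x p b k m l i hb => ?_⟩
  have hT1 : 0 < max T 1 := lt_max_of_lt_right one_pos
  have hqq := qq_pos p i
  have hdens : ∀ y, dens T f ta s x y ≤ F0 := by
    intro y
    unfold dens fl
    split_ifs with hy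
    · have := hF0 (s - ‖y.1‖) ⟨hy.1, hy.2⟩ (x + y.1) y.2
      rw [← ENNReal.ofReal_coe_nnreal]
      exact ENNReal.ofReal_le_ofReal this
    · exact zero_le
  have hmeas : Measurable ((cell (max T 1) p b k m l i).indicator (dens T f ta s x)) :=
    (measurable_dens h h0 s x).indicator (measurableSet_cell _ _ _ _ _ _ _)
  have e1 : ∫⁻ y, (cell (max T 1) p b k m l i).indicator (dens T f ta s x) y
      = ∫⁻ z, ∫⁻ v, (cell (max T 1) p b k m l i).indicator (dens T f ta s x) (z, v) :=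
    (lintegral_lintegral (f := fun z v =>
      (cell (max T 1) p b k m l i).indicator (dens T f ta s x) (z, v)) hmeas.aemeasurable).symm
  rw [e1]
  set Z : Set E3 := {z : E3 | z ≠ 0 ∧ ‖z‖ ≤ max T 1 * (1 / 2) ^ k ∧
    al (dir z) b ≤ 2 * (1 / 4) ^ m} with hZ
  have hZm : MeasurableSet Z := by
    have hal : Measurable fun z : E3 => al (dir z) b := by
      unfold al
      exact measurable_const.add (measurable_const.inner measurable_dir')
    exact (measurableSet_singleton (0 : E3)).compl.inter ((measurableSet_le measurable_norm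
      measurable_const).inter (measurableSet_le hal measurable_const))
  have step : ∀ z, ∫⁻ v, (cell (max T 1) p b k m l i).indicator (dens T f ta s x) (z, v)
      ≤ Z.indicator (fun _ => F0 * (C2 * ENNReal.ofReal (qq p i ^ 3 * (2 * (1 / 4) ^ l)))) z := by
    intro z
    by_cases hz : z ∈ Z
    · rw [indicator_of_mem hz]
      have hw : ‖dir z‖ = 1 := by
        unfold dir
        have hpos : 0 < ‖z‖ := norm_pos_iff.2 hz.1
        rw [norm_smul, norm_inv, norm_norm]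
        field_simp
      have hvm : MeasurableSet {v : E3 | q v ≤ qq p i ∧ al (dir z) (u v) ≤ 2 * (1 / 4) ^ l} := by
        have hal : Measurable fun v : E3 => al (dir z) (u v) := by
          unfold al
          exact measurable_const.add (continuous_u.measurable.inner measurable_const)
        exact (measurableSet_le continuous_q.measurable measurable_const).inter
          (measurableSet_le hal measurable_const)
      calc ∫⁻ v, (cell (max T 1) p b k m l i).indicator (dens T f ta s x) (z, v)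
          ≤ ∫⁻ v, {v : E3 | q v ≤ qq p i ∧ al (dir z) (u v) ≤ 2 * (1 / 4) ^ l}.indicator
              (fun _ => (F0 : ℝ≥0∞)) v := by
            refine lintegral_mono fun v => ?_
            by_cases hv : (z, v) ∈ cell (max T 1) p b k m l i
            · have hv' : v ∈ {v : E3 | q v ≤ qq p i ∧ al (dir z) (u v) ≤ 2 * (1 / 4) ^ l} :=
                ⟨hv.2.2.2.2, hv.2.2.1.2⟩
              rw [indicator_of_mem hv, indicator_of_mem hv']
              exact hdens _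
            · rw [indicator_of_notMem hv]
              exact zero_le
        _ = F0 * volume {v : E3 | q v ≤ qq p i ∧ al (dir z) (u v) ≤ 2 * (1 / 4) ^ l} := by
            rw [lintegral_indicator_const hvm]
        _ ≤ _ := by
            gcongr
            exact hC2 (dir z) hw _ _ hqq (by positivity)
    · rw [indicator_of_notMem hz]
      refine le_of_eq ?_
      have hzero : ∀ v, (cell (max T 1) p b k m l i).indicator (dens T f ta s x) (z, v) = 0 := by
        intro v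
        refine indicator_of_notMem (fun hv => hz ⟨?_, hv.1.2, hv.2.1.2⟩) _
        have h1 : max T 1 * (1 / 2) ^ (k + 1) < ‖z‖ := hv.1.1
        have h2 : 0 < max T 1 * (1 / 2) ^ (k + 1) := by positivity
        exact norm_pos_iff.1 (h2.trans h1)
      simp only [hzero, lintegral_zero]
  calc ∫⁻ z, ∫⁻ v, (cell (max T 1) p b k m l i).indicator (dens T f ta s x) (z, v)
      ≤ ∫⁻ z, Z.indicator
          (fun _ => F0 * (C2 * ENNReal.ofReal (qq p i ^ 3 * (2 * (1 / 4) ^ l)))) z :=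
        lintegral_mono step
    _ = F0 * (C2 * ENNReal.ofReal (qq p i ^ 3 * (2 * (1 / 4) ^ l))) * volume Z := by
        rw [lintegral_indicator_const hZm]
    _ ≤ F0 * (C2 * ENNReal.ofReal (qq p i ^ 3 * (2 * (1 / 4) ^ l)))
        * (C1 * ENNReal.ofReal ((max T 1 * (1 / 2) ^ k) ^ 3 * (2 * (1 / 4) ^ m))) := by
        gcongr
        exact hC1 b hb _ _ (by positivity) (by positivity)
    _ = _ := by
        have h1 : ((4 * max T 1 ^ 3).toNNReal : ℝ≥0∞) = ENNReal.ofReal (4 * max T 1 ^ 3) := rfl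
        push_cast
        rw [h1]
        have h2 : ENNReal.ofReal (qq p i ^ 3 * (2 * (1 / 4) ^ l))
            * ENNReal.ofReal ((max T 1 * (1 / 2) ^ k) ^ 3 * (2 * (1 / 4) ^ m))
            = ENNReal.ofReal (4 * max T 1 ^ 3)
              * ENNReal.ofReal ((1 / 8) ^ k * (1 / 4) ^ m * (1 / 4) ^ l * qq p i ^ 3) := by
          rw [← ENNReal.ofReal_mul (by positivity), ← ENNReal.ofReal_mul (by positivity)]
          congr 1
          rw [mul_pow, ← pow_mul, mul_comm k 3, pow_mul]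
          norm_num
          ring
        calc _ = (F0 : ℝ≥0∞) * C1 * C2 * (ENNReal.ofReal (qq p i ^ 3 * (2 * (1 / 4) ^ l))
            * ENNReal.ofReal ((max T 1 * (1 / 2) ^ k) ^ 3 * (2 * (1 / 4) ^ m))) := by ring
          _ = _ := by rw [h2]; ring

lemma mass_F (h : IsClassicalSolution T f E B) {ta : ℝ} (h0 : 0 < ta) (h0T : ta < T) :
    ∃ C : ℝ≥0, ∀ s ∈ Ico ta T, ∀ (x : E3) (p : ℕ) (b : E3) (k m l i : ℕ),
      ∫⁻ y, (cell (max T 1) p b k m l i).indicator (dens T f ta s x) y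
        ≤ C * ENNReal.ofReal (4 ^ l / qq p i) := by
  obtain ⟨M, hM⟩ := cone_flux h h0 h0T
  refine ⟨4 * M, fun s hs x p b k m l i => ?_⟩
  have hqq := qq_pos p i
  have h1 := (hM s hs x).1
  unfold coneInt at h1
  have hmeas : Measurable fun y : E3 × E3 =>
      ENNReal.ofReal (q y.2 * al (dir y.1) (u y.2)) * fl ta T f (s - ‖y.1‖) (x + y.1) y.2 :=
    (((continuous_q.measurable.comp measurable_snd).mul measurable_al2).ennreal_ofReal).mul
      (measurable_dens h h0 s x)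
  rw [lintegral_lintegral (f := fun z v =>
    ENNReal.ofReal (q v * al (dir z) (u v)) * fl ta T f (s - ‖z‖) (x + z) v)
    hmeas.aemeasurable] at h1
  calc ∫⁻ y, (cell (max T 1) p b k m l i).indicator (dens T f ta s x) y
      ≤ ∫⁻ y : E3 × E3, ENNReal.ofReal (4 * (4 ^ l / qq p i)) *
        (ENNReal.ofReal (q y.2 * al (dir y.1) (u y.2)) * fl ta T f (s - ‖y.1‖) (x + y.1) y.2) := by
        refine lintegral_mono fun y => ?_
        by_cases hy : y ∈ cell (max T 1) p b k m l i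
        · rw [indicator_of_mem hy, ← mul_assoc, ← ENNReal.ofReal_mul (by positivity)]
          have hq1 := hy.2.2.2.1
          have ha1 := hy.2.2.1.1
          rw [pow_succ] at ha1
          have h5 : (1 : ℝ) ≤ 4 * (4 ^ l / qq p i) * (q y.2 * al (dir y.1) (u y.2)) := by
            have h6 : qq p i / 2 * (2 * ((1 / 4) ^ l * (1 / 4))) ≤ q y.2 * al (dir y.1) (u y.2) := by
              gcongr
              exact (q_pos _).le
            have h7 : ((1 : ℝ) / 4) ^ l * 4 ^ l = 1 := by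
              rw [← mul_pow]; norm_num
            calc (1 : ℝ) = 4 * (4 ^ l / qq p i) * (qq p i / 2 * (2 * ((1 / 4) ^ l * (1 / 4)))) := by
                  field_simp
                  rw [mul_comm, h7]
              _ ≤ _ := by gcongr
          calc dens T f ta s x y = ENNReal.ofReal 1 * dens T f ta s x y := by simp
            _ ≤ _ := by
              gcongr
              exact le_rfl
        · rw [indicator_of_notMem hy]
          exact zero_le
    _ = ENNReal.ofReal (4 * (4 ^ l / qq p i)) * ∫⁻ y : E3 × E3,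
        (ENNReal.ofReal (q y.2 * al (dir y.1) (u y.2)) * fl ta T f (s - ‖y.1‖) (x + y.1) y.2) := by
        rw [lintegral_const_mul _ hmeas]
    _ ≤ ENNReal.ofReal (4 * (4 ^ l / qq p i)) * M := by
        gcongr
        exact h1
    _ = _ := by
        rw [ENNReal.ofReal_mul (by norm_num)]
        push_cast
        have : ENNReal.ofReal 4 = 4 := by norm_num
        rw [this]
        ring

end DecB

open Classical DecB in
/-- M2B. -/
theorem decompB (h : IsClassicalSolution T f E B) {t₀ : ℝ} (h0 : 0 < t₀) (h0T : t₀ < T) :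
    ∃ C : ℝ≥0, ∀ (th c₁ : ℝ) (p j : ℕ) (X V : ℝ → E3) (t₁ t₂ : ℝ),
      Ctx T f E B t₀ th c₁ p j X V t₁ t₂ → ∀ s ∈ Icc t₁ t₂,
      coneInt (t₀ / 2) T f s (X s) (kerB j (Ar.ee p j) V s)
        ≤ C * (∑' (k : ℕ) (m : ℕ) (l : ℕ) (i : ℕ),
          if i ≤ p ∧ m ≤ p - j + 3 ∧ l ≤ p - i + 1 then
            ENNReal.ofReal (2 ^ k * ((1 / 4) ^ j * (1 / 2) ^ l * ((1 / 2) ^ m + Ar.ee p j)
              / DD p j m l) * min ((1 / 8) ^ k * (1 / 4) ^ m * (1 / 4) ^ l * qq p i ^ 3)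
                (4 ^ l / qq p i)) else 0) := by
  have hta : 0 < t₀ / 2 := by linarith only [h0]
  have htaT : t₀ / 2 < T := by linarith only [h0, h0T]
  obtain ⟨Cv, hCv⟩ := mass_V h hta htaT
  obtain ⟨Cf, hCf⟩ := mass_F h hta htaT
  refine ⟨10 * max Cv Cf, fun th c₁ p j X V t₁ t₂ hc s hs => ?_⟩
  have hs0 : t₀ ≤ s := hc.ht₁.trans hs.1
  have hsth : s ≤ th := hs.2.trans hc.h2
  have hsT : s < T := hsth.trans_lt hc.hth
  have hT1 : 1 ≤ max T 1 := le_max_right _ _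
  have hjp : j ≤ p := by
    have := hc.hj
    omega
  have he : 0 < Ar.ee p j := by
    unfold Ar.ee
    exact Real.rpow_pos_of_pos (qq_pos p j) _
  have hb1 : ‖u (V s)‖ < 1 := norm_u_lt_one _
  set H : E3 × E3 → ℝ≥0∞ := fun y =>
    kerB j (Ar.ee p j) V s y.1 y.2 * dens T f (t₀ / 2) s (X s) y with hH
  have hHm : Measurable H := (measurable_kerB j _ V s).mul (measurable_dens h hta s (X s))
  have e1 : coneInt (t₀ / 2) T f s (X s) (kerB j (Ar.ee p j) V s) = ∫⁻ y, H y := by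
    unfold coneInt
    exact lintegral_lintegral (f := fun z v => H (z, v)) hHm.aemeasurable
  -- the cover
  have cover : ∀ y, H y ≤ ∑' (k : ℕ) (m : ℕ) (l : ℕ) (i : ℕ),
      if i ≤ p ∧ m ≤ p - j + 3 ∧ l ≤ p - i + 1 then
        (cell (max T 1) p (u (V s)) k m l i).indicator H y else 0 := by
    intro y
    by_cases hy : H y = 0
    · rw [hy]
      exact zero_le
    have hk : kerB j (Ar.ee p j) V s y.1 y.2 ≠ 0 := fun h' => hy (by simp only [hH, h', zero_mul])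
    have hd : dens T f (t₀ / 2) s (X s) y ≠ 0 := fun h' => hy (by simp only [hH, h', mul_zero])
    have hz0 : y.1 ≠ 0 := by
      intro h'
      apply hk
      unfold kerB
      simp [h']
    have hfl : t₀ / 2 ≤ s - ‖y.1‖ ∧ s - ‖y.1‖ < T := by
      by_contra hcon
      apply hd
      unfold dens fl
      rw [if_neg hcon]
    have hf : f (s - ‖y.1‖) (X s + y.1) y.2 ≠ 0 := by
      intro h'
      apply hd
      unfold dens fl
      rw [if_pos hfl, h', ENNReal.ofReal_zero]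
    have hpos : 0 < ‖y.1‖ := norm_pos_iff.2 hz0
    have hw : ‖dir y.1‖ = 1 := by
      unfold dir
      rw [norm_smul, norm_inv, norm_norm]
      field_simp
    have hqv : q y.2 ≤ 2 ^ p :=
      hc.hP (s - ‖y.1‖) ⟨by linarith only [h0, hfl.1], by linarith only [hsth, hpos]⟩ _ _ hf
    have al0 : ∀ v : E3, 0 < al (dir y.1) (u v) := fun v =>
      one_add_inner_u_pos v (dir y.1) hw.le
    have al2 : ∀ v : E3, al (dir y.1) (u v) ≤ 2 := by
      intro v
      unfold al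
      have h1 := (abs_le.1 (abs_real_inner_le_norm (u v) (dir y.1))).2
      rw [hw, mul_one] at h1
      linarith only [h1, norm_u_lt_one v]
    obtain ⟨k, hk⟩ := exists_shellI (T₁ := max T 1) (by linarith only [hT1]) hz0 (by
      have : ‖y.1‖ ≤ T := by linarith only [h0, hsT, hfl.1]
      exact this.trans (le_max_left _ _))
    obtain ⟨m, hm⟩ := exists_alI (al0 (V s)) (al2 (V s))
    obtain ⟨l, hl⟩ := exists_alI (al0 y.2) (al2 y.2)
    obtain ⟨i, hi⟩ := exists_qI (p := p) (q_pos y.2) hqv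
    have hip : i ≤ p := idx_i (one_le_q _) hi
    have hlb : l ≤ p - i + 1 := idx_al (c := 1) 1 (q_pos y.2) (al_ge _ _ hw.le)
      (by rw [one_mul]; exact hi.2) one_pos (by norm_num) hip hl
    have hmb : m ≤ p - j + 3 := idx_al (c := 4) 3 (q_pos (V s)) (al_ge _ _ hw.le)
      (hc.hq s hs).2 (by norm_num) (by norm_num) hjp hm
    have hmem : y ∈ cell (max T 1) p (u (V s)) k m l i := ⟨hk, hm, hl, hi⟩
    refine le_trans ?_ (ENNReal.le_tsum k)
    refine le_trans ?_ (ENNReal.le_tsum m)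
    refine le_trans ?_ (ENNReal.le_tsum l)
    refine le_trans ?_ (ENNReal.le_tsum i)
    rw [if_pos ⟨hip, hmb, hlb⟩, indicator_of_mem hmem]
  have hmt : ∀ k m l i : ℕ, Measurable fun y => if i ≤ p ∧ m ≤ p - j + 3 ∧ l ≤ p - i + 1 then
      (cell (max T 1) p (u (V s)) k m l i).indicator H y else 0 := by
    intro k m l i
    split_ifs
    · exact hHm.indicator (measurableSet_cell _ _ _ _ _ _ _)
    · exact measurable_const
  have e2 : ∫⁻ y, (∑' (k : ℕ) (m : ℕ) (l : ℕ) (i : ℕ),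
      if i ≤ p ∧ m ≤ p - j + 3 ∧ l ≤ p - i + 1 then
        (cell (max T 1) p (u (V s)) k m l i).indicator H y else 0)
      = ∑' (k : ℕ) (m : ℕ) (l : ℕ) (i : ℕ), ∫⁻ y,
        if i ≤ p ∧ m ≤ p - j + 3 ∧ l ≤ p - i + 1 then
        (cell (max T 1) p (u (V s)) k m l i).indicator H y else 0 := by
    rw [lintegral_tsum fun k => (Measurable.tsum fun m => Measurable.tsum fun l =>
      Measurable.tsum fun i => hmt k m l i).aemeasurable]
    refine tsum_congr fun k => ?_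
    rw [lintegral_tsum fun m => (Measurable.tsum fun l =>
      Measurable.tsum fun i => hmt k m l i).aemeasurable]
    refine tsum_congr fun m => ?_
    rw [lintegral_tsum fun l => (Measurable.tsum fun i => hmt k m l i).aemeasurable]
    refine tsum_congr fun l => ?_
    rw [lintegral_tsum fun i => (hmt k m l i).aemeasurable]
  -- one cell
  have hcell : ∀ k m l i : ℕ, (∫⁻ y, if i ≤ p ∧ m ≤ p - j + 3 ∧ l ≤ p - i + 1 then
      (cell (max T 1) p (u (V s)) k m l i).indicator H y else 0)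
      ≤ (10 * max Cv Cf : ℝ≥0) * (if i ≤ p ∧ m ≤ p - j + 3 ∧ l ≤ p - i + 1 then
            ENNReal.ofReal (2 ^ k * ((1 / 4) ^ j * (1 / 2) ^ l * ((1 / 2) ^ m + Ar.ee p j)
              / DD p j m l) * min ((1 / 8) ^ k * (1 / 4) ^ m * (1 / 4) ^ l * qq p i ^ 3)
                (4 ^ l / qq p i)) else 0) := by
    intro k m l i
    split_ifs with hidx
    · set K : ℝ := 2 ^ k * ((1 / 4) ^ j * (1 / 2) ^ l * ((1 / 2) ^ m + Ar.ee p j) / DD p j m l)
        with hK
      have hDD : 0 < DD p j m l := by unfold DD; positivity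
      have hK0 : 0 ≤ K := by positivity
      have hqq := qq_pos p i
      have b1 : ∀ y ∈ cell (max T 1) p (u (V s)) k m l i,
          kerB j (Ar.ee p j) V s y.1 y.2 ≤ ENNReal.ofReal (10 * K) := by
        intro y hy
        unfold kerB
        apply ENNReal.ofReal_le_ofReal
        have h1 := inv_norm_le hT1 hy.1
        have h2 := bC_cell (p := p) (j := j) hy.2.2.1 hy.2.1
        have h3 : 0 ≤ 5 * ((1 / 4 : ℝ) ^ j * (1 / 2) ^ l * ((1 / 2) ^ m + Ar.ee p j)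
          / DD p j m l) := by positivity
        calc ‖y.1‖⁻¹ * bC ((1 / 4) ^ j) (Ar.ee p j) (dir y.1) (u y.2) (u (V s))
            ≤ ‖y.1‖⁻¹ * (5 * ((1 / 4) ^ j * (1 / 2) ^ l * ((1 / 2) ^ m + Ar.ee p j)
              / DD p j m l)) := by (clear * - h2; gcongr)
          _ ≤ (2 * 2 ^ k) * (5 * ((1 / 4) ^ j * (1 / 2) ^ l * ((1 / 2) ^ m + Ar.ee p j)
              / DD p j m l)) := by (clear * - he hDD h1; gcongr)
          _ = 10 * K := by rw [hK]; ring
      calc ∫⁻ y, (cell (max T 1) p (u (V s)) k m l i).indicator H y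
          ≤ ∫⁻ y, ENNReal.ofReal (10 * K) * (cell (max T 1) p (u (V s)) k m l i).indicator
              (dens T f (t₀ / 2) s (X s)) y := by
            refine lintegral_mono fun y => ?_
            by_cases hy : y ∈ cell (max T 1) p (u (V s)) k m l i
            · rw [indicator_of_mem hy, indicator_of_mem hy]
              simp only [hH]
              gcongr
              exact b1 y hy
            · rw [indicator_of_notMem hy]
              exact zero_le
        _ = ENNReal.ofReal (10 * K) * ∫⁻ y, (cell (max T 1) p (u (V s)) k m l i).indicator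
              (dens T f (t₀ / 2) s (X s)) y :=
            lintegral_const_mul _ ((measurable_dens h hta s (X s)).indicator
              (measurableSet_cell _ _ _ _ _ _ _))
        _ ≤ ENNReal.ofReal (10 * K) * ((max Cv Cf : ℝ≥0) * ENNReal.ofReal
              (min ((1 / 8) ^ k * (1 / 4) ^ m * (1 / 4) ^ l * qq p i ^ 3) (4 ^ l / qq p i))) := by
            gcongr
            rcases min_choice ((1 / 8 : ℝ) ^ k * (1 / 4) ^ m * (1 / 4) ^ l * qq p i ^ 3)
              (4 ^ l / qq p i) with hmin | hmin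
            · rw [hmin]
              refine (hCv s (X s) p (u (V s)) k m l i hb1.le).trans ?_
              gcongr
              exact le_max_left _ _
            · rw [hmin]
              refine (hCf s ⟨by linarith only [h0, hs0], hsT⟩ (X s) p (u (V s)) k m l i).trans ?_
              gcongr
              exact le_max_right _ _
        _ = _ := by
            rw [ENNReal.ofReal_mul (by norm_num : (0 : ℝ) ≤ 10), ENNReal.ofReal_mul hK0]
            have : ENNReal.ofReal 10 = 10 := by norm_num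
            rw [this]
            push_cast
            ring
    · simp
  rw [e1]
  calc ∫⁻ y, H y ≤ ∫⁻ y, (∑' (k : ℕ) (m : ℕ) (l : ℕ) (i : ℕ),
      if i ≤ p ∧ m ≤ p - j + 3 ∧ l ≤ p - i + 1 then
        (cell (max T 1) p (u (V s)) k m l i).indicator H y else 0) := lintegral_mono cover
    _ = _ := e2
    _ ≤ ∑' (k : ℕ) (m : ℕ) (l : ℕ) (i : ℕ), (10 * max Cv Cf : ℝ≥0) *
          (if i ≤ p ∧ m ≤ p - j + 3 ∧ l ≤ p - i + 1 then
            ENNReal.ofReal (2 ^ k * ((1 / 4) ^ j * (1 / 2) ^ l * ((1 / 2) ^ m + Ar.ee p j)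
              / DD p j m l) * min ((1 / 8) ^ k * (1 / 4) ^ m * (1 / 4) ^ l * qq p i ^ 3)
                (4 ^ l / qq p i)) else 0) :=
        ENNReal.tsum_le_tsum fun k => ENNReal.tsum_le_tsum fun m => ENNReal.tsum_le_tsum fun l =>
          ENNReal.tsum_le_tsum fun i => hcell k m l i
    _ = _ := by
        simp only [ENNReal.tsum_mul_left]

end Vale.Agent.P107
end
end
end

section

section

attribute [-instance] ProperSMul.toContinuousSMul IsTopologicalTorsor.toContinuousSMul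
  IdemSemiring.toCanonicallyOrderedAdd IdemSemiring.toMulLeftMono IdemSemiring.toMulRightMono
  AddQuantale.instAddLeftMono AddQuantale.instAddRightMono Quantale.instMulLeftMono
  Quantale.instMulRightMono FiniteDimensional.rclike_to_real IsScalarTower.complexToReal
  FiniteDimensional.complexToReal

section

/-!
Assembly of the main estimate (M3) from the decompositions of the kernel integrals (M2) and the
arithmetic of the cell sums.
-/

open MeasureTheory Set Filter Topology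
open scoped RealInnerProductSpace ENNReal NNReal

namespace Vale.Agent.P107

open Vale.Agent.P107.Ar

variable {T : ℝ} {f : ℝ → E3 → E3 → ℝ} {E B : ℝ → E3 → E3}

open Classical in
/-- The statement of M2T. -/
def DecompT (T : ℝ) (f : ℝ → E3 → E3 → ℝ) (E B : ℝ → E3 → E3) (t₀ : ℝ) : Prop :=
    ∃ (C : ℝ≥0) (p₀ : ℕ), ∀ (th c₁ : ℝ) (p j : ℕ) (X V : ℝ → E3) (t₁ t₂ : ℝ), p₀ ≤ p →
      Ctx T f E B t₀ th c₁ p j X V t₁ t₂ →
      pathInt (t₀ / 2) T f X t₁ t₂ (kerT j (Ar.ee p j) V)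
        ≤ C * (∑' (k : ℕ) (m : ℕ) (l : ℕ) (i : ℕ), if rA p j i m l then
            ENNReal.ofReal (4 ^ k * tA p j i m l * nA c₁ p j i k m l) else 0)
        + C * (∑' (k : ℕ) (m : ℕ) (l : ℕ) (i : ℕ), if rN p j i m l then
            ENNReal.ofReal (4 ^ k * tN p j i m l * nN c₁ p j i k m l) else 0)
        + C * (∑' (k : ℕ) (m : ℕ) (n : ℕ) (i : ℕ), if rD p j i m n then
            ENNReal.ofReal (4 ^ k * tD p j i m n * nD c₁ p j i k m n) else 0)

open Classical in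
/-- The statement of M2S. -/
def DecompS (T : ℝ) (f : ℝ → E3 → E3 → ℝ) (E B : ℝ → E3 → E3) (t₀ : ℝ) : Prop :=
    ∃ (C : ℝ≥0) (p₀ : ℕ), ∀ (th c₁ : ℝ) (p j : ℕ) (X V : ℝ → E3) (t₁ t₂ : ℝ), p₀ ≤ p →
      Ctx T f E B t₀ th c₁ p j X V t₁ t₂ →
      pathInt (t₀ / 2) T f X t₁ t₂ (kerS j (Ar.ee p j) E B X V)
        ≤ C * (∑' (k : ℕ) (m : ℕ) (l : ℕ) (i : ℕ), if rA p j i m l then
            ENNReal.ofReal (2 ^ k * sA p j m l * (qq p i)⁻¹ * √(dl c₁ p j)
              * √(qq p i ^ 3 * (1 / 4) ^ l * nA c₁ p j i k m l)) else 0)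
        + C * (∑' (k : ℕ) (m : ℕ) (l : ℕ) (i : ℕ), if rN p j i m l then
            ENNReal.ofReal (2 ^ k * sN p j m l * (qq p i)⁻¹ * √(dl c₁ p j)
              * √(qq p i ^ 3 * (1 / 4) ^ l * nN c₁ p j i k m l)) else 0)
        + C * (∑' (k : ℕ) (m : ℕ) (n : ℕ) (i : ℕ), if rD p j i m n then
            ENNReal.ofReal (2 ^ k * sD p j m * (qq p i)⁻¹ * √(dl c₁ p j)
              * √(qq p i ^ 3 * (1 / 4) ^ n * nD c₁ p j i k m n)) else 0)
        + C * sumSb c₁ p j (fun m l i => rA p j i m l) (fun k m l i =>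
            (2 ^ k * sA p j m l * (qq p i)⁻¹ * 2 ^ m * (1 / 2) ^ l) ^ 2
              * (qq p i ^ 3 * (1 / 4) ^ l * nA c₁ p j i k m l))
        + C * sumSb c₁ p j (fun m l i => rN p j i m l) (fun k m l i =>
            (2 ^ k * sN p j m l * (qq p i)⁻¹ * 2 ^ m * (1 / 2) ^ l) ^ 2
              * (qq p i ^ 3 * (1 / 4) ^ l * nN c₁ p j i k m l))
        + C * sumSb c₁ p j (fun m n i => rD p j i m n) (fun k m n i =>
            (2 ^ k * sD p j m * (qq p i)⁻¹) ^ 2
              * (qq p i ^ 3 * (1 / 4) ^ n * nD c₁ p j i k m n))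

open Classical in
/-- The statement of M2B. -/
def DecompB (T : ℝ) (f : ℝ → E3 → E3 → ℝ) (E B : ℝ → E3 → E3) (t₀ : ℝ) : Prop :=
    ∃ C : ℝ≥0, ∀ (th c₁ : ℝ) (p j : ℕ) (X V : ℝ → E3) (t₁ t₂ : ℝ),
      Ctx T f E B t₀ th c₁ p j X V t₁ t₂ → ∀ s ∈ Icc t₁ t₂,
      coneInt (t₀ / 2) T f s (X s) (kerB j (Ar.ee p j) V s)
        ≤ C * (∑' (k : ℕ) (m : ℕ) (l : ℕ) (i : ℕ),
          if i ≤ p ∧ m ≤ p - j + 3 ∧ l ≤ p - i + 1 then
            ENNReal.ofReal (2 ^ k * ((1 / 4) ^ j * (1 / 2) ^ l * ((1 / 2) ^ m + Ar.ee p j)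
              / DD p j m l) * min ((1 / 8) ^ k * (1 / 4) ^ m * (1 / 4) ^ l * qq p i ^ 3)
                (4 ^ l / qq p i)) else 0)

private theorem me_qq_pos (p i : ℕ) : 0 < qq p i := by
  unfold qq; positivity

private theorem me_ee_pos (p i : ℕ) : 0 < Ar.ee p i := Real.rpow_pos_of_pos (me_qq_pos p i) _

/-- The main estimate from the decompositions and the arithmetic. To get `main_estimate`:
`main_estimate_of (decompT h h0 h0T) (decompS h h0 h0T) (decompB h h0 h0T) statT statSg statSb statB`. -/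
theorem main_estimate_of {t₀ : ℝ} (hT : DecompT T f E B t₀) (hS : DecompS T f E B t₀)
    (hB : DecompB T f E B t₀) (sT : StatT) (sSg : StatSg) (sSb : StatSb) (sB : StatB) :
    ∃ C : ℝ, 0 < C ∧ ∀ c₁ : ℝ, 0 < c₁ → c₁ ≤ 1 → ∀ θ : ℝ, 0 < θ → ∃ p₀ : ℕ, ∀ p ≥ p₀,
      ∀ (th : ℝ) (j : ℕ) (X V : ℝ → E3) (t₁ t₂ : ℝ), Ctx T f E B t₀ th c₁ p j X V t₁ t₂ →
      pathInt (t₀ / 2) T f X t₁ t₂ (kerT j (Ar.ee p j) V)
          + pathInt (t₀ / 2) T f X t₁ t₂ (kerS j (Ar.ee p j) E B X V)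
        ≤ ENNReal.ofReal (C * √c₁ * qq p j) ∧
      ∀ s ∈ Icc t₁ t₂, coneInt (t₀ / 2) T f s (X s) (kerB j (Ar.ee p j) V s)
        ≤ ENNReal.ofReal (θ * (Ar.ee p j * qq p j)) := by
  obtain ⟨CT, pT, hT⟩ := hT
  obtain ⟨CS, pS, hS⟩ := hS
  obtain ⟨CB, hB⟩ := hB
  obtain ⟨DT, hDT, sT⟩ := sT
  obtain ⟨Dg, hDg, sSg⟩ := sSg
  obtain ⟨Db, hDb, sSb⟩ := sSb
  refine ⟨CT * (3 * DT) + CS * (3 * Dg + 3 * Db) + 1, by (clear * - hDT hDg hDb; positivity), ?_⟩
  intro c₁ hc₁ hc₁' θ hθ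
  obtain ⟨p1, sT⟩ := sT c₁ hc₁ hc₁'
  obtain ⟨p2, sSg⟩ := sSg c₁ hc₁ hc₁'
  obtain ⟨p3, sSb⟩ := sSb c₁ hc₁ hc₁'
  obtain ⟨p4, sB⟩ := sB (θ / (CB + 1)) (by positivity)
  refine ⟨pT + pS + p1 + p2 + p3 + p4, ?_⟩
  intro p hp th j X V t₁ t₂ hctx
  have hj := hctx.hj
  obtain ⟨a1, a2, a3⟩ := sT p (by omega) j hj
  obtain ⟨b1, b2, b3⟩ := sSg p (by omega) j hj
  obtain ⟨d1, d2, d3⟩ := sSb p (by omega) j hj
  have sB' := sB p (by omega) j hj
  have hTT := hT th c₁ p j X V t₁ t₂ (by omega) hctx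
  have hSS := hS th c₁ p j X V t₁ t₂ (by omega) hctx
  have hqp := me_qq_pos p j
  have hcq : 0 ≤ √c₁ * qq p j := by positivity
  constructor
  · have h1 : pathInt (t₀ / 2) T f X t₁ t₂ (kerT j (Ar.ee p j) V)
        ≤ ENNReal.ofReal (CT * (3 * DT) * (√c₁ * qq p j)) := by
      refine hTT.trans ?_
      refine (add_le_add (add_le_add (mul_le_mul_right a1 _) (mul_le_mul_right a2 _))
        (mul_le_mul_right a3 _)).trans ?_
      rw [← ENNReal.ofReal_coe_nnreal, ← ENNReal.ofReal_mul (by positivity),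
        ← ENNReal.ofReal_add (by (clear * - hDT hc₁ hqp; positivity)) (by (clear * - hDT hc₁ hqp; positivity)),
        ← ENNReal.ofReal_add (by (clear * - hDT hc₁ hqp; positivity)) (by (clear * - hDT hc₁ hqp; positivity))]
      exact ENNReal.ofReal_le_ofReal (le_of_eq (by ring))
    have h2 : pathInt (t₀ / 2) T f X t₁ t₂ (kerS j (Ar.ee p j) E B X V)
        ≤ ENNReal.ofReal (CS * (3 * Dg + 3 * Db) * (√c₁ * qq p j)) := by
      refine hSS.trans ?_
      refine (add_le_add (add_le_add (add_le_add (add_le_add (add_le_add (mul_le_mul_right b1 _)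
        (mul_le_mul_right b2 _)) (mul_le_mul_right b3 _)) (mul_le_mul_right d1 _))
        (mul_le_mul_right d2 _)) (mul_le_mul_right d3 _)).trans ?_
      rw [← ENNReal.ofReal_coe_nnreal, ← ENNReal.ofReal_mul (by positivity),
        ← ENNReal.ofReal_mul (by positivity),
        ← ENNReal.ofReal_add (by (clear * - hDg hc₁ hqp; positivity)) (by (clear * - hDg hc₁ hqp; positivity)),
        ← ENNReal.ofReal_add (by (clear * - hDg hc₁ hqp; positivity)) (by (clear * - hDg hc₁ hqp; positivity)),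
        ← ENNReal.ofReal_add (by (clear * - hDg hc₁ hqp; positivity)) (by positivity),
        ← ENNReal.ofReal_add (by (clear * - hDg hDb hc₁ hqp; positivity)) (by positivity),
        ← ENNReal.ofReal_add (by (clear * - hDg hDb hc₁ hqp; positivity)) (by positivity)]
      exact ENNReal.ofReal_le_ofReal (le_of_eq (by ring))
    refine (add_le_add h1 h2).trans ?_
    rw [← ENNReal.ofReal_add (by (clear * - hDT hc₁ hqp; positivity)) (by (clear * - hDg hDb hc₁ hqp; positivity))]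
    refine ENNReal.ofReal_le_ofReal ?_
    nlinarith only [hcq]
  · intro s hs
    refine (hB th c₁ p j X V t₁ t₂ hctx s hs).trans ?_
    refine (mul_le_mul_right sB' _).trans ?_
    have hee := me_ee_pos p j
    rw [← ENNReal.ofReal_coe_nnreal, ← ENNReal.ofReal_mul (by positivity)]
    refine ENNReal.ofReal_le_ofReal ?_
    have h3 : (CB : ℝ) * (θ / (CB + 1)) ≤ θ := by
      have h4 : (CB : ℝ) * (θ / (CB + 1)) = (CB / (CB + 1)) * θ := by ring
      rw [h4]
      have h5 : (CB : ℝ) / (CB + 1) ≤ 1 := by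
        rw [div_le_one (by positivity)]; linarith only []
      nlinarith only [hθ, h5]
    calc (CB : ℝ) * (θ / (CB + 1) * (Ar.ee p j * qq p j))
        = (CB * (θ / (CB + 1))) * (Ar.ee p j * qq p j) := by ring
      _ ≤ θ * (Ar.ee p j * qq p j) := mul_le_mul_of_nonneg_right h3 (by positivity)

end Vale.Agent.P107
end
end
end

section

section

attribute [-instance] ProperSMul.toContinuousSMul IsTopologicalTorsor.toContinuousSMul
  IdemSemiring.toCanonicallyOrderedAdd IdemSemiring.toMulLeftMono IdemSemiring.toMulRightMono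
  AddQuantale.instAddLeftMono AddQuantale.instAddRightMono Quantale.instMulLeftMono
  Quantale.instMulRightMono FiniteDimensional.rclike_to_real IsScalarTower.complexToReal
  FiniteDimensional.complexToReal

section

/-!
Nested sums, geometric sums, the sum over `k`, the class sum (a), and the limit for slack terms.
-/

open Set Filter Topology
open scoped ENNReal NNReal

namespace Vale.Agent.P107.Ar.Tl

/-! ### Nested sums -/

lemma s4_mono {f g : ℕ → ℕ → ℕ → ℕ → ℝ≥0∞} (h : ∀ k m l i, f k m l i ≤ g k m l i) :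
    ∑' (k : ℕ) (m : ℕ) (l : ℕ) (i : ℕ), f k m l i
      ≤ ∑' (k : ℕ) (m : ℕ) (l : ℕ) (i : ℕ), g k m l i :=
  ENNReal.tsum_le_tsum fun k => ENNReal.tsum_le_tsum fun m => ENNReal.tsum_le_tsum fun l =>
    ENNReal.tsum_le_tsum fun i => h k m l i

lemma s4_add (f g : ℕ → ℕ → ℕ → ℕ → ℝ≥0∞) :
    ∑' (k : ℕ) (m : ℕ) (l : ℕ) (i : ℕ), (f k m l i + g k m l i)
      = (∑' (k : ℕ) (m : ℕ) (l : ℕ) (i : ℕ), f k m l i)
        + ∑' (k : ℕ) (m : ℕ) (l : ℕ) (i : ℕ), g k m l i := by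
  simp only [ENNReal.tsum_add]

lemma s4_prod (a b c d : ℕ → ℝ≥0∞) :
    ∑' (k : ℕ) (m : ℕ) (l : ℕ) (i : ℕ), a k * b m * c l * d i
      = (∑' k, a k) * (∑' m, b m) * (∑' l, c l) * (∑' i, d i) := by
  simp only [ENNReal.tsum_mul_left, ENNReal.tsum_mul_right]

/-- Bring the first summation variable inside. -/
lemma s4_comm (f : ℕ → ℕ → ℕ → ℕ → ℝ≥0∞) :
    ∑' (k : ℕ) (m : ℕ) (l : ℕ) (i : ℕ), f k m l i
      = ∑' (m : ℕ) (l : ℕ) (i : ℕ) (k : ℕ), f k m l i := by
  rw [ENNReal.tsum_comm]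
  refine tsum_congr fun m => ?_
  rw [ENNReal.tsum_comm]
  refine tsum_congr fun l => ?_
  rw [ENNReal.tsum_comm]

/-! ### Geometric and finite sums -/

lemma tsum_geom {r : ℝ} (h0 : 0 ≤ r) (h1 : r < 1) {B : ℝ} (hB : 0 ≤ B) :
    ∑' k : ℕ, ENNReal.ofReal (B * r ^ k) = ENNReal.ofReal (B / (1 - r)) := by
  rw [← ENNReal.ofReal_tsum_of_nonneg (fun k => by positivity)
    ((summable_geometric_of_lt_one h0 h1).mul_left B), tsum_mul_left,
    tsum_geometric_of_lt_one h0 h1, div_eq_mul_inv]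

lemma tsum_ind_le (N : ℕ) : ∑' m : ℕ, (if m ≤ N then (1 : ℝ≥0∞) else 0) ≤ ENNReal.ofReal (N + 1) := by
  rw [tsum_eq_sum (s := Finset.range (N + 1)) (fun m hm => by
    simp only [Finset.mem_range, not_lt] at hm
    rw [if_neg (by omega)])]
  calc ∑ m ∈ Finset.range (N + 1), (if m ≤ N then (1 : ℝ≥0∞) else 0)
      ≤ ∑ m ∈ Finset.range (N + 1), (1 : ℝ≥0∞) := by
        refine Finset.sum_le_sum fun m _ => ?_
        split_ifs <;> simp
    _ = ENNReal.ofReal (N + 1) := by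
        rw [Finset.sum_const, Finset.card_range, nsmul_eq_mul, mul_one]
        rw [show ((N : ℝ) + 1) = ((N + 1 : ℕ) : ℝ) by push_cast; ring, ENNReal.ofReal_natCast]

lemma tsum_le_of_range {f : ℕ → ℝ} (hf : ∀ k, 0 ≤ f k) {c : ℝ}
    (h : ∀ n, ∑ k ∈ Finset.range n, f k ≤ c) : ∑' k, ENNReal.ofReal (f k) ≤ ENNReal.ofReal c := by
  rw [ENNReal.tsum_eq_iSup_nat]
  refine iSup_le fun n => ?_
  rw [← ENNReal.ofReal_sum_of_nonneg (fun k _ => hf k)]
  exact ENNReal.ofReal_le_ofReal (h n)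

/-! ### The sum over `k` -/

lemma sum_min_aux (n : ℕ) : ∀ a b : ℝ, 0 ≤ a → 0 ≤ b →
    ∑ k ∈ Finset.range n, min (a * (1 / 2) ^ k) (b * 2 ^ k)
      ≤ if a ≤ b then 2 * a else 4 * √(a * b) - b := by
  induction n with
  | zero =>
    intro a b ha hb
    simp only [Finset.range_zero, Finset.sum_empty]
    split_ifs with h
    · linarith only [ha]
    · have : b ≤ √(a * b) := by
        apply Real.le_sqrt_of_sq_le
        nlinarith only [hb, h]
      linarith only [hb, this]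
  | succ n ih =>
    intro a b ha hb
    rw [Finset.sum_range_succ']
    have hs : ∑ k ∈ Finset.range n, min (a * (1 / 2) ^ (k + 1)) (b * 2 ^ (k + 1))
        = ∑ k ∈ Finset.range n, min ((a / 2) * (1 / 2) ^ k) ((2 * b) * 2 ^ k) := by
      refine Finset.sum_congr rfl fun k _ => ?_
      congr 1
      · rw [pow_succ]; ring
      · rw [pow_succ]; ring
    rw [hs]
    have h1 := ih (a / 2) (2 * b) (by linarith only [ha]) (by linarith only [hb])
    have h2 : a / 2 * (2 * b) = a * b := by ring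
    rw [h2] at h1
    simp only [pow_zero, mul_one]
    split_ifs with h
    · rw [if_pos (by linarith only [hb, h])] at h1
      have := min_le_left a b
      linarith only [h1, this]
    · push Not at h
      have hmin := min_le_right a b
      split_ifs at h1 with h3
      · have : (a + 2 * b) / 4 ≤ √(a * b) := by
          apply Real.le_sqrt_of_sq_le
          nlinarith only [h, h3]
        linarith only [hmin, h1, this]
      · linarith only [hmin, h1]

lemma tsum_min_le {a b : ℝ} (ha : 0 ≤ a) (hb : 0 ≤ b) :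
    ∑' k : ℕ, ENNReal.ofReal (min (a * (1 / 2) ^ k) (b * 2 ^ k))
      ≤ ENNReal.ofReal (4 * √(a * b)) := by
  refine tsum_le_of_range (fun k => le_min (by positivity) (by positivity)) fun n => ?_
  refine (sum_min_aux n a b ha hb).trans ?_
  split_ifs with h
  · have : a ≤ √(a * b) := by
      apply Real.le_sqrt_of_sq_le
      nlinarith only [ha, h]
    have := Real.sqrt_nonneg (a * b)
    linarith
  · linarith only [a, b, hb]

/-! ### Slack -/

/-- Ratio `2^{-1/100}`. -/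
noncomputable def rr : ℝ := (2 : ℝ) ^ (-(1 / 100) : ℝ)

lemma rr_pos : 0 < rr := by unfold rr; positivity

lemma rr_lt : rr < 1 := by
  unfold rr
  exact Real.rpow_lt_one_of_one_lt_of_neg (by norm_num) (by norm_num)

lemma rr_pow (k : ℕ) : rr ^ k = (2 : ℝ) ^ (-(1 / 100 * (k : ℝ))) := by
  unfold rr
  rw [← Real.rpow_natCast, ← Real.rpow_mul (by norm_num)]
  congr 1; ring

/-- Polynomial times exponential. -/
lemma slack_limit (D : ℝ) {ε : ℝ} (hε : 0 < ε) (d : ℕ) :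
    ∃ p₀ : ℕ, ∀ p ≥ p₀, D * (1 + (p : ℝ)) ^ d * (2 : ℝ) ^ (-(1 / 200 * (p : ℝ))) ≤ ε := by
  set s : ℝ := (2 : ℝ) ^ (-(1 / 200) : ℝ) with hs
  have hs0 : 0 < s := by positivity
  have hs1 : s < 1 := Real.rpow_lt_one_of_one_lt_of_neg (by norm_num) (by norm_num)
  have h1 : Tendsto (fun n : ℕ => (n : ℝ) ^ d * s ^ n) atTop (𝓝 0) :=
    tendsto_pow_const_mul_const_pow_of_abs_lt_one d (by rw [abs_of_pos hs0]; exact hs1)
  have h2 : Tendsto (fun n : ℕ => ((n + 1 : ℕ) : ℝ) ^ d * s ^ (n + 1)) atTop (𝓝 0) :=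
    h1.comp (tendsto_add_atTop_nat 1)
  have h3 : Tendsto (fun n : ℕ => D / s * (((n + 1 : ℕ) : ℝ) ^ d * s ^ (n + 1))) atTop (𝓝 0) := by
    simpa using h2.const_mul (D / s)
  have h4 := (h3.eventually (gt_mem_nhds hε)).exists_forall_of_atTop
  obtain ⟨p₀, hp₀⟩ := h4
  refine ⟨p₀, fun p hp => ?_⟩
  have h5 := (hp₀ p hp).le
  have h6 : (2 : ℝ) ^ (-(1 / 200 * (p : ℝ))) = s ^ p := by
    rw [hs, ← Real.rpow_natCast, ← Real.rpow_mul (by norm_num)]
    congr 1; ring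
  rw [h6]
  refine le_trans (le_of_eq ?_) h5
  push_cast
  rw [pow_succ]
  field_simp
  ring

/-! ### The class sum (a) -/

/-- The number of windows for `2^{-k} ≤ δ_j`. -/
noncomputable def KI (c₁ : ℝ) (p j i : ℕ) : ℝ := 1 + 2 * dl c₁ p j / dl c₁ p i

lemma KI_pos {c₁ : ℝ} (hc : 0 < c₁) (p j i : ℕ) : 0 < KI c₁ p j i := by
  unfold KI
  have := dl_pos hc p j
  have := dl_pos hc p i
  positivity

lemma KK_le_KI {c₁ : ℝ} (hc : 0 < c₁) (p j i k : ℕ) (h : (1 / 2 : ℝ) ^ k ≤ dl c₁ p j) :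
    KK c₁ p j i k ≤ KI c₁ p j i := by
  unfold KK KI
  have := dl_pos hc p i
  gcongr
  linarith only [h]

lemma class_term {c₁ : ℝ} (hc : 0 < c₁) (p j i : ℕ) :
    √(dl c₁ p j * KI c₁ p j i) * qq p i
      ≤ qq p j * (2 * √c₁ * (1 / 2) ^ i
          + 2 * √c₁ / (1 + p) * (1 + √(1 + p) * √((1 / 2) ^ i))) := by
  have hdj := dl_pos hc p j
  have hdi := dl_pos hc p i
  have hL : (0 : ℝ) < 1 + p := by positivity
  -- step 1: the square root
  have h1 : √(dl c₁ p j * KI c₁ p j i) ≤ √(dl c₁ p j) + 2 * dl c₁ p j * √(1 / dl c₁ p i) := by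
    apply Real.sqrt_le_iff.mpr
    constructor
    · positivity
    · have e1 : √(dl c₁ p j) ^ 2 = dl c₁ p j := Real.sq_sqrt hdj.le
      have e2 : √(1 / dl c₁ p i) ^ 2 = 1 / dl c₁ p i := Real.sq_sqrt (by positivity)
      have e3 : 0 ≤ √(dl c₁ p j) * (2 * dl c₁ p j * √(1 / dl c₁ p i)) := by positivity
      have e4 : dl c₁ p j * KI c₁ p j i = dl c₁ p j + 2 * dl c₁ p j ^ 2 * (1 / dl c₁ p i) := by
        unfold KI; field_simp
      rw [e4]
      have e5 : (√(dl c₁ p j) + 2 * dl c₁ p j * √(1 / dl c₁ p i)) ^ 2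
          = √(dl c₁ p j) ^ 2 + 2 * (√(dl c₁ p j) * (2 * dl c₁ p j * √(1 / dl c₁ p i)))
            + 4 * dl c₁ p j ^ 2 * √(1 / dl c₁ p i) ^ 2 := by ring
      rw [e5, e1, e2]
      have e6 : 0 ≤ dl c₁ p j ^ 2 * (1 / dl c₁ p i) := by positivity
      nlinarith only [e3, e6]
  -- step 2: √δ_j ≤ √c₁ 2^{-j}
  have h2 : √(dl c₁ p j) ≤ √c₁ * (1 / 2) ^ j := by
    apply Real.sqrt_le_iff.mpr
    constructor
    · positivity
    · rw [mul_pow, Real.sq_sqrt hc.le, ← pow_mul, mul_comm j 2, pow_mul]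
      have := dl_le_c hc p j
      norm_num at this ⊢
      exact this
  -- step 3: δ_j ≤ c₁ 2^{-j}/L
  have h3 : dl c₁ p j ≤ c₁ * (1 / 2) ^ j / (1 + p) := by
    unfold dl
    rw [div_le_div_iff₀ (by positivity) hL]
    have e1 : (1 / 2 : ℝ) ^ j * 2 ^ j = 1 := by rw [← mul_pow]; norm_num
    have e2 : c₁ * (1 / 2) ^ j * (4 ^ j + 2 ^ j * (1 + (p : ℝ)))
        = c₁ * (1 / 2) ^ j * 4 ^ j + c₁ * ((1 / 2 : ℝ) ^ j * 2 ^ j) * (1 + p) := by ring
    rw [e2, e1]
    have : 0 ≤ c₁ * (1 / 2 : ℝ) ^ j * 4 ^ j := by positivity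
    linarith only [this]
  -- step 4: √(1/δ_i) ≤ (2^i + √L √2^i)/√c₁
  have h4 : √(1 / dl c₁ p i) * (1 / 2) ^ i ≤ (1 + √(1 + p) * √((1 / 2) ^ i)) / √c₁ := by
    rw [le_div_iff₀ (by positivity)]
    have e1 : √(1 / dl c₁ p i) * (1 / 2) ^ i * √c₁ = √(1 + (1 + p) * (1 / 2) ^ i) := by
      have e2 : ((1 / 2 : ℝ) ^ i) = √(((1 / 2 : ℝ) ^ i) ^ 2) := by
        rw [Real.sqrt_sq (by positivity)]
      rw [e2, ← Real.sqrt_mul (by positivity), ← Real.sqrt_mul (by positivity)]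
      rw [← e2]
      congr 1
      unfold dl
      have e3 : ((1 / 2 : ℝ) ^ i) ^ 2 * 4 ^ i = 1 := by
        rw [← pow_mul, mul_comm i 2, pow_mul, ← mul_pow]; norm_num
      have e4 : ((1 / 2 : ℝ) ^ i) ^ 2 * 2 ^ i = (1 / 2) ^ i := by
        rw [sq, mul_assoc, ← mul_pow (1 / 2 : ℝ) 2]; norm_num
      have e5 : 1 / (c₁ / (4 ^ i + 2 ^ i * (1 + (p : ℝ)))) * ((1 / 2) ^ i) ^ 2 * c₁
          = ((1 / 2 : ℝ) ^ i) ^ 2 * 4 ^ i + ((1 / 2 : ℝ) ^ i) ^ 2 * 2 ^ i * (1 + p) := by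
        (clear * - hc; field_simp)
      rw [e5, e3, e4]; ring
    rw [e1]
    apply Real.sqrt_le_iff.mpr
    constructor
    · positivity
    · have e6 : (1 + √(1 + (p : ℝ)) * √((1 / 2) ^ i)) ^ 2
          = 1 + 2 * (√(1 + (p : ℝ)) * √((1 / 2) ^ i))
            + √(1 + (p : ℝ)) ^ 2 * √((1 / 2) ^ i) ^ 2 := by ring
      rw [e6, Real.sq_sqrt hL.le, Real.sq_sqrt (by positivity)]
      have : 0 ≤ √(1 + (p : ℝ)) * √((1 / 2) ^ i) := by positivity
      linarith only [this]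
  -- combine
  have hq : qq p i = qq p j * 2 ^ j * (1 / 2) ^ i := by
    unfold qq
    have : (1 / 2 : ℝ) ^ i = 1 / 2 ^ i := by rw [one_div_pow]
    rw [this]; field_simp
  have hqj := qq_pos p j
  have e1 : (1 / 2 : ℝ) ^ j * 2 ^ j = 1 := by rw [← mul_pow]; norm_num
  have hsc : √c₁ * √c₁ = c₁ := Real.mul_self_sqrt hc.le
  calc √(dl c₁ p j * KI c₁ p j i) * qq p i
      ≤ (√(dl c₁ p j) + 2 * dl c₁ p j * √(1 / dl c₁ p i)) * qq p i := by
        have := qq_pos p i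
        gcongr
    _ = qq p j * (√(dl c₁ p j) * 2 ^ j * (1 / 2) ^ i
          + 2 * (dl c₁ p j * 2 ^ j) * (√(1 / dl c₁ p i) * (1 / 2) ^ i)) := by rw [hq]; ring
    _ ≤ qq p j * ((√c₁ * (1 / 2) ^ j) * 2 ^ j * (1 / 2) ^ i
          + 2 * ((c₁ * (1 / 2) ^ j / (1 + p)) * 2 ^ j)
            * ((1 + √(1 + p) * √((1 / 2) ^ i)) / √c₁)) := by (clear * - hc hdi h2 h3 h4 hqj; gcongr)
    _ = qq p j * (√c₁ * ((1 / 2) ^ j * 2 ^ j) * (1 / 2) ^ i
          + 2 * (c₁ / √c₁) * ((1 / 2) ^ j * 2 ^ j) / (1 + p)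
            * (1 + √(1 + p) * √((1 / 2) ^ i))) := by (clear * - hc hqj; field_simp)
    _ = qq p j * (√c₁ * (1 / 2) ^ i
          + 2 * √c₁ / (1 + p) * (1 + √(1 + p) * √((1 / 2) ^ i))) := by
        rw [e1]
        have : c₁ / √c₁ = √c₁ := by
          rw [div_eq_iff (by positivity)]; exact hsc.symm
        rw [this]; ring
    _ ≤ _ := by
        have : √c₁ * (1 / 2) ^ i ≤ 2 * √c₁ * (1 / 2) ^ i := by
          have : 0 ≤ √c₁ * (1 / 2 : ℝ) ^ i := by positivity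
          linarith only [this]
        gcongr

open Classical in
lemma class_sum {c₁ : ℝ} (hc : 0 < c₁) (p j : ℕ) :
    ∑' i : ℕ, (if 12 * i ≤ 5 * p then ENNReal.ofReal (√(dl c₁ p j * KI c₁ p j i) * qq p i) else 0)
      ≤ ENNReal.ofReal (20 * √c₁ * qq p j) := by
  have hL : (0 : ℝ) < 1 + p := by positivity
  have hqj := qq_pos p j
  set t : ℕ → ℝ := fun i => qq p j * (2 * √c₁ * (1 / 2) ^ i
          + 2 * √c₁ / (1 + p) * (1 + √(1 + p) * √((1 / 2) ^ i))) with ht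
  have ht0 : ∀ i, 0 ≤ t i := fun i => by rw [ht]; positivity
  rw [tsum_eq_sum (s := Finset.range (p + 1)) (fun i hi => by
    simp only [Finset.mem_range, not_lt] at hi
    rw [if_neg (by omega)])]
  have h1 : ∀ i ∈ Finset.range (p + 1),
      (if 12 * i ≤ 5 * p then ENNReal.ofReal (√(dl c₁ p j * KI c₁ p j i) * qq p i) else 0)
        ≤ ENNReal.ofReal (t i) := by
    intro i _
    split_ifs
    · exact ENNReal.ofReal_le_ofReal (class_term hc p j i)
    · simp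
  refine (Finset.sum_le_sum h1).trans ?_
  rw [← ENNReal.ofReal_sum_of_nonneg (fun i _ => ht0 i)]
  apply ENNReal.ofReal_le_ofReal
  -- real sums
  have hg1 : ∑ i ∈ Finset.range (p + 1), (1 / 2 : ℝ) ^ i ≤ 2 := by
    have := Summable.sum_le_tsum (Finset.range (p + 1)) (fun i _ => by positivity)
      (summable_geometric_of_lt_one (by norm_num : (0:ℝ) ≤ 1 / 2) (by norm_num))
    rw [tsum_geometric_of_lt_one (by norm_num) (by norm_num)] at this
    norm_num at this ⊢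
    exact this
  have hs : ∀ i : ℕ, √((1 / 2 : ℝ) ^ i) ≤ (3 / 4) ^ i := by
    intro i
    apply Real.sqrt_le_iff.mpr
    constructor
    · positivity
    · rw [← pow_mul, mul_comm i 2, pow_mul]
      gcongr
      norm_num
  have hg2 : ∑ i ∈ Finset.range (p + 1), √((1 / 2 : ℝ) ^ i) ≤ 4 := by
    have h2 : ∑ i ∈ Finset.range (p + 1), √((1 / 2 : ℝ) ^ i)
        ≤ ∑ i ∈ Finset.range (p + 1), (3 / 4 : ℝ) ^ i := Finset.sum_le_sum fun i _ => hs i
    have := Summable.sum_le_tsum (Finset.range (p + 1)) (fun i _ => by positivity)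
      (summable_geometric_of_lt_one (by norm_num : (0:ℝ) ≤ 3 / 4) (by norm_num))
    rw [tsum_geometric_of_lt_one (by norm_num) (by norm_num)] at this
    norm_num at this h2 ⊢
    linarith only [this, h2]
  have hsum : ∑ i ∈ Finset.range (p + 1), t i
      = qq p j * (2 * √c₁ * ∑ i ∈ Finset.range (p + 1), (1 / 2 : ℝ) ^ i
          + 2 * √c₁ / (1 + p) * ((p + 1) + √(1 + p)
            * ∑ i ∈ Finset.range (p + 1), √((1 / 2 : ℝ) ^ i))) := by
    rw [ht, ← Finset.mul_sum, Finset.sum_add_distrib, ← Finset.mul_sum, ← Finset.mul_sum,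
      Finset.sum_add_distrib, ← Finset.mul_sum]
    simp
  rw [hsum]
  have hsL : √(1 + (p : ℝ)) ≤ 1 + p := by
    apply Real.sqrt_le_iff.mpr
    constructor
    · positivity
    · have : (0 : ℝ) ≤ p := by positivity
      nlinarith only []
  have hc0 : 0 ≤ √c₁ := Real.sqrt_nonneg _
  calc qq p j * (2 * √c₁ * ∑ i ∈ Finset.range (p + 1), (1 / 2 : ℝ) ^ i
          + 2 * √c₁ / (1 + p) * ((p + 1) + √(1 + p)
            * ∑ i ∈ Finset.range (p + 1), √((1 / 2 : ℝ) ^ i)))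
      ≤ qq p j * (2 * √c₁ * 2 + 2 * √c₁ / (1 + p) * ((p + 1) + (1 + p) * 4)) := by (clear * - hc hqj hg1 hg2 hsL; gcongr)
    _ = 14 * √c₁ * qq p j := by field_simp; ring
    _ ≤ 20 * √c₁ * qq p j := by
        have : 0 ≤ √c₁ * qq p j := by positivity
        nlinarith only [this]

/-! ### General sum lemmas -/

/-- Critical sums: `k` is summed with `tsum_min_le`, `i` with the class sum. -/
lemma crit_sum {c₁ : ℝ} (hc : 0 < c₁) (p j : ℕ) (F : ℕ → ℕ → ℕ → ℕ → ℝ≥0∞)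
    (a b : ℕ → ℕ → ℕ → ℝ) (g : ℕ → ℕ → ℝ) (G : ℝ) (hG0 : 0 ≤ G) (ha : ∀ m l i, 0 ≤ a m l i)
    (hb : ∀ m l i, 0 ≤ b m l i) (hg : ∀ m l, 0 ≤ g m l)
    (hF : ∀ k m l i, F k m l i ≤
      if 12 * i ≤ 5 * p then ENNReal.ofReal (min (a m l i * (1 / 2) ^ k) (b m l i * 2 ^ k)) else 0)
    (hab : ∀ m l i, 12 * i ≤ 5 * p →
      √(a m l i * b m l i) ≤ √(dl c₁ p j * KI c₁ p j i) * qq p i * g m l)
    (hG : ∑' (m : ℕ) (l : ℕ), ENNReal.ofReal (g m l) ≤ ENNReal.ofReal G) :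
    ∑' (k : ℕ) (m : ℕ) (l : ℕ) (i : ℕ), F k m l i
      ≤ ENNReal.ofReal (80 * G * √c₁ * qq p j) := by
  have hqj := qq_pos p j
  rw [s4_comm]
  have h1 : ∀ m l i : ℕ, ∑' k, F k m l i ≤ ENNReal.ofReal (4 * g m l) *
      (if 12 * i ≤ 5 * p then ENNReal.ofReal (√(dl c₁ p j * KI c₁ p j i) * qq p i) else 0) := by
    intro m l i
    refine (ENNReal.tsum_le_tsum fun k => hF k m l i).trans ?_
    by_cases hi : 12 * i ≤ 5 * p
    · simp only [if_pos hi]
      refine (tsum_min_le (ha m l i) (hb m l i)).trans ?_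
      rw [← ENNReal.ofReal_mul (by have := hg m l; positivity)]
      apply ENNReal.ofReal_le_ofReal
      have := hab m l i hi
      nlinarith only [this]
    · simp [if_neg hi]
  calc ∑' (m : ℕ) (l : ℕ) (i : ℕ) (k : ℕ), F k m l i
      ≤ ∑' (m : ℕ) (l : ℕ) (i : ℕ), ENNReal.ofReal (4 * g m l) *
      (if 12 * i ≤ 5 * p then ENNReal.ofReal (√(dl c₁ p j * KI c₁ p j i) * qq p i) else 0) :=
        ENNReal.tsum_le_tsum fun m => ENNReal.tsum_le_tsum fun l =>
          ENNReal.tsum_le_tsum fun i => h1 m l i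
    _ ≤ ∑' (m : ℕ) (l : ℕ), ENNReal.ofReal (4 * g m l) * ENNReal.ofReal (20 * √c₁ * qq p j) := by
        refine ENNReal.tsum_le_tsum fun m => ENNReal.tsum_le_tsum fun l => ?_
        rw [ENNReal.tsum_mul_left]
        gcongr
        exact class_sum hc p j
    _ = ENNReal.ofReal 4 * (∑' (m : ℕ) (l : ℕ), ENNReal.ofReal (g m l))
          * ENNReal.ofReal (20 * √c₁ * qq p j) := by
        simp only [ENNReal.tsum_mul_right]
        congr 1
        rw [← ENNReal.tsum_mul_left]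
        refine tsum_congr fun m => ?_
        rw [← ENNReal.tsum_mul_left]
        refine tsum_congr fun l => ?_
        rw [ENNReal.ofReal_mul (by norm_num)]
    _ ≤ ENNReal.ofReal 4 * ENNReal.ofReal G * ENNReal.ofReal (20 * √c₁ * qq p j) := by gcongr
    _ = ENNReal.ofReal (80 * G * √c₁ * qq p j) := by
        rw [← ENNReal.ofReal_mul (by norm_num), ← ENNReal.ofReal_mul (by positivity)]
        congr 1; ring

/-- Slack sums. -/
lemma slack_sum (p : ℕ) (F : ℕ → ℕ → ℕ → ℕ → ℝ≥0∞) {B W : ℝ} (hB : 0 ≤ B) (hW : 0 ≤ W)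
    (w : ℕ → ℝ≥0∞) (hw : ∑' l, w l ≤ ENNReal.ofReal W)
    (hF : ∀ k m l i, F k m l i ≤ ENNReal.ofReal (B * rr ^ k) * (if m ≤ p + 3 then 1 else 0) * w l
      * (if i ≤ p then 1 else 0)) :
    ∑' (k : ℕ) (m : ℕ) (l : ℕ) (i : ℕ), F k m l i
      ≤ ENNReal.ofReal (B / (1 - rr) * (p + 4) * W * (p + 1)) := by
  refine (s4_mono hF).trans ?_
  rw [s4_prod, tsum_geom rr_pos.le rr_lt hB]
  have h1 : 0 < 1 - rr := by have := rr_lt; linarith only [this]
  have h2 := tsum_ind_le (p + 3)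
  have h3 := tsum_ind_le p
  have h4 : (((p + 3 : ℕ) : ℝ) + 1) = (p : ℝ) + 4 := by push_cast; ring
  rw [h4] at h2
  calc ENNReal.ofReal (B / (1 - rr)) * (∑' m : ℕ, if m ≤ p + 3 then (1 : ℝ≥0∞) else 0)
        * (∑' l, w l) * (∑' i : ℕ, if i ≤ p then (1 : ℝ≥0∞) else 0)
      ≤ ENNReal.ofReal (B / (1 - rr)) * ENNReal.ofReal (p + 4) * ENNReal.ofReal W
        * ENNReal.ofReal (p + 1) := by gcongr
    _ = _ := by
        rw [← ENNReal.ofReal_mul (by positivity), ← ENNReal.ofReal_mul (by positivity),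
          ← ENNReal.ofReal_mul (by positivity)]

/-- The slack constant. -/
noncomputable def Bs (c₁ : ℝ) (p j : ℕ) : ℝ :=
  qq p j * (2 : ℝ) ^ (-(1 / 200 * (p : ℝ))) * La c₁ p ^ 4 * 1024

lemma Bs_pos {c₁ : ℝ} (hc : 0 < c₁) (p j : ℕ) : 0 < Bs c₁ p j := by
  unfold Bs
  have := qq_pos p j
  have := La_pos hc p
  positivity

/-- The slack target as a power of two. -/
lemma Bs_eq {c₁ : ℝ} (hc : 0 < c₁) (p j k : ℕ) :
    (2 : ℝ) ^ ((1 - 1 / 200) * (p : ℝ) - j - k / 100 + 4 * Real.logb 2 (La c₁ p) + 10)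
      = Bs c₁ p j * rr ^ k := by
  unfold Bs
  rw [rr_pow, qq_eq]
  have h1 : La c₁ p ^ 4 = (2 : ℝ) ^ (4 * Real.logb 2 (La c₁ p)) := by
    conv_lhs => rw [La_eq hc p]
    rw [← Real.rpow_natCast, ← Real.rpow_mul (by norm_num)]
    congr 1; push_cast; ring
  rw [h1, show (1024 : ℝ) = (2 : ℝ) ^ (10 : ℝ) by norm_num, ← Real.rpow_add (by norm_num),
    ← Real.rpow_add (by norm_num), ← Real.rpow_add (by norm_num), ← Real.rpow_add (by norm_num)]
  congr 1; ring

lemma Bs_limit {c₁ : ℝ} (hc : 0 < c₁) (D : ℝ) {ε : ℝ} (hε : 0 < ε) :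
    ∃ p₀ : ℕ, ∀ p ≥ p₀, ∀ j : ℕ, D * Bs c₁ p j * (1 + (p : ℝ)) ^ 3 ≤ ε * qq p j := by
  obtain ⟨p₀, hp₀⟩ := slack_limit (D * 1024 * 256 / c₁ ^ 4) hε 7
  refine ⟨p₀, fun p hp j => ?_⟩
  have h1 := hp₀ p hp
  have hq := qq_pos p j
  have h2 : D * Bs c₁ p j * (1 + (p : ℝ)) ^ 3
      = (D * 1024 * 256 / c₁ ^ 4 * (1 + (p : ℝ)) ^ 7 * (2 : ℝ) ^ (-(1 / 200 * (p : ℝ))))
        * qq p j := by
    unfold Bs La
    field_simp
    ring
  rw [h2]
  gcongr

lemma sum_abs_aux (c : ℕ) : ∀ n : ℕ,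
    ∑ l ∈ Finset.range n, (1 / 2 : ℝ) ^ ((l - c) + (c - l)) ≤ 3 - (1 / 2) ^ c := by
  induction c with
  | zero =>
    intro n
    have := Summable.sum_le_tsum (Finset.range n) (fun i _ => by positivity)
      (summable_geometric_of_lt_one (by norm_num : (0:ℝ) ≤ 1 / 2) (by norm_num))
    rw [tsum_geometric_of_lt_one (by norm_num) (by norm_num)] at this
    simp only [Nat.sub_zero, Nat.zero_sub, add_zero, pow_zero]
    norm_num at this ⊢
    exact this
  | succ c ih =>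
    intro n
    rcases n with _ | n
    · simp only [Finset.range_zero, Finset.sum_empty]
      have : (1 / 2 : ℝ) ^ (c + 1) ≤ 1 := pow_le_one₀ (by norm_num) (by norm_num)
      linarith only [this]
    · rw [Finset.sum_range_succ']
      have h1 : ∑ l ∈ Finset.range n, (1 / 2 : ℝ) ^ ((l + 1 - (c + 1)) + (c + 1 - (l + 1)))
          = ∑ l ∈ Finset.range n, (1 / 2 : ℝ) ^ ((l - c) + (c - l)) := by
        refine Finset.sum_congr rfl fun l _ => ?_
        congr 1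
        omega
      rw [h1]
      have h2 := ih n
      have h3 : (0 - (c + 1)) + (c + 1 - 0) = c + 1 := by omega
      rw [h3, pow_succ]
      linarith only [h2]

lemma tsum_abs_le (c : ℕ) :
    ∑' l : ℕ, ENNReal.ofReal ((1 / 2 : ℝ) ^ ((l - c) + (c - l))) ≤ ENNReal.ofReal 3 := by
  refine tsum_le_of_range (fun l => by positivity) fun n => (sum_abs_aux c n).trans ?_
  have : (0 : ℝ) < (1 / 2) ^ c := by positivity
  linarith only [this]

end Vale.Agent.P107.Ar.Tl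
end
end
end

section

section

attribute [-instance] ProperSMul.toContinuousSMul IsTopologicalTorsor.toContinuousSMul
  IdemSemiring.toCanonicallyOrderedAdd IdemSemiring.toMulLeftMono IdemSemiring.toMulRightMono
  AddQuantale.instAddLeftMono AddQuantale.instAddRightMono Quantale.instMulLeftMono
  Quantale.instMulRightMono FiniteDimensional.rclike_to_real IsScalarTower.complexToReal
  FiniteDimensional.complexToReal

section

/-!
The linear arithmetic behind the slack terms (all quantities are base-2 logarithms).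
-/

namespace Vale.Agent.P107.Ar.TT

/-- Ranges common to the three families. -/
structure Rg (P J I K M L lam : ℝ) : Prop where
  hJ : 0 ≤ J
  hI : 0 ≤ I
  hK : 0 ≤ K
  hM : 0 ≤ M
  hL : 0 ≤ L
  h12 : 12 * J ≤ 5 * P
  hIP : I ≤ P
  hMP : M ≤ P - J + 3
  hlam : 2 ≤ lam

/-- Bad scale `s`. -/
def Bad (P J I s : ℝ) : Prop :=
  5 * P < 12 * I ∨ -s < 10 - 5 / 8 * (P - I) ∨ -s < 10 - 5 / 8 * (P - J)

/-- Good scale `s`, with the stay bound of exponent `x` (without the number of windows). -/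
def Good (P J I K lam N s x : ℝ) : Prop :=
  (12 * I ≤ 5 * P ∧ 10 - 5 / 8 * (P - I) ≤ -s ∧ 10 - 5 / 8 * (P - J) ≤ -s) ∧
    (N ≤ x + (lam + 1) ∨ N ≤ x + (lam + 1 + (2 * I - 2 * J)) ∨ N ≤ x + (lam + 1 + (2 * I - K)))

def Near (P J I K M N : ℝ) : Prop := 2 * J ≤ K ∧ N ≤ 1 - 2 * J + 2 * M - (P - I)

def Far (P J I K M lam N : ℝ) : Prop := K ≤ 2 * J + lam - 1 ∧ N ≤ 1 - K + 2 * M - (P - I)

/-- All cases. -/
def AllC (P J I K M lam N s x : ℝ) : Prop :=
  (Near P J I K M N ∨ Far P J I K M lam N) ∧ (Bad P J I s ∨ Good P J I K lam N s x)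

/-- All cases except near and good. -/
def SlackC (P J I K M lam N s x : ℝ) : Prop :=
  (Near P J I K M N ∧ Bad P J I s) ∨
    (Far P J I K M lam N ∧ (Bad P J I s ∨ Good P J I K lam N s x))

/-! ### Aligned cells -/

section A

variable {P J I K M L lam N D : ℝ}

lemma lpA1 (h : Rg P J I K M L lam) (hLP : L ≤ P - I + 1) (hML : M + 4 ≤ L)
    (hV : N ≤ -(2 * J) - 3 * K - 2 * M - 2 * L + 3 * (P - I))
    (hF : N ≤ -(2 * J) + 2 * L - (P - I))
    (hC : AllC P J I K M lam N M (3 * M - K - (P - I))) :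
    2 * K + J + 2 * L - 2 * (P - I) + N ≤ (1 - 1 / 200) * P - J - K / 100 + 4 * lam + 10 := by
  obtain ⟨h1, h2, h3, h4, h5, h6, h7, h8, h9⟩ := h
  obtain ⟨c1 | c1, c2 | c2⟩ := hC
  all_goals
    obtain ⟨c3, c4⟩ := c1
    first
    | rcases c2 with c2 | c2 | c2 <;> linarith only [hLP, hML, hV, h4, h9, c4, c2, h2, h3, h6]
    | (obtain ⟨⟨c5, c6, c7⟩, c8⟩ := c2
       rcases c8 with c8 | c8 | c8 <;> linarith only [hLP, hV, h2, h4, h9, c4, c6, h3, h6])

lemma lpA2 (h : Rg P J I K M L lam) (hLP : L ≤ P - I + 1) (hML : M + 4 ≤ L)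
    (hV : N ≤ -(2 * J) - 3 * K - 2 * M - 2 * L + 3 * (P - I))
    (hF : N ≤ -(2 * J) + 2 * L - (P - I))
    (hD1 : D ≤ 2 * L) (hD2 : D ≤ 2 * J + 2 * M) (hD3 : D ≤ 2 * J + 5 / 4 * (P - J))
    (hC : SlackC P J I K M lam N M (3 * M - K - (P - I))) :
    2 * K - J - 2 * M + D + N ≤ (1 - 1 / 200) * P - J - K / 100 + 4 * lam + 10 := by
  obtain ⟨h1, h2, h3, h4, h5, h6, h7, h8, h9⟩ := h
  obtain ⟨⟨c3, c4⟩, c2⟩ | ⟨⟨c3, c4⟩, c2 | c2⟩ := hC
  · rcases c2 with c2 | c2 | c2 <;> linarith only [hLP, hML, hV, hD2, h4, h9, c4, c2, h2, hD1]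
  · rcases c2 with c2 | c2 | c2 <;> linarith only [hML, hV, hF, hD2, h4, h6, h9, c4, c2, h2]
  · obtain ⟨⟨c5, c6, c7⟩, c8⟩ := c2
    rcases c8 with c8 | c8 | c8 <;> linarith only [hV, hD1, hD2, h2, h4, h6, h9, c3, c4]

lemma lpA3 (h : Rg P J I K M L lam) (hLP : L ≤ P - I + 1) (hML : M + 4 ≤ L)
    (hV : N ≤ -(2 * J) - 3 * K - 2 * M - 2 * L + 3 * (P - I))
    (hF : N ≤ -(2 * J) + 2 * L - (P - I))
    (hC : AllC P J I K M lam N M (3 * M - K - (P - I))) :
    2 * K - 5 / 8 * (P - J) + L + N ≤ (1 - 1 / 200) * P - J - K / 100 + 4 * lam + 10 := by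
  obtain ⟨h1, h2, h3, h4, h5, h6, h7, h8, h9⟩ := h
  obtain ⟨c1 | c1, c2 | c2⟩ := hC
  all_goals
    obtain ⟨c3, c4⟩ := c1
    first
    | rcases c2 with c2 | c2 | c2 <;> linarith only [hLP, hML, hV, h1, h4, h9, c4, c2, h2, h3, hF, h6]
    | (obtain ⟨⟨c5, c6, c7⟩, c8⟩ := c2
       rcases c8 with c8 | c8 | c8 <;> linarith only [hML, hV, h1, h2, h4, h9, c4, c8, hF, h3, h6])

end A

/-! ### Nonaligned cells -/

section N

variable {P J I K M L lam N D : ℝ}

lemma lpN1 (h : Rg P J I K M L lam) (hLP : L ≤ P - I + 1) (hML : L + 4 ≤ M)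
    (hV : N ≤ -(2 * J) - 3 * K - 2 * M - 2 * L + 3 * (P - I))
    (hF : N ≤ -(2 * J) + 2 * L - (P - I))
    (hC : AllC P J I K M lam N L (2 * M + L - K - (P - I))) :
    2 * K + J + 2 * L - 2 * (P - I) + N ≤ (1 - 1 / 200) * P - J - K / 100 + 4 * lam + 10 := by
  obtain ⟨h1, h2, h3, h4, h5, h6, h7, h8, h9⟩ := h
  obtain ⟨c1 | c1, c2 | c2⟩ := hC
  all_goals
    obtain ⟨c3, c4⟩ := c1
    first
    | rcases c2 with c2 | c2 | c2 <;> linarith only [hML, hV, h1, h3, h5, h8, h9, c2, hF]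
    | (obtain ⟨⟨c5, c6, c7⟩, c8⟩ := c2
       rcases c8 with c8 | c8 | c8 <;> linarith only [hML, hV, hF, h2, h5, h9, c6])

lemma lpN2 (h : Rg P J I K M L lam) (hLP : L ≤ P - I + 1) (hML : L + 4 ≤ M)
    (hV : N ≤ -(2 * J) - 3 * K - 2 * M - 2 * L + 3 * (P - I))
    (hF : N ≤ -(2 * J) + 2 * L - (P - I))
    (hC : SlackC P J I K M lam N L (2 * M + L - K - (P - I))) :
    2 * K - J - M + L + N ≤ (1 - 1 / 200) * P - J - K / 100 + 4 * lam + 10 := by
  obtain ⟨h1, h2, h3, h4, h5, h6, h7, h8, h9⟩ := h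
  obtain ⟨⟨c3, c4⟩, c2⟩ | ⟨⟨c3, c4⟩, c2 | c2⟩ := hC
  · rcases c2 with c2 | c2 | c2 <;> linarith only [hML, hV, hF, h1, h3, h5, h9, c2, h2]
  · rcases c2 with c2 | c2 | c2 <;> linarith only [hML, hV, hF, h1, h3, h5, h9, c2, h2]
  · obtain ⟨⟨c5, c6, c7⟩, c8⟩ := c2
    rcases c8 with c8 | c8 | c8 <;> linarith only [hML, hV, hF, h1, h2, h5, h9, c3]

lemma lpN3 (h : Rg P J I K M L lam) (hLP : L ≤ P - I + 1) (hML : L + 4 ≤ M)
    (hV : N ≤ -(2 * J) - 3 * K - 2 * M - 2 * L + 3 * (P - I))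
    (hF : N ≤ -(2 * J) + 2 * L - (P - I))
    (hC : AllC P J I K M lam N L (2 * M + L - K - (P - I))) :
    2 * K - 5 / 8 * (P - J) + L + N ≤ (1 - 1 / 200) * P - J - K / 100 + 4 * lam + 10 := by
  obtain ⟨h1, h2, h3, h4, h5, h6, h7, h8, h9⟩ := h
  obtain ⟨c1 | c1, c2 | c2⟩ := hC
  all_goals
    obtain ⟨c3, c4⟩ := c1
    first
    | rcases c2 with c2 | c2 | c2 <;> linarith only [hML, hV, hF, h1, h3, h5, h9, c2, h2]
    | (obtain ⟨⟨c5, c6, c7⟩, c8⟩ := c2
       rcases c8 with c8 | c8 | c8 <;> linarith only [hML, hV, hF, h1, h2, h5, h9, c8])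

end N

/-! ### Diagonal cells (`L` is the index `n`) -/

section D

variable {P J I K M L lam N D : ℝ}

lemma lpD1 (h : Rg P J I K M L lam) (hMI : M ≤ P - I + 4) (hML : M ≤ L + 4)
    (hV : N ≤ -(2 * J) - 3 * K - 2 * M - 2 * L + 3 * (P - I))
    (hF : N ≤ -(2 * J) + 2 * M - (P - I))
    (hC : AllC P J I K M lam N L (M + 2 * L - K - (P - I))) :
    2 * K + J + 2 * M - 2 * (P - I) + N
      ≤ (1 - 1 / 200) * P - J - K / 100 + 4 * lam + 10 - L / 100 := by
  obtain ⟨h1, h2, h3, h4, h5, h6, h7, h8, h9⟩ := h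
  obtain ⟨c1 | c1, c2 | c2⟩ := hC
  all_goals
    obtain ⟨c3, c4⟩ := c1
    first
    | rcases c2 with c2 | c2 | c2 <;> linarith only [hMI, hV, hF, h5, h7, h9, c2, h2, hML]
    | (obtain ⟨⟨c5, c6, c7⟩, c8⟩ := c2
       rcases c8 with c8 | c8 | c8 <;> linarith only [hMI, hML, hV, hF, h2, h5, h9])

lemma lpD2a (h : Rg P J I K M L lam) (hMI : M ≤ P - I + 4) (hML : M ≤ L + 4)
    (hV : N ≤ -(2 * J) - 3 * K - 2 * M - 2 * L + 3 * (P - I))
    (hF : N ≤ -(2 * J) + 2 * M - (P - I))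
    (hC : SlackC P J I K M lam N L (M + 2 * L - K - (P - I))) :
    2 * K - J + M - L + N
      ≤ (1 - 1 / 200) * P - J - K / 100 + 4 * lam + 10 - L / 100 := by
  obtain ⟨h1, h2, h3, h4, h5, h6, h7, h8, h9⟩ := h
  obtain ⟨⟨c3, c4⟩, c2⟩ | ⟨⟨c3, c4⟩, c2 | c2⟩ := hC
  · rcases c2 with c2 | c2 | c2 <;> linarith only [hMI, hML, hV, hF, h1, h5, h9, c2, h2]
  · rcases c2 with c2 | c2 | c2 <;> linarith only [hML, hV, hF, h1, h3, h5, h9, c2, h2]
  · obtain ⟨⟨c5, c6, c7⟩, c8⟩ := c2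
    rcases c8 with c8 | c8 | c8 <;> linarith only [hML, hV, hF, h1, h2, h5, h9, c3]

lemma lpD2b (h : Rg P J I K M L lam) (hMI : M ≤ P - I + 4) (hML : M ≤ L + 4)
    (hV : N ≤ -(2 * J) - 3 * K - 2 * M - 2 * L + 3 * (P - I))
    (hF : N ≤ -(2 * J) + 2 * M - (P - I))
    (hC : AllC P J I K M lam N L (M + 2 * L - K - (P - I))) :
    2 * K - J + M - (P - I) + N
      ≤ (1 - 1 / 200) * P - J - K / 100 + 4 * lam + 10 - L / 100 := by
  obtain ⟨h1, h2, h3, h4, h5, h6, h7, h8, h9⟩ := h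
  obtain ⟨c1 | c1, c2 | c2⟩ := hC
  all_goals
    obtain ⟨c3, c4⟩ := c1
    first
    | rcases c2 with c2 | c2 | c2 <;> linarith only [hMI, hV, hF, h1, h5, h7, h9, c2, h2]
    | (obtain ⟨⟨c5, c6, c7⟩, c8⟩ := c2
       rcases c8 with c8 | c8 | c8 <;> linarith only [hMI, hML, hV, hF, h1, h2, h5, h9])

lemma lpD2c (h : Rg P J I K M L lam) (hMI : M ≤ P - I + 4) (hML : M ≤ L + 4)
    (hV : N ≤ -(2 * J) - 3 * K - 2 * M - 2 * L + 3 * (P - I))
    (hF : N ≤ -(2 * J) + 2 * M - (P - I))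
    (hC : AllC P J I K M lam N L (M + 2 * L - K - (P - I))) :
    2 * K - J + M - (P - J) + N
      ≤ (1 - 1 / 200) * P - J - K / 100 + 4 * lam + 10 - L / 100 := by
  obtain ⟨h1, h2, h3, h4, h5, h6, h7, h8, h9⟩ := h
  obtain ⟨c1 | c1, c2 | c2⟩ := hC
  all_goals
    obtain ⟨c3, c4⟩ := c1
    first
    | rcases c2 with c2 | c2 | c2 <;> linarith only [hMI, hV, hF, h1, h5, h7, h9, c2, h2]
    | (obtain ⟨⟨c5, c6, c7⟩, c8⟩ := c2
       rcases c8 with c8 | c8 | c8 <;> linarith only [hMI, hML, hV, hF, h1, h2, h5, h9])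

lemma lpD3a (h : Rg P J I K M L lam) (hMI : M ≤ P - I + 4) (hML : M ≤ L + 4)
    (hV : N ≤ -(2 * J) - 3 * K - 2 * M - 2 * L + 3 * (P - I))
    (hF : N ≤ -(2 * J) + 2 * M - (P - I)) (he : -(2 * M) ≤ 1 - 5 / 4 * (P - J))
    (hC : AllC P J I K M lam N L (M + 2 * L - K - (P - I))) :
    2 * K - J + N
      ≤ (1 - 1 / 200) * P - J - K / 100 + 4 * lam + 10 - L / 100 := by
  obtain ⟨h1, h2, h3, h4, h5, h6, h7, h8, h9⟩ := h
  obtain ⟨c1 | c1, c2 | c2⟩ := hC
  all_goals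
    obtain ⟨c3, c4⟩ := c1
    first
    | rcases c2 with c2 | c2 | c2 <;> linarith only [hMI, hV, hF, he, h5, h7, h9, c2, h1, h2]
    | (obtain ⟨⟨c5, c6, c7⟩, c8⟩ := c2
       rcases c8 with c8 | c8 | c8 <;> linarith only [hML, he, c7])

lemma lpD3b (h : Rg P J I K M L lam) (hMI : M ≤ P - I + 4) (hML : M ≤ L + 4)
    (hV : N ≤ -(2 * J) - 3 * K - 2 * M - 2 * L + 3 * (P - I))
    (hF : N ≤ -(2 * J) + 2 * M - (P - I)) (he : -(2 * M) ≤ 1 - 5 / 4 * (P - J))
    (hC : AllC P J I K M lam N L (M + 2 * L - K - (P - I))) :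
    2 * K - 5 / 8 * (P - J) + M + N
      ≤ (1 - 1 / 200) * P - J - K / 100 + 4 * lam + 10 - L / 100 := by
  obtain ⟨h1, h2, h3, h4, h5, h6, h7, h8, h9⟩ := h
  obtain ⟨c1 | c1, c2 | c2⟩ := hC
  all_goals
    obtain ⟨c3, c4⟩ := c1
    first
    | rcases c2 with c2 | c2 | c2 <;> linarith only [hMI, hV, hF, he, h5, h7, h9, c2, h1, h2, hML]
    | (obtain ⟨⟨c5, c6, c7⟩, c8⟩ := c2
       rcases c8 with c8 | c8 | c8 <;> linarith only [hML, he, c7])

end D

end Vale.Agent.P107.Ar.TT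
end
end
end

section

section

attribute [-instance] ProperSMul.toContinuousSMul IsTopologicalTorsor.toContinuousSMul
  IdemSemiring.toCanonicallyOrderedAdd IdemSemiring.toMulLeftMono IdemSemiring.toMulRightMono
  AddQuantale.instAddLeftMono AddQuantale.instAddRightMono Quantale.instMulLeftMono
  Quantale.instMulRightMono FiniteDimensional.rclike_to_real IsScalarTower.complexToReal
  FiniteDimensional.complexToReal

section

/-!
The kernels of the momentum correction: bounds, and the integration by parts.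
-/

open MeasureTheory Set Filter Topology
open scoped RealInnerProductSpace ENNReal NNReal

namespace Vale.Agent.P107

namespace PK

variable {w a b c : E3} {ε e : ℝ}

/-! ### Bounds -/

/-- `K = (1 - |a|)⁻¹`. -/
noncomputable def K (a : E3) : ℝ := (1 - ‖a‖)⁻¹

lemma one_le_K (ha : ‖a‖ < 1) : 1 ≤ K a := by
  unfold K
  rw [one_le_inv₀ (by linarith only [ha])]
  linarith only [norm_nonneg a]

lemma K_le_u {R : ℝ} {v : E3} (hv : ‖v‖ ≤ R) : K (u v) ≤ 2 * (1 + |R|) ^ 2 := by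
  have hq : q v ≤ 1 + |R| := (q_le_one_add_norm v).trans (by linarith only [hv, le_abs_self R])
  have hq0 := (q_pos v).le
  unfold K
  exact (inv_one_sub_norm_u_le v).trans (by (clear * - hq hq0; gcongr))

lemma inv_al_le (hw : ‖w‖ = 1) (ha : ‖a‖ < 1) : (al w a)⁻¹ ≤ K a := by
  unfold K
  apply inv_anti₀ (by linarith only [ha])
  have h := abs_real_inner_le_norm a w
  rw [hw, mul_one] at h
  have h2 := abs_le.1 h
  unfold al
  linarith only [h2.1]

lemma inv_Dn_le (hw : ‖w‖ = 1) (ha : ‖a‖ < 1) (hc : ‖c‖ < 1) (hε : 0 < ε) :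
    (Dn ε e w a c)⁻¹ ≤ K a := by
  refine le_trans (inv_anti₀ (KA.al_pos hw ha) ?_) (inv_al_le hw ha)
  unfold Dn
  have := KA.al_pos hw hc
  have : 0 ≤ ε * (al w c + e ^ 2) := by positivity
  linarith only [w, a, c, ε, e, this]

lemma norm_ck_le (hw : ‖w‖ = 1) (ha : ‖a‖ < 1) (hc : ‖c‖ < 1) (hε : 0 < ε) (hε1 : ε ≤ 1) :
    ‖ck ε e w a c‖ ≤ 8 * K a := by
  have hD := KA.Dn_pos (e := e) hw ha hc hε
  have h1 := inv_Dn_le (e := e) hw ha hc hε
  have h0 := one_le_K ha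
  have h2 : ‖khat w a c‖ ≤ 8 := by
    refine (KA.khat_le hw ha hc).trans ?_
    have e1 : √(al w a) ≤ √2 := Real.sqrt_le_sqrt (KA.al_le hw ha)
    have e2 : √(al w c) ≤ √2 := Real.sqrt_le_sqrt (KA.al_le hw hc)
    have e3 : √(al w a) * √(al w c) ≤ √2 * √2 :=
      mul_le_mul e1 e2 (Real.sqrt_nonneg _) (Real.sqrt_nonneg _)
    rw [KA.sqrt2_mul] at e3
    linarith only [e3]
  unfold ck
  rw [norm_smul, norm_div, Real.norm_of_nonneg hε.le, Real.norm_of_nonneg hD.le, div_eq_mul_inv]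
  calc ε * (Dn ε e w a c)⁻¹ * ‖khat w a c‖ ≤ 1 * K a * 8 := by (clear * - hε1 hD h1 h0 h2; gcongr)
    _ = _ := by ring

lemma norm_dkhat_le (hw : ‖w‖ = 1) (ha : ‖a‖ < 1) (hc : ‖c‖ < 1) (y : E3) :
    ‖dkhat w a c y‖ ≤ 12 * ‖y‖ := by
  have h1 : ‖w + a‖ ≤ 2 := (norm_add_le _ _).trans (by linarith only [hw, ha])
  have h2 : ‖w + c‖ ≤ 2 := (norm_add_le _ _).trans (by linarith only [w, c, hw, hc])
  have hy := norm_nonneg y
  have h3 : |⟪c, y⟫| ≤ ‖y‖ := by
    refine (abs_real_inner_le_norm _ _).trans ?_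
    nlinarith only [hc, hy]
  have h4 : |⟪y, w + a⟫| ≤ ‖y‖ * 2 := (abs_real_inner_le_norm _ _).trans (by (clear * - h1; gcongr))
  have h5 : |⟪w + c, y⟫| ≤ 2 * ‖y‖ := (abs_real_inner_le_norm _ _).trans (by (clear * - h2; gcongr))
  have h6 : |⟪w + c, w + a⟫| ≤ 2 * 2 :=
    (abs_real_inner_le_norm _ _).trans (mul_le_mul h2 h1 (norm_nonneg _) (by norm_num))
  have h7 := KA.al_pos hw hc
  have h8 := KA.al_le hw hc
  unfold dkhat
  have n1 : ‖⟪c, y⟫ • (w + a)‖ ≤ ‖y‖ * 2 := by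
    rw [norm_smul, Real.norm_eq_abs]
    (clear * - h1 h3; gcongr)
  have n2 : ‖al w c • y‖ ≤ 2 * ‖y‖ := by
    rw [norm_smul, Real.norm_of_nonneg h7.le]
    (clear * - h8; gcongr)
  have n3 : ‖(⟪y, w + a⟫ + ⟪w + c, y⟫) • w‖ ≤ 4 * ‖y‖ := by
    rw [norm_smul, Real.norm_eq_abs, hw, mul_one]
    refine (abs_add_le _ _).trans ?_
    linarith only [h4, h5]
  have n4 : ‖⟪w + c, w + a⟫ • y‖ ≤ 4 * ‖y‖ := by
    rw [norm_smul, Real.norm_eq_abs]
    have := mul_le_mul_of_nonneg_right h6 hy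
    linarith only [this]
  calc _ ≤ ‖⟪c, y⟫ • (w + a)‖ + ‖al w c • y‖ + ‖(⟪y, w + a⟫ + ⟪w + c, y⟫) • w‖
        + ‖⟪w + c, w + a⟫ • y‖ :=
        (norm_sub_le _ _).trans (add_le_add_left ((norm_sub_le _ _).trans
          (add_le_add_left (norm_add_le _ _) _)) _)
    _ ≤ _ := by linarith only [n1, n2, n3, n4]

lemma norm_dck_le (hw : ‖w‖ = 1) (ha : ‖a‖ < 1) (hc : ‖c‖ < 1) (hε : 0 < ε) (hε1 : ε ≤ 1)
    (y : E3) : ‖dck ε e w a c y‖ ≤ 28 * K a ^ 2 * ‖y‖ := by
  have hD := KA.Dn_pos (e := e) hw ha hc hε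
  have h1 := inv_Dn_le (e := e) hw ha hc hε
  have h0 := one_le_K ha
  have hy := norm_nonneg y
  have h2 : ‖khat w a c‖ ≤ 8 := by
    refine (KA.khat_le hw ha hc).trans ?_
    have e1 : √(al w a) ≤ √2 := Real.sqrt_le_sqrt (KA.al_le hw ha)
    have e2 : √(al w c) ≤ √2 := Real.sqrt_le_sqrt (KA.al_le hw hc)
    have e3 : √(al w a) * √(al w c) ≤ √2 * √2 :=
      mul_le_mul e1 e2 (Real.sqrt_nonneg _) (Real.sqrt_nonneg _)
    rw [KA.sqrt2_mul] at e3
    linarith only [e3]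
  have h3 : |⟪a, y⟫| ≤ ‖y‖ := by
    refine (abs_real_inner_le_norm _ _).trans ?_
    nlinarith only [ha, hy]
  have h4 : |⟪c, y⟫| ≤ ‖y‖ := by
    refine (abs_real_inner_le_norm _ _).trans ?_
    nlinarith only [hc, hy]
  have h5 : |ε * (⟪a, y⟫ + ε * ⟪c, y⟫)| ≤ 2 * ‖y‖ := by
    rw [abs_mul, abs_of_pos hε]
    have : |⟪a, y⟫ + ε * ⟪c, y⟫| ≤ 2 * ‖y‖ := by
      refine (abs_add_le _ _).trans ?_
      rw [abs_mul, abs_of_pos hε]
      have : ε * |⟪c, y⟫| ≤ 1 * ‖y‖ := by (clear * - hε1 h4; gcongr)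
      linarith only [h3, this]
    calc ε * |⟪a, y⟫ + ε * ⟪c, y⟫| ≤ 1 * (2 * ‖y‖) := by (clear * - hε1 this; gcongr)
      _ = _ := one_mul _
  unfold dck
  have n1 : ‖(ε / Dn ε e w a c) • dkhat w a c y‖ ≤ 12 * K a * ‖y‖ := by
    rw [norm_smul, norm_div, Real.norm_of_nonneg hε.le, Real.norm_of_nonneg hD.le, div_eq_mul_inv]
    have := norm_dkhat_le hw ha hc y
    calc ε * (Dn ε e w a c)⁻¹ * ‖dkhat w a c y‖ ≤ 1 * K a * (12 * ‖y‖) := by (clear * - hε1 hD h1 h0 this; gcongr)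
      _ = _ := by ring
  have n2 : ‖(ε * (⟪a, y⟫ + ε * ⟪c, y⟫) / Dn ε e w a c ^ 2) • khat w a c‖
      ≤ 16 * K a ^ 2 * ‖y‖ := by
    rw [norm_smul, norm_div, Real.norm_eq_abs, norm_pow, Real.norm_of_nonneg hD.le,
      div_eq_mul_inv, ← inv_pow]
    calc |ε * (⟪a, y⟫ + ε * ⟪c, y⟫)| * ((Dn ε e w a c)⁻¹) ^ 2 * ‖khat w a c‖
        ≤ (2 * ‖y‖) * (K a) ^ 2 * 8 := by (clear * - hD h1 h0 h2 h5; gcongr)
      _ = _ := by ring
  have h6 : K a ≤ K a ^ 2 := by nlinarith only [h0]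
  have h7 : K a * ‖y‖ ≤ K a ^ 2 * ‖y‖ := mul_le_mul_of_nonneg_right h6 hy
  calc _ ≤ 12 * K a * ‖y‖ + 16 * K a ^ 2 * ‖y‖ := (norm_sub_le _ _).trans (add_le_add n1 n2)
    _ ≤ _ := by linarith only [h7]

lemma al_div_le (hw : ‖w‖ = 1) (ha : ‖a‖ < 1) (hb : ‖b‖ < 1) :
    |al w b / al w a| ≤ 2 * K a := by
  have h1 := KA.al_pos hw ha
  have h2 := KA.al_pos hw hb
  rw [abs_of_pos (by positivity), div_eq_mul_inv]
  have h3 := KA.al_le hw hb
  have h4 := inv_al_le hw ha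
  gcongr

lemma norm_yperp_le (hw : ‖w‖ = 1) (ha : ‖a‖ < 1) (hb : ‖b‖ < 1) :
    ‖yperp w a b‖ ≤ 6 * K a := by
  have h0 := one_le_K ha
  have h1 : ‖w + a‖ ≤ 2 := (norm_add_le _ _).trans (by linarith only [hw, ha])
  have h2 : ‖w + b‖ ≤ 2 := (norm_add_le _ _).trans (by linarith only [hw, hb])
  unfold yperp
  refine (norm_sub_le _ _).trans ?_
  rw [norm_smul, Real.norm_eq_abs]
  have h3 := al_div_le hw ha hb
  have h4 : |al w b / al w a| * ‖w + a‖ ≤ (2 * K a) * 2 := by (clear * - h0 h1 h3; gcongr)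
  linarith only [h0, h2, h4]

/-- The coefficient of `ck` in `kd`. -/
noncomputable def cf (w a b : E3) : ℝ :=
  (1 - ⟪a, b⟫) / al w a - al w b * (1 - ‖a‖ ^ 2) / al w a ^ 2

lemma abs_cf_le (hw : ‖w‖ = 1) (ha : ‖a‖ < 1) (hb : ‖b‖ < 1) : |cf w a b| ≤ 4 * K a ^ 2 := by
  have h0 := one_le_K ha
  have hp := KA.al_pos hw ha
  have hq := KA.al_pos hw hb
  have h3 := KA.al_le hw hb
  have h4 := inv_al_le hw ha
  have h5 : |1 - ⟪a, b⟫| ≤ 2 := by
    have := abs_real_inner_le_norm a b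
    have h6 : ‖a‖ * ‖b‖ ≤ 1 := by nlinarith only [ha, hb, norm_nonneg b]
    have h7 := abs_le.1 (this.trans h6)
    rw [abs_le]
    constructor <;> linarith only [h7, a, b, h7.1]
  have h8 : |1 - ‖a‖ ^ 2| ≤ 1 := by
    rw [abs_le]
    constructor <;> nlinarith only [ha, norm_nonneg a]
  unfold cf
  refine (abs_sub _ _).trans ?_
  have n1 : |(1 - ⟪a, b⟫) / al w a| ≤ 2 * K a := by
    rw [abs_div, abs_of_pos hp, div_eq_mul_inv]
    gcongr
  have n2 : |al w b * (1 - ‖a‖ ^ 2) / al w a ^ 2| ≤ 2 * K a ^ 2 := by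
    rw [abs_div, abs_mul, abs_of_pos hq, abs_of_pos (by positivity : 0 < al w a ^ 2),
      div_eq_mul_inv, ← inv_pow]
    calc al w b * |1 - ‖a‖ ^ 2| * ((al w a)⁻¹) ^ 2 ≤ 2 * 1 * (K a) ^ 2 := by (clear * - hp h3 h4 h8; gcongr)
      _ = _ := by ring
  nlinarith only [h0, n1, n2]

/-! ### Derivatives along lines -/

lemma hasDerivAt_line (z d : E3) : HasDerivAt (fun t : ℝ => z + t • d) d 0 := by
  simpa using ((hasDerivAt_id (0 : ℝ)).smul_const d).const_add z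

/-- The derivative of the direction. -/
noncomputable def pd (z d : E3) : E3 := ‖z‖⁻¹ • (d - ⟪dir z, d⟫ • dir z)

lemma hasDerivAt_norm_line {z : E3} (hz : z ≠ 0) (d : E3) :
    HasDerivAt (fun t : ℝ => ‖z + t • d‖) ⟪dir z, d⟫ 0 := by
  have h1 : HasFDerivAt (fun y : E3 => ‖y‖) (‖z‖⁻¹ • innerSL ℝ z) (z + (0 : ℝ) • d) := by
    rw [zero_smul, add_zero]
    exact hasFDerivAt_norm hz
  have h2 := HasFDerivAt.comp_hasDerivAt (0 : ℝ) h1 (hasDerivAt_line z d)
  have h3 : (‖z‖⁻¹ • innerSL ℝ z) d = ⟪dir z, d⟫ := by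
    unfold dir
    rw [real_inner_smul_left]
    simp
  rw [h3] at h2
  exact h2

lemma hasDerivAt_inv_norm_line {z : E3} (hz : z ≠ 0) (d : E3) :
    HasDerivAt (fun t : ℝ => ‖z + t • d‖⁻¹) (-(‖z‖⁻¹ ^ 2 * ⟪dir z, d⟫)) 0 := by
  have hn : ‖z + (0 : ℝ) • d‖ ≠ 0 := by simpa using hz
  have h1 := (hasDerivAt_norm_line hz d).fun_inv hn
  refine h1.congr_deriv ?_
  rw [zero_smul, add_zero]
  (clear * - hz; field_simp)

lemma hasDerivAt_dir_line {z : E3} (hz : z ≠ 0) (d : E3) :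
    HasDerivAt (fun t : ℝ => dir (z + t • d)) (pd z d) 0 := by
  unfold dir
  have h1 := (hasDerivAt_inv_norm_line hz d).fun_smul (hasDerivAt_line z d)
  refine h1.congr_deriv ?_
  rw [zero_smul, add_zero]
  unfold pd
  have : dir z = ‖z‖⁻¹ • z := rfl
  rw [this]
  module

lemma hasDerivAt_al {W : ℝ → E3} {y : E3} (h : HasDerivAt W y 0) (a : E3) :
    HasDerivAt (fun t => al (W t) a) ⟪a, y⟫ 0 := by
  unfold al
  have h1 := ((hasDerivAt_const (0 : ℝ) a).inner ℝ h).const_add 1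
  refine h1.congr_deriv ?_
  simp

lemma hasDerivAt_khat {W : ℝ → E3} {y : E3} (h : HasDerivAt W y 0) (a c : E3) :
    HasDerivAt (fun t => khat (W t) a c) (dkhat (W 0) a c y) 0 := by
  unfold khat
  have h1 := (hasDerivAt_al h c).fun_smul (h.add_const a)
  have h2 : HasDerivAt (fun t => ⟪W t + c, W t + a⟫) (⟪W 0 + c, y⟫ + ⟪y, W 0 + a⟫) 0 :=
    (h.add_const c).inner ℝ (h.add_const a)
  have h3 := h1.fun_sub (h2.fun_smul h)
  refine h3.congr_deriv ?_
  unfold dkhat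
  module

lemma hasDerivAt_ck {W : ℝ → E3} {y : E3} (h : HasDerivAt W y 0) (a c : E3)
    (hD : Dn ε e (W 0) a c ≠ 0) :
    HasDerivAt (fun t => ck ε e (W t) a c) (dck ε e (W 0) a c y) 0 := by
  unfold ck
  have h1 : HasDerivAt (fun t => Dn ε e (W t) a c) (⟪a, y⟫ + ε * ⟪c, y⟫) 0 := by
    unfold Dn
    exact (hasDerivAt_al h a).fun_add (((hasDerivAt_al h c).add_const _).const_mul ε)
  have h2 : HasDerivAt (fun t => ε / Dn ε e (W t) a c)
      (-(ε * (⟪a, y⟫ + ε * ⟪c, y⟫) / Dn ε e (W 0) a c ^ 2)) 0 := by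
    simp only [div_eq_mul_inv]
    refine ((h1.fun_inv hD).const_mul ε).congr_deriv ?_
    field_simp
  refine (h2.fun_smul (hasDerivAt_khat h a c)).congr_deriv ?_
  unfold dck
  module

lemma dck_sub_smul (w a c y y' : E3) (s : ℝ) :
    dck ε e w a c (y - s • y') = dck ε e w a c y - s • dck ε e w a c y' := by
  unfold dck dkhat
  simp only [inner_sub_right, inner_sub_left, inner_smul_right, inner_smul_left,
    RCLike.conj_to_real]
  module

lemma dck_smul (w a c y : E3) (s : ℝ) :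
    dck ε e w a c (s • y) = s • dck ε e w a c y := by
  unfold dck dkhat
  simp only [inner_smul_right, inner_smul_left, RCLike.conj_to_real]
  module

lemma hasDerivAt_comp_i {W : ℝ → E3} {y : E3} (h : HasDerivAt W y 0) (i : Fin 3) :
    HasDerivAt (fun t => (W t) i) (y i) 0 :=
  HasFDerivAt.comp_hasDerivAt (0 : ℝ) (EuclideanSpace.proj i : E3 →L[ℝ] ℝ).hasFDerivAt h

/-- The derivative of `kc` in direction `d`. -/
noncomputable def dkc (ε e : ℝ) (c : E3) (i : Fin 3) (a z d : E3) : ℝ :=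
  -(‖z‖⁻¹ ^ 2 * ⟪dir z, d⟫) * (ck ε e (dir z) a c) i + ‖z‖⁻¹ * (dck ε e (dir z) a c (pd z d)) i

lemma norm_dir {z : E3} (hz : z ≠ 0) : ‖dir z‖ = 1 := by
  unfold dir
  rw [norm_smul, norm_inv, norm_norm, inv_mul_cancel₀ (norm_ne_zero_iff.2 hz)]

lemma hasDerivAt_kc_line {z : E3} (hz : z ≠ 0) (ha : ‖a‖ < 1) (hc : ‖c‖ < 1) (hε : 0 < ε)
    (i : Fin 3) (d : E3) :
    HasDerivAt (fun t : ℝ => kc ε e c i a (z + t • d)) (dkc ε e c i a z d) 0 := by
  unfold kc
  have h1 := hasDerivAt_dir_line hz d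
  have e0 : z + (0 : ℝ) • d = z := by simp
  have hD : Dn ε e (dir (z + (0 : ℝ) • d)) a c ≠ 0 := by
    rw [e0]
    exact (KA.Dn_pos (norm_dir hz) ha hc hε).ne'
  have h2 := hasDerivAt_comp_i (hasDerivAt_ck h1 a c hD) i
  refine ((hasDerivAt_inv_norm_line hz d).fun_mul h2).congr_deriv ?_
  rw [e0]
  rfl

/-- The derivative of `kcr` in direction `d`. -/
noncomputable def dkcr (ε e : ℝ) (b c : E3) (i : Fin 3) (a z d : E3) : ℝ :=
  (⟪b, pd z d⟫ / al (dir z) a - al (dir z) b * ⟪a, pd z d⟫ / al (dir z) a ^ 2) * kc ε e c i a z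
    + al (dir z) b / al (dir z) a * dkc ε e c i a z d

lemma hasDerivAt_kcr_line {z : E3} (hz : z ≠ 0) (ha : ‖a‖ < 1) (hc : ‖c‖ < 1)
    (hε : 0 < ε) (i : Fin 3) (d : E3) :
    HasDerivAt (fun t : ℝ => kcr ε e b c i a (z + t • d)) (dkcr ε e b c i a z d) 0 := by
  unfold kcr
  have h1 := hasDerivAt_dir_line hz d
  have e0 : z + (0 : ℝ) • d = z := by simp
  have ha0 : al (dir (z + (0 : ℝ) • d)) a ≠ 0 := by
    rw [e0]
    exact (KA.al_pos (norm_dir hz) ha).ne'
  have h2 : HasDerivAt (fun t : ℝ => al (dir (z + t • d)) b / al (dir (z + t • d)) a)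
      (⟪b, pd z d⟫ / al (dir z) a - al (dir z) b * ⟪a, pd z d⟫ / al (dir z) a ^ 2) 0 := by
    refine ((hasDerivAt_al h1 b).fun_div (hasDerivAt_al h1 a) ha0).congr_deriv ?_
    rw [e0] at ha0 ⊢
    field_simp
  refine (h2.fun_mul (hasDerivAt_kc_line hz ha hc hε i d)).congr_deriv ?_
  rw [e0]
  rfl

/-! ### Differentiability -/

lemma differentiableAt_dir {z : E3} (hz : z ≠ 0) : DifferentiableAt ℝ dir z := by
  have hn : DifferentiableAt ℝ (fun y : E3 => ‖y‖) z := (hasFDerivAt_norm hz).differentiableAt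
  unfold dir
  exact (hn.inv (norm_ne_zero_iff.2 hz)).smul differentiableAt_id

lemma differentiableAt_al' {z : E3} (hz : z ≠ 0) (a : E3) :
    DifferentiableAt ℝ (fun z => al (dir z) a) z := by
  unfold al
  exact ((differentiableAt_const a).inner ℝ (differentiableAt_dir hz)).const_add 1

lemma differentiableAt_ck {z : E3} (hz : z ≠ 0) (ha : ‖a‖ < 1) (hc : ‖c‖ < 1) (hε : 0 < ε) :
    DifferentiableAt ℝ (fun z => ck ε e (dir z) a c) z := by
  have hd := differentiableAt_dir hz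
  have hD : Dn ε e (dir z) a c ≠ 0 := (KA.Dn_pos (norm_dir hz) ha hc hε).ne'
  have h1 : DifferentiableAt ℝ (fun z => Dn ε e (dir z) a c) z := by
    unfold Dn
    exact (differentiableAt_al' hz a).fun_add
      (((differentiableAt_al' hz c).add_const _).const_mul ε)
  have h2 : DifferentiableAt ℝ (fun z => khat (dir z) a c) z := by
    unfold khat
    exact ((differentiableAt_al' hz c).fun_smul (hd.add_const a)).fun_sub
      (((hd.add_const c).inner ℝ (hd.add_const a)).fun_smul hd)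
  unfold ck
  have h3 : DifferentiableAt ℝ (fun z => ε / Dn ε e (dir z) a c) z := by
    simp only [div_eq_mul_inv]
    exact (h1.fun_inv hD).const_mul ε
  exact h3.fun_smul h2

lemma differentiableAt_kc {z : E3} (hz : z ≠ 0) (ha : ‖a‖ < 1) (hc : ‖c‖ < 1) (hε : 0 < ε)
    (i : Fin 3) : DifferentiableAt ℝ (kc ε e c i a) z := by
  have hn : DifferentiableAt ℝ (fun y : E3 => ‖y‖) z := (hasFDerivAt_norm hz).differentiableAt
  unfold kc
  exact (hn.fun_inv (norm_ne_zero_iff.2 hz)).fun_mul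
    ((EuclideanSpace.proj i : E3 →L[ℝ] ℝ).differentiableAt.comp z
      (differentiableAt_ck hz ha hc hε))

lemma differentiableAt_kcr {z : E3} (hz : z ≠ 0) (ha : ‖a‖ < 1) (hc : ‖c‖ < 1) (hε : 0 < ε)
    (i : Fin 3) : DifferentiableAt ℝ (kcr ε e b c i a) z := by
  have ha0 := (KA.al_pos (norm_dir hz) ha).ne'
  have h1 : DifferentiableAt ℝ (fun z => al (dir z) b / al (dir z) a) z := by
    simp only [div_eq_mul_inv]
    exact (differentiableAt_al' hz b).fun_mul ((differentiableAt_al' hz a).fun_inv ha0)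
  unfold kcr
  exact h1.fun_mul (differentiableAt_kc hz ha hc hε i)

lemma fderiv_of_line {κ : E3 → ℝ} {z d : E3} {r : ℝ} (h : DifferentiableAt ℝ κ z)
    (hl : HasDerivAt (fun t : ℝ => κ (z + t • d)) r 0) : fderiv ℝ κ z d = r := by
  have h1 : HasFDerivAt κ (fderiv ℝ κ z) (z + (0 : ℝ) • d) := by
    rw [zero_smul, add_zero]
    exact h.hasFDerivAt
  have h2 : HasDerivAt (κ ∘ fun t : ℝ => z + t • d) (fderiv ℝ κ z d) 0 :=
    HasFDerivAt.comp_hasDerivAt (0 : ℝ) h1 (hasDerivAt_line z d)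
  exact h2.unique hl

lemma pd_comb (z a b : E3) (hal : al (dir z) a ≠ 0) :
    pd z b - (al (dir z) b / al (dir z) a) • pd z a = ‖z‖⁻¹ • yperp (dir z) a b := by
  unfold pd yperp
  have h1 : ⟪dir z, b⟫ = al (dir z) b - 1 := by
    unfold al
    rw [real_inner_comm]
    ring
  have h2 : ⟪dir z, a⟫ = al (dir z) a - 1 := by
    unfold al
    rw [real_inner_comm]
    ring
  rw [h1, h2]
  generalize al (dir z) a = p at *
  generalize al (dir z) b = r
  match_scalars <;> field_simp <;> ring_nf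

/-- The divergence identity. -/
lemma fderiv_diff {z : E3} (hz : z ≠ 0) (ha : ‖a‖ < 1) (hc : ‖c‖ < 1) (hε : 0 < ε)
    (i : Fin 3) :
    fderiv ℝ (kc ε e c i a) z b - fderiv ℝ (kcr ε e b c i a) z a = kd ε e b c i a z := by
  have hal := (KA.al_pos (norm_dir hz) ha).ne'
  rw [fderiv_of_line (differentiableAt_kc hz ha hc hε i) (hasDerivAt_kc_line hz ha hc hε i b),
    fderiv_of_line (differentiableAt_kcr hz ha hc hε i) (hasDerivAt_kcr_line hz ha hc hε i a)]
  have h1 : ⟪dir z, b⟫ = al (dir z) b - 1 := by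
    unfold al
    rw [real_inner_comm]
    ring
  have h2 : ⟪dir z, a⟫ = al (dir z) a - 1 := by
    unfold al
    rw [real_inner_comm]
    ring
  have h3 : ⟪b, pd z a⟫ = ‖z‖⁻¹ * (⟪a, b⟫ - (al (dir z) a - 1) * (al (dir z) b - 1)) := by
    unfold pd
    rw [inner_smul_right, inner_sub_right, inner_smul_right, real_inner_comm (dir z) b, h1, h2,
      real_inner_comm a b]
  have h4 : ⟪a, pd z a⟫ = ‖z‖⁻¹ * (‖a‖ ^ 2 - (al (dir z) a - 1) ^ 2) := by
    unfold pd
    rw [inner_smul_right, inner_sub_right, inner_smul_right, real_inner_comm (dir z) a, h2,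
      real_inner_self_eq_norm_sq]
    ring
  have h5 : dck ε e (dir z) a c (yperp (dir z) a b)
      = ‖z‖ • (dck ε e (dir z) a c (pd z b)
        - (al (dir z) b / al (dir z) a) • dck ε e (dir z) a c (pd z a)) := by
    rw [← dck_sub_smul, ← dck_smul, pd_comb z a b hal, smul_smul,
      mul_inv_cancel₀ (norm_ne_zero_iff.2 hz), one_smul]
  unfold kd
  rw [h5]
  unfold dkcr dkc kc
  rw [h1, h2, h3, h4]
  simp only [PiLp.add_apply, PiLp.smul_apply, PiLp.sub_apply, smul_eq_mul]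
  have hn := norm_ne_zero_iff.2 hz
  generalize (dck ε e (dir z) a c (pd z b)) i = d1
  generalize (dck ε e (dir z) a c (pd z a)) i = d2
  generalize (ck ε e (dir z) a c) i = k
  generalize al (dir z) a = p at *
  generalize al (dir z) b = r
  generalize ⟪a, b⟫ = s
  generalize ‖z‖ = n at *
  field_simp
  ring

/-! ### Measurability -/

section meas

variable {α : Type*} [MeasurableSpace α] {W A B C Y : α → E3}

lemma meas_in (hW : Measurable W) (hA : Measurable A) : Measurable fun w => ⟪W w, A w⟫ :=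
  hW.inner hA

lemma meas_al (hW : Measurable W) (hA : Measurable A) : Measurable fun w => al (W w) (A w) := by
  unfold al
  exact measurable_const.add (meas_in hA hW)

lemma meas_khat (hW : Measurable W) (hA : Measurable A) (hC : Measurable C) :
    Measurable fun w => khat (W w) (A w) (C w) := by
  have h1 : Measurable fun w => W w + A w := hW.add hA
  have h2 : Measurable fun w => W w + C w := hW.add hC
  unfold khat
  exact ((meas_al hW hC).smul h1).sub ((meas_in h2 h1).smul hW)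

lemma meas_Dn (hW : Measurable W) (hA : Measurable A) (hC : Measurable C) :
    Measurable fun w => Dn ε e (W w) (A w) (C w) := by
  unfold Dn
  exact (meas_al hW hA).add (((meas_al hW hC).add_const _).const_mul ε)

lemma meas_ck (hW : Measurable W) (hA : Measurable A) (hC : Measurable C) :
    Measurable fun w => ck ε e (W w) (A w) (C w) := by
  unfold ck
  exact ((measurable_const.div (meas_Dn hW hA hC)).smul (meas_khat hW hA hC))

lemma meas_dkhat (hW : Measurable W) (hA : Measurable A) (hC : Measurable C)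
    (hY : Measurable Y) : Measurable fun w => dkhat (W w) (A w) (C w) (Y w) := by
  have h1 : Measurable fun w => W w + A w := hW.add hA
  have h2 : Measurable fun w => W w + C w := hW.add hC
  have h3 : Measurable fun w => ⟪Y w, W w + A w⟫ + ⟪W w + C w, Y w⟫ :=
    (meas_in hY h1).add (meas_in h2 hY)
  unfold dkhat
  exact ((((meas_in hC hY).smul h1).add ((meas_al hW hC).smul hY)).sub (h3.smul hW)).sub
    ((meas_in h2 h1).smul hY)

lemma meas_dck (hW : Measurable W) (hA : Measurable A) (hC : Measurable C)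
    (hY : Measurable Y) : Measurable fun w => dck ε e (W w) (A w) (C w) (Y w) := by
  have h1 : Measurable fun w => ε * (⟪A w, Y w⟫ + ε * ⟪C w, Y w⟫) :=
    ((meas_in hA hY).add ((meas_in hC hY).const_mul ε)).const_mul ε
  unfold dck
  exact ((measurable_const.div (meas_Dn hW hA hC)).smul (meas_dkhat hW hA hC hY)).sub
    ((h1.div ((meas_Dn hW hA hC).pow_const 2)).smul (meas_khat hW hA hC))

lemma meas_yperp (hW : Measurable W) (hA : Measurable A) (hC : Measurable C) :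
    Measurable fun w => yperp (W w) (A w) (C w) := by
  unfold yperp
  exact (hW.add hC).sub (((meas_al hW hC).div (meas_al hW hA)).smul (hW.add hA))

lemma meas_i (hW : Measurable W) (i : Fin 3) : Measurable fun w => (W w) i :=
  (EuclideanSpace.proj i : E3 →L[ℝ] ℝ).continuous.measurable.comp hW

lemma measurable_dir : Measurable dir := by
  unfold dir
  fun_prop

lemma meas_dir (hW : Measurable W) : Measurable fun w => dir (W w) := measurable_dir.comp hW

/-- Here `A` is the source velocity and `W` is `z`. -/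
lemma meas_kc (hW : Measurable W) (hA : Measurable A) (i : Fin 3) :
    Measurable fun w => kc ε e c i (A w) (W w) := by
  unfold kc
  exact hW.norm.inv.mul (meas_i (meas_ck (meas_dir hW) hA measurable_const) i)

lemma meas_kcr (hW : Measurable W) (hA : Measurable A) (i : Fin 3) :
    Measurable fun w => kcr ε e b c i (A w) (W w) := by
  unfold kcr
  exact ((meas_al (meas_dir hW) measurable_const).div (meas_al (meas_dir hW) hA)).mul
    (meas_kc hW hA i)

lemma meas_cf (hW : Measurable W) (hA : Measurable A) (hB : Measurable B) :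
    Measurable fun w => (1 - ⟪A w, B w⟫) / al (W w) (A w)
      - al (W w) (B w) * (1 - ‖A w‖ ^ 2) / al (W w) (A w) ^ 2 := by
  have h1 : Measurable fun w => 1 - ⟪A w, B w⟫ := measurable_const.sub (meas_in hA hB)
  have h2 : Measurable fun w => 1 - ‖A w‖ ^ 2 := measurable_const.sub (hA.norm.pow_const 2)
  exact (h1.div (meas_al hW hA)).sub
    (((meas_al hW hB).mul h2).div ((meas_al hW hA).pow_const 2))

lemma meas_kd (hW : Measurable W) (hA : Measurable A) (i : Fin 3) :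
    Measurable fun w => kd ε e b c i (A w) (W w) := by
  have hB : Measurable fun _ : α => b := measurable_const
  have hC : Measurable fun _ : α => c := measurable_const
  have h1 := meas_cf (meas_dir hW) hA hB
  have h2 := meas_dck (ε := ε) (e := e) (meas_dir hW) hA hC (meas_yperp (meas_dir hW) hA hB)
  have h3 := meas_ck (ε := ε) (e := e) (meas_dir hW) hA hC
  unfold kd
  exact (hW.norm.inv.pow_const 2).mul (meas_i (h2.add (h1.smul h3)) i)

end meas

lemma meas_u1 : Measurable fun w : E3 × E3 => u w.1 := cont_u.measurable.comp measurable_fst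

/-! ### Bounds for the kernels -/

lemma abs_kc_le (ha : ‖a‖ < 1) (hc : ‖c‖ < 1) (hε : 0 < ε) (hε1 : ε ≤ 1) (i : Fin 3) {z : E3}
    (hz : z ≠ 0) : |kc ε e c i a z| ≤ 8 * K a * ‖z‖⁻¹ := by
  unfold kc
  rw [abs_mul, abs_of_nonneg (by positivity), mul_comm]
  gcongr
  exact (abs_component_le _ i).trans (norm_ck_le (norm_dir hz) ha hc hε hε1)

lemma abs_kcr_le (ha : ‖a‖ < 1) (hb : ‖b‖ < 1) (hc : ‖c‖ < 1) (hε : 0 < ε) (hε1 : ε ≤ 1)
    (i : Fin 3) {z : E3} (hz : z ≠ 0) : |kcr ε e b c i a z| ≤ 16 * K a ^ 2 * ‖z‖⁻¹ := by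
  have h0 := one_le_K ha
  unfold kcr
  rw [abs_mul]
  calc _ ≤ (2 * K a) * (8 * K a * ‖z‖⁻¹) :=
        mul_le_mul (al_div_le (norm_dir hz) ha hb) (abs_kc_le ha hc hε hε1 i hz) (abs_nonneg _)
          (by positivity)
    _ = _ := by ring

lemma abs_kd_le (ha : ‖a‖ < 1) (hb : ‖b‖ < 1) (hc : ‖c‖ < 1) (hε : 0 < ε) (hε1 : ε ≤ 1)
    (i : Fin 3) {z : E3} (hz : z ≠ 0) : |kd ε e b c i a z| ≤ 200 * K a ^ 3 * ‖z‖⁻¹ ^ 2 := by
  have h0 := one_le_K ha
  have hw := norm_dir hz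
  unfold kd
  rw [abs_mul, abs_of_nonneg (by positivity), mul_comm]
  gcongr
  refine (abs_component_le _ i).trans ((norm_add_le _ _).trans ?_)
  have h1 : ‖dck ε e (dir z) a c (yperp (dir z) a b)‖ ≤ 28 * K a ^ 2 * (6 * K a) := by
    refine (norm_dck_le hw ha hc hε hε1 _).trans ?_
    have := norm_yperp_le hw ha hb
    (clear * - h0 this; gcongr)
  have h2 : ‖((1 - ⟪a, b⟫) / al (dir z) a - al (dir z) b * (1 - ‖a‖ ^ 2) / al (dir z) a ^ 2)
      • ck ε e (dir z) a c‖ ≤ (4 * K a ^ 2) * (8 * K a) := by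
    rw [norm_smul, Real.norm_eq_abs]
    exact mul_le_mul (abs_cf_le hw ha hb) (norm_ck_le hw ha hc hε hε1) (norm_nonneg _)
      (by positivity)
  nlinarith only [h1, h2]

lemma norm_pd_le (hb : ‖b‖ < 1) {z : E3} (hz : z ≠ 0) : ‖pd z b‖ ≤ 2 * ‖z‖⁻¹ := by
  have hw := norm_dir hz
  have h1 : |⟪dir z, b⟫| ≤ 1 := by
    refine (abs_real_inner_le_norm _ _).trans ?_
    rw [hw, one_mul]
    exact hb.le
  unfold pd
  rw [norm_smul, norm_inv, norm_norm, mul_comm]
  gcongr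
  refine (norm_sub_le _ _).trans ?_
  rw [norm_smul, hw, mul_one, Real.norm_eq_abs]
  linarith only [hb, h1]

lemma abs_dkc_le (ha : ‖a‖ < 1) (hb : ‖b‖ < 1) (hc : ‖c‖ < 1) (hε : 0 < ε) (hε1 : ε ≤ 1)
    (i : Fin 3) {z : E3} (hz : z ≠ 0) : |dkc ε e c i a z b| ≤ 64 * K a ^ 2 * ‖z‖⁻¹ ^ 2 := by
  have h0 := one_le_K ha
  have hw := norm_dir hz
  have h1 : |⟪dir z, b⟫| ≤ 1 := by
    refine (abs_real_inner_le_norm _ _).trans ?_
    rw [hw, one_mul]
    exact hb.le
  have hz0 : 0 ≤ ‖z‖⁻¹ := by positivity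
  unfold dkc
  refine (abs_add_le _ _).trans ?_
  have n1 : |-(‖z‖⁻¹ ^ 2 * ⟪dir z, b⟫) * (ck ε e (dir z) a c) i| ≤ ‖z‖⁻¹ ^ 2 * 1 * (8 * K a) := by
    rw [abs_mul, abs_neg, abs_mul, abs_of_nonneg (by positivity : 0 ≤ ‖z‖⁻¹ ^ 2)]
    have := (abs_component_le _ i).trans (norm_ck_le (e := e) hw ha hc hε hε1)
    (clear * - hz h1 this; gcongr)
  have n2 : |‖z‖⁻¹ * (dck ε e (dir z) a c (pd z b)) i|
      ≤ ‖z‖⁻¹ * (28 * K a ^ 2 * (2 * ‖z‖⁻¹)) := by
    rw [abs_mul, abs_of_nonneg hz0]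
    gcongr
    refine (abs_component_le _ i).trans ((norm_dck_le hw ha hc hε hε1 _).trans ?_)
    have := norm_pd_le hb hz
    (clear * - h0 this; gcongr)
  have h6 : K a ≤ K a ^ 2 := by nlinarith only [h0]
  have h7 : K a * ‖z‖⁻¹ ^ 2 ≤ K a ^ 2 * ‖z‖⁻¹ ^ 2 := by (clear * - hz h6; gcongr)
  nlinarith only [n1, n2, h7]

end PK

open PK

theorem kerV_kc {ε e : ℝ} (hε : 0 < ε) (hε1 : ε ≤ 1) (he : 0 < e) (he1 : e ≤ 1) {c : E3}
    (hc : ‖c‖ < 1) (i : Fin 3) : KerV (fun v z => kc ε e c i (u v) z) := by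
  refine ⟨?_, fun R => ⟨8 * (2 * (1 + |R|) ^ 2), fun v hv z => ?_⟩⟩
  · exact meas_kc measurable_snd meas_u1 i
  · rcases eq_or_ne z 0 with rfl | hz
    · simp [kc]
    · have h1 := K_le_u hv
      refine (abs_kc_le (norm_u_lt_one v) hc hε hε1 i hz).trans ?_
      calc 8 * K (u v) * ‖z‖⁻¹ ≤ 8 * (2 * (1 + |R|) ^ 2) * (0 + ‖z‖⁻¹) := by
            rw [zero_add]; gcongr
        _ ≤ _ := by gcongr; positivity

theorem kerV_kcr {ε e : ℝ} (hε : 0 < ε) (hε1 : ε ≤ 1) (he : 0 < e) (he1 : e ≤ 1) {b c : E3}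
    (hb : ‖b‖ < 1) (hc : ‖c‖ < 1) (i : Fin 3) : KerV (fun v z => kcr ε e b c i (u v) z) := by
  refine ⟨?_, fun R => ⟨16 * (2 * (1 + |R|) ^ 2) ^ 2, fun v hv z => ?_⟩⟩
  · exact meas_kcr measurable_snd meas_u1 i
  · rcases eq_or_ne z 0 with rfl | hz
    · simp [kcr, kc]
    · have h1 := K_le_u hv
      have h0 := one_le_K (norm_u_lt_one v)
      refine (abs_kcr_le (norm_u_lt_one v) hb hc hε hε1 i hz).trans ?_
      calc 16 * K (u v) ^ 2 * ‖z‖⁻¹ ≤ 16 * (2 * (1 + |R|) ^ 2) ^ 2 * (0 + ‖z‖⁻¹) := by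
            rw [zero_add]; (clear * - hz h1 h0; gcongr)
        _ ≤ _ := by gcongr; positivity

theorem kerV_kd {ε e : ℝ} (hε : 0 < ε) (hε1 : ε ≤ 1) (he : 0 < e) (he1 : e ≤ 1) {b c : E3}
    (hb : ‖b‖ < 1) (hc : ‖c‖ < 1) (i : Fin 3) : KerV (fun v z => kd ε e b c i (u v) z) := by
  refine ⟨?_, fun R => ⟨200 * (2 * (1 + |R|) ^ 2) ^ 3, fun v hv z => ?_⟩⟩
  · exact meas_kd measurable_snd meas_u1 i
  · rcases eq_or_ne z 0 with rfl | hz
    · simp [kd]
    · have h1 := K_le_u hv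
      have h0 := one_le_K (norm_u_lt_one v)
      refine (abs_kd_le (norm_u_lt_one v) hb hc hε hε1 i hz).trans ?_
      calc 200 * K (u v) ^ 3 * ‖z‖⁻¹ ^ 2
          ≤ 200 * (2 * (1 + |R|) ^ 2) ^ 3 * (‖z‖⁻¹ ^ 2 + 0) := by
            rw [add_zero]; (clear * - hz h1 h0; gcongr)
        _ ≤ _ := by gcongr; positivity

namespace PK

variable {a b c : E3} {ε e : ℝ}

lemma ker_kc (ha : ‖a‖ < 1) (hc : ‖c‖ < 1) (hε : 0 < ε) (hε1 : ε ≤ 1) (i : Fin 3) :
    Ker (kc ε e c i a) := by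
  have h0 := one_le_K ha
  refine ⟨meas_kc measurable_id measurable_const i, 8 * K a, fun z => ?_⟩
  rcases eq_or_ne z 0 with rfl | hz
  · simp [kc]
  · refine (abs_kc_le ha hc hε hε1 i hz).trans ?_
    calc 8 * K a * ‖z‖⁻¹ = 8 * K a * (0 + ‖z‖⁻¹) := by rw [zero_add]
      _ ≤ _ := by gcongr; positivity

lemma ker_kcr (ha : ‖a‖ < 1) (hb : ‖b‖ < 1) (hc : ‖c‖ < 1) (hε : 0 < ε) (hε1 : ε ≤ 1)
    (i : Fin 3) : Ker (kcr ε e b c i a) := by
  have h0 := one_le_K ha
  refine ⟨meas_kcr measurable_id measurable_const i, 16 * K a ^ 2, fun z => ?_⟩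
  rcases eq_or_ne z 0 with rfl | hz
  · simp [kcr, kc]
  · refine (abs_kcr_le ha hb hc hε hε1 i hz).trans ?_
    calc 16 * K a ^ 2 * ‖z‖⁻¹ = 16 * K a ^ 2 * (0 + ‖z‖⁻¹) := by rw [zero_add]
      _ ≤ _ := by gcongr; positivity

lemma ker_kd (ha : ‖a‖ < 1) (hb : ‖b‖ < 1) (hc : ‖c‖ < 1) (hε : 0 < ε) (hε1 : ε ≤ 1)
    (i : Fin 3) : Ker (kd ε e b c i a) := by
  have h0 := one_le_K ha
  refine ⟨meas_kd measurable_id measurable_const i, 200 * K a ^ 3, fun z => ?_⟩
  rcases eq_or_ne z 0 with rfl | hz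
  · simp [kd]
  · refine (abs_kd_le ha hb hc hε hε1 i hz).trans ?_
    calc 200 * K a ^ 3 * ‖z‖⁻¹ ^ 2 = 200 * K a ^ 3 * (‖z‖⁻¹ ^ 2 + 0) := by rw [add_zero]
      _ ≤ _ := by gcongr; positivity

lemma meas_pd {α : Type*} [MeasurableSpace α] {W : α → E3} (hW : Measurable W) :
    Measurable fun w => pd (W w) b := by
  have h1 : Measurable fun w => ⟪dir (W w), b⟫ := meas_in (meas_dir hW) measurable_const
  unfold pd
  exact hW.norm.inv.smul (measurable_const.sub (h1.smul (meas_dir hW)))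

lemma ker_dkc (ha : ‖a‖ < 1) (hb : ‖b‖ < 1) (hc : ‖c‖ < 1) (hε : 0 < ε) (hε1 : ε ≤ 1)
    (i : Fin 3) : Ker (fun z => dkc ε e c i a z b) := by
  have h0 := one_le_K ha
  refine ⟨?_, 64 * K a ^ 2, fun z => ?_⟩
  · have hA : Measurable fun _ : E3 => a := measurable_const
    have hB : Measurable fun _ : E3 => b := measurable_const
    have hC : Measurable fun _ : E3 => c := measurable_const
    have hW : Measurable fun z : E3 => z := measurable_id
    have h1 := meas_in (meas_dir hW) hB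
    have h2 := meas_i (meas_ck (ε := ε) (e := e) (meas_dir hW) hA hC) i
    have h3 := meas_i (meas_dck (ε := ε) (e := e) (meas_dir hW) hA hC (meas_pd (b := b) hW)) i
    unfold dkc
    exact ((((hW.norm.inv.pow_const 2).mul h1).neg).mul h2).add (hW.norm.inv.mul h3)
  · rcases eq_or_ne z 0 with rfl | hz
    · simp [dkc]
    · refine (abs_dkc_le ha hb hc hε hε1 i hz).trans ?_
      calc 64 * K a ^ 2 * ‖z‖⁻¹ ^ 2 = 64 * K a ^ 2 * (‖z‖⁻¹ ^ 2 + 0) := by rw [add_zero]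
        _ ≤ _ := by gcongr; positivity

/-- The kernel `α₀ kc = α kcr`. -/
noncomputable def kcb (ε e : ℝ) (b c : E3) (i : Fin 3) (a z : E3) : ℝ :=
  al (dir z) b * kc ε e c i a z

lemma ker_kcb (ha : ‖a‖ < 1) (hb : ‖b‖ < 1) (hc : ‖c‖ < 1) (hε : 0 < ε) (hε1 : ε ≤ 1)
    (i : Fin 3) : Ker (kcb ε e b c i a) := by
  have h0 := one_le_K ha
  have hW : Measurable fun z : E3 => z := measurable_id
  refine ⟨(meas_al (meas_dir hW) measurable_const).mul (meas_kc hW measurable_const i),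
    16 * K a, fun z => ?_⟩
  rcases eq_or_ne z 0 with rfl | hz
  · simp [kcb, kc]
  · have h1 := KA.al_pos (norm_dir hz) hb
    have h2 := KA.al_le (norm_dir hz) hb
    have h3 := abs_kc_le (e := e) ha hc hε hε1 i hz
    unfold kcb
    rw [abs_mul, abs_of_pos h1]
    calc al (dir z) b * |kc ε e c i a z| ≤ 2 * (8 * K a * ‖z‖⁻¹) := by (clear * - h2 h3; gcongr)
      _ = 16 * K a * (0 + ‖z‖⁻¹) := by ring
      _ ≤ _ := by gcongr; positivity

lemma ibp_kc {T : ℝ} {t : ℝ} {G : ℝ × E3 → ℝ} (hG : Late T G) (ht : t < T) (x : E3)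
    (hε : 0 < ε) (hε1 : ε ≤ 1) (ha : ‖a‖ < 1) (hb : ‖b‖ < 1) (hc : ‖c‖ < 1) (i : Fin 3) :
    ∫ z, kc ε e c i a z * (pxd b G (rp t x z) - (‖z‖⁻¹ * ⟪z, b⟫) * ptd G (rp t x z))
      = - ∫ z, fderiv ℝ (kc ε e c i a) z b * G (rp t x z) :=
  hG.ibp ht x (κ := kc ε e c i a) b (C := 8 * K a) (C' := 64 * K a ^ 2)
    (fun z hz => differentiableAt_kc hz ha hc hε i) (fun z hz => abs_kc_le ha hc hε hε1 i hz)
    (fun z hz => by
      rw [fderiv_of_line (differentiableAt_kc hz ha hc hε i) (hasDerivAt_kc_line hz ha hc hε i b)]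
      exact abs_dkc_le ha hb hc hε hε1 i hz)

lemma ibp_kcr {T : ℝ} {t : ℝ} {G : ℝ × E3 → ℝ} (hG : Late T G) (ht : t < T) (x : E3)
    (hε : 0 < ε) (hε1 : ε ≤ 1) (ha : ‖a‖ < 1) (hb : ‖b‖ < 1) (hc : ‖c‖ < 1) (i : Fin 3) :
    ∫ z, kcr ε e b c i a z * (pxd a G (rp t x z) - (‖z‖⁻¹ * ⟪z, a⟫) * ptd G (rp t x z))
      = - ∫ z, fderiv ℝ (kcr ε e b c i a) z a * G (rp t x z) := by
  refine hG.ibp ht x (κ := kcr ε e b c i a) a (C := 16 * K a ^ 2)
    (C' := 64 * K a ^ 2 + 200 * K a ^ 3)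
    (fun z hz => differentiableAt_kcr hz ha hc hε i)
    (fun z hz => abs_kcr_le ha hb hc hε hε1 i hz) (fun z hz => ?_)
  have h1 := fderiv_diff (e := e) (b := b) hz ha hc hε i
  have h2 : fderiv ℝ (kcr ε e b c i a) z a = fderiv ℝ (kc ε e c i a) z b
    - kd ε e b c i a z := by linarith only [h1]
  rw [h2, fderiv_of_line (differentiableAt_kc hz ha hc hε i)
    (hasDerivAt_kc_line hz ha hc hε i b)]
  refine (abs_sub _ _).trans ?_
  have h3 := abs_dkc_le (e := e) ha hb hc hε hε1 i hz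
  have h4 := abs_kd_le (e := e) ha hb hc hε hε1 i hz
  linarith only [h3, h4]

end PK

theorem kc_ibp {T : ℝ} {t : ℝ} {G : ℝ × E3 → ℝ} (hG : Late T G) (ht : t < T) (x : E3) {ε e : ℝ}
    (hε : 0 < ε) (hε1 : ε ≤ 1) (he : 0 < e) (he1 : e ≤ 1) {a b c : E3} (ha : ‖a‖ < 1)
    (hb : ‖b‖ < 1) (hc : ‖c‖ < 1) (i : Fin 3) :
    br t x (kc ε e c i a) (fun p => ptd G p + pxd b G p)
      = br t x (kcr ε e b c i a) (fun p => ptd G p + pxd a G p) - br t x (kd ε e b c i a) G := by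
  have mc := ker_kc (e := e) ha hc hε hε1 i
  have mr := ker_kcr (e := e) ha hb hc hε hε1 i
  have i1 := ibp_kc (e := e) hG ht x hε hε1 ha hb hc i
  have i2 := ibp_kcr (e := e) hG ht x hε hε1 ha hb hc i
  have hT : LateC T (fun p => ptd G p + pxd b G p) := hG.ptd_lateC.add (hG.pxd_lateC b)
  have hT' : LateC T (fun p => ptd G p + pxd a G p) := hG.ptd_lateC.add (hG.pxd_lateC a)
  have jc : Integrable fun z => kc ε e c i a z * (ptd G (rp t x z) + pxd b G (rp t x z)) :=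
    mc.integrable hT ht x
  have jr : Integrable fun z => kcr ε e b c i a z * (ptd G (rp t x z) + pxd a G (rp t x z)) :=
    mr.integrable hT' ht x
  have jb : Integrable fun z => kcb ε e b c i a z * ptd G (rp t x z) :=
    (ker_kcb ha hb hc hε hε1 i).integrable hG.ptd_lateC ht x
  have jd : Integrable fun z => kd ε e b c i a z * G (rp t x z) :=
    (ker_kd ha hb hc hε hε1 i).integrable hG.lateC ht x
  have jk : Integrable fun z => dkc ε e c i a z b * G (rp t x z) :=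
    (ker_dkc ha hb hc hε hε1 i).integrable hG.lateC ht x
  have e1 : ∫ z, kc ε e c i a z * (pxd b G (rp t x z) - (‖z‖⁻¹ * ⟪z, b⟫) * ptd G (rp t x z))
      = br t x (kc ε e c i a) (fun p => ptd G p + pxd b G p)
        - ∫ z, kcb ε e b c i a z * ptd G (rp t x z) := by
    unfold br
    rw [← integral_sub jc jb]
    congr 1
    ext z
    have h1 : ‖z‖⁻¹ * ⟪z, b⟫ = al (dir z) b - 1 := by
      unfold al dir
      rw [real_inner_smul_right, real_inner_comm]
      ring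
    rw [h1]
    unfold kcb
    ring
  have e2 : ∫ z, kcr ε e b c i a z * (pxd a G (rp t x z) - (‖z‖⁻¹ * ⟪z, a⟫) * ptd G (rp t x z))
      = br t x (kcr ε e b c i a) (fun p => ptd G p + pxd a G p)
        - ∫ z, kcb ε e b c i a z * ptd G (rp t x z) := by
    unfold br
    rw [← integral_sub jr jb]
    refine integral_congr_ae ?_
    filter_upwards [ae_ne_zero] with z hz
    have h0 := (KA.al_pos (norm_dir hz) ha).ne'
    have h1 : ‖z‖⁻¹ * ⟪z, a⟫ = al (dir z) a - 1 := by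
      unfold al dir
      rw [real_inner_smul_right, real_inner_comm]
      ring
    rw [h1]
    unfold kcb kcr
    field_simp
    ring
  have e3 : ∫ z, fderiv ℝ (kc ε e c i a) z b * G (rp t x z)
      = ∫ z, dkc ε e c i a z b * G (rp t x z) := by
    refine integral_congr_ae ?_
    filter_upwards [ae_ne_zero] with z hz
    rw [fderiv_of_line (differentiableAt_kc hz ha hc hε i) (hasDerivAt_kc_line hz ha hc hε i b)]
  have e4 : ∫ z, fderiv ℝ (kcr ε e b c i a) z a * G (rp t x z)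
      = (∫ z, dkc ε e c i a z b * G (rp t x z)) - br t x (kd ε e b c i a) G := by
    unfold br
    rw [← integral_sub jk jd]
    refine integral_congr_ae ?_
    filter_upwards [ae_ne_zero] with z hz
    have h1 := fderiv_diff (e := e) (b := b) hz ha hc hε i
    rw [fderiv_of_line (differentiableAt_kc hz ha hc hε i)
      (hasDerivAt_kc_line hz ha hc hε i b)] at h1
    have h2 : fderiv ℝ (kcr ε e b c i a) z a = dkc ε e c i a z b - kd ε e b c i a z := by
      linarith only [h1]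
    rw [h2]
    ring
  rw [e1, e3] at i1
  rw [e2, e4] at i2
  linarith only [i1, i2]

end Vale.Agent.P107
end
end
end

section

section

attribute [-instance] ProperSMul.toContinuousSMul IsTopologicalTorsor.toContinuousSMul
  IdemSemiring.toCanonicallyOrderedAdd IdemSemiring.toMulLeftMono IdemSemiring.toMulRightMono
  AddQuantale.instAddLeftMono AddQuantale.instAddRightMono Quantale.instMulLeftMono
  Quantale.instMulRightMono FiniteDimensional.rclike_to_real IsScalarTower.complexToReal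
  FiniteDimensional.complexToReal

section

/-!
The limit of the solutions of the delayed systems, given the uniform estimates.
-/

open MeasureTheory Set Filter Topology
open scoped RealInnerProductSpace ENNReal NNReal ContDiff

namespace Vale.Agent.P107.LE

/-- Classical solutions, without the statements on `L²`. -/
structure PreSol (T : ℝ) (f : ℝ → E3 → E3 → ℝ) (E B : ℝ → E3 → E3) : Prop where
  f_nonneg : ∀ t ∈ Ico 0 T, ∀ x v, 0 ≤ f t x v
  f_contDiff : ContDiffOn ℝ 1 (fun z : ℝ × E3 × E3 => f z.1 z.2.1 z.2.2) (Ico 0 T ×ˢ univ)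
  E_contDiff : ContDiffOn ℝ 1 (fun z : ℝ × E3 => E z.1 z.2) (Ico 0 T ×ˢ univ)
  B_contDiff : ContDiffOn ℝ 1 (fun z : ℝ × E3 => B z.1 z.2) (Ico 0 T ×ˢ univ)
  vlasov : ∀ t ∈ Ico 0 T, ∀ x v,
    derivWithin (fun s => f s x v) (Ico 0 T) t
      + fderiv ℝ (fun y => f t y v) x (u v)
      + fderiv ℝ (fun w => f t x w) v (E t x + cross (u v) (B t x)) = 0
  ampere : ∀ t ∈ Ico 0 T, ∀ x,
    derivWithin (fun s => E s x) (Ico 0 T) t - curl (B t) x = - cur f t x
  faraday : ∀ t ∈ Ico 0 T, ∀ x,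
    derivWithin (fun s => B s x) (Ico 0 T) t + curl (E t) x = 0
  gauss : ∀ t ∈ Ico 0 T, ∀ x, div (E t) x = rho f t x
  gauss_mag : ∀ t ∈ Ico 0 T, ∀ x, div (B t) x = 0
  compact_support : ∀ t ∈ Ico 0 T, ∃ R : ℝ, ∀ s ∈ Icc 0 t, ∀ x v,
    f s x v ≠ 0 → ‖x‖ ≤ R ∧ ‖v‖ ≤ R

theorem small_eps {δ : ℝ} (hδ : 0 < δ) : ∃ N : ℕ, ∀ n ≥ N, 1 / ((n : ℝ) + 1) ≤ δ := by
  obtain ⟨N, hN⟩ := exists_nat_one_div_lt hδ
  refine ⟨N, fun n hn => le_trans ?_ hN.le⟩
  have : (N : ℝ) ≤ n := Nat.cast_le.2 hn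
  exact one_div_le_one_div_of_le (by positivity) (by linarith only [this])

theorem ico_sub {Y : Type*} {T : ℝ} : Ico 0 T ×ˢ (univ : Set Y) ⊆ Iio T ×ˢ univ :=
  fun _ hp => ⟨hp.1.2, hp.2⟩

section cauchy

variable {Y F : Type*} [NormedAddCommGroup Y] [NormedSpace ℝ Y] [NormedAddCommGroup F]
    [NormedSpace ℝ F] {W : ℕ → ℝ × Y → F} {WL : ℝ × Y → F}

theorem fderiv_early (hL : ∀ n : ℕ, ∀ t ≤ 1 / ((n : ℝ) + 1), ∀ y, W n (t, y) = WL (t, y)) (n : ℕ)
    {p : ℝ × Y} (hp : p.1 ≤ 0) : fderiv ℝ (W n) p = fderiv ℝ WL p := by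
  refine Filter.EventuallyEq.fderiv_eq ?_
  have h1 : (0 : ℝ) < 1 / ((n : ℝ) + 1) := by positivity
  have h2 : {q : ℝ × Y | q.1 < 1 / ((n : ℝ) + 1)} ∈ 𝓝 p :=
    (isOpen_lt continuous_fst continuous_const).mem_nhds (lt_of_le_of_lt hp h1)
  filter_upwards [h2] with q hq
  exact hL n q.1 (le_of_lt hq) q.2

omit [NormedAddCommGroup Y] [NormedSpace ℝ Y] [NormedSpace ℝ F] in
theorem cauchy0 (hL : ∀ n : ℕ, ∀ t ≤ 1 / ((n : ℝ) + 1), ∀ y, W n (t, y) = WL (t, y)) {T : ℝ}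
    (h : ∀ T' < T, 0 ≤ T' → ∃ C : ℝ, 0 ≤ C ∧ ∃ N, ∀ n ≥ N, ∀ m ≥ N, ∀ t, 0 ≤ t → t ≤ T' → ∀ y,
      ‖W n (t, y) - W m (t, y)‖ ≤ C * (1 / ((n : ℝ) + 1) + 1 / ((m : ℝ) + 1))) :
    ∀ T' < T, ∀ η > 0, ∃ N, ∀ n ≥ N, ∀ m ≥ N, ∀ p : ℝ × Y, p.1 ≤ T' →
      ‖W n p - W m p‖ ≤ η := by
  intro T' hT' η hη
  have key : ∀ n m (p : ℝ × Y), p.1 ≤ 0 → ‖W n p - W m p‖ ≤ η := by
    intro n m p hp
    have h1 : ∀ n : ℕ, (0 : ℝ) ≤ 1 / ((n : ℝ) + 1) := fun n => by positivity
    rw [show W n p = WL p from hL n p.1 (hp.trans (h1 n)) p.2,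
      show W m p = WL p from hL m p.1 (hp.trans (h1 m)) p.2, sub_self, norm_zero]
    exact hη.le
  by_cases h0 : 0 ≤ T'
  · obtain ⟨C, hC, N, hN⟩ := h T' hT' h0
    obtain ⟨M, hM⟩ := small_eps (δ := η / (2 * (C + 1))) (by positivity)
    refine ⟨max N M, fun n hn m hm p hp => ?_⟩
    by_cases hp0 : p.1 ≤ 0
    · exact key n m p hp0
    · have h1 := hN n (le_trans (le_max_left _ _) hn) m (le_trans (le_max_left _ _) hm) p.1
        (not_le.1 hp0).le hp p.2
      have h2 := hM n (le_trans (le_max_right _ _) hn)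
      have h3 := hM m (le_trans (le_max_right _ _) hm)
      refine h1.trans ?_
      calc C * (1 / ((n : ℝ) + 1) + 1 / ((m : ℝ) + 1))
          ≤ C * (η / (2 * (C + 1)) + η / (2 * (C + 1))) := by (clear * - hC h2 h3; gcongr)
        _ = η * (C / (C + 1)) := by field_simp; ring
        _ ≤ η * 1 := by
            gcongr
            rw [div_le_one (by positivity)]
            linarith only []
        _ = η := mul_one _
  · exact ⟨0, fun n _ m _ p hp => key n m p (hp.trans (not_le.1 h0).le)⟩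

theorem cauchy1 (hL : ∀ n : ℕ, ∀ t ≤ 1 / ((n : ℝ) + 1), ∀ y, W n (t, y) = WL (t, y)) {T : ℝ}
    (h : ∀ T' < T, 0 ≤ T' → ∀ η > 0, ∃ N, ∀ n ≥ N, ∀ m ≥ N, ∀ t, 0 ≤ t → t ≤ T' → ∀ y,
      ‖fderiv ℝ (W n) (t, y) - fderiv ℝ (W m) (t, y)‖ ≤ η) :
    ∀ T' < T, ∀ η > 0, ∃ N, ∀ n ≥ N, ∀ m ≥ N, ∀ p : ℝ × Y, p.1 ≤ T' →
      ‖fderiv ℝ (W n) p - fderiv ℝ (W m) p‖ ≤ η := by
  intro T' hT' η hη
  have key : ∀ n m (p : ℝ × Y), p.1 ≤ 0 → ‖fderiv ℝ (W n) p - fderiv ℝ (W m) p‖ ≤ η := by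
    intro n m p hp
    rw [fderiv_early hL n hp, fderiv_early hL m hp, sub_self, norm_zero]
    exact hη.le
  by_cases h0 : 0 ≤ T'
  · obtain ⟨N, hN⟩ := h T' hT' h0 η hη
    refine ⟨N, fun n hn m hm p hp => ?_⟩
    by_cases hp0 : p.1 ≤ 0
    · exact key n m p hp0
    · exact hN n hn m hm p.1 (not_le.1 hp0).le hp p.2
  · exact ⟨0, fun n _ m _ p hp => key n m p (hp.trans (not_le.1 h0).le)⟩

end cauchy

variable {f₀ : E3 × E3 → ℝ} {E₀ B₀ : E3 → E3} {fL : ℝ × E3 × E3 → ℝ} {EL BL : ℝ × E3 → E3}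

theorem exists_limit_core (hD : Dat f₀ E₀ B₀) (hL : Layer f₀ E₀ B₀ fL EL BL)
    (hdiff : ∀ T P : ℝ, ∃ C : ℝ, 0 ≤ C ∧ ∀ ε ε' f E B f' E' B', 0 < ε → 0 < ε' →
      EpsSol fL EL BL ε f E B →
      EpsSol fL EL BL ε' f' E' B' → ∀ T' ≤ T, MB P T' f → MB P T' f' →
      ∀ t, 0 ≤ t → t ≤ T' →
        (∀ x, ‖E (t, x) - E' (t, x)‖ + ‖B (t, x) - B' (t, x)‖ ≤ C * (ε + ε')) ∧
        ∀ z, |f (t, z) - f' (t, z)| ≤ C * (ε + ε'))
    (hdf : ∀ (T P : ℝ) {η : ℝ}, 0 < η → ∃ ε₀ : ℝ, 0 < ε₀ ∧ ∀ ε ε' f E B f' E' B', 0 < ε →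
      0 < ε' → ε ≤ ε₀ →
      ε' ≤ ε₀ → EpsSol fL EL BL ε f E B → EpsSol fL EL BL ε' f' E' B' → ∀ T' ≤ T, MB P T' f →
      MB P T' f' → ∀ t, 0 ≤ t → t ≤ T' →
        (∀ x, ‖fderiv ℝ E (t, x) - fderiv ℝ E' (t, x)‖ ≤ η ∧
          ‖fderiv ℝ B (t, x) - fderiv ℝ B' (t, x)‖ ≤ η) ∧
        ∀ z, ‖fderiv ℝ f (t, z) - fderiv ℝ f' (t, z)‖ ≤ η)
    (hgr : ∀ T P : ℝ, ∃ C : ℝ, 0 ≤ C ∧ ∀ ε f E B, 0 < ε → EpsSol fL EL BL ε f E B →
      ∀ T' ≤ T, MB P T' f →
      ∀ t, 0 ≤ t → t ≤ T' → (∀ x, ‖fderiv ℝ E (t, x)‖ + ‖fderiv ℝ B (t, x)‖ ≤ C) ∧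
        ∀ z, ‖fderiv ℝ f (t, z)‖ ≤ C)
    (hdlS : ∀ {ε : ℝ}, 0 < ε → ∀ {W : ℝ × E3 → E3}, SF W → SF (dl ε W))
    (hdlc : ∀ {ε : ℝ}, 0 < ε → ∀ {W : ℝ × E3 → E3}, SF W → ∀ {p : ℝ × E3}, 0 ≤ p.1 →
      ∀ {C : ℝ}, (∀ r : ℝ × E3, 0 ≤ r.1 → r.1 ≤ p.1 → ‖fderiv ℝ W r‖ ≤ C) →
      ‖dl ε W p - W p‖ ≤ 2 * ε * C)
    (hsupp : ∀ {E B : ℝ × E3 → E3}, SF E → SF B → ∀ {f : ℝ × E3 × E3 → ℝ}, ContDiff ℝ 1 f →
      Vl E B f → ∀ {k t₁ t₂ : ℝ}, t₁ ≤ t₂ →
      (∀ p : ℝ × E3, t₁ ≤ p.1 → p.1 ≤ t₂ → ‖E p‖ + ‖B p‖ ≤ k) → ∀ x v : E3,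
      ∃ x' v' : E3, f (t₁, x', v') = f (t₂, x, v) ∧ ‖v' - v‖ ≤ k * (t₂ - t₁) ∧
        ‖x' - x‖ ≤ t₂ - t₁)
    {f : ℕ → ℝ × E3 × E3 → ℝ} {E B : ℕ → ℝ × E3 → E3}
    (h : ∀ n : ℕ, EpsSol fL EL BL (1 / (n + 1)) (f n) (E n) (B n)) {T : ℝ} (hT : 0 < T)
    (hb : ∀ T' < T, ∃ P : ℝ, ∀ᶠ n in atTop, MB P T' (f n)) :
    ∃ (g : ℝ → E3 → E3 → ℝ) (E' B' : ℝ → E3 → E3), PreSol T g E' B' ∧
      (∀ x v, g 0 x v = f₀ (x, v)) ∧ E' 0 = E₀ ∧ B' 0 = B₀ ∧
      ∀ t x v, 0 ≤ t → t < T → Tendsto (fun n => f n (t, x, v)) atTop (𝓝 (g t x v)) ∧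
        Tendsto (fun n => E n (t, x)) atTop (𝓝 (E' t x)) ∧
        Tendsto (fun n => B n (t, x)) atTop (𝓝 (B' t x)) := by
  have hε : ∀ n : ℕ, (0 : ℝ) < 1 / ((n : ℝ) + 1) := fun n => by positivity
  -- common bounds
  have key0 : ∀ T' < T, 0 ≤ T' → ∃ C : ℝ, 0 ≤ C ∧ ∃ N : ℕ, ∀ n ≥ N, ∀ m ≥ N, ∀ t, 0 ≤ t →
      t ≤ T' → (∀ x, ‖E n (t, x) - E m (t, x)‖ + ‖B n (t, x) - B m (t, x)‖
        ≤ C * (1 / ((n : ℝ) + 1) + 1 / ((m : ℝ) + 1))) ∧
        ∀ z, |f n (t, z) - f m (t, z)| ≤ C * (1 / ((n : ℝ) + 1) + 1 / ((m : ℝ) + 1)) := by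
    intro T' hT' _
    obtain ⟨P, hP⟩ := hb T' hT'
    obtain ⟨N, hN⟩ := eventually_atTop.1 hP
    obtain ⟨C, hC, hC'⟩ := hdiff T' P
    exact ⟨C, hC, N, fun n hn m hm t ht ht' => hC' _ _ _ _ _ _ _ _ (hε n) (hε m) (h n) (h m) T'
      le_rfl (hN n hn) (hN m hm) t ht ht'⟩
  have key1 : ∀ T' < T, 0 ≤ T' → ∀ η > 0, ∃ N : ℕ, ∀ n ≥ N, ∀ m ≥ N, ∀ t, 0 ≤ t → t ≤ T' →
      (∀ x, ‖fderiv ℝ (E n) (t, x) - fderiv ℝ (E m) (t, x)‖ ≤ η ∧
          ‖fderiv ℝ (B n) (t, x) - fderiv ℝ (B m) (t, x)‖ ≤ η) ∧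
        ∀ z, ‖fderiv ℝ (f n) (t, z) - fderiv ℝ (f m) (t, z)‖ ≤ η := by
    intro T' hT' _ η hη
    obtain ⟨P, hP⟩ := hb T' hT'
    obtain ⟨N, hN⟩ := eventually_atTop.1 hP
    obtain ⟨ε₀, hε₀, hC'⟩ := hdf T' P hη
    obtain ⟨M, hM⟩ := small_eps hε₀
    exact ⟨max N M, fun n hn m hm t ht ht' => hC' _ _ _ _ _ _ _ _ (hε n) (hε m)
      (hM n (le_trans (le_max_right _ _) hn)) (hM m (le_trans (le_max_right _ _) hm))
      (h n) (h m) T' le_rfl (hN n (le_trans (le_max_left _ _) hn))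
      (hN m (le_trans (le_max_left _ _) hm)) t ht ht'⟩
  -- the limits
  obtain ⟨G, hG1, hG2, hG3, hG4⟩ := limit_C1 (W := f) (T := T)
    (fun n => (h n).sd.smooth.of_le (by exact_mod_cast le_top))
    (cauchy0 (WL := fL) (fun n t ht y => (h n).agf t ht y) fun T' hT' h0 => by
      obtain ⟨C, hC, N, hN⟩ := key0 T' hT' h0
      exact ⟨C, hC, N, fun n hn m hm t ht ht' y => (hN n hn m hm t ht ht').2 y⟩)
    (cauchy1 (WL := fL) (fun n t ht y => (h n).agf t ht y) fun T' hT' h0 η hη => by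
      obtain ⟨N, hN⟩ := key1 T' hT' h0 η hη
      exact ⟨N, fun n hn m hm t ht ht' y => (hN n hn m hm t ht ht').2 y⟩)
  obtain ⟨GE, hE1, hE2, hE3, -⟩ := limit_C1 (W := E) (T := T)
    (fun n => (h n).sE.smooth.of_le (by exact_mod_cast le_top))
    (cauchy0 (WL := EL) (fun n t ht y => (h n).agE t ht y) fun T' hT' h0 => by
      obtain ⟨C, hC, N, hN⟩ := key0 T' hT' h0
      refine ⟨C, hC, N, fun n hn m hm t ht ht' y => le_trans ?_ ((hN n hn m hm t ht ht').1 y)⟩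
      linarith only [norm_nonneg (B n (t, y) - B m (t, y))])
    (cauchy1 (WL := EL) (fun n t ht y => (h n).agE t ht y) fun T' hT' h0 η hη => by
      obtain ⟨N, hN⟩ := key1 T' hT' h0 η hη
      exact ⟨N, fun n hn m hm t ht ht' y => ((hN n hn m hm t ht ht').1 y).1⟩)
  obtain ⟨GB, hB1, hB2, hB3, -⟩ := limit_C1 (W := B) (T := T)
    (fun n => (h n).sB.smooth.of_le (by exact_mod_cast le_top))
    (cauchy0 (WL := BL) (fun n t ht y => (h n).agB t ht y) fun T' hT' h0 => by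
      obtain ⟨C, hC, N, hN⟩ := key0 T' hT' h0
      refine ⟨C, hC, N, fun n hn m hm t ht ht' y => le_trans ?_ ((hN n hn m hm t ht ht').1 y)⟩
      linarith only [norm_nonneg (E n (t, y) - E m (t, y))])
    (cauchy1 (WL := BL) (fun n t ht y => (h n).agB t ht y) fun T' hT' h0 η hη => by
      obtain ⟨N, hN⟩ := key1 T' hT' h0 η hη
      exact ⟨N, fun n hn m hm t ht ht' y => ((hN n hn m hm t ht ht').1 y).2⟩)
  have dG : ∀ {t : ℝ}, t < T → ∀ z, DifferentiableAt ℝ G (t, z) := by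
    intro t ht z
    have hm : (t, z) ∈ Iio T ×ˢ (univ : Set _) := ⟨ht, mem_univ _⟩
    exact ((hG1.differentiableOn one_ne_zero) _ hm).differentiableAt
      ((isOpen_Iio.prod isOpen_univ).mem_nhds hm)
  have dE : ∀ {t : ℝ}, t < T → ∀ z, DifferentiableAt ℝ GE (t, z) := by
    intro t ht z
    have hm : (t, z) ∈ Iio T ×ˢ (univ : Set _) := ⟨ht, mem_univ _⟩
    exact ((hE1.differentiableOn one_ne_zero) _ hm).differentiableAt
      ((isOpen_Iio.prod isOpen_univ).mem_nhds hm)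
  have dB : ∀ {t : ℝ}, t < T → ∀ z, DifferentiableAt ℝ GB (t, z) := by
    intro t ht z
    have hm : (t, z) ∈ Iio T ×ˢ (univ : Set _) := ⟨ht, mem_univ _⟩
    exact ((hB1.differentiableOn one_ne_zero) _ hm).differentiableAt
      ((isOpen_Iio.prod isOpen_univ).mem_nhds hm)
  have sE : ∀ n p, DifferentiableAt ℝ (E n) p := fun n p =>
    (h n).sE.smooth.differentiable (by simp) p
  have sB : ∀ n p, DifferentiableAt ℝ (B n) p := fun n p =>
    (h n).sB.smooth.differentiable (by simp) p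
  have cG : ∀ {t : ℝ}, t < T → ∀ x, Continuous fun v => G (t, x, v) := fun ht x =>
    continuous_iff_continuousAt.2 fun v =>
      ContinuousAt.comp (f := fun v : E3 => (_, x, v)) (dG ht (x, v)).continuousAt
        (by fun_prop)
  -- moments
  have mom : ∀ {F : Type} [NormedAddCommGroup F] [NormedSpace ℝ F] {w : E3 → F},
      Continuous w → (∀ v, ‖w v‖ ≤ 1) → ∀ {t : ℝ}, 0 ≤ t → t < T → ∀ x,
      Tendsto (fun n => ∫ v, f n (t, x, v) • w v) atTop (𝓝 (∫ v, G (t, x, v) • w v)) := by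
    intro F _ _ w hw hw1 t ht0 ht x
    obtain ⟨P, hP⟩ := hb t ht
    refine tend_int (R := P) (fun n => ?_) (cG ht x) ?_ ?_ (fun v => hG2 (t, x, v) ht) hw hw1
    · exact (h n).sd.smooth.continuous.comp (by fun_prop)
    · filter_upwards [hP] with n hn v hv
      exact hn t x v ht0 le_rfl hv
    · obtain ⟨N, hN⟩ := hG4 t ht 1 one_pos
      filter_upwards [eventually_ge_atTop N] with n hn v
      exact hN n hn (t, x, v) le_rfl
  have mcur : ∀ {t : ℝ}, 0 ≤ t → t < T → ∀ x, Tendsto (fun n => curD (f n) (t, x)) atTop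
      (𝓝 (cur (fun t x v => G (t, x, v)) t x)) := fun ht0 ht x =>
    mom cont_u (fun v => (norm_u_lt_one v).le) ht0 ht x
  have mrho : ∀ {t : ℝ}, 0 ≤ t → t < T → ∀ x, Tendsto (fun n => rhoD (f n) (t, x)) atTop
      (𝓝 (rho (fun t x v => G (t, x, v)) t x)) := by
    intro t ht0 ht x
    have h1 := mom (w := fun _ : E3 => (1 : ℝ)) continuous_const (by simp) ht0 ht x
    have h2 : Tendsto (fun n => ∫ v, f n (t, x, v)) atTop (𝓝 (∫ v, G (t, x, v))) := by
      simpa only [smul_eq_mul, mul_one] using h1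
    exact h2
  -- the delayed fields converge
  have dlE : ∀ {t : ℝ}, 0 ≤ t → t < T → ∀ x,
      Tendsto (fun n : ℕ => dl (1 / ((n : ℝ) + 1)) (E n) (t, x)) atTop (𝓝 (GE (t, x))) ∧
      Tendsto (fun n : ℕ => dl (1 / ((n : ℝ) + 1)) (B n) (t, x)) atTop (𝓝 (GB (t, x))) := by
    intro t ht0 ht x
    obtain ⟨P, hP⟩ := hb t ht
    obtain ⟨C, hC, hC'⟩ := hgr t P
    have h0 : Tendsto (fun n : ℕ => 2 * (1 / ((n : ℝ) + 1)) * C) atTop (𝓝 0) := by
      have := (tendsto_one_div_add_atTop_nhds_zero_nat (𝕜 := ℝ)).const_mul 2 |>.mul_const C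
      simpa using this
    constructor
    · have h1 : Tendsto (fun n : ℕ => dl (1 / ((n : ℝ) + 1)) (E n) (t, x) - E n (t, x)) atTop
          (𝓝 0) := by
        refine squeeze_zero_norm' ?_ h0
        filter_upwards [hP] with n hn
        refine hdlc (hε n) (h n).sE ht0 fun r hr0 hr => ?_
        have h2 := (hC' _ _ _ _ (hε n) (h n) t le_rfl hn r.1 hr0 hr).1 r.2
        linarith only [E, B, C, n, r, h2, norm_nonneg (fderiv ℝ (B n) (r.1, r.2))]
      have h2 := h1.add (hE2 (t, x) ht)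
      simpa using h2
    · have h1 : Tendsto (fun n : ℕ => dl (1 / ((n : ℝ) + 1)) (B n) (t, x) - B n (t, x)) atTop
          (𝓝 0) := by
        refine squeeze_zero_norm' ?_ h0
        filter_upwards [hP] with n hn
        refine hdlc (hε n) (h n).sB ht0 fun r hr0 hr => ?_
        have h2 := (hC' _ _ _ _ (hε n) (h n) t le_rfl hn r.1 hr0 hr).1 r.2
        linarith [norm_nonneg (fderiv ℝ (E n) (r.1, r.2))]
      have h2 := h1.add (hB2 (t, x) ht)
      simpa using h2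
  refine ⟨fun t x v => G (t, x, v), fun t x => GE (t, x), fun t x => GB (t, x), ?_, ?_, ?_, ?_,
    ?_⟩
  · constructor
    · -- f_nonneg
      intro t ht x v
      exact ge_of_tendsto' (hG2 (t, x, v) ht.2) fun n => (h n).nonneg _
    · exact hG1.mono ico_sub
    · exact hE1.mono ico_sub
    · exact hB1.mono ico_sub
    · -- vlasov
      intro t ht x v
      have hd := dG ht.2 (x, v)
      have e1 : derivWithin (fun s => G (s, x, v)) (Ico 0 T) t
          = fderiv ℝ G (t, x, v) (1, 0, 0) := slice_t ht hd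
      have hd2 : DifferentiableAt ℝ (fun z : E3 × E3 => G (t, z)) (x, v) :=
        DifferentiableAt.comp (f := fun z : E3 × E3 => (t, z)) (x, v) hd (by fun_prop)
      have e2 : fderiv ℝ (fun y => G (t, y, v)) x (u v) = fderiv ℝ G (t, x, v) (0, u v, 0) := by
        have h1 : HasFDerivAt (fun y : E3 => (t, y, v))
            ((0 : E3 →L[ℝ] ℝ).prod ((ContinuousLinearMap.id ℝ E3).prod (0 : E3 →L[ℝ] E3))) x :=
          (hasFDerivAt_const t x).prodMk ((hasFDerivAt_id x).prodMk (hasFDerivAt_const v x))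
        have h2 : HasFDerivAt (fun y => G (t, y, v)) _ x := hd.hasFDerivAt.comp x h1
        rw [h2.fderiv]
        simp
      have e3 : ∀ K : E3, fderiv ℝ (fun w => G (t, x, w)) v K
          = fderiv ℝ G (t, x, v) (0, 0, K) := by
        intro K
        have h1 : HasFDerivAt (fun y : E3 => (t, x, y))
            ((0 : E3 →L[ℝ] ℝ).prod ((0 : E3 →L[ℝ] E3).prod (ContinuousLinearMap.id ℝ E3))) v :=
          (hasFDerivAt_const t v).prodMk ((hasFDerivAt_const x v).prodMk (hasFDerivAt_id v))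
        have h2 : HasFDerivAt (fun y => G (t, x, y)) _ v := hd.hasFDerivAt.comp v h1
        rw [h2.fderiv]
        simp
      have e4 : fderiv ℝ G (t, x, v) (1, u v, lor (GE (t, x)) (GB (t, x)) v) = 0 := by
        have hl : Tendsto (fun n : ℕ => ((1 : ℝ), u v,
            lor (dl (1 / ((n : ℝ) + 1)) (E n) (t, x)) (dl (1 / ((n : ℝ) + 1)) (B n) (t, x)) v))
            atTop (𝓝 ((1 : ℝ), u v, lor (GE (t, x)) (GB (t, x)) v)) := by
          refine tendsto_const_nhds.prodMk_nhds (tendsto_const_nhds.prodMk_nhds ?_)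
          have hc : Continuous fun p : E3 × E3 => lor p.1 p.2 v := by
            unfold lor cross
            fun_prop
          exact (hc.tendsto (GE (t, x), GB (t, x))).comp
            ((dlE ht.1 ht.2 x).1.prodMk_nhds (dlE ht.1 ht.2 x).2)
        have h1 := tend_apply (hG3 (t, x, v) ht.2) hl
        refine tendsto_nhds_unique h1 (tendsto_const_nhds.congr fun n => ?_)
        exact ((h n).vl t x v).symm
      change derivWithin (fun s => G (s, x, v)) (Ico 0 T) t + fderiv ℝ (fun y => G (t, y, v)) x (u v)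
        + fderiv ℝ (fun w => G (t, x, w)) v (lor (GE (t, x)) (GB (t, x)) v) = 0
      rw [e1, e2, e3, ← map_add, ← map_add]
      refine Eq.trans ?_ e4
      congr 1
      simp
    · -- ampere
      intro t ht x
      rw [slice_t ht (dE ht.2 x)]
      ext i
      have h1 : ∀ n, (fderiv ℝ (E n) (t, x) (1, 0)) i
          = (fderiv ℝ (B n) (t, x) (0, ee (i + 1))) (i + 2)
            - (fderiv ℝ (B n) (t, x) (0, ee (i + 2))) (i + 1) - curD (f n) (t, x) i := by
        intro n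
        have := (h n).mx.ampere (t, x) ht.1 i
        unfold ptd pxd at this
        rwa [fderiv_coord (sE n _), fderiv_coord (sB n _), fderiv_coord (sB n _)] at this
      have h2 := tend_coord (hE3 (t, x) ht.2) (1, 0) i
      have h3 := ((tend_coord (hB3 (t, x) ht.2) (0, ee (i + 1)) (i + 2)).sub
        (tend_coord (hB3 (t, x) ht.2) (0, ee (i + 2)) (i + 1))).sub
        (((EuclideanSpace.proj i : E3 →L[ℝ] ℝ).continuous.tendsto _).comp (mcur ht.1 ht.2 x))
      have h4 := tendsto_nhds_unique h2 (h3.congr fun n => (h1 n).symm)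
      rw [PiLp.sub_apply, PiLp.neg_apply, curl_slice (dB ht.2 x), h4]
      change _ - cur _ t x i - _ = _
      ring
    · -- faraday
      intro t ht x
      rw [slice_t ht (dB ht.2 x)]
      ext i
      have h1 : ∀ n, (fderiv ℝ (B n) (t, x) (1, 0)) i
          = -((fderiv ℝ (E n) (t, x) (0, ee (i + 1))) (i + 2)
            - (fderiv ℝ (E n) (t, x) (0, ee (i + 2))) (i + 1)) := by
        intro n
        have := (h n).mx.faraday (t, x) ht.1 i
        unfold ptd pxd at this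
        rwa [fderiv_coord (sE n _), fderiv_coord (sB n _), fderiv_coord (sE n _)] at this
      have h2 := tend_coord (hB3 (t, x) ht.2) (1, 0) i
      have h3 := ((tend_coord (hE3 (t, x) ht.2) (0, ee (i + 1)) (i + 2)).sub
        (tend_coord (hE3 (t, x) ht.2) (0, ee (i + 2)) (i + 1))).neg
      have h4 := tendsto_nhds_unique h2 (h3.congr fun n => (h1 n).symm)
      rw [PiLp.add_apply, curl_slice (dE ht.2 x), h4]
      simp
    · -- gauss
      intro t ht x
      rw [div_slice (dE ht.2 x)]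
      have h1 : ∀ n, ∑ i : Fin 3, (fderiv ℝ (E n) (t, x) (0, ee i)) i = rhoD (f n) (t, x) := by
        intro n
        rw [← (h n).mx.gauss (t, x) ht.1]
        refine Finset.sum_congr rfl fun i _ => ?_
        unfold pxd
        rw [fderiv_coord (sE n _)]
      have h2 := tendsto_finsetSum Finset.univ fun (i : Fin 3) _ =>
        tend_coord (hE3 (t, x) ht.2) (0, ee i) i
      exact tendsto_nhds_unique h2 ((mrho ht.1 ht.2 x).congr fun n => (h1 n).symm)
    · -- gauss_mag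
      intro t ht x
      rw [div_slice (dB ht.2 x)]
      have h1 : ∀ n, ∑ i : Fin 3, (fderiv ℝ (B n) (t, x) (0, ee i)) i = 0 := by
        intro n
        refine Eq.trans ?_ ((h n).mx.gaussm (t, x) ht.1)
        refine Finset.sum_congr rfl fun i _ => ?_
        unfold pxd
        rw [fderiv_coord (sB n _)]
      have h2 := tendsto_finsetSum Finset.univ fun (i : Fin 3) _ =>
        tend_coord (hB3 (t, x) ht.2) (0, ee i) i
      exact tendsto_nhds_unique h2 (tendsto_const_nhds.congr fun n => (h1 n).symm)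
    · -- compact support
      intro t ht
      obtain ⟨P, hP⟩ := hb t ht.2
      obtain ⟨R₀, hR₀⟩ := hD.f_supp.isCompact.isBounded.subset_closedBall (0 : E3 × E3)
      refine ⟨max (R₀ + t) P, fun s hs x v hne => ?_⟩
      have hsT : s < T := lt_of_le_of_lt hs.2 ht.2
      obtain ⟨n, hn, hn0⟩ := (hP.and ((hG2 (s, x, v) hsT).eventually_ne hne)).exists
      refine ⟨?_, (hn s x v hs.1 hs.2 hn0).trans (le_max_right _ _)⟩
      obtain ⟨C₁, hC₁⟩ := (hdlS (hε n) (h n).sE).bdd 0 s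
      obtain ⟨C₂, hC₂⟩ := (hdlS (hε n) (h n).sB).bdd 0 s
      obtain ⟨x', v', hf1, -, hx'⟩ := hsupp (hdlS (hε n) (h n).sE) (hdlS (hε n) (h n).sB)
        ((h n).sd.smooth.of_le (by exact_mod_cast le_top)) (h n).vl (k := C₁ + C₂) (t₁ := 0)
        (t₂ := s) hs.1 (fun p hp0 hps => by
          have hp : |p.1| ≤ s := by rw [abs_of_nonneg hp0]; exact hps
          have h1 := hC₁ p hp
          have h2 := hC₂ p hp
          rw [norm_iteratedFDeriv_zero] at h1 h2
          exact add_le_add h1 h2) x v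
      have hf2 : f₀ (x', v') ≠ 0 := by
        rw [← hL.f0, ← (h n).agf 0 (hε n).le, hf1]
        exact hn0
      have h3 : ‖x'‖ ≤ R₀ := by
        have h4 := hR₀ (subset_tsupport _ hf2)
        rw [Metric.mem_closedBall, dist_zero_right] at h4
        exact (norm_fst_le (x', v')).trans h4
      have h5 : ‖x‖ ≤ ‖x'‖ + ‖x' - x‖ := by
        have := norm_sub_norm_le x x'
        rw [norm_sub_rev] at this
        linarith only [x, x', this]
      refine le_trans ?_ (le_max_left _ _)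
      linarith [hs.2]
  · intro x v
    refine tendsto_nhds_unique (hG2 (0, x, v) hT) (tendsto_const_nhds.congr fun n => ?_)
    rw [(h n).agf 0 (hε n).le, hL.f0]
  · funext x
    refine tendsto_nhds_unique (hE2 (0, x) hT) (tendsto_const_nhds.congr fun n => ?_)
    rw [(h n).agE 0 (hε n).le, hL.E0]
  · funext x
    refine tendsto_nhds_unique (hB2 (0, x) hT) (tendsto_const_nhds.congr fun n => ?_)
    rw [(h n).agB 0 (hε n).le, hL.B0]
  · intro t x v _ ht
    exact ⟨hG2 _ ht, hE2 _ ht, hB2 _ ht⟩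

end Vale.Agent.P107.LE
end
end
end

section

section

attribute [-instance] ProperSMul.toContinuousSMul IsTopologicalTorsor.toContinuousSMul
  IdemSemiring.toCanonicallyOrderedAdd IdemSemiring.toMulLeftMono IdemSemiring.toMulRightMono
  AddQuantale.instAddLeftMono AddQuantale.instAddRightMono Quantale.instMulLeftMono
  Quantale.instMulRightMono FiniteDimensional.rclike_to_real IsScalarTower.complexToReal
  FiniteDimensional.complexToReal

section

/-!
Level sets of two solutions of Vlasov equations with the same initial datum are close.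
-/

open MeasureTheory Set Filter Topology
open scoped RealInnerProductSpace ENNReal NNReal ContDiff

namespace Vale.Agent.P107.LE

/-- The characteristic field. -/
noncomputable def lvF (E B : ℝ × E3 → E3) (t : ℝ) (z : E3 × E3) : E3 × E3 :=
  (u z.2, lor (E (t, z.1)) (B (t, z.1)) z.2)

lemma level_const {E B : ℝ × E3 → E3} {f : ℝ × E3 × E3 → ℝ} (hf : ContDiff ℝ 1 f)
    (h : Vl E B f) {γ : ℝ → E3 × E3} (hγ : ∀ t, HasDerivAt γ (lvF E B t (γ t)) t) (s t : ℝ) :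
    f (s, γ s) = f (t, γ t) := by
  have hd : ∀ r, HasDerivAt (fun r => f (r, γ r)) 0 r := by
    intro r
    have h1 : HasFDerivAt f (fderiv ℝ f (r, γ r)) (r, γ r) :=
      (hf.differentiable (by norm_num)).differentiableAt.hasFDerivAt
    have h2 : HasDerivAt (fun r : ℝ => (r, γ r)) (1, lvF E B r (γ r)) r :=
      (hasDerivAt_id r).prodMk (hγ r)
    have h3 := h1.comp_hasDerivAt r h2
    rw [show fderiv ℝ f (r, γ r) (1, lvF E B r (γ r)) = 0 from h r (γ r).1 (γ r).2] at h3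
    exact h3
  exact is_const_of_deriv_eq_zero (fun r => (hd r).differentiableAt) (fun r => (hd r).deriv) s t

lemma level_lip {E B : ℝ × E3 → E3} (hE : SF E) (hB : SF B) {T' L : ℝ}
    (hL : ∀ p : ℝ × E3, 0 ≤ p.1 → p.1 ≤ T' →
      ‖fderiv ℝ E p‖ + ‖fderiv ℝ B p‖ + ‖B p‖ ≤ L) {r : ℝ} (h0 : 0 ≤ r) (h1 : r ≤ T')
    (z w : E3 × E3) : ‖lvF E B r z - lvF E B r w‖ ≤ (1 + 3 * L) * ‖z - w‖ := by
  have hs : Convex ℝ {p : ℝ × E3 | p.1 ∈ Icc 0 T'} := by
    exact (convex_Icc (0 : ℝ) T').is_linear_preimage (f := fun p : ℝ × E3 => p.1)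
      ⟨fun _ _ => rfl, fun _ _ => rfl⟩
  have lip : ∀ {W : ℝ × E3 → E3}, SF W → (∀ p : ℝ × E3, 0 ≤ p.1 → p.1 ≤ T' →
      ‖fderiv ℝ W p‖ ≤ L) → ∀ x y : E3, ‖W (r, x) - W (r, y)‖ ≤ L * ‖x - y‖ := by
    intro W hW hb x y
    have h2 := hs.norm_image_sub_le_of_norm_fderiv_le (𝕜 := ℝ) (f := W) (C := L) (x := (r, y))
      (y := (r, x)) (fun p _ => (hW.smooth.differentiable (by simp)).differentiableAt)
      (fun p hp => hb p hp.1 hp.2) ⟨h0, h1⟩ ⟨h0, h1⟩
    have h3 : ‖((r, x) : ℝ × E3) - (r, y)‖ = ‖x - y‖ := by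
      simp [Prod.norm_def]
    rwa [h3] at h2
  have bE : ∀ p : ℝ × E3, 0 ≤ p.1 → p.1 ≤ T' → ‖fderiv ℝ E p‖ ≤ L := fun p ha hb => by
    linarith only [hL p ha hb, norm_nonneg (fderiv ℝ B p), norm_nonneg (B p)]
  have bB : ∀ p : ℝ × E3, 0 ≤ p.1 → p.1 ≤ T' → ‖fderiv ℝ B p‖ ≤ L := fun p ha hb => by
    linarith only [E, B, L, hL, p, ha, hb, hL p ha hb, norm_nonneg (fderiv ℝ E p), norm_nonneg (B p)]
  have bb : ∀ p : ℝ × E3, 0 ≤ p.1 → p.1 ≤ T' → ‖B p‖ ≤ L := fun p ha hb => by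
    linarith [hL p ha hb, norm_nonneg (fderiv ℝ E p), norm_nonneg (fderiv ℝ B p)]
  have hL0 : 0 ≤ L := (norm_nonneg _).trans (bb (r, 0) h0 h1)
  have h1' : ‖z.1 - w.1‖ ≤ ‖z - w‖ := norm_fst_le (z - w)
  have h2' : ‖z.2 - w.2‖ ≤ ‖z - w‖ := norm_snd_le (z - w)
  have hn := norm_nonneg (z - w)
  have hu : ‖u z.2 - u w.2‖ ≤ ‖z - w‖ := (norm_u_sub_le _ _).trans h2'
  refine max_le (hu.trans ?_) ?_
  · nlinarith only [hL0, hn]
  · have e1 : lor (E (r, z.1)) (B (r, z.1)) z.2 - lor (E (r, w.1)) (B (r, w.1)) w.2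
        = (E (r, z.1) - E (r, w.1)) + (cross (u z.2 - u w.2) (B (r, z.1))
          + cross (u w.2) (B (r, z.1) - B (r, w.1))) := by
      unfold lor
      rw [cross_sub_left, cross_sub_right]
      abel
    have e2 : ‖E (r, z.1) - E (r, w.1)‖ ≤ L * ‖z - w‖ :=
      (lip hE bE _ _).trans (mul_le_mul_of_nonneg_left h1' hL0)
    have e3 : ‖cross (u z.2 - u w.2) (B (r, z.1))‖ ≤ ‖z - w‖ * L :=
      (norm_cross_le _ _).trans (mul_le_mul hu (bb _ h0 h1) (norm_nonneg _) hn)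
    have e4 : ‖cross (u w.2) (B (r, z.1) - B (r, w.1))‖ ≤ 1 * (L * ‖z - w‖) :=
      (norm_cross_le _ _).trans (mul_le_mul (norm_u_lt_one _).le
        ((lip hB bB _ _).trans (mul_le_mul_of_nonneg_left h1' hL0)) (norm_nonneg _) zero_le_one)
    show ‖lor (E (r, z.1)) (B (r, z.1)) z.2 - lor (E (r, w.1)) (B (r, w.1)) w.2‖ ≤ _
    rw [e1]
    refine (norm_add_le _ _).trans ?_
    have e5 := norm_add_le (cross (u z.2 - u w.2) (B (r, z.1)))
      (cross (u w.2) (B (r, z.1) - B (r, w.1)))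
    nlinarith only [hn, e2, e3, e4, e5]

/-- V6, from the existence of the flow. -/
theorem level_close_of
    (exists_flow : ∀ {E B : ℝ × E3 → E3}, SF E → SF B →
      ∃ Z : ℝ × ℝ × (E3 × E3) → E3 × E3, ContDiff ℝ ∞ Z ∧ (∀ s z, Z (s, s, z) = z) ∧
        ∀ t s z, HasDerivAt (fun r => Z (r, s, z))
          (u (Z (t, s, z)).2,
            lor (E (t, (Z (t, s, z)).1)) (B (t, (Z (t, s, z)).1)) (Z (t, s, z)).2) t)
    (T L : ℝ) : ∃ C : ℝ, 0 ≤ C ∧ ∀ (E B E' B' : ℝ × E3 → E3), SF E → SF B →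
    SF E' → SF B' → ∀ f f' : ℝ × E3 × E3 → ℝ, ContDiff ℝ 1 f → ContDiff ℝ 1 f' → Vl E B f →
    Vl E' B' f' → (∀ z, f (0, z) = f' (0, z)) → ∀ T' d : ℝ, T' ≤ T → 0 ≤ d →
    (∀ p : ℝ × E3, 0 ≤ p.1 → p.1 ≤ T' →
      ‖fderiv ℝ E p‖ + ‖fderiv ℝ B p‖ + ‖B p‖ ≤ L ∧ ‖E p - E' p‖ + ‖B p - B' p‖ ≤ d) →
    ∀ t x v, 0 ≤ t → t ≤ T' → ∃ x' v', f' (t, x', v') = f (t, x, v) ∧
      ‖x' - x‖ ≤ C * d ∧ ‖v' - v‖ ≤ C * d := by
  refine ⟨Real.exp ((1 + 3 * |L|) * |T|), (Real.exp_pos _).le, ?_⟩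
  intro E B E' B' hE hB hE' hB' f f' hf hf' hV hV' h0 T' d hT' hd hb t x v ht htT'
  obtain ⟨Z, -, hZ1, hZ2⟩ := exists_flow hE hB
  obtain ⟨Z', -, hZ1', hZ2'⟩ := exists_flow hE' hB'
  set γ : ℝ → E3 × E3 := fun r => Z (r, t, (x, v)) with hγ
  have hγd : ∀ r, HasDerivAt γ (lvF E B r (γ r)) r := fun r => hZ2 r t (x, v)
  set γ' : ℝ → E3 × E3 := fun r => Z' (r, 0, γ 0) with hγ'
  have hγd' : ∀ r, HasDerivAt γ' (lvF E' B' r (γ' r)) r := fun r => hZ2' r 0 (γ 0)
  have hL0 : 0 ≤ L := by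
    have := (hb (0, 0) le_rfl (ht.trans htT')).1
    linarith only [this, norm_nonneg (fderiv ℝ E (0, 0)), norm_nonneg (fderiv ℝ B (0, 0)), norm_nonneg (B (0, 0))]
  have hT0 : 0 ≤ T := ht.trans (htT'.trans hT')
  set K : ℝ := 1 + 3 * L with hK
  have hK1 : 1 ≤ K := by rw [hK]; linarith only [hL0]
  have hfield : ∀ r ∈ Ico 0 t, dist (lvF E' B' r (γ' r)) (lvF E B r (γ' r)) ≤ d := by
    intro r hr
    have hr' : r ≤ T' := hr.2.le.trans htT'
    rw [dist_eq_norm]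
    refine max_le ?_ ?_
    · simpa [lvF] using hd
    · have e1 : lor (E' (r, (γ' r).1)) (B' (r, (γ' r).1)) (γ' r).2
          - lor (E (r, (γ' r).1)) (B (r, (γ' r).1)) (γ' r).2
          = -((E (r, (γ' r).1) - E' (r, (γ' r).1))
            + cross (u (γ' r).2) (B (r, (γ' r).1) - B' (r, (γ' r).1))) := by
        unfold lor
        rw [cross_sub_right]
        abel
      show ‖lor (E' (r, (γ' r).1)) (B' (r, (γ' r).1)) (γ' r).2
          - lor (E (r, (γ' r).1)) (B (r, (γ' r).1)) (γ' r).2‖ ≤ d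
      rw [e1, norm_neg]
      refine (norm_add_le _ _).trans (le_trans ?_ (hb (r, (γ' r).1) hr.1 hr').2)
      gcongr
      exact (norm_cross_le _ _).trans (mul_le_of_le_one_left (norm_nonneg _)
        (norm_u_lt_one _).le)
  have hgr := dist_le_of_approx_trajectories_ODE_of_mem (a := 0) (b := t) (K := K.toNNReal)
    (v := lvF E B) (s := fun _ => univ) (f := γ') (f' := fun r => lvF E' B' r (γ' r)) (εf := d)
    (g := γ) (g' := fun r => lvF E B r (γ r)) (εg := 0) (δ := 0) ?_ ?_ ?_ hfield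
    (fun _ _ => mem_univ _) ?_ ?_ ?_ (fun _ _ => mem_univ _) ?_ t ⟨ht, le_rfl⟩
  · rw [Real.coe_toNNReal K (by linarith only [hL0]), sub_zero, add_zero,
      gronwallBound_of_K_ne_0 (by linarith only [hL0])] at hgr
    have h2 : dist (γ' t) (γ t) ≤ Real.exp ((1 + 3 * |L|) * |T|) * d := by
      refine hgr.trans ?_
      rw [abs_of_nonneg hL0, abs_of_nonneg hT0]
      simp only [zero_mul, zero_add]
      have h3 : Real.exp (K * t) ≤ Real.exp (K * T) := by
        apply Real.exp_le_exp.2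
        exact mul_le_mul_of_nonneg_left (htT'.trans hT') (by linarith only [hL0])
      have h4 : d / K ≤ d := div_le_self hd hK1
      have h5 : 0 ≤ d / K := div_nonneg hd (by linarith only [hL0])
      have h6 : 1 ≤ Real.exp (K * t) := Real.one_le_exp (mul_nonneg (by linarith only [hL0]) ht)
      calc d / K * (Real.exp (K * t) - 1) ≤ d * (Real.exp (K * T)) := by
            refine mul_le_mul h4 (by linarith only [h3]) (by linarith only [h6]) hd
        _ = _ := by ring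
    refine ⟨(γ' t).1, (γ' t).2, ?_, ?_, ?_⟩
    · have e1 : f' (t, γ' t) = f' (0, γ' 0) := level_const hf' hV' hγd' t 0
      have e2 : f (t, γ t) = f (0, γ 0) := level_const hf hV hγd t 0
      have e3 : γ' 0 = γ 0 := hZ1' 0 (γ 0)
      have e4 : γ t = (x, v) := hZ1 t (x, v)
      rw [e4] at e2
      show f' (t, γ' t) = f (t, x, v)
      rw [e1, e3, ← h0, ← e2]
    · have e4 : γ t = (x, v) := hZ1 t (x, v)
      rw [e4, dist_eq_norm] at h2
      exact (norm_fst_le (γ' t - (x, v))).trans h2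
    · have e4 : γ t = (x, v) := hZ1 t (x, v)
      rw [e4, dist_eq_norm] at h2
      exact (norm_snd_le (γ' t - (x, v))).trans h2
  · intro r hr
    refine LipschitzOnWith.of_dist_le_mul fun z _ w _ => ?_
    rw [Real.coe_toNNReal K (by linarith only [L, hL0, K]), dist_eq_norm, dist_eq_norm]
    exact level_lip hE hB (fun p ha hb' => (hb p ha hb').1) hr.1 (hr.2.le.trans htT') z w
  · exact fun r _ => (hγd' r).continuousAt.continuousWithinAt
  · exact fun r _ => (hγd' r).hasDerivWithinAt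
  · exact fun r _ => (hγd r).continuousAt.continuousWithinAt
  · exact fun r _ => (hγd r).hasDerivWithinAt
  · exact fun r _ => by rw [dist_self]
  · rw [show γ' 0 = γ 0 from hZ1' 0 (γ 0), dist_self]

end Vale.Agent.P107.LE
end
end
end

section

section

attribute [-instance] ProperSMul.toContinuousSMul IsTopologicalTorsor.toContinuousSMul
  IdemSemiring.toCanonicallyOrderedAdd IdemSemiring.toMulLeftMono IdemSemiring.toMulRightMono
  AddQuantale.instAddLeftMono AddQuantale.instAddRightMono Quantale.instMulLeftMono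
  Quantale.instMulRightMono FiniteDimensional.rclike_to_real IsScalarTower.complexToReal
  FiniteDimensional.complexToReal

section

/-!
Level sets of two solutions of Vlasov equations with the same initial datum are close.
-/

open MeasureTheory Set Filter Topology
open scoped RealInnerProductSpace ENNReal NNReal ContDiff

namespace Vale.Agent.P107.LE

/-- V6. Level sets of two solutions with the same initial datum are close. -/
theorem level_close (T L : ℝ) : ∃ C : ℝ, 0 ≤ C ∧ ∀ (E B E' B' : ℝ × E3 → E3), SF E → SF B →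
    SF E' → SF B' → ∀ f f' : ℝ × E3 × E3 → ℝ, ContDiff ℝ 1 f → ContDiff ℝ 1 f' → Vl E B f →
    Vl E' B' f' → (∀ z, f (0, z) = f' (0, z)) → ∀ T' d : ℝ, T' ≤ T → 0 ≤ d →
    (∀ p : ℝ × E3, 0 ≤ p.1 → p.1 ≤ T' →
      ‖fderiv ℝ E p‖ + ‖fderiv ℝ B p‖ + ‖B p‖ ≤ L ∧ ‖E p - E' p‖ + ‖B p - B' p‖ ≤ d) →
    ∀ t x v, 0 ≤ t → t ≤ T' → ∃ x' v', f' (t, x', v') = f (t, x, v) ∧
      ‖x' - x‖ ≤ C * d ∧ ‖v' - v‖ ≤ C * d :=
  level_close_of (fun hE hB => exists_flow hE hB) T L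

end Vale.Agent.P107.LE
end
end
end

section

section

attribute [-instance] ProperSMul.toContinuousSMul IsTopologicalTorsor.toContinuousSMul
  IdemSemiring.toCanonicallyOrderedAdd IdemSemiring.toMulLeftMono IdemSemiring.toMulRightMono
  AddQuantale.instAddLeftMono AddQuantale.instAddRightMono Quantale.instMulLeftMono
  Quantale.instMulRightMono FiniteDimensional.rclike_to_real IsScalarTower.complexToReal
  FiniteDimensional.complexToReal

section

/-!
Smoothness and homogeneity of the Glassey-Strauss kernels (for the logarithmic estimate).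
-/

open MeasureTheory Set Filter Topology
open scoped RealInnerProductSpace ENNReal NNReal ContDiff

namespace Vale.Agent.P107.LE

/-- Kernels smooth for `z ≠ 0`, homogeneous of degree `-n`. -/
structure HK (n : ℕ) (κ : E3 × E3 → ℝ) : Prop where
  smooth : ContDiffOn ℝ ∞ κ {y | y.2 ≠ 0}
  hom : ∀ (v z : E3) (c : ℝ), 0 < c → z ≠ 0 → κ (v, c • z) = (c⁻¹) ^ n * κ (v, z)

lemma isOpen_nz_lg : IsOpen {y : E3 × E3 | y.2 ≠ 0} := isOpen_ne_fun continuous_snd continuous_const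

lemma contDiff_q_inf_lg : ContDiff ℝ ∞ q := by
  unfold q
  refine ContDiff.sqrt ?_ (fun v => by positivity)
  exact contDiff_const.add (contDiff_norm_sq ℝ)

lemma contDiff_u_inf_lg : ContDiff ℝ ∞ u := by
  unfold u
  exact (contDiff_q_inf_lg.inv (fun v => (q_pos v).ne')).smul contDiff_id

lemma contDiff_u_comp_lg (i : Fin 3) : ContDiff ℝ ∞ (fun v => (u v) i) :=
  (EuclideanSpace.proj i : E3 →L[ℝ] ℝ).contDiff.comp contDiff_u_inf_lg

lemma smooth_u1_lg (i : Fin 3) : ContDiffOn ℝ ∞ (fun y : E3 × E3 => (u y.1) i) {y | y.2 ≠ 0} :=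
  ((contDiff_u_comp_lg i).comp contDiff_fst).contDiffOn

lemma smooth_norm2_lg : ContDiffOn ℝ ∞ (fun y : E3 × E3 => ‖y.2‖) {y | y.2 ≠ 0} := by
  intro y hy
  exact (contDiffAt_snd.norm ℝ hy).contDiffWithinAt

lemma smooth_comp2_lg (i : Fin 3) : ContDiffOn ℝ ∞ (fun y : E3 × E3 => y.2 i) {y | y.2 ≠ 0} :=
  ((EuclideanSpace.proj i : E3 →L[ℝ] ℝ).contDiff.comp contDiff_snd).contDiffOn

lemma smooth_inner_lg : ContDiffOn ℝ ∞ (fun y : E3 × E3 => ⟪u y.1, y.2⟫) {y | y.2 ≠ 0} :=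
  ((contDiff_u_inf_lg.comp contDiff_fst).inner ℝ contDiff_snd).contDiffOn

lemma smooth_den_lg : ContDiffOn ℝ ∞ (fun y : E3 × E3 => (‖y.2‖ + ⟪u y.1, y.2⟫)⁻¹)
    {y | y.2 ≠ 0} :=
  (smooth_norm2_lg.add smooth_inner_lg).inv fun y hy => (denom_pos (norm_u_lt_one y.1) hy).ne'

lemma smooth_ninv_lg : ContDiffOn ℝ ∞ (fun y : E3 × E3 => ‖y.2‖⁻¹) {y | y.2 ≠ 0} :=
  smooth_norm2_lg.inv fun _ hy => (norm_pos_iff.2 hy).ne'

lemma HK.kS (i : Fin 3) : HK 1 (fun y => P107.kS (u y.1) i y.2) := by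
  constructor
  · unfold P107.kS
    exact (((smooth_comp2_lg i).add (smooth_norm2_lg.mul (smooth_u1_lg i))).mul smooth_den_lg).mul smooth_ninv_lg
  · intro v z c hc hz
    simp only [P107.kS, norm_smul, Real.norm_of_nonneg hc.le, PiLp.smul_apply, smul_eq_mul,
      real_inner_smul_right]
    have h1 := denom_pos (norm_u_lt_one v) hz
    have h2 : 0 < ‖z‖ := norm_pos_iff.2 hz
    have h3 : c * ‖z‖ + c * ⟪u v, z⟫ = c * (‖z‖ + ⟪u v, z⟫) := by ring
    rw [h3]
    generalize ‖z‖ + ⟪u v, z⟫ = D at *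
    field_simp

lemma HK.kT (i : Fin 3) : HK 2 (fun y => P107.kT (u y.1) i y.2) := by
  constructor
  · unfold P107.kT
    have h : ContDiffOn ℝ ∞ (fun y : E3 × E3 => 1 - ‖u y.1‖ ^ 2) {y | y.2 ≠ 0} :=
      (contDiff_const.sub ((contDiff_u_inf_lg.comp contDiff_fst).norm_sq ℝ)).contDiffOn
    exact ((((smooth_comp2_lg i).add (smooth_norm2_lg.mul (smooth_u1_lg i))).mul h).mul
      (smooth_den_lg.pow 2)).mul smooth_ninv_lg
  · intro v z c hc hz
    simp only [P107.kT, norm_smul, Real.norm_of_nonneg hc.le, PiLp.smul_apply, smul_eq_mul,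
      real_inner_smul_right]
    have h1 := denom_pos (norm_u_lt_one v) hz
    have h2 : 0 < ‖z‖ := norm_pos_iff.2 hz
    have h3 : c * ‖z‖ + c * ⟪u v, z⟫ = c * (‖z‖ + ⟪u v, z⟫) := by ring
    rw [h3]
    generalize ‖z‖ + ⟪u v, z⟫ = D at *
    field_simp

lemma HK.mul_u {n : ℕ} {κ : E3 × E3 → ℝ} (h : HK n κ) (i : Fin 3) :
    HK n (fun y => u y.1 i * κ y) :=
  ⟨(smooth_u1_lg i).mul h.smooth, fun v z c hc hz => by
    simp only [h.hom v z c hc hz]; ring⟩

lemma HK.sub {n : ℕ} {κ κ' : E3 × E3 → ℝ} (h : HK n κ) (h' : HK n κ') :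
    HK n (fun y => κ y - κ' y) :=
  ⟨h.smooth.sub h'.smooth, fun v z c hc hz => by
    simp only [h.hom v z c hc hz, h'.hom v z c hc hz]; ring⟩

lemma HK.kTB (i : Fin 3) : HK 2 (fun y => LE.kTB i y.1 y.2) :=
  ((HK.kT (i + 1)).mul_u (i + 2)).sub ((HK.kT (i + 2)).mul_u (i + 1))

lemma HK.kSB (i : Fin 3) : HK 1 (fun y => LE.kSB i y.1 y.2) :=
  ((HK.kS (i + 1)).mul_u (i + 2)).sub ((HK.kS (i + 2)).mul_u (i + 1))

/-- The slices in `v` are smooth. -/
lemma HK.slice {n : ℕ} {κ : E3 × E3 → ℝ} (h : HK n κ) {z : E3} (hz : z ≠ 0) :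
    ContDiff ℝ ∞ (fun w => κ (w, z)) := by
  rw [← contDiffOn_univ]
  exact h.smooth.comp (contDiff_id.prodMk contDiff_const).contDiffOn (fun w _ => hz)

lemma HK.fderiv_slice {n : ℕ} {κ : E3 × E3 → ℝ} (h : HK n κ) {z : E3} (hz : z ≠ 0) (v F : E3) :
    fderiv ℝ (fun w => κ (w, z)) v F = fderiv ℝ κ (v, z) (F, 0) := by
  have h1 : DifferentiableAt ℝ κ (v, z) :=
    (h.smooth.contDiffAt (isOpen_nz_lg.mem_nhds hz)).differentiableAt (by simp)
  have h2 : HasFDerivAt (fun w : E3 => (w, z)) (ContinuousLinearMap.inl ℝ E3 E3) v :=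
    (hasFDerivAt_id v).prodMk (hasFDerivAt_const z v)
  have h3 := h1.hasFDerivAt.comp v h2
  have h4 : fderiv ℝ (fun w => κ (w, z)) v
      = (fderiv ℝ κ (v, z)).comp (ContinuousLinearMap.inl ℝ E3 E3) := h3.fderiv
  rw [h4]
  rfl

/-- The velocity derivative of a homogeneous kernel. -/
lemma HK.vderiv {n : ℕ} {κ : E3 × E3 → ℝ} (h : HK n κ) (e : E3) :
    HK n (fun y => fderiv ℝ (fun w => κ (w, y.2)) y.1 e) := by
  constructor
  · have h1 : ContDiffOn ℝ ∞ (fun y => fderiv ℝ κ y (e, 0)) {y | y.2 ≠ 0} :=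
      (h.smooth.fderiv_of_isOpen (m := ∞) isOpen_nz_lg (by simp)).clm_apply contDiffOn_const
    refine h1.congr fun y hy => ?_
    exact h.fderiv_slice hy y.1 e
  · intro v z c hc hz
    have h1 : (fun w => κ (w, c • z)) = fun w => (c⁻¹) ^ n * κ (w, z) := by
      ext w; exact h.hom w z c hc hz
    simp only [h1]
    have hd : DifferentiableAt ℝ (fun w => κ (w, z)) v :=
      (h.slice hz).differentiable (by simp) v
    rw [fderiv_const_mul hd]
    rfl

end Vale.Agent.P107.LE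
end
end
end

section

section

attribute [-instance] ProperSMul.toContinuousSMul IsTopologicalTorsor.toContinuousSMul
  IdemSemiring.toCanonicallyOrderedAdd IdemSemiring.toMulLeftMono IdemSemiring.toMulRightMono
  AddQuantale.instAddLeftMono AddQuantale.instAddRightMono Quantale.instMulLeftMono
  Quantale.instMulRightMono FiniteDimensional.rclike_to_real IsScalarTower.complexToReal
  FiniteDimensional.complexToReal

section

/-!
Removal of a spatial derivative in retarded integrals, and bounds of homogeneous kernels.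
-/

open MeasureTheory Set Filter Topology
open scoped RealInnerProductSpace ENNReal NNReal ContDiff

namespace Vale.Agent.P107.LE

/-- Integrability against kernels of order two (bounds away from the origin only). -/
lemma lateC_integrable' {T : ℝ} {A : ℝ × E3 → ℝ} (h : LateC T A) {t : ℝ} (ht : t < T) (x : E3)
    {κ : E3 → ℝ} (hκ : Measurable κ) {C : ℝ} (hb : ∀ z, z ≠ 0 → |κ z| ≤ C * (‖z‖⁻¹) ^ 2) :
    Integrable fun z => κ z * A (rp t x z) := by
  have h1 : Integrable fun z => (({0}ᶜ : Set E3).indicator κ) z * A (rp t x z) := by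
    refine h.integrable ht x (hκ.indicator (measurableSet_singleton 0).compl) (C := C) ?_
    intro z _
    rcases eq_or_ne z 0 with rfl | hz
    · simp
    · rw [indicator_of_mem (by simpa using hz)]
      exact hb z hz
  refine h1.congr ?_
  filter_upwards [ae_ne_zero] with z hz
  rw [indicator_of_mem (by simpa using hz)]

lemma order_one_two {T : ℝ} {A : ℝ × E3 → ℝ} (h : LateC T A) {t : ℝ} (ht : t < T) (x : E3)
    {κ : E3 → ℝ} (hκ : Measurable κ) {C : ℝ} (hb : ∀ z, z ≠ 0 → |κ z| ≤ C * ‖z‖⁻¹) :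
    Integrable fun z => κ z * A (rp t x z) := by
  have h1 : Integrable fun z => (({0}ᶜ : Set E3).indicator κ) z * A (rp t x z) := by
    refine h.integrable ht x (hκ.indicator (measurableSet_singleton 0).compl) (C := |C| * |t|) ?_
    intro z hzt
    rcases eq_or_ne z 0 with rfl | hz
    · simp
    · rw [indicator_of_mem (by simpa using hz)]
      have hpos : 0 < ‖z‖ := norm_pos_iff.2 hz
      calc |κ z| ≤ C * ‖z‖⁻¹ := hb z hz
        _ ≤ |C| * ‖z‖⁻¹ := by gcongr; exact le_abs_self C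
        _ = |C| * ‖z‖ * (‖z‖⁻¹) ^ 2 := by field_simp
        _ ≤ |C| * |t| * (‖z‖⁻¹) ^ 2 := by
            gcongr
            exact hzt.trans (le_abs_self t)
  refine h1.congr ?_
  filter_upwards [ae_ne_zero] with z hz
  rw [indicator_of_mem (by simpa using hz)]

lemma measurable_of_diff {κ : E3 → ℝ} (hκd : ∀ z ≠ 0, DifferentiableAt ℝ κ z) :
    Measurable κ := by
  refine measurable_of_continuousOn_compl_singleton (0 : E3) ?_
  intro z hz
  exact (hκd z hz).continuousAt.continuousWithinAt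

/-- The derivative of the kernel factor. -/
lemma hasFDerivAt_mk (k : Fin 3) {a : E3} (ha : ‖a‖ < 1) {z : E3} (hz : z ≠ 0) :
    HasFDerivAt (mk k a)
      (z k • (-((‖z‖ + ⟪a, z⟫) ^ 2)⁻¹ • (‖z‖⁻¹ • innerSL ℝ z + innerSL ℝ a))
        + (‖z‖ + ⟪a, z⟫)⁻¹ • (EuclideanSpace.proj k : E3 →L[ℝ] ℝ)) z := by
  have hD := denom_pos ha hz
  have hn := hasFDerivAt_norm hz
  have hin : HasFDerivAt (fun y : E3 => ⟪a, y⟫) (innerSL ℝ a) z := (innerSL ℝ a).hasFDerivAt
  have hden : HasFDerivAt (fun y : E3 => ‖y‖ + ⟪a, y⟫) (‖z‖⁻¹ • innerSL ℝ z + innerSL ℝ a) z :=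
    hn.add hin
  have hinv : HasFDerivAt (fun y : E3 => (‖y‖ + ⟪a, y⟫)⁻¹)
      (-((‖z‖ + ⟪a, z⟫) ^ 2)⁻¹ • (‖z‖⁻¹ • innerSL ℝ z + innerSL ℝ a)) z :=
    (hasDerivAt_inv hD.ne').comp_hasFDerivAt z hden
  exact (hasFDerivAt_component k z).mul hinv

lemma abs_mk_le (k : Fin 3) {a : E3} (ha : ‖a‖ < 1) {z : E3} (hz : z ≠ 0) :
    |mk k a z| ≤ (1 - ‖a‖)⁻¹ := by
  have hpos : 0 < ‖z‖ := norm_pos_iff.2 hz
  have hD := denom_pos ha hz
  have h1a : 0 < 1 - ‖a‖ := by linarith only [ha]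
  unfold mk
  rw [abs_mul, abs_of_pos (inv_pos.2 hD)]
  have h1 := abs_component_le z k
  have h2 : (‖z‖ + ⟪a, z⟫)⁻¹ ≤ ((1 - ‖a‖) * ‖z‖)⁻¹ := by
    gcongr
    exact denom_ge a z
  calc |z k| * (‖z‖ + ⟪a, z⟫)⁻¹ ≤ ‖z‖ * ((1 - ‖a‖) * ‖z‖)⁻¹ := by gcongr
    _ = _ := by (clear * - hz h1a; field_simp)

lemma abs_fderiv_mk_le (k : Fin 3) {a : E3} (ha : ‖a‖ < 1) {z : E3} (hz : z ≠ 0) (e : E3)
    (he : ‖e‖ ≤ 1) :
    |fderiv ℝ (mk k a) z e| ≤ (2 * ((1 - ‖a‖)⁻¹) ^ 2 + (1 - ‖a‖)⁻¹) * ‖z‖⁻¹ := by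
  have hpos : 0 < ‖z‖ := norm_pos_iff.2 hz
  have hD := denom_pos ha hz
  have h1a : 0 < 1 - ‖a‖ := by linarith only [ha]
  rw [(hasFDerivAt_mk k ha hz).fderiv]
  have hproj : (EuclideanSpace.proj k : E3 →L[ℝ] ℝ) e = e k := rfl
  simp only [innerSL_apply_apply, add_apply, smul_apply, smul_eq_mul, hproj]
  have h1 := abs_component_le z k
  have h1e := (abs_component_le e k).trans he
  have h2 : (‖z‖ + ⟪a, z⟫)⁻¹ ≤ ((1 - ‖a‖) * ‖z‖)⁻¹ := by
    gcongr
    exact denom_ge a z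
  have h3 : |‖z‖⁻¹ * ⟪z, e⟫ + ⟪a, e⟫| ≤ 2 := by
    have h4 : |‖z‖⁻¹ * ⟪z, e⟫| ≤ 1 := by
      rw [abs_mul, abs_of_pos (inv_pos.2 hpos)]
      calc ‖z‖⁻¹ * |⟪z, e⟫| ≤ ‖z‖⁻¹ * (‖z‖ * ‖e‖) := by
            gcongr; exact abs_real_inner_le_norm z e
        _ = ‖e‖ := by field_simp
        _ ≤ 1 := he
    have h5 : |⟪a, e⟫| ≤ 1 := by
      calc |⟪a, e⟫| ≤ ‖a‖ * ‖e‖ := abs_real_inner_le_norm a e
        _ ≤ 1 * 1 := by (clear * - ha he; gcongr)
        _ = 1 := one_mul 1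
    calc _ ≤ |‖z‖⁻¹ * ⟪z, e⟫| + |⟪a, e⟫| := abs_add_le _ _
      _ ≤ 1 + 1 := add_le_add h4 h5
      _ = 2 := by norm_num
  calc |z k * (-((‖z‖ + ⟪a, z⟫) ^ 2)⁻¹ * (‖z‖⁻¹ * ⟪z, e⟫ + ⟪a, e⟫)) + (‖z‖ + ⟪a, z⟫)⁻¹ * e k|
      ≤ |z k * (-((‖z‖ + ⟪a, z⟫) ^ 2)⁻¹ * (‖z‖⁻¹ * ⟪z, e⟫ + ⟪a, e⟫))|
        + |(‖z‖ + ⟪a, z⟫)⁻¹ * e k| := abs_add_le _ _
    _ = |z k| * (((‖z‖ + ⟪a, z⟫)⁻¹) ^ 2 * |‖z‖⁻¹ * ⟪z, e⟫ + ⟪a, e⟫|)
        + (‖z‖ + ⟪a, z⟫)⁻¹ * |e k| := by
          rw [abs_mul, abs_mul, abs_neg, abs_mul, abs_of_pos (inv_pos.2 hD), inv_pow,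
            abs_of_pos (inv_pos.2 (pow_pos hD 2))]
    _ ≤ ‖z‖ * ((((1 - ‖a‖) * ‖z‖)⁻¹) ^ 2 * 2) + ((1 - ‖a‖) * ‖z‖)⁻¹ * 1 := by gcongr
    _ = _ := by (clear * - hz h1a; field_simp)

/-- L1. Removal of a spatial derivative. -/
theorem ret_pxd {T : ℝ} {G : ℝ × E3 → ℝ} (h : Late T G) {t : ℝ} (ht : t < T) (x : E3) {a : E3}
    (ha : ‖a‖ < 1) (k : Fin 3) {κ : E3 → ℝ} {C C' : ℝ}
    (hκd : ∀ z ≠ 0, DifferentiableAt ℝ κ z) (hκ : ∀ z, z ≠ 0 → |κ z| ≤ C * ‖z‖⁻¹)
    (hκ' : ∀ z, z ≠ 0 → ‖fderiv ℝ κ z‖ ≤ C' * (‖z‖⁻¹) ^ 2) :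
    ∫ z, κ z * pxd (ee k) G (rp t x z)
      = (∫ z, (fderiv ℝ (fun y => κ y * mk k a y) z a - fderiv ℝ κ z (ee k)) * G (rp t x z))
        + ∫ z, κ z * mk k a z * (ptd G (rp t x z) + pxd a G (rp t x z)) := by
  have h1a : 0 < 1 - ‖a‖ := by linarith only [ha]
  have hee : ‖ee k‖ = 1 := by simp [ee]
  -- bounds in fixed directions
  have hdir : ∀ e : E3, ‖e‖ ≤ 1 → ∀ z, z ≠ 0 → |fderiv ℝ κ z e| ≤ C' * (‖z‖⁻¹) ^ 2 := by
    intro e he z hz
    have h1 : |fderiv ℝ κ z e| ≤ ‖fderiv ℝ κ z‖ * ‖e‖ := (fderiv ℝ κ z).le_opNorm e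
    calc |fderiv ℝ κ z e| ≤ ‖fderiv ℝ κ z‖ * ‖e‖ := h1
      _ ≤ ‖fderiv ℝ κ z‖ * 1 := by gcongr
      _ ≤ C' * (‖z‖⁻¹) ^ 2 := by rw [mul_one]; exact hκ' z hz
  have hmd : ∀ z ≠ 0, DifferentiableAt ℝ (fun y => κ y * mk k a y) z := fun z hz =>
    (hκd z hz).mul (hasFDerivAt_mk k ha hz).differentiableAt
  have hC0 : ∀ z : E3, z ≠ 0 → 0 ≤ C * ‖z‖⁻¹ := fun z hz => (abs_nonneg _).trans (hκ z hz)
  have hm1 : ∀ z, z ≠ 0 → |κ z * mk k a z| ≤ (C * (1 - ‖a‖)⁻¹) * ‖z‖⁻¹ := by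
    intro z hz
    rw [abs_mul]
    calc |κ z| * |mk k a z| ≤ (C * ‖z‖⁻¹) * (1 - ‖a‖)⁻¹ :=
          mul_le_mul (hκ z hz) (abs_mk_le k ha hz) (abs_nonneg _) (hC0 z hz)
      _ = _ := by ring
  have hm2 : ∀ z, z ≠ 0 → |fderiv ℝ (fun y => κ y * mk k a y) z a|
      ≤ (C * (2 * ((1 - ‖a‖)⁻¹) ^ 2 + (1 - ‖a‖)⁻¹) + C' * (1 - ‖a‖)⁻¹) * (‖z‖⁻¹) ^ 2 := by
    intro z hz
    have e1 : fderiv ℝ (fun y => κ y * mk k a y) z a
        = κ z * fderiv ℝ (mk k a) z a + mk k a z * fderiv ℝ κ z a := by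
      have hp : HasFDerivAt (fun y => κ y * mk k a y)
          (κ z • fderiv ℝ (mk k a) z + mk k a z • fderiv ℝ κ z) z :=
        (hκd z hz).hasFDerivAt.mul (hasFDerivAt_mk k ha hz).differentiableAt.hasFDerivAt
      rw [hp.fderiv]
      simp [smul_apply]
    rw [e1]
    have h2 : |κ z * fderiv ℝ (mk k a) z a|
        ≤ (C * ‖z‖⁻¹) * ((2 * ((1 - ‖a‖)⁻¹) ^ 2 + (1 - ‖a‖)⁻¹) * ‖z‖⁻¹) := by
      rw [abs_mul]
      exact mul_le_mul (hκ z hz) (abs_fderiv_mk_le k ha hz a ha.le) (abs_nonneg _) (hC0 z hz)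
    have h3 : |mk k a z * fderiv ℝ κ z a| ≤ (1 - ‖a‖)⁻¹ * (C' * (‖z‖⁻¹) ^ 2) := by
      rw [abs_mul]
      exact mul_le_mul (abs_mk_le k ha hz) (hdir a ha.le z hz) (abs_nonneg _) (inv_pos.2 h1a).le
    calc _ ≤ |κ z * fderiv ℝ (mk k a) z a| + |mk k a z * fderiv ℝ κ z a| := abs_add_le _ _
      _ ≤ (C * ‖z‖⁻¹) * ((2 * ((1 - ‖a‖)⁻¹) ^ 2 + (1 - ‖a‖)⁻¹) * ‖z‖⁻¹)
          + (1 - ‖a‖)⁻¹ * (C' * (‖z‖⁻¹) ^ 2) := add_le_add h2 h3
      _ = _ := by ring
  have i1 := h.ibp ht x (κ := κ) (ee k) (C := C) (C' := C') hκd hκ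
    (hdir (ee k) (by rw [hee]))
  have i2 := h.ibp ht x (κ := fun y => κ y * mk k a y) a (C := C * (1 - ‖a‖)⁻¹)
    (C' := C * (2 * ((1 - ‖a‖)⁻¹) ^ 2 + (1 - ‖a‖)⁻¹) + C' * (1 - ‖a‖)⁻¹) hmd hm1 hm2
  -- measurability
  have mκ : Measurable κ := measurable_of_diff hκd
  have mm : Measurable (fun y => κ y * mk k a y) := measurable_of_diff hmd
  have hS : LateC T (fun p => ptd G p + pxd a G p) := h.ptd_lateC.add (h.pxd_lateC a)
  -- integrability
  have I1 : Integrable fun z => κ z * pxd (ee k) G (rp t x z) :=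
    order_one_two (h.pxd_lateC (ee k)) ht x mκ hκ
  have I2 : Integrable fun z => (fun y => κ y * mk k a y) z * (ptd G (rp t x z) + pxd a G (rp t x z)) :=
    order_one_two hS ht x mm hm1
  have I3 : Integrable fun z => fderiv ℝ κ z (ee k) * G (rp t x z) :=
    lateC_integrable' h.lateC ht x (measurable_fderiv_apply_const ℝ κ (ee k))
      (hdir (ee k) (by rw [hee]))
  have I4 : Integrable fun z => fderiv ℝ (fun y => κ y * mk k a y) z a * G (rp t x z) :=
    lateC_integrable' h.lateC ht x (measurable_fderiv_apply_const ℝ _ a) hm2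
  have I5 : Integrable fun z => κ z * (‖z‖⁻¹ * ⟪z, ee k⟫ * ptd G (rp t x z)) := by
    have := order_one_two (κ := fun z => κ z * (‖z‖⁻¹ * ⟪z, ee k⟫)) (C := C) h.ptd_lateC ht x
      (mκ.mul (by fun_prop)) (by
        intro z hz
        have hpos : 0 < ‖z‖ := norm_pos_iff.2 hz
        have h4 : |‖z‖⁻¹ * ⟪z, ee k⟫| ≤ 1 := by
          rw [abs_mul, abs_of_pos (inv_pos.2 hpos)]
          calc ‖z‖⁻¹ * |⟪z, ee k⟫| ≤ ‖z‖⁻¹ * (‖z‖ * ‖ee k‖) := by
                gcongr; exact abs_real_inner_le_norm z _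
            _ = 1 := by rw [hee]; field_simp
        rw [abs_mul]
        calc |κ z| * |‖z‖⁻¹ * ⟪z, ee k⟫| ≤ (C * ‖z‖⁻¹) * 1 :=
              mul_le_mul (hκ z hz) h4 (abs_nonneg _) (hC0 z hz)
          _ = _ := mul_one _)
    refine this.congr (ae_of_all _ fun z => ?_)
    simp only
    ring
  have I6 : Integrable fun z => (fun y => κ y * mk k a y) z
      * (pxd a G (rp t x z) - (‖z‖⁻¹ * ⟪z, a⟫) * ptd G (rp t x z)) := by
    have J1 : Integrable fun z => (fun y => κ y * mk k a y) z * pxd a G (rp t x z) :=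
      order_one_two (h.pxd_lateC a) ht x mm hm1
    have J2 : Integrable fun z => (κ z * mk k a z * (‖z‖⁻¹ * ⟪z, a⟫)) * ptd G (rp t x z) := by
      refine order_one_two (C := C * (1 - ‖a‖)⁻¹) h.ptd_lateC ht x (mm.mul (by fun_prop)) ?_
      intro z hz
      have hpos : 0 < ‖z‖ := norm_pos_iff.2 hz
      have h4 : |‖z‖⁻¹ * ⟪z, a⟫| ≤ 1 := by
        rw [abs_mul, abs_of_pos (inv_pos.2 hpos)]
        calc ‖z‖⁻¹ * |⟪z, a⟫| ≤ ‖z‖⁻¹ * (‖z‖ * ‖a‖) := by
              gcongr; exact abs_real_inner_le_norm z _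
          _ = ‖a‖ := by (clear * - hz; field_simp)
          _ ≤ 1 := ha.le
      rw [abs_mul]
      calc |κ z * mk k a z| * |‖z‖⁻¹ * ⟪z, a⟫| ≤ ((C * (1 - ‖a‖)⁻¹) * ‖z‖⁻¹) * 1 :=
            mul_le_mul (hm1 z hz) h4 (abs_nonneg _) ((abs_nonneg _).trans (hm1 z hz))
        _ = _ := mul_one _
    refine (J1.sub J2).congr (ae_of_all _ fun z => ?_)
    simp only [Pi.sub_apply]
    ring
  have e0 : ∫ z, κ z * pxd (ee k) G (rp t x z)
      = (∫ z, κ z * (pxd (ee k) G (rp t x z) - (‖z‖⁻¹ * ⟪z, ee k⟫) * ptd G (rp t x z)))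
        + ((∫ z, (fun y => κ y * mk k a y) z * (ptd G (rp t x z) + pxd a G (rp t x z)))
          - ∫ z, (fun y => κ y * mk k a y) z
            * (pxd a G (rp t x z) - (‖z‖⁻¹ * ⟪z, a⟫) * ptd G (rp t x z))) := by
    rw [← integral_sub I2 I6]
    have I7 : Integrable fun z => κ z * (pxd (ee k) G (rp t x z)
        - (‖z‖⁻¹ * ⟪z, ee k⟫) * ptd G (rp t x z)) := by
      refine (I1.sub I5).congr (ae_of_all _ fun z => ?_)
      simp only [Pi.sub_apply]
      ring
    have I8 : Integrable fun z => (fun y => κ y * mk k a y) z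
          * (ptd G (rp t x z) + pxd a G (rp t x z))
        - (fun y => κ y * mk k a y) z * (pxd a G (rp t x z) - (‖z‖⁻¹ * ⟪z, a⟫) * ptd G (rp t x z)) :=
      I2.sub I6
    rw [← integral_add I7 I8]
    refine integral_congr_ae ?_
    filter_upwards [ae_ne_zero] with z hz
    have hpos : 0 < ‖z‖ := norm_pos_iff.2 hz
    have hD := denom_pos ha hz
    have haz : ⟪z, a⟫ = ⟪a, z⟫ := real_inner_comm _ _
    have hzk : ⟪z, ee k⟫ = z k := inner_single_E3 z k
    simp only [mk, haz, hzk]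
    generalize ⟪a, z⟫ = s at *
    generalize ‖z‖ = r at *
    field_simp
    ring
  rw [e0, i1, i2]
  have e3 : ∫ z, (fderiv ℝ (fun y => κ y * mk k a y) z a - fderiv ℝ κ z (ee k)) * G (rp t x z)
      = (∫ z, fderiv ℝ (fun y => κ y * mk k a y) z a * G (rp t x z))
        - ∫ z, fderiv ℝ κ z (ee k) * G (rp t x z) := by
    rw [← integral_sub I4 I3]
    refine integral_congr_ae (ae_of_all _ fun z => ?_)
    simp only
    ring
  rw [e3]
  simp only
  ring

/-- L2. Bounds of smooth homogeneous kernels. -/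
theorem hom_bound {κ : E3 × E3 → ℝ} (hκ : ContDiffOn ℝ ∞ κ {y | y.2 ≠ 0}) (n : ℕ)
    (hh : ∀ (v z : E3) (c : ℝ), 0 < c → z ≠ 0 → κ (v, c • z) = (c⁻¹) ^ n * κ (v, z)) (P : ℝ) :
    ∃ C : ℝ, 0 ≤ C ∧ ∀ v z : E3, ‖v‖ ≤ P → z ≠ 0 → |κ (v, z)| ≤ C * (‖z‖⁻¹) ^ n ∧
      (∀ w : E3, |fderiv ℝ κ (v, z) (w, 0)| ≤ C * (‖z‖⁻¹) ^ n * ‖w‖) ∧
      (∀ e : E3, |fderiv ℝ κ (v, z) (0, e)| ≤ C * (‖z‖⁻¹) ^ (n + 1) * ‖e‖) := by
  have hO : IsOpen {y : E3 × E3 | y.2 ≠ 0} := isOpen_ne_fun continuous_snd continuous_const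
  have hK : IsCompact (Metric.closedBall (0 : E3) P ×ˢ Metric.sphere (0 : E3) 1) :=
    (isCompact_closedBall _ _).prod (isCompact_sphere _ _)
  have hsub : Metric.closedBall (0 : E3) P ×ˢ Metric.sphere (0 : E3) 1 ⊆ {y | y.2 ≠ 0} := by
    rintro ⟨v, z⟩ ⟨_, hz⟩
    simp only [mem_sphere_iff_norm, sub_zero] at hz
    intro h0
    simp only at h0
    rw [h0] at hz
    simp at hz
  obtain ⟨C₀, hC₀⟩ := hK.exists_bound_of_continuousOn (f := κ) (hκ.continuousOn.mono hsub)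
  obtain ⟨C₁, hC₁⟩ := hK.exists_bound_of_continuousOn (f := fderiv ℝ κ)
    ((hκ.continuousOn_fderiv_of_isOpen hO (by norm_num)).mono hsub)
  refine ⟨max (max C₀ C₁) 0, le_max_right _ _, fun v z hv hz => ?_⟩
  set C := max (max C₀ C₁) 0 with hC
  have hCC₀ : C₀ ≤ C := (le_max_left _ _).trans (le_max_left _ _)
  have hCC₁ : C₁ ≤ C := (le_max_right _ _).trans (le_max_left _ _)
  have hpos : 0 < ‖z‖ := norm_pos_iff.2 hz
  set c := ‖z‖ with hc
  set z' := c⁻¹ • z with hz'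
  have hzz : z = c • z' := by rw [hz', smul_smul, mul_inv_cancel₀ hpos.ne', one_smul]
  have hz'1 : ‖z'‖ = 1 := by
    rw [hz', norm_smul, norm_inv, Real.norm_of_nonneg hpos.le, ← hc, inv_mul_cancel₀ hpos.ne']
  have hz'0 : z' ≠ 0 := by
    rintro h0
    rw [h0] at hz'1
    simp at hz'1
  have hmem : (v, z') ∈ Metric.closedBall (0 : E3) P ×ˢ Metric.sphere (0 : E3) 1 := by
    refine ⟨?_, ?_⟩
    · simpa using hv
    · simpa using hz'1
  -- the scaling identity for the derivative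
  let Φ : E3 × E3 →L[ℝ] E3 × E3 :=
    (ContinuousLinearMap.fst ℝ E3 E3).prod (c • ContinuousLinearMap.snd ℝ E3 E3)
  have hΦ : ∀ y : E3 × E3, Φ y = (y.1, c • y.2) := fun y => rfl
  have hder : (fderiv ℝ κ (v, z)).comp Φ = (c⁻¹) ^ n • fderiv ℝ κ (v, z') := by
    have hd : DifferentiableAt ℝ κ (v, z) :=
      (hκ.differentiableOn (by norm_num)).differentiableAt (hO.mem_nhds hz)
    have hd' : DifferentiableAt ℝ κ (v, z') :=
      (hκ.differentiableOn (by norm_num)).differentiableAt (hO.mem_nhds hz'0)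
    have h1 : HasFDerivAt (fun y => κ (Φ y)) ((fderiv ℝ κ (v, z)).comp Φ) (v, z') := by
      have : Φ (v, z') = (v, z) := by rw [hΦ]; simp only [← hzz]
      rw [← this] at hd
      have := hd.hasFDerivAt.comp (v, z') Φ.hasFDerivAt
      rwa [‹Φ (v, z') = (v, z)›] at this
    have h2 : HasFDerivAt (fun y => (c⁻¹) ^ n * κ y) ((c⁻¹) ^ n • fderiv ℝ κ (v, z')) (v, z') :=
      hd'.hasFDerivAt.const_mul _
    have h3 : (fun y => κ (Φ y)) =ᶠ[𝓝 (v, z')] fun y => (c⁻¹) ^ n * κ y := by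
      filter_upwards [hO.mem_nhds hz'0] with y hy
      exact hh y.1 y.2 c hpos hy
    exact (h1.congr_of_eventuallyEq h3.symm).unique h2
  have hcn : 0 ≤ (c⁻¹) ^ n := by positivity
  refine ⟨?_, fun w => ?_, fun e => ?_⟩
  · have h1 : κ (v, z) = (c⁻¹) ^ n * κ (v, z') := by
      conv_lhs => rw [hzz]
      exact hh v z' c hpos hz'0
    rw [h1, abs_mul, abs_of_nonneg hcn, mul_comm]
    gcongr
    exact (hC₀ _ hmem).trans hCC₀
  · have h1 : fderiv ℝ κ (v, z) (w, 0) = (c⁻¹) ^ n * fderiv ℝ κ (v, z') (w, 0) := by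
      have := DFunLike.congr_fun hder (w, 0)
      simpa [ContinuousLinearMap.comp_apply, hΦ] using this
    rw [h1, abs_mul, abs_of_nonneg hcn]
    have h2 : |fderiv ℝ κ (v, z') (w, 0)| ≤ C * ‖w‖ := by
      calc |fderiv ℝ κ (v, z') (w, 0)| ≤ ‖fderiv ℝ κ (v, z')‖ * ‖((w, 0) : E3 × E3)‖ :=
            (fderiv ℝ κ (v, z')).le_opNorm _
        _ ≤ C * ‖w‖ := by
            have : ‖((w, 0) : E3 × E3)‖ = ‖w‖ := by simp [Prod.norm_def]
            rw [this]
            gcongr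
            exact (hC₁ _ hmem).trans hCC₁
    calc (c⁻¹) ^ n * |fderiv ℝ κ (v, z') (w, 0)| ≤ (c⁻¹) ^ n * (C * ‖w‖) := by (clear * - z hz h2; gcongr)
      _ = _ := by ring
  · have h1 : fderiv ℝ κ (v, z) (0, e) = (c⁻¹) ^ (n + 1) * fderiv ℝ κ (v, z') (0, e) := by
      have h3 := DFunLike.congr_fun hder (0, c⁻¹ • e)
      simp only [ContinuousLinearMap.comp_apply, hΦ, smul_apply, smul_eq_mul] at h3
      rw [smul_smul, mul_inv_cancel₀ hpos.ne', one_smul] at h3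
      rw [h3]
      have h4 : ((0, c⁻¹ • e) : E3 × E3) = c⁻¹ • (0, e) := by simp
      rw [h4, map_smul, smul_eq_mul]
      ring
    rw [h1, abs_mul, abs_of_nonneg (by positivity)]
    have h2 : |fderiv ℝ κ (v, z') (0, e)| ≤ C * ‖e‖ := by
      calc |fderiv ℝ κ (v, z') (0, e)| ≤ ‖fderiv ℝ κ (v, z')‖ * ‖((0, e) : E3 × E3)‖ :=
            (fderiv ℝ κ (v, z')).le_opNorm _
        _ ≤ C * ‖e‖ := by
            have : ‖((0, e) : E3 × E3)‖ = ‖e‖ := by simp [Prod.norm_def]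
            rw [this]
            gcongr
            exact (hC₁ _ hmem).trans hCC₁
    calc (c⁻¹) ^ (n + 1) * |fderiv ℝ κ (v, z') (0, e)| ≤ (c⁻¹) ^ (n + 1) * (C * ‖e‖) := by
          (clear * - z hz h2; gcongr)
      _ = _ := by ring

end Vale.Agent.P107.LE
end
end
end
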