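import Mathlib
import Vale.Agent.P107.Bdl.B3
import Vale.Agent.P107.LE.Datum

set_option linter.all false

section

section

attribute [-instance] ProperSMul.toContinuousSMul IsTopologicalTorsor.toContinuousSMul
  IdemSemiring.toCanonicallyOrderedAdd IdemSemiring.toMulLeftMono IdemSemiring.toMulRightMono
  AddQuantale.instAddLeftMono AddQuantale.instAddRightMono Quantale.instMulLeftMono
  Quantale.instMulRightMono FiniteDimensional.rclike_to_real IsScalarTower.complexToReal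
  FiniteDimensional.complexToReal

section

/-!
Vector algebra for the kernel bounds, the bound for `Psi`, and the decomposition of `Theta`.
-/

open MeasureTheory Set Filter Topology
open scoped RealInnerProductSpace ENNReal NNReal

namespace Vale.Agent.P107

/-! ### Basic vector algebra -/

theorem kb_inner_Aw {w a : E3} (hw : ‖w‖ = 1) : ⟪w + a, w⟫ = al w a := by
  unfold al
  rw [inner_add_left, real_inner_self_eq_norm_sq, hw]
  norm_num

theorem kb_sq_A {w a : E3} (hw : ‖w‖ = 1) : ‖w + a‖ ^ 2 = 2 * al w a - (1 - ‖a‖ ^ 2) := by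
  unfold al
  rw [norm_add_sq_real, hw, real_inner_comm]
  ring

theorem kb_inner_AB {w a b : E3} (hw : ‖w‖ = 1) :
    ⟪w + b, w + a⟫ = al w a + al w b - (1 - ⟪a, b⟫) := by
  unfold al
  rw [inner_add_left, inner_add_right, inner_add_right, real_inner_self_eq_norm_sq, hw,
    real_inner_comm a w, real_inner_comm a b]
  ring

theorem kb_abs_inner_le {w a : E3} (hw : ‖w‖ = 1) (ha : ‖a‖ < 1) : |⟪a, w⟫| < 1 := by
  have := abs_real_inner_le_norm a w
  rw [hw, mul_one] at this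
  exact this.trans_lt ha

theorem kb_al_pos {w a : E3} (hw : ‖w‖ = 1) (ha : ‖a‖ < 1) : 0 < al w a := by
  have := (abs_lt.mp (kb_abs_inner_le hw ha)).1
  unfold al
  linarith

theorem kb_al_lt {w a : E3} (hw : ‖w‖ = 1) (ha : ‖a‖ < 1) : al w a < 2 := by
  have := (abs_lt.mp (kb_abs_inner_le hw ha)).2
  unfold al
  linarith only [this]

theorem kb_sqrt_lt {w a : E3} (hw : ‖w‖ = 1) (ha : ‖a‖ < 1) : √(al w a) < 3 / 2 := by
  rw [Real.sqrt_lt' (by norm_num)]
  have := kb_al_lt hw ha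
  linarith only [this]

theorem kb_s_nonneg {a : E3} (ha : ‖a‖ < 1) : 0 ≤ 1 - ‖a‖ ^ 2 := by
  have := norm_nonneg a
  nlinarith only [ha, this]

theorem kb_s_le {w a : E3} (hw : ‖w‖ = 1) : 1 - ‖a‖ ^ 2 ≤ 2 * al w a := by
  have h1 := kb_sq_A (a := a) hw
  have h2 := sq_nonneg ‖w + a‖
  linarith only [h1, h2]

theorem kb_norm_A_le {w a : E3} (hw : ‖w‖ = 1) (ha : ‖a‖ < 1) :
    ‖w + a‖ ≤ 3 / 2 * √(al w a) := by
  have h0 := kb_al_pos hw ha
  have hs := Real.sq_sqrt h0.le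
  apply le_of_sq_le_sq _ (by positivity)
  rw [mul_pow, hs, kb_sq_A hw]
  have := kb_s_nonneg ha
  linarith only [h0, this]

theorem kb_norm_A_le_two {w a : E3} (hw : ‖w‖ = 1) (ha : ‖a‖ < 1) : ‖w + a‖ ≤ 2 := by
  have := norm_add_le w a
  rw [hw] at this
  linarith only [ha, this]

theorem kb_G_le {w a b : E3} (hw : ‖w‖ = 1) (ha : ‖a‖ < 1) (hb : ‖b‖ < 1) :
    |⟪w + b, w + a⟫| ≤ 9 / 4 * (√(al w a) * √(al w b)) := by
  have h1 := abs_real_inner_le_norm (w + b) (w + a)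
  have h2 := kb_norm_A_le hw ha
  have h3 := kb_norm_A_le hw hb
  have h4 : ‖w + b‖ * ‖w + a‖ ≤ (3 / 2 * √(al w b)) * (3 / 2 * √(al w a)) :=
    mul_le_mul h3 h2 (norm_nonneg _) (by positivity)
  calc _ ≤ _ := h1
    _ ≤ _ := h4
    _ = _ := by ring

theorem kb_kap_pos {a b : E3} (ha : ‖a‖ < 1) (hb : ‖b‖ < 1) : 0 < 1 - ⟪a, b⟫ := by
  have h1 := (abs_le.mp (abs_real_inner_le_norm a b)).2
  have h2 : ‖a‖ * ‖b‖ < 1 := by nlinarith only [ha, hb, norm_nonneg b]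
  linarith only [h1, h2]

theorem kb_kap_le {w a b : E3} (hw : ‖w‖ = 1) (ha : ‖a‖ < 1) (hb : ‖b‖ < 1) :
    1 - ⟪a, b⟫ ≤ 9 / 8 * (√(al w a) + √(al w b)) ^ 2 := by
  have h1 := kb_inner_AB (a := a) (b := b) hw
  have h2 := (abs_le.mp (kb_G_le hw ha hb)).1
  have h3 := Real.sq_sqrt (kb_al_pos hw ha).le
  have h4 := Real.sq_sqrt (kb_al_pos hw hb).le
  nlinarith only [h1, h2, h3, h4]

theorem kb_sqrt_kap_le {w a b : E3} (hw : ‖w‖ = 1) (ha : ‖a‖ < 1) (hb : ‖b‖ < 1) :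
    √(1 - ⟪a, b⟫) ≤ 9 / 8 * (√(al w a) + √(al w b)) := by
  rw [Real.sqrt_le_left (by (clear * -; positivity))]
  have h1 := kb_kap_le (b := b) hw ha hb
  nlinarith only [h1]

/-! ### Changing the test velocity -/

theorem kb_inner_d {b c : E3} {e : ℝ} (hb : ‖b‖ < 1) (hc : ‖c‖ < 1) (hbc : ‖b - c‖ ≤ e)
    (hb2 : 1 - ‖b‖ ^ 2 ≤ e ^ 2) (hc2 : 1 - ‖c‖ ^ 2 ≤ e ^ 2) :
    |⟪b - c, b⟫| ≤ e ^ 2 ∧ |⟪b - c, c⟫| ≤ e ^ 2 := by
  have h1 : ⟪b - c, b⟫ = (‖b‖ ^ 2 - ‖c‖ ^ 2 + ‖b - c‖ ^ 2) / 2 := by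
    rw [norm_sub_sq_real, inner_sub_left, real_inner_self_eq_norm_sq, real_inner_comm]
    ring
  have h2 : ⟪b - c, c⟫ = (‖b‖ ^ 2 - ‖c‖ ^ 2 - ‖b - c‖ ^ 2) / 2 := by
    rw [norm_sub_sq_real, inner_sub_left, real_inner_self_eq_norm_sq]
    ring
  have h3 : ‖b - c‖ ^ 2 ≤ e ^ 2 := pow_le_pow_left₀ (norm_nonneg _) hbc 2
  have h4 := sq_nonneg ‖b - c‖
  have h5 := kb_s_nonneg hb
  have h6 := kb_s_nonneg hc
  rw [h1, h2, abs_le, abs_le]
  refine ⟨⟨?_, ?_⟩, ?_, ?_⟩ <;> linarith only [hb2, h3, h4, h6, hc2, h5]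

theorem kb_inner_dw {w b c : E3} {e : ℝ} (hw : ‖w‖ = 1) (hb : ‖b‖ < 1) (hc : ‖c‖ < 1)
    (hbc : ‖b - c‖ ≤ e) (hb2 : 1 - ‖b‖ ^ 2 ≤ e ^ 2) (hc2 : 1 - ‖c‖ ^ 2 ≤ e ^ 2) :
    |⟪b - c, w⟫| ≤ 3 / 2 * (e * √(al w b)) + e ^ 2 ∧
      |⟪b - c, w⟫| ≤ 3 / 2 * (e * √(al w c)) + e ^ 2 := by
  obtain ⟨h1, h2⟩ := kb_inner_d hb hc hbc hb2 hc2
  have key : ∀ p : E3, ‖p‖ < 1 → |⟪b - c, p⟫| ≤ e ^ 2 →
      |⟪b - c, w⟫| ≤ 3 / 2 * (e * √(al w p)) + e ^ 2 := by
    intro p hp hp2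
    have h3 : ⟪b - c, w⟫ = ⟪b - c, w + p⟫ - ⟪b - c, p⟫ := by
      rw [inner_add_right]; ring
    have h4 : |⟪b - c, w + p⟫| ≤ e * (3 / 2 * √(al w p)) :=
      (abs_real_inner_le_norm _ _).trans
        (mul_le_mul hbc (kb_norm_A_le hw hp) (norm_nonneg _) ((norm_nonneg _).trans hbc))
    rw [h3]
    calc _ ≤ |⟪b - c, w + p⟫| + |⟪b - c, p⟫| := abs_sub _ _
      _ ≤ e * (3 / 2 * √(al w p)) + e ^ 2 := add_le_add h4 hp2
      _ = _ := by ring
  exact ⟨key b hb h1, key c hc h2⟩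

theorem kb_al_sub {w b c : E3} : al w b - al w c = ⟪b - c, w⟫ := by
  unfold al
  rw [inner_sub_left]
  ring

theorem kb_al_le {w b c : E3} {e : ℝ} (hw : ‖w‖ = 1) (hb : ‖b‖ < 1) (hc : ‖c‖ < 1)
    (hbc : ‖b - c‖ ≤ e) (hb2 : 1 - ‖b‖ ^ 2 ≤ e ^ 2) (hc2 : 1 - ‖c‖ ^ 2 ≤ e ^ 2) :
    al w c ≤ 7 / 4 * (al w b + e ^ 2) ∧ al w b ≤ 7 / 4 * (al w c + e ^ 2) := by
  obtain ⟨h1, h2⟩ := kb_inner_dw hw hb hc hbc hb2 hc2
  have h3 := kb_al_sub (w := w) (b := b) (c := c)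
  have h4 := Real.sq_sqrt (kb_al_pos hw hb).le
  have h5 := Real.sq_sqrt (kb_al_pos hw hc).le
  rw [← h3] at h1 h2
  have h6 := (abs_le.mp h1).1
  have h7 := (abs_le.mp h2).2
  constructor
  · nlinarith only [h4, h6, sq_nonneg (e - √(al w b))]
  · nlinarith only [h5, h7, sq_nonneg (e - √(al w c))]

theorem kb_D_pos {ε e : ℝ} {w a b : E3} (hε : 0 < ε) (hw : ‖w‖ = 1) (ha : ‖a‖ < 1)
    (hb : ‖b‖ < 1) : 0 < Dn ε e w a b := by
  unfold Dn
  have h1 := kb_al_pos hw ha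
  have h2 := kb_al_pos hw hb
  (clear * - hε h1 h2; positivity)

theorem kb_D_le {ε e : ℝ} {w a b c : E3} (hε : 0 < ε) (hw : ‖w‖ = 1) (ha : ‖a‖ < 1)
    (hb : ‖b‖ < 1) (hc : ‖c‖ < 1)
    (hbc : ‖b - c‖ ≤ e) (hb2 : 1 - ‖b‖ ^ 2 ≤ e ^ 2) (hc2 : 1 - ‖c‖ ^ 2 ≤ e ^ 2) :
    Dn ε e w a b ≤ 11 / 4 * Dn ε e w a c := by
  unfold Dn
  have h1 := (kb_al_le hw hb hc hbc hb2 hc2).2
  have h2 := kb_al_pos hw ha
  have h3 : al w b + e ^ 2 ≤ 11 / 4 * (al w c + e ^ 2) := by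
    nlinarith only [h1, kb_al_pos hw hc]
  have h4 := mul_le_mul_of_nonneg_left h3 hε.le
  linarith only [h2, h4]

theorem kb_sqrt_c_le {w b c : E3} {e : ℝ} (he : 0 < e) (hw : ‖w‖ = 1) (hb : ‖b‖ < 1)
    (hc : ‖c‖ < 1) (hbc : ‖b - c‖ ≤ e) (hb2 : 1 - ‖b‖ ^ 2 ≤ e ^ 2)
    (hc2 : 1 - ‖c‖ ^ 2 ≤ e ^ 2) : √(al w c) ≤ 4 / 3 * (√(al w b) + e) := by
  rw [Real.sqrt_le_left (by positivity)]
  have h1 := (kb_al_le hw hb hc hbc hb2 hc2).1
  have h4 := Real.sq_sqrt (kb_al_pos hw hb).le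
  have h5 : 0 ≤ √(al w b) * e := by positivity
  nlinarith only [h1, h4, h5]

theorem kb_norm_khat_le {w a c : E3} (hw : ‖w‖ = 1) (ha : ‖a‖ < 1) (hc : ‖c‖ < 1) :
    ‖khat w a c‖ ≤ 9 / 2 * (√(al w a) * √(al w c)) := by
  unfold khat
  have h1 := kb_al_pos hw hc
  have h2 := kb_norm_A_le hw ha
  have h3 := kb_G_le hw ha hc
  have h4 := kb_sqrt_lt hw hc
  have h5 := Real.sq_sqrt h1.le
  have hx : 0 ≤ √(al w a) := Real.sqrt_nonneg _
  have hz : 0 ≤ √(al w c) := Real.sqrt_nonneg _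
  calc ‖al w c • (w + a) - ⟪w + c, w + a⟫ • w‖ ≤ ‖al w c • (w + a)‖ + ‖⟪w + c, w + a⟫ • w‖ :=
        norm_sub_le _ _
    _ = al w c * ‖w + a‖ + |⟪w + c, w + a⟫| := by
        rw [norm_smul, norm_smul, hw, mul_one, Real.norm_eq_abs, Real.norm_eq_abs, abs_of_pos h1]
    _ ≤ al w c * (3 / 2 * √(al w a)) + 9 / 4 * (√(al w a) * √(al w c)) := by (clear * - h1 h2 h3; gcongr)
    _ = √(al w c) ^ 2 * (3 / 2 * √(al w a)) + 9 / 4 * (√(al w a) * √(al w c)) := by rw [h5]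
    _ ≤ _ := by nlinarith only [h4, mul_nonneg hx hz]

theorem kb_khat_sub {w a b c : E3} :
    khat w a b - khat w a c = ⟪b - c, w⟫ • (w + a) - ⟪b - c, w + a⟫ • w := by
  unfold khat al
  rw [inner_add_left w b, inner_add_left w c, inner_sub_left b c w, inner_sub_left b c (w + a)]
  module

theorem kb_norm_khat_sub {w a b c : E3} {e : ℝ} (hw : ‖w‖ = 1) (ha : ‖a‖ < 1)
    (hbc : ‖b - c‖ ≤ e) : ‖khat w a b - khat w a c‖ ≤ 3 * (e * √(al w a)) := by
  rw [kb_khat_sub]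
  have h1 : |⟪b - c, w⟫| ≤ e := by
    have := abs_real_inner_le_norm (b - c) w
    rw [hw, mul_one] at this
    exact this.trans hbc
  have he : 0 ≤ e := (norm_nonneg _).trans hbc
  have h2 : |⟪b - c, w + a⟫| ≤ e * ‖w + a‖ :=
    (abs_real_inner_le_norm _ _).trans (mul_le_mul_of_nonneg_right hbc (norm_nonneg _))
  calc _ ≤ ‖⟪b - c, w⟫ • (w + a)‖ + ‖⟪b - c, w + a⟫ • w‖ := norm_sub_le _ _
    _ = |⟪b - c, w⟫| * ‖w + a‖ + |⟪b - c, w + a⟫| := by
        rw [norm_smul, norm_smul, hw, mul_one, Real.norm_eq_abs, Real.norm_eq_abs]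
    _ ≤ e * ‖w + a‖ + e * ‖w + a‖ := by (clear * - h1 h2; gcongr)
    _ = 2 * (e * ‖w + a‖) := by ring
    _ ≤ 2 * (e * (3 / 2 * √(al w a))) := by
        gcongr
        exact kb_norm_A_le hw ha
    _ = _ := by ring

/-! ### The bound for `Psi` -/

theorem kb_D_ge {ε e : ℝ} {w a b : E3} (hε : 0 < ε) (hw : ‖w‖ = 1) (ha : ‖a‖ < 1)
    (hb : ‖b‖ < 1) : Dn ε e w a b = √(al w a) ^ 2 + √ε ^ 2 * (√(al w b) ^ 2 + e ^ 2) := by
  unfold Dn
  rw [Real.sq_sqrt (kb_al_pos hw ha).le, Real.sq_sqrt (kb_al_pos hw hb).le, Real.sq_sqrt hε.le]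

/-- The scalar inequality behind the bound for `Psi`. -/
theorem kb_psi_scalar {x y σ e : ℝ} (hx : 0 < x) (hy : 0 < y) (hσ : 0 < σ) (he : 0 < e) :
    11 / 4 * ((x ^ 2 + σ ^ 2 * (3 / 2 * (e * y) + 2 * e ^ 2)) * (9 / 2 * (x * y)) +
      σ ^ 2 * y ^ 2 * (3 * (e * x))) ≤
      x ^ 2 * (8 * σ⁻¹ + 47 * (e / x)) * (x ^ 2 + σ ^ 2 * (y ^ 2 + e ^ 2)) := by
  have e1 : x ^ 2 * (8 * σ⁻¹ + 47 * (e / x)) * (x ^ 2 + σ ^ 2 * (y ^ 2 + e ^ 2)) =
      8 * (x ^ 2 * ((x ^ 2 + σ ^ 2 * (y ^ 2 + e ^ 2)) / σ)) +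
        47 * (e * x * (x ^ 2 + σ ^ 2 * (y ^ 2 + e ^ 2))) := by
    field_simp
  rw [e1]
  have h1 : 2 * (x * y) ≤ (x ^ 2 + σ ^ 2 * (y ^ 2 + e ^ 2)) / σ := by
    rw [le_div_iff₀ hσ]
    nlinarith only [sq_nonneg (x - σ * y)]
  have h2 : x ^ 2 * (2 * (x * y)) ≤ x ^ 2 * ((x ^ 2 + σ ^ 2 * (y ^ 2 + e ^ 2)) / σ) :=
    mul_le_mul_of_nonneg_left h1 (sq_nonneg x)
  have h3 : 0 ≤ e * x * x ^ 2 := by positivity
  have h4 : 0 ≤ σ ^ 2 * (e * x) * (y - e) ^ 2 := by (clear * - hx hσ he; positivity)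
  have h5 : 0 ≤ x ^ 3 * y := by positivity
  have h6 : 0 ≤ σ ^ 2 * (e * x) * e ^ 2 := by positivity
  have h7 : 0 ≤ σ ^ 2 * (e * x) * y ^ 2 := by positivity
  nlinarith only [h2, h3, h5, h6, h7]

theorem kb_norm_Psi {ε e : ℝ} {w a b c : E3} (hε : 0 < ε) (he : 0 < e) (hw : ‖w‖ = 1)
    (ha : ‖a‖ < 1) (hb : ‖b‖ < 1) (hc : ‖c‖ < 1) (hbc : ‖b - c‖ ≤ e)
    (hb2 : 1 - ‖b‖ ^ 2 ≤ e ^ 2) (hc2 : 1 - ‖c‖ ^ 2 ≤ e ^ 2) :
    ‖Psi ε e w a b c‖ ≤ 8 * (√ε)⁻¹ + 47 * (e / √(al w a)) := by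
  have hα := kb_al_pos hw ha
  have hα0 := kb_al_pos hw hb
  have hx : 0 < √(al w a) := Real.sqrt_pos.mpr hα
  have hy : 0 < √(al w b) := Real.sqrt_pos.mpr hα0
  have hσ : 0 < √ε := Real.sqrt_pos.mpr hε
  have hx2 := Real.sq_sqrt hα.le
  have hy2 := Real.sq_sqrt hα0.le
  have hσ2 := Real.sq_sqrt hε.le
  have hDc : 0 < Dn ε e w a c := kb_D_pos hε hw ha hc
  have hDb : 0 < Dn ε e w a b := kb_D_pos hε hw ha hb
  have hD := kb_D_le (a := a) hε hw ha hb hc hbc hb2 hc2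
  -- decomposition
  have h1 : al w a • Psi ε e w a b c = (1 - al w b * (ε / Dn ε e w a c)) • khat w a b +
      (al w b * (ε / Dn ε e w a c)) • (khat w a b - khat w a c) := by
    unfold Psi ck
    rw [smul_smul, mul_inv_cancel₀ hα.ne', one_smul]
    module
  have h2 : al w a * ‖Psi ε e w a b c‖ ≤ |1 - al w b * (ε / Dn ε e w a c)| * ‖khat w a b‖ +
      al w b * (ε / Dn ε e w a c) * ‖khat w a b - khat w a c‖ := by
    have h3 : ‖al w a • Psi ε e w a b c‖ = al w a * ‖Psi ε e w a b c‖ := by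
      rw [norm_smul, Real.norm_eq_abs, abs_of_pos hα]
    rw [← h3, h1]
    refine (norm_add_le _ _).trans (le_of_eq ?_)
    rw [norm_smul, norm_smul, Real.norm_eq_abs, Real.norm_eq_abs,
      abs_of_pos (show 0 < al w b * (ε / Dn ε e w a c) by (clear * - hε hα0 hDc; positivity))]
  have h4 : 1 - al w b * (ε / Dn ε e w a c) =
      (al w a + ε * (al w c - al w b + e ^ 2)) / Dn ε e w a c := by
    rw [eq_div_iff hDc.ne', sub_mul, mul_assoc, div_mul_cancel₀ _ hDc.ne', Dn]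
    ring
  have h5 : |al w a + ε * (al w c - al w b + e ^ 2)| ≤
      √(al w a) ^ 2 + √ε ^ 2 * (3 / 2 * (e * √(al w b)) + 2 * e ^ 2) := by
    have h6 := (kb_inner_dw hw hb hc hbc hb2 hc2).1
    rw [← kb_al_sub, abs_sub_comm] at h6
    rw [hx2, hσ2]
    have h7 : |al w c - al w b + e ^ 2| ≤ 3 / 2 * (e * √(al w b)) + 2 * e ^ 2 := by
      refine (abs_add_le _ _).trans ?_
      rw [abs_of_nonneg (sq_nonneg e)]
      linarith only [h6]
    calc _ ≤ |al w a| + |ε * (al w c - al w b + e ^ 2)| := abs_add_le _ _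
      _ = al w a + ε * |al w c - al w b + e ^ 2| := by
        rw [abs_of_pos hα, abs_mul, abs_of_pos hε]
      _ ≤ _ := by (clear * - hε h7; gcongr)
  have h8 := kb_norm_khat_le (c := b) hw ha hb
  have h9 := kb_norm_khat_sub (a := a) hw ha hbc
  have h10 : al w a * ‖Psi ε e w a b c‖ * Dn ε e w a c ≤
      (√(al w a) ^ 2 + √ε ^ 2 * (3 / 2 * (e * √(al w b)) + 2 * e ^ 2)) *
        (9 / 2 * (√(al w a) * √(al w b))) +
      √ε ^ 2 * √(al w b) ^ 2 * (3 * (e * √(al w a))) := by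
    have h11 : (|1 - al w b * (ε / Dn ε e w a c)| * ‖khat w a b‖ +
      al w b * (ε / Dn ε e w a c) * ‖khat w a b - khat w a c‖) * Dn ε e w a c =
      |al w a + ε * (al w c - al w b + e ^ 2)| * ‖khat w a b‖ +
        ε * al w b * ‖khat w a b - khat w a c‖ := by
      rw [h4, abs_div, abs_of_pos hDc]
      (clear * - hDc; field_simp)
    calc _ ≤ _ := mul_le_mul_of_nonneg_right h2 hDc.le
      _ = _ := h11
      _ ≤ _ := by
        rw [hσ2, hy2] at *
        (clear * - hε he hα hα0 h5 h8 h9; gcongr)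
  have h12 : al w a * ‖Psi ε e w a b c‖ * Dn ε e w a b ≤
      √(al w a) ^ 2 * (8 * (√ε)⁻¹ + 47 * (e / √(al w a))) *
        (√(al w a) ^ 2 + √ε ^ 2 * (√(al w b) ^ 2 + e ^ 2)) := by
    refine le_trans ?_ (kb_psi_scalar hx hy hσ he)
    have h13 : 0 ≤ al w a * ‖Psi ε e w a b c‖ := by (clear * - hα; positivity)
    calc al w a * ‖Psi ε e w a b c‖ * Dn ε e w a b ≤
          al w a * ‖Psi ε e w a b c‖ * (11 / 4 * Dn ε e w a c) :=
          mul_le_mul_of_nonneg_left hD h13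
      _ = 11 / 4 * (al w a * ‖Psi ε e w a b c‖ * Dn ε e w a c) := by ring
      _ ≤ _ := by linarith only [h10]
  rw [← kb_D_ge hε hw ha hb, hx2] at h12
  have h14 := le_of_mul_le_mul_right h12 hDb
  exact le_of_mul_le_mul_left h14 hα

/-! ### The transverse vector -/

theorem kb_yp_w {w a b : E3} (hw : ‖w‖ = 1) (ha : ‖a‖ < 1) : ⟪yperp w a b, w⟫ = 0 := by
  have hα := kb_al_pos hw ha
  unfold yperp
  rw [inner_sub_left, real_inner_smul_left, kb_inner_Aw hw, kb_inner_Aw hw]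
  field_simp
  ring

theorem kb_A_yp {w a b : E3} (hw : ‖w‖ = 1) (ha : ‖a‖ < 1) :
    ⟪w + a, yperp w a b⟫ =
      ⟪w + b, w + a⟫ - 2 * al w b + al w b * (1 - ‖a‖ ^ 2) / al w a := by
  have hα := kb_al_pos hw ha
  unfold yperp
  rw [inner_sub_right, real_inner_smul_right, real_inner_self_eq_norm_sq, kb_sq_A hw,
    real_inner_comm (w + a)]
  field_simp
  ring

theorem kb_B_yp {w a b : E3} (hw : ‖w‖ = 1) :
    ⟪w + b, yperp w a b⟫ =
      2 * al w b - (1 - ‖b‖ ^ 2) - al w b / al w a * ⟪w + b, w + a⟫ := by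
  unfold yperp
  rw [inner_sub_right, real_inner_smul_right, real_inner_self_eq_norm_sq, kb_sq_A hw]

theorem kb_sq_yp {w a b : E3} (hw : ‖w‖ = 1) (ha : ‖a‖ < 1) :
    ‖yperp w a b‖ ^ 2 = 2 * al w b * (1 - ⟪a, b⟫) / al w a - (1 - ‖b‖ ^ 2) -
      al w b ^ 2 * (1 - ‖a‖ ^ 2) / al w a ^ 2 := by
  have hα := kb_al_pos hw ha
  have h1 := kb_inner_AB (a := a) (b := b) hw
  rw [← real_inner_self_eq_norm_sq]
  conv_lhs => unfold yperp
  rw [inner_sub_left, real_inner_smul_left, ← yperp, kb_A_yp hw ha, kb_B_yp hw, h1]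
  field_simp
  ring

theorem kb_norm_yp {w a b : E3} (hw : ‖w‖ = 1) (ha : ‖a‖ < 1) (hb : ‖b‖ < 1) :
    ‖yperp w a b‖ * √(al w a) ≤ 3 / 2 * (√(al w b) * √(1 - ⟪a, b⟫)) := by
  have hα := kb_al_pos hw ha
  have hα0 := kb_al_pos hw hb
  have hκ := kb_kap_pos ha hb
  apply le_of_sq_le_sq _ (by (clear * - hα0 hκ; positivity))
  rw [mul_pow, mul_pow, mul_pow, Real.sq_sqrt hα.le, Real.sq_sqrt hα0.le, Real.sq_sqrt hκ.le,
    kb_sq_yp hw ha]
  have h1 := kb_s_nonneg hb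
  have h2 := kb_s_nonneg ha
  have h3 : 0 ≤ al w b ^ 2 * (1 - ‖a‖ ^ 2) / al w a ^ 2 := by (clear * - hα hα0 h2; positivity)
  have h4 : (2 * al w b * (1 - ⟪a, b⟫) / al w a - (1 - ‖b‖ ^ 2) -
      al w b ^ 2 * (1 - ‖a‖ ^ 2) / al w a ^ 2) * al w a ≤
      (2 * al w b * (1 - ⟪a, b⟫) / al w a) * al w a := by
    apply mul_le_mul_of_nonneg_right _ hα.le
    linarith only [h1, h3]
  rw [div_mul_cancel₀ _ hα.ne'] at h4
  have h5 : 0 < al w b * (1 - ⟪a, b⟫) := by positivity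
  linarith only [h4, h5]

theorem kb_norm_yp' {w a b : E3} (hw : ‖w‖ = 1) (ha : ‖a‖ < 1) (hb : ‖b‖ < 1) :
    ‖yperp w a b‖ * √(al w a) ≤ 2 * (√(al w b) * (√(al w a) + √(al w b))) := by
  have h1 := kb_norm_yp hw ha hb
  have h2 := kb_sqrt_kap_le (b := b) hw ha hb
  have hy := Real.sqrt_nonneg (al w b)
  have hx := Real.sqrt_nonneg (al w a)
  have h3 := mul_le_mul_of_nonneg_left h2 hy
  have h4 : 0 ≤ √(al w b) * (√(al w a) + √(al w b)) := by (clear * -; positivity)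
  nlinarith only [h1, h3, h4]

/-! ### The main identity -/

theorem kb_M {w a b : E3} (hw : ‖w‖ = 1) (ha : ‖a‖ < 1) :
    dkhat w a b (yperp w a b) + ((1 - ⟪a, b⟫) / al w a) • khat w a b =
      (3 * al w b - (1 - ‖b‖ ^ 2) - al w b * ⟪w + b, w + a⟫ / al w a) • (w + a) +
      (al w b - ⟪w + b, w + a⟫) • (w + b) +
      (-2 * ⟪w + b, w + a⟫ - al w b * (1 - ‖a‖ ^ 2) / al w a + (1 - ‖b‖ ^ 2) +
        ⟪w + b, w + a⟫ ^ 2 / al w a) • w := by
  have hα := kb_al_pos hw ha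
  have h1 : ⟪b, yperp w a b⟫ =
      2 * al w b - (1 - ‖b‖ ^ 2) - al w b / al w a * ⟪w + b, w + a⟫ := by
    rw [← kb_B_yp hw, inner_add_left, real_inner_comm (yperp w a b) w, kb_yp_w hw ha, zero_add]
  have h2 : 1 - ⟪a, b⟫ = al w a + al w b - ⟪w + b, w + a⟫ := by
    rw [kb_inner_AB hw]; ring
  unfold dkhat khat
  rw [h1, real_inner_comm (w + a) (yperp w a b), kb_A_yp hw ha, kb_B_yp hw, h2]
  set g := ⟪w + b, w + a⟫ with hg
  unfold yperp
  match_scalars <;> field_simp <;> ring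

/-- The scalar inequality behind the bound of the main identity. -/
theorem kb_M_scalar {x y A B g β s : ℝ} (hx : 0 < x) (hy : 0 < y) (hy2 : y ≤ 3 / 2)
    (hA0 : 0 ≤ A) (hA : A ≤ 3 / 2 * x) (hB0 : 0 ≤ B) (hB : B ≤ 3 / 2 * y)
    (hg : |g| ≤ 9 / 4 * (x * y)) (hβ : 0 ≤ β) (hβ2 : β ≤ 2 * y ^ 2) (hs : 0 ≤ s)
    (hs2 : s ≤ 2 * x ^ 2) :
    |3 * y ^ 2 - β - y ^ 2 * g / x ^ 2| * A + |y ^ 2 - g| * B +
      |-2 * g - y ^ 2 * s / x ^ 2 + β + g ^ 2 / x ^ 2| ≤ 17 * (y * (x + y)) := by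
  have h1 : |y ^ 2 * g / x ^ 2| ≤ 9 / 4 * (y ^ 3 / x) := by
    rw [abs_div, abs_mul, abs_of_nonneg (sq_nonneg y), abs_of_nonneg (sq_nonneg x),
      div_le_iff₀ (by positivity)]
    have : 9 / 4 * (y ^ 3 / x) * x ^ 2 = y ^ 2 * (9 / 4 * (x * y)) := by
      field_simp
    rw [this]
    exact mul_le_mul_of_nonneg_left hg (sq_nonneg y)
  have h2 : |3 * y ^ 2 - β - y ^ 2 * g / x ^ 2| ≤ 3 * y ^ 2 + 9 / 4 * (y ^ 3 / x) := by
    refine (abs_sub _ _).trans (add_le_add ?_ h1)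
    rw [abs_le]
    constructor <;> nlinarith only [hβ2, hβ]
  have h3 : |3 * y ^ 2 - β - y ^ 2 * g / x ^ 2| * A ≤ 27 / 4 * (x * y) + 81 / 16 * y ^ 2 := by
    calc _ ≤ (3 * y ^ 2 + 9 / 4 * (y ^ 3 / x)) * (3 / 2 * x) := by (clear * - hx hy hA0 hA h2; gcongr)
      _ = 9 / 2 * (x * y) * y + 27 / 8 * y ^ 2 * y := by field_simp; ring
      _ ≤ 9 / 2 * (x * y) * (3 / 2) + 27 / 8 * y ^ 2 * (3 / 2) := by (clear * - hx hy hy2; gcongr)
      _ = _ := by ring
  have h4 : |y ^ 2 - g| * B ≤ 9 / 4 * y ^ 2 + 81 / 16 * (x * y) := by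
    have h5 : |y ^ 2 - g| ≤ y ^ 2 + 9 / 4 * (x * y) := by
      refine (abs_sub _ _).trans (add_le_add ?_ hg)
      rw [abs_of_nonneg (sq_nonneg y)]
    have h6 : B ≤ 9 / 4 := by linarith only [hy2, hB]
    calc _ ≤ (y ^ 2 + 9 / 4 * (x * y)) * (9 / 4) := by gcongr
      _ = _ := by ring
  have h7 : y ^ 2 * s / x ^ 2 ≤ 2 * y ^ 2 := by
    rw [div_le_iff₀ (by positivity)]
    nlinarith only [mul_le_mul_of_nonneg_left hs2 (sq_nonneg y)]
  have h8 : 0 ≤ y ^ 2 * s / x ^ 2 := by positivity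
  have h9 : g ^ 2 / x ^ 2 ≤ 81 / 16 * y ^ 2 := by
    rw [div_le_iff₀ (by positivity), ← sq_abs g]
    calc |g| ^ 2 ≤ (9 / 4 * (x * y)) ^ 2 := pow_le_pow_left₀ (abs_nonneg _) hg 2
      _ = _ := by ring
  have h10 : 0 ≤ g ^ 2 / x ^ 2 := by positivity
  have h11 : |-2 * g - y ^ 2 * s / x ^ 2 + β + g ^ 2 / x ^ 2| ≤
      9 / 2 * (x * y) + 2 * y ^ 2 + 81 / 16 * y ^ 2 := by
    have h12 := abs_le.mp hg
    rw [abs_le]
    constructor <;> nlinarith only [hβ, h7, h10, h12, hβ2, h8, h9]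
  have h13 : 0 ≤ x * y := by positivity
  have h14 : 0 ≤ y ^ 2 := by positivity
  nlinarith only [h3, h4, h11, h13]

theorem kb_norm_M {w a b : E3} (hw : ‖w‖ = 1) (ha : ‖a‖ < 1) (hb : ‖b‖ < 1) :
    ‖dkhat w a b (yperp w a b) + ((1 - ⟪a, b⟫) / al w a) • khat w a b‖ ≤
      17 * (√(al w b) * (√(al w a) + √(al w b))) := by
  have hα := kb_al_pos hw ha
  have hα0 := kb_al_pos hw hb
  have hx : 0 < √(al w a) := Real.sqrt_pos.mpr hα
  have hy : 0 < √(al w b) := Real.sqrt_pos.mpr hα0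
  have hx2 := Real.sq_sqrt hα.le
  have hy2 := Real.sq_sqrt hα0.le
  rw [kb_M hw ha]
  refine le_trans ?_ (kb_M_scalar hx hy (kb_sqrt_lt hw hb).le (norm_nonneg (w + a))
    (kb_norm_A_le hw ha) (norm_nonneg (w + b)) (kb_norm_A_le hw hb) (kb_G_le hw ha hb)
    (kb_s_nonneg hb) ?_ (kb_s_nonneg ha) ?_)
  · rw [hx2, hy2]
    calc _ ≤ ‖(3 * al w b - (1 - ‖b‖ ^ 2) - al w b * ⟪w + b, w + a⟫ / al w a) • (w + a)‖ +
          ‖(al w b - ⟪w + b, w + a⟫) • (w + b)‖ +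
          ‖(-2 * ⟪w + b, w + a⟫ - al w b * (1 - ‖a‖ ^ 2) / al w a + (1 - ‖b‖ ^ 2) +
            ⟪w + b, w + a⟫ ^ 2 / al w a) • w‖ := norm_add₃_le
      _ = _ := by
        rw [norm_smul, norm_smul, norm_smul, hw, mul_one, Real.norm_eq_abs, Real.norm_eq_abs,
          Real.norm_eq_abs]
  · rw [hy2]; exact kb_s_le hw
  · rw [hx2]; exact kb_s_le hw

theorem kb_dkhat_sub {w a b c y : E3} :
    dkhat w a b y - dkhat w a c y =
      ⟪b - c, y⟫ • (w + a) + ⟪b - c, w⟫ • y - ⟪b - c, y⟫ • w - ⟪b - c, w + a⟫ • y := by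
  unfold dkhat al
  rw [inner_add_left w b, inner_add_left w c, inner_add_left w b, inner_add_left w c,
    inner_sub_left b c w, inner_sub_left b c (w + a), inner_sub_left b c y]
  module

theorem kb_norm_dkhat_sub {w a b c y : E3} {e : ℝ} (hw : ‖w‖ = 1) (ha : ‖a‖ < 1)
    (hbc : ‖b - c‖ ≤ e) : ‖dkhat w a b y - dkhat w a c y‖ ≤ 6 * (e * ‖y‖) := by
  rw [kb_dkhat_sub]
  have he : 0 ≤ e := (norm_nonneg _).trans hbc
  have h0 : ∀ v : E3, |⟪b - c, v⟫| ≤ e * ‖v‖ := fun v =>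
    (abs_real_inner_le_norm _ _).trans (mul_le_mul_of_nonneg_right hbc (norm_nonneg _))
  have h1 := h0 y
  have h2 := h0 w
  have h3 := h0 (w + a)
  have h4 := kb_norm_A_le_two hw ha
  rw [hw, mul_one] at h2
  calc _ ≤ ‖⟪b - c, y⟫ • (w + a)‖ + ‖⟪b - c, w⟫ • y‖ + ‖⟪b - c, y⟫ • w‖ +
        ‖⟪b - c, w + a⟫ • y‖ := by
        refine (norm_sub_le _ _).trans (add_le_add_left ?_ _)
        refine (norm_sub_le _ _).trans (add_le_add_left ?_ _)
        exact norm_add_le _ _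
    _ = |⟪b - c, y⟫| * ‖w + a‖ + |⟪b - c, w⟫| * ‖y‖ + |⟪b - c, y⟫| + |⟪b - c, w + a⟫| * ‖y‖ := by
        rw [norm_smul, norm_smul, norm_smul, norm_smul, hw, mul_one, Real.norm_eq_abs,
          Real.norm_eq_abs, Real.norm_eq_abs]
    _ ≤ (e * ‖y‖) * 2 + e * ‖y‖ + e * ‖y‖ + (e * 2) * ‖y‖ := by
        gcongr
        exact h3.trans (mul_le_mul_of_nonneg_left h4 he)
    _ = _ := by ring

theorem kb_a_yp {w a b : E3} (hw : ‖w‖ = 1) (ha : ‖a‖ < 1) :
    ⟪a, yperp w a b⟫ = ⟪w + a, yperp w a b⟫ := by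
  rw [inner_add_left, real_inner_comm (yperp w a b) w, kb_yp_w hw ha, zero_add]

theorem kb_c_yp {w a b c : E3} (hw : ‖w‖ = 1) (ha : ‖a‖ < 1) :
    ⟪c, yperp w a b⟫ = ⟪w + c, yperp w a b⟫ := by
  rw [inner_add_left, real_inner_comm (yperp w a b) w, kb_yp_w hw ha, zero_add]

theorem kb_inner_yp {ε e : ℝ} {w a b c : E3} (hε : 0 < ε) (hw : ‖w‖ = 1)
    (ha : ‖a‖ < 1) (hb : ‖b‖ < 1) (hbc : ‖b - c‖ ≤ e) :
    |⟪a, yperp w a b⟫ + ε * ⟪c, yperp w a b⟫| * √(al w a) ≤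
      9 / 4 * (√(al w b) * (√(al w a) + √(al w b)) * (√(al w a) + ε * (√(al w b) + e))) := by
  have hα := kb_al_pos hw ha
  have hα0 := kb_al_pos hw hb
  have hx : 0 < √(al w a) := Real.sqrt_pos.mpr hα
  have hy : 0 < √(al w b) := Real.sqrt_pos.mpr hα0
  have hx2 := Real.sq_sqrt hα.le
  have hy2 := Real.sq_sqrt hα0.le
  have he : 0 ≤ e := (norm_nonneg _).trans hbc
  set x := √(al w a) with hxd
  set y := √(al w b) with hyd
  have hG := kb_G_le (b := b) hw ha hb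
  rw [← hxd, ← hyd] at hG
  have hs := kb_s_nonneg ha
  have hs2 := kb_s_le (a := a) hw
  have hβ := kb_s_nonneg hb
  have hβ2 := kb_s_le (a := b) hw
  have hyp := kb_norm_yp' (b := b) hw ha hb
  rw [← hxd, ← hyd] at hyp
  -- the inner product with `a`
  have h1 : |⟪a, yperp w a b⟫| * x ≤ 9 / 4 * (y * (x + y) * x) := by
    rw [kb_a_yp hw ha, kb_A_yp hw ha]
    have h2 : al w b * (1 - ‖a‖ ^ 2) / al w a ≤ 2 * al w b := by
      rw [div_le_iff₀ hα]
      nlinarith only [hy2, hs2]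
    have h3 : 0 ≤ al w b * (1 - ‖a‖ ^ 2) / al w a := by (clear * - hα hα0 hs; positivity)
    have h4 : |⟪w + b, w + a⟫ - 2 * al w b + al w b * (1 - ‖a‖ ^ 2) / al w a| ≤
        9 / 4 * (x * y) + 2 * y ^ 2 := by
      have h5 := abs_le.mp hG
      rw [abs_le]
      constructor <;> nlinarith only [hy2, h3, h5, h2]
    calc _ ≤ (9 / 4 * (x * y) + 2 * y ^ 2) * x := mul_le_mul_of_nonneg_right h4 hx.le
      _ ≤ _ := by nlinarith only [mul_pos hx (mul_pos hy hy)]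
  -- the inner product with `c`
  have h6 : |⟪c, yperp w a b⟫| * x ≤ 9 / 4 * (y * (x + y) * (y + e)) := by
    have h7 : ⟪c, yperp w a b⟫ = ⟪b, yperp w a b⟫ - ⟪b - c, yperp w a b⟫ := by
      rw [inner_sub_left]; ring
    have h8 : |⟪b - c, yperp w a b⟫| ≤ e * ‖yperp w a b‖ :=
      (abs_real_inner_le_norm _ _).trans (mul_le_mul_of_nonneg_right hbc (norm_nonneg _))
    have h9 : |⟪b, yperp w a b⟫| * x ≤ 2 * y ^ 2 * x + 9 / 4 * y ^ 3 := by
      rw [kb_c_yp (c := b) hw ha, kb_B_yp hw]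
      have h10 : |2 * al w b - (1 - ‖b‖ ^ 2)| ≤ 2 * y ^ 2 := by
        rw [abs_le]
        constructor <;> nlinarith only [hβ2, hy2, hβ]
      have h11 : |al w b / al w a * ⟪w + b, w + a⟫| * x ≤ 9 / 4 * y ^ 3 := by
        rw [abs_mul, abs_of_pos (by positivity : 0 < al w b / al w a), ← hx2, ← hy2]
        calc y ^ 2 / x ^ 2 * |⟪w + b, w + a⟫| * x ≤ y ^ 2 / x ^ 2 * (9 / 4 * (x * y)) * x := by
              (clear * - hα hα0 hG; gcongr)
          _ = _ := by field_simp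
      calc _ ≤ (|2 * al w b - (1 - ‖b‖ ^ 2)| + |al w b / al w a * ⟪w + b, w + a⟫|) * x :=
            mul_le_mul_of_nonneg_right (abs_sub _ _) hx.le
        _ = |2 * al w b - (1 - ‖b‖ ^ 2)| * x + |al w b / al w a * ⟪w + b, w + a⟫| * x := by ring
        _ ≤ _ := add_le_add (mul_le_mul_of_nonneg_right h10 hx.le) h11
    rw [h7]
    calc _ ≤ (|⟪b, yperp w a b⟫| + |⟪b - c, yperp w a b⟫|) * x :=
          mul_le_mul_of_nonneg_right (abs_sub _ _) hx.le
      _ = |⟪b, yperp w a b⟫| * x + |⟪b - c, yperp w a b⟫| * x := by ring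
      _ ≤ (2 * y ^ 2 * x + 9 / 4 * y ^ 3) + e * (‖yperp w a b‖ * x) := by
          refine add_le_add h9 ?_
          rw [← mul_assoc]
          exact mul_le_mul_of_nonneg_right h8 hx.le
      _ ≤ (2 * y ^ 2 * x + 9 / 4 * y ^ 3) + e * (2 * (y * (x + y))) := by gcongr
      _ ≤ _ := by
          have h12 : 0 ≤ y ^ 2 * x := by positivity
          have h13 : 0 ≤ e * (y * (x + y)) := by positivity
          nlinarith only [h12, h13]
  calc _ ≤ (|⟪a, yperp w a b⟫| + ε * |⟪c, yperp w a b⟫|) * x := by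
        refine mul_le_mul_of_nonneg_right ?_ hx.le
        refine (abs_add_le _ _).trans (le_of_eq ?_)
        rw [abs_mul ε, abs_of_pos hε]
    _ = |⟪a, yperp w a b⟫| * x + ε * (|⟪c, yperp w a b⟫| * x) := by ring
    _ ≤ 9 / 4 * (y * (x + y) * x) + ε * (9 / 4 * (y * (x + y) * (y + e))) := by (clear * - hε h1 h6; gcongr)
    _ = _ := by ring

/-! ### Decompositions of `Theta` -/

theorem kb_Theta_eq {ε e : ℝ} {w a b c : E3} (hw : ‖w‖ = 1) (ha : ‖a‖ < 1) :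
    Theta ε e w a b c = -((1 - ‖a‖ ^ 2) / al w a) • (w + Psi ε e w a b c) -
      ((ε / Dn ε e w a c) • (dkhat w a c (yperp w a b) +
        ((1 - ⟪a, b⟫) / al w a) • khat w a c) -
      (ε * (⟪a, yperp w a b⟫ + ε * ⟪c, yperp w a b⟫) / Dn ε e w a c ^ 2) • khat w a c) := by
  have hα := kb_al_pos hw ha
  unfold Theta dck Psi ck
  match_scalars <;> field_simp <;> ring

theorem kb_norm_Theta_gen {ε e : ℝ} {w a b c : E3} (hε : 0 < ε) (hw : ‖w‖ = 1) (ha : ‖a‖ < 1)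
    (hb : ‖b‖ < 1) (hc : ‖c‖ < 1) :
    ‖Theta ε e w a b c‖ ≤ (1 - ‖a‖ ^ 2) / al w a * (1 + ‖Psi ε e w a b c‖) +
      ε / Dn ε e w a c *
        ‖dkhat w a b (yperp w a b) + ((1 - ⟪a, b⟫) / al w a) • khat w a b‖ +
      ε / Dn ε e w a c * (‖dkhat w a b (yperp w a b) - dkhat w a c (yperp w a b)‖ +
        (1 - ⟪a, b⟫) / al w a * ‖khat w a b - khat w a c‖) +
      ε * |⟪a, yperp w a b⟫ + ε * ⟪c, yperp w a b⟫| / Dn ε e w a c ^ 2 * ‖khat w a c‖ := by
  have hα := kb_al_pos hw ha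
  have hs := kb_s_nonneg ha
  have hκ := kb_kap_pos ha hb
  have hDc : 0 < Dn ε e w a c := kb_D_pos hε hw ha hc
  rw [kb_Theta_eq hw ha]
  have h1 : dkhat w a c (yperp w a b) + ((1 - ⟪a, b⟫) / al w a) • khat w a c =
      (dkhat w a b (yperp w a b) + ((1 - ⟪a, b⟫) / al w a) • khat w a b) -
      ((dkhat w a b (yperp w a b) - dkhat w a c (yperp w a b)) +
        ((1 - ⟪a, b⟫) / al w a) • (khat w a b - khat w a c)) := by
    module
  rw [h1]
  set M := dkhat w a b (yperp w a b) + ((1 - ⟪a, b⟫) / al w a) • khat w a b with hM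
  set E1 := dkhat w a b (yperp w a b) - dkhat w a c (yperp w a b) with hE1
  set E2 := khat w a b - khat w a c with hE2
  have n1 : ‖-((1 - ‖a‖ ^ 2) / al w a) • (w + Psi ε e w a b c)‖ ≤
      (1 - ‖a‖ ^ 2) / al w a * (1 + ‖Psi ε e w a b c‖) := by
    rw [norm_smul, norm_neg, Real.norm_eq_abs, abs_of_nonneg (by positivity)]
    refine mul_le_mul_of_nonneg_left ?_ (by positivity)
    refine (norm_add_le _ _).trans ?_
    rw [hw]
  have n2 : ‖(ε / Dn ε e w a c) • (M - (E1 + ((1 - ⟪a, b⟫) / al w a) • E2))‖ ≤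
      ε / Dn ε e w a c * ‖M‖ + ε / Dn ε e w a c * (‖E1‖ + (1 - ⟪a, b⟫) / al w a * ‖E2‖) := by
    rw [norm_smul, Real.norm_eq_abs, abs_of_pos (by positivity : 0 < ε / Dn ε e w a c), ← mul_add]
    refine mul_le_mul_of_nonneg_left ?_ (by positivity)
    refine (norm_sub_le _ _).trans (add_le_add le_rfl ?_)
    refine (norm_add_le _ _).trans (add_le_add le_rfl ?_)
    rw [norm_smul, Real.norm_eq_abs, abs_of_pos (by positivity)]
  have n3 : ‖(ε * (⟪a, yperp w a b⟫ + ε * ⟪c, yperp w a b⟫) / Dn ε e w a c ^ 2) • khat w a c‖ =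
      ε * |⟪a, yperp w a b⟫ + ε * ⟪c, yperp w a b⟫| / Dn ε e w a c ^ 2 * ‖khat w a c‖ := by
    rw [norm_smul, Real.norm_eq_abs, abs_div, abs_mul, abs_of_pos hε,
      abs_of_pos (by positivity : 0 < Dn ε e w a c ^ 2)]
  rw [← n3]
  calc _ ≤ _ := norm_sub_le _ _
    _ ≤ ‖-((1 - ‖a‖ ^ 2) / al w a) • (w + Psi ε e w a b c)‖ +
        (‖(ε / Dn ε e w a c) • (M - (E1 + ((1 - ⟪a, b⟫) / al w a) • E2))‖ +
        ‖(ε * (⟪a, yperp w a b⟫ + ε * ⟪c, yperp w a b⟫) / Dn ε e w a c ^ 2) • khat w a c‖) :=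
        add_le_add le_rfl (norm_sub_le _ _)
    _ ≤ _ := by linarith only [n1, n2]

end Vale.Agent.P107
end
end
end

section

section

attribute [-instance] ProperSMul.toContinuousSMul IsTopologicalTorsor.toContinuousSMul
  IdemSemiring.toCanonicallyOrderedAdd IdemSemiring.toMulLeftMono IdemSemiring.toMulRightMono
  AddQuantale.instAddLeftMono AddQuantale.instAddRightMono Quantale.instMulLeftMono
  Quantale.instMulRightMono FiniteDimensional.rclike_to_real IsScalarTower.complexToReal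
  FiniteDimensional.complexToReal

section

/-!
Kernel bounds K3, K4: the bound for `Theta`.
-/

open MeasureTheory Set Filter Topology
open scoped RealInnerProductSpace ENNReal NNReal

namespace Vale.Agent.P107

/-! ### Final estimates -/

theorem kb_first {ε e : ℝ} {w a b c : E3} (hε : 0 < ε) (hε1 : ε ≤ 1) (he : 0 < e) (hw : ‖w‖ = 1)
    (ha : ‖a‖ < 1) (hb : ‖b‖ < 1) (hc : ‖c‖ < 1) (hbc : ‖b - c‖ ≤ e)
    (hb2 : 1 - ‖b‖ ^ 2 ≤ e ^ 2) (hc2 : 1 - ‖c‖ ^ 2 ≤ e ^ 2) :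
    (1 - ‖a‖ ^ 2) / al w a * (1 + ‖Psi ε e w a b c‖) ≤
      9 * ((√ε)⁻¹ * ((1 - ‖a‖ ^ 2) / al w a)) + 94 * (e / √(al w a)) := by
  have hα := kb_al_pos hw ha
  have hs := kb_s_nonneg ha
  have hs2 : (1 - ‖a‖ ^ 2) / al w a ≤ 2 := by
    rw [div_le_iff₀ hα]
    exact kb_s_le hw
  have hs0 : 0 ≤ (1 - ‖a‖ ^ 2) / al w a := by positivity
  have hσ : 1 ≤ (√ε)⁻¹ := by
    rw [one_le_inv₀ (Real.sqrt_pos.mpr hε)]
    exact Real.sqrt_le_one.mpr hε1
  have hΨ := kb_norm_Psi hε he hw ha hb hc hbc hb2 hc2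
  have hx : 0 ≤ e / √(al w a) := by positivity
  have h1 : 1 + ‖Psi ε e w a b c‖ ≤ 9 * (√ε)⁻¹ + 47 * (e / √(al w a)) := by linarith only [hσ, hΨ]
  have h2 := mul_le_mul_of_nonneg_left h1 hs0
  have h3 := mul_le_mul_of_nonneg_right hs2 hx
  nlinarith only [h2, h3]

theorem kb_a4 {x y σ e Db Dc P Kc : ℝ} (hx : 0 < x) (hy : 0 < y) (hσ : 0 < σ) (hσ1 : σ ≤ 1)
    (he : 0 < e) (hDb : Db = x ^ 2 + σ ^ 2 * (y ^ 2 + e ^ 2)) (hDc : 0 < Dc)
    (hD : Db ≤ 11 / 4 * Dc) (hP0 : 0 ≤ P)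
    (hP : P * x ≤ 9 / 4 * (y * (x + y) * (x + σ ^ 2 * (y + e))))
    (hK : Kc ≤ 6 * (x * (y + e))) :
    σ ^ 2 * P / Dc ^ 2 * Kc ≤ 307 * (σ * y * (y + x) / Db) := by
  have hDb0 : 0 < Db := by rw [hDb]; positivity
  have h1 : σ ^ 2 * (y + e) * (x + σ ^ 2 * (y + e)) ≤ 3 * (σ * Db) := by
    have h2 : σ * (y + e) * x ≤ Db := by
      rw [hDb]
      nlinarith only [sq_nonneg (x - σ * y), sq_nonneg (x - σ * e)]
    have h3 : σ ^ 3 * (y + e) ^ 2 ≤ 2 * Db := by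
      have h4 : σ ^ 3 * (y + e) ^ 2 ≤ σ ^ 2 * (y + e) ^ 2 := by
        have : σ ^ 3 ≤ σ ^ 2 := by
          rw [pow_succ]
          exact mul_le_of_le_one_right (sq_nonneg σ) hσ1
        exact mul_le_mul_of_nonneg_right this (sq_nonneg _)
      have h5 : σ ^ 2 * (y + e) ^ 2 ≤ 2 * (σ ^ 2 * (y ^ 2 + e ^ 2)) := by
        have h6 : 0 ≤ σ ^ 2 * (y - e) ^ 2 := by positivity
        nlinarith only [h6]
      rw [hDb]
      nlinarith only [h4, h5]
    have h7 := mul_le_mul_of_nonneg_left h2 hσ.le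
    have h8 := mul_le_mul_of_nonneg_left h3 hσ.le
    nlinarith only [h7, h8]
  have hy1 : 0 < y * (x + y) := by positivity
  have h9 : σ ^ 2 * P * Kc ≤ 81 / 2 * (σ * Db * (y * (x + y))) := by
    calc σ ^ 2 * P * Kc ≤ σ ^ 2 * P * (6 * (x * (y + e))) :=
          mul_le_mul_of_nonneg_left hK (by positivity)
      _ = 6 * (σ ^ 2 * (y + e)) * (P * x) := by ring
      _ ≤ 6 * (σ ^ 2 * (y + e)) * (9 / 4 * (y * (x + y) * (x + σ ^ 2 * (y + e)))) :=
          mul_le_mul_of_nonneg_left hP (by positivity)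
      _ = 27 / 2 * ((σ ^ 2 * (y + e) * (x + σ ^ 2 * (y + e))) * (y * (x + y))) := by ring
      _ ≤ 27 / 2 * ((3 * (σ * Db)) * (y * (x + y))) := by (clear * - hx hy h1; gcongr)
      _ = _ := by ring
  have h10 : Db ^ 2 ≤ 121 / 16 * Dc ^ 2 := by
    have := pow_le_pow_left₀ hDb0.le hD 2
    nlinarith only [this]
  have e1 : σ ^ 2 * P / Dc ^ 2 * Kc = σ ^ 2 * P * Kc / Dc ^ 2 := by ring
  rw [e1, div_le_iff₀ (by positivity)]
  have e2 : 307 * (σ * y * (y + x) / Db) * Dc ^ 2 = 307 * (σ * (y * (x + y)) * (Dc ^ 2 / Db)) := by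
    field_simp
    ring
  rw [e2]
  refine h9.trans ?_
  have h11 : Db ≤ 121 / 16 * (Dc ^ 2 / Db) := by
    rw [← mul_div_assoc, le_div_iff₀ hDb0, ← sq]
    exact h10
  have h12 : σ * Db * (y * (x + y)) ≤ 121 / 16 * (σ * (y * (x + y)) * (Dc ^ 2 / Db)) := by
    calc σ * Db * (y * (x + y)) = (σ * (y * (x + y))) * Db := by ring
      _ ≤ (σ * (y * (x + y))) * (121 / 16 * (Dc ^ 2 / Db)) :=
          mul_le_mul_of_nonneg_left h11 (by positivity)
      _ = _ := by ring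
  have h13 : 0 ≤ σ * (y * (x + y)) * (Dc ^ 2 / Db) := by positivity
  linarith only [h12, h13]

theorem kb_norm_khat_c_le {w a b c : E3} {e : ℝ} (he : 0 < e) (hw : ‖w‖ = 1) (ha : ‖a‖ < 1)
    (hb : ‖b‖ < 1) (hc : ‖c‖ < 1) (hbc : ‖b - c‖ ≤ e) (hb2 : 1 - ‖b‖ ^ 2 ≤ e ^ 2)
    (hc2 : 1 - ‖c‖ ^ 2 ≤ e ^ 2) :
    ‖khat w a c‖ ≤ 6 * (√(al w a) * (√(al w b) + e)) := by
  have h1 := kb_norm_khat_le hw ha hc
  have h2 := kb_sqrt_c_le he hw hb hc hbc hb2 hc2
  have hx := Real.sqrt_nonneg (al w a)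
  have h3 := mul_le_mul_of_nonneg_left h2 hx
  linarith only [h1, h3]

theorem kb_h_le {ε e : ℝ} {w a b c : E3} (hε : 0 < ε) (hw : ‖w‖ = 1) (ha : ‖a‖ < 1)
    (hb : ‖b‖ < 1) (hc : ‖c‖ < 1)
    (hbc : ‖b - c‖ ≤ e) (hb2 : 1 - ‖b‖ ^ 2 ≤ e ^ 2) (hc2 : 1 - ‖c‖ ^ 2 ≤ e ^ 2) :
    ε / Dn ε e w a c ≤ 11 / 4 * (ε / Dn ε e w a b) := by
  have hDc : 0 < Dn ε e w a c := kb_D_pos hε hw ha hc
  have hDb : 0 < Dn ε e w a b := kb_D_pos hε hw ha hb
  have hD := kb_D_le (a := a) hε hw ha hb hc hbc hb2 hc2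
  rw [div_le_iff₀ hDc]
  have e1 : 11 / 4 * (ε / Dn ε e w a b) * Dn ε e w a c =
      ε * ((11 / 4 * Dn ε e w a c) / Dn ε e w a b) := by ring
  rw [e1]
  have h1 : 1 ≤ (11 / 4 * Dn ε e w a c) / Dn ε e w a b := by
    rw [le_div_iff₀ hDb, one_mul]
    exact hD
  nlinarith only [hε, h1]

theorem kb_gen {ε e : ℝ} {w a b c : E3} (hε : 0 < ε) (hε1 : ε ≤ 1) (he : 0 < e) (hw : ‖w‖ = 1)
    (ha : ‖a‖ < 1) (hb : ‖b‖ < 1) (hc : ‖c‖ < 1) (hbc : ‖b - c‖ ≤ e)
    (hb2 : 1 - ‖b‖ ^ 2 ≤ e ^ 2) (hc2 : 1 - ‖c‖ ^ 2 ≤ e ^ 2) :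
    ‖Theta ε e w a b c‖ ≤ 400 * bT ε e w a b := by
  have hα := kb_al_pos hw ha
  have hα0 := kb_al_pos hw hb
  have hs := kb_s_nonneg ha
  have hκ := kb_kap_pos ha hb
  have hDc : 0 < Dn ε e w a c := kb_D_pos hε hw ha hc
  have hDb : 0 < Dn ε e w a b := kb_D_pos hε hw ha hb
  have hx : 0 < √(al w a) := Real.sqrt_pos.mpr hα
  have hy : 0 < √(al w b) := Real.sqrt_pos.mpr hα0
  have hσ : 0 < √ε := Real.sqrt_pos.mpr hε
  have hσ1 : √ε ≤ 1 := Real.sqrt_le_one.mpr hε1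
  have hx2 := Real.sq_sqrt hα.le
  have hy2 := Real.sq_sqrt hα0.le
  have hσ2 := Real.sq_sqrt hε.le
  have hDbe := kb_D_ge (e := e) hε hw ha hb
  have hh := kb_h_le (a := a) hε hw ha hb hc hbc hb2 hc2
  refine (kb_norm_Theta_gen (e := e) hε hw ha hb hc).trans ?_
  have A1 := kb_first hε hε1 he hw ha hb hc hbc hb2 hc2
  have A2 : ε / Dn ε e w a c *
        ‖dkhat w a b (yperp w a b) + ((1 - ⟪a, b⟫) / al w a) • khat w a b‖ ≤
      47 * (√ε * √(al w b) * (√(al w b) + √(al w a)) / Dn ε e w a b) := by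
    have h1 := kb_norm_M hw ha hb
    calc _ ≤ (11 / 4 * (ε / Dn ε e w a b)) *
          (17 * (√(al w b) * (√(al w a) + √(al w b)))) := by (clear * - hε hDb hh h1; gcongr)
      _ = 187 / 4 * ((√ε * √ε) * √(al w b) * (√(al w b) + √(al w a)) / Dn ε e w a b) := by
          rw [Real.mul_self_sqrt hε.le]; ring
      _ ≤ 187 / 4 * ((√ε * 1) * √(al w b) * (√(al w b) + √(al w a)) / Dn ε e w a b) := by (clear * - hε hα hα0 hDb hσ1; gcongr)
      _ ≤ _ := by
          rw [mul_one]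
          have : 0 ≤ √ε * √(al w b) * (√(al w b) + √(al w a)) / Dn ε e w a b := by (clear * - hε hα hα0 hDb; positivity)
          linarith only [this]
  have A3 : ε / Dn ε e w a c * (‖dkhat w a b (yperp w a b) - dkhat w a c (yperp w a b)‖ +
        (1 - ⟪a, b⟫) / al w a * ‖khat w a b - khat w a c‖) ≤ 85 * (e / √(al w a)) := by
    have h1 := kb_norm_dkhat_sub (y := yperp w a b) hw ha hbc
    have h2 := kb_norm_khat_sub (a := a) hw ha hbc
    have h3 := kb_norm_yp' (b := b) hw ha hb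
    have h4 := kb_kap_le (b := b) hw ha hb
    have h5 : ‖dkhat w a b (yperp w a b) - dkhat w a c (yperp w a b)‖ +
        (1 - ⟪a, b⟫) / al w a * ‖khat w a b - khat w a c‖ ≤
        123 / 8 * (e / √(al w a) * (√(al w a) + √(al w b)) ^ 2) := by
      have h6 : ‖dkhat w a b (yperp w a b) - dkhat w a c (yperp w a b)‖ ≤
          12 * (e / √(al w a) * (√(al w b) * (√(al w a) + √(al w b)))) := by
        have h7 : ‖yperp w a b‖ ≤ 2 * (√(al w b) * (√(al w a) + √(al w b))) / √(al w a) := by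
          rw [le_div_iff₀ hx]
          exact h3
        calc _ ≤ _ := h1
          _ ≤ 6 * (e * (2 * (√(al w b) * (√(al w a) + √(al w b))) / √(al w a))) := by (clear * - he h7; gcongr)
          _ = _ := by ring
      have h8 : (1 - ⟪a, b⟫) / al w a * ‖khat w a b - khat w a c‖ ≤
          27 / 8 * (e / √(al w a) * (√(al w a) + √(al w b)) ^ 2) := by
        calc _ ≤ (9 / 8 * (√(al w a) + √(al w b)) ^ 2) / al w a * (3 * (e * √(al w a))) := by (clear * - hα hα0 h2 h4; gcongr)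
          _ = (9 / 8 * (√(al w a) + √(al w b)) ^ 2) / √(al w a) ^ 2 * (3 * (e * √(al w a))) := by
              rw [hx2]
          _ = _ := by field_simp; ring
      have h9 : √(al w b) * (√(al w a) + √(al w b)) ≤ (√(al w a) + √(al w b)) ^ 2 := by
        nlinarith only [hx, hy]
      have h10 : e / √(al w a) * (√(al w b) * (√(al w a) + √(al w b))) ≤
          e / √(al w a) * (√(al w a) + √(al w b)) ^ 2 :=
        mul_le_mul_of_nonneg_left h9 (by positivity)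
      linarith only [h6, h8, h10]
    have h11 : ε * (√(al w a) + √(al w b)) ^ 2 ≤ 2 * Dn ε e w a b := by
      rw [hDbe, hσ2]
      have h12 : ε * √(al w a) ^ 2 ≤ √(al w a) ^ 2 := by
        have := mul_le_mul_of_nonneg_right hε1 (sq_nonneg √(al w a))
        linarith only [this]
      have h13 : 0 ≤ ε * (√(al w a) - √(al w b)) ^ 2 := by (clear * - hε; positivity)
      have h14 : 0 ≤ ε * e ^ 2 := by positivity
      nlinarith only [h12, h13, h14]
    calc _ ≤ (11 / 4 * (ε / Dn ε e w a b)) *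
          (123 / 8 * (e / √(al w a) * (√(al w a) + √(al w b)) ^ 2)) := by (clear * - hε hα hκ hDb hh h5; gcongr)
      _ = 1353 / 32 * (e / √(al w a)) * ((ε * (√(al w a) + √(al w b)) ^ 2) / Dn ε e w a b) := by
          ring
      _ ≤ 1353 / 32 * (e / √(al w a)) * 2 := by
          refine mul_le_mul_of_nonneg_left ?_ (by positivity)
          rw [div_le_iff₀ hDb]
          exact h11
      _ ≤ _ := by
          have : 0 ≤ e / √(al w a) := by positivity
          linarith only [this]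
  have A4 : ε * |⟪a, yperp w a b⟫ + ε * ⟪c, yperp w a b⟫| / Dn ε e w a c ^ 2 * ‖khat w a c‖ ≤
      307 * (√ε * √(al w b) * (√(al w b) + √(al w a)) / Dn ε e w a b) := by
    have h1 := kb_inner_yp hε hw ha hb hbc
    have h2 := kb_norm_khat_c_le he hw ha hb hc hbc hb2 hc2
    have h3 := kb_D_le (a := a) hε hw ha hb hc hbc hb2 hc2
    have h4 := kb_a4 (P := |⟪a, yperp w a b⟫ + ε * ⟪c, yperp w a b⟫|) hx hy hσ hσ1 he hDbe hDc h3
      (abs_nonneg _) (by rw [hσ2]; exact h1) h2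
    rw [hσ2] at h4
    exact h4
  unfold bT
  have p1 : 0 ≤ (√ε)⁻¹ * ((1 - ‖a‖ ^ 2) / al w a) := by (clear * - hε hα hs; positivity)
  have p2 : 0 ≤ √ε * √(al w b) * (√(al w b) + √(al w a)) / Dn ε e w a b := by positivity
  have p3 : 0 ≤ e / √(al w a) := by positivity
  linarith only [A1, A2, A3, A4, p1, p2, p3]

/-! ### The diagonal region -/

theorem kb_norm_dkhat_le {w a c y : E3} (hw : ‖w‖ = 1) (hc : ‖c‖ < 1) (hy : ⟪y, w⟫ = 0) :
    ‖dkhat w a c y‖ ≤ ‖y‖ * (2 * (‖w + a‖ * ‖w + c‖) + al w c + ‖w + a‖ + ‖w + c‖) := by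
  have hαc := kb_al_pos hw hc
  have h1 : ⟪c, y⟫ = ⟪w + c, y⟫ := by
    rw [inner_add_left, real_inner_comm y w, hy, zero_add]
  have h2 : |⟪w + c, y⟫| ≤ ‖w + c‖ * ‖y‖ := abs_real_inner_le_norm _ _
  have h3 : |⟪y, w + a⟫| ≤ ‖y‖ * ‖w + a‖ := abs_real_inner_le_norm _ _
  have h4 : |⟪w + c, w + a⟫| ≤ ‖w + c‖ * ‖w + a‖ := abs_real_inner_le_norm _ _
  unfold dkhat
  rw [h1]
  calc _ ≤ ‖⟪w + c, y⟫ • (w + a)‖ + ‖al w c • y‖ + ‖(⟪y, w + a⟫ + ⟪w + c, y⟫) • w‖ +
        ‖⟪w + c, w + a⟫ • y‖ := by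
        refine (norm_sub_le _ _).trans (add_le_add_left ?_ _)
        refine (norm_sub_le _ _).trans (add_le_add_left ?_ _)
        exact norm_add_le _ _
    _ = |⟪w + c, y⟫| * ‖w + a‖ + al w c * ‖y‖ + |⟪y, w + a⟫ + ⟪w + c, y⟫| +
        |⟪w + c, w + a⟫| * ‖y‖ := by
        rw [norm_smul, norm_smul, norm_smul, norm_smul, hw, mul_one, Real.norm_eq_abs,
          Real.norm_eq_abs, Real.norm_eq_abs, Real.norm_eq_abs, abs_of_pos hαc]
    _ ≤ (‖w + c‖ * ‖y‖) * ‖w + a‖ + al w c * ‖y‖ + (‖y‖ * ‖w + a‖ + ‖w + c‖ * ‖y‖) +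
        (‖w + c‖ * ‖w + a‖) * ‖y‖ := by
        gcongr
        exact (abs_add_le _ _).trans (add_le_add h3 h2)
    _ = _ := by ring

theorem kb_norm_Theta_dir {ε e : ℝ} {w a b c : E3} (hε : 0 < ε) (hw : ‖w‖ = 1) (ha : ‖a‖ < 1)
    (hb : ‖b‖ < 1) (hc : ‖c‖ < 1) :
    ‖Theta ε e w a b c‖ ≤ (1 - ‖a‖ ^ 2) / al w a * (1 + ‖Psi ε e w a b c‖) +
      ε / Dn ε e w a c * (‖dkhat w a c (yperp w a b)‖ +
        (1 - ⟪a, b⟫) / al w a * ‖khat w a c‖) +
      ε * |⟪a, yperp w a b⟫ + ε * ⟪c, yperp w a b⟫| / Dn ε e w a c ^ 2 * ‖khat w a c‖ := by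
  have hα := kb_al_pos hw ha
  have hs := kb_s_nonneg ha
  have hκ := kb_kap_pos ha hb
  have hDc : 0 < Dn ε e w a c := kb_D_pos hε hw ha hc
  rw [kb_Theta_eq hw ha]
  have n1 : ‖-((1 - ‖a‖ ^ 2) / al w a) • (w + Psi ε e w a b c)‖ ≤
      (1 - ‖a‖ ^ 2) / al w a * (1 + ‖Psi ε e w a b c‖) := by
    rw [norm_smul, norm_neg, Real.norm_eq_abs, abs_of_nonneg (by (clear * - hα hs; positivity))]
    refine mul_le_mul_of_nonneg_left ?_ (by positivity)
    refine (norm_add_le _ _).trans ?_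
    rw [hw]
  have n2 : ‖(ε / Dn ε e w a c) • (dkhat w a c (yperp w a b) +
        ((1 - ⟪a, b⟫) / al w a) • khat w a c)‖ ≤
      ε / Dn ε e w a c * (‖dkhat w a c (yperp w a b)‖ +
        (1 - ⟪a, b⟫) / al w a * ‖khat w a c‖) := by
    rw [norm_smul, Real.norm_eq_abs, abs_of_pos (by positivity : 0 < ε / Dn ε e w a c)]
    refine mul_le_mul_of_nonneg_left ?_ (by positivity)
    refine (norm_add_le _ _).trans (add_le_add le_rfl ?_)
    rw [norm_smul, Real.norm_eq_abs, abs_of_pos (by positivity)]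
  have n3 : ‖(ε * (⟪a, yperp w a b⟫ + ε * ⟪c, yperp w a b⟫) / Dn ε e w a c ^ 2) • khat w a c‖ =
      ε * |⟪a, yperp w a b⟫ + ε * ⟪c, yperp w a b⟫| / Dn ε e w a c ^ 2 * ‖khat w a c‖ := by
    rw [norm_smul, Real.norm_eq_abs, abs_div, abs_mul, abs_of_pos hε,
      abs_of_pos (by positivity : 0 < Dn ε e w a c ^ 2)]
  rw [← n3]
  calc _ ≤ _ := norm_sub_le _ _
    _ ≤ ‖-((1 - ‖a‖ ^ 2) / al w a) • (w + Psi ε e w a b c)‖ +
        (‖(ε / Dn ε e w a c) • (dkhat w a c (yperp w a b) +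
        ((1 - ⟪a, b⟫) / al w a) • khat w a c)‖ +
        ‖(ε * (⟪a, yperp w a b⟫ + ε * ⟪c, yperp w a b⟫) / Dn ε e w a c ^ 2) • khat w a c‖) :=
        add_le_add le_rfl (norm_sub_le _ _)
    _ ≤ _ := by linarith only [n1, n2]

theorem kb_diag {ε e : ℝ} {w a b c : E3} (hε : 0 < ε) (hε1 : ε ≤ 1) (he : 0 < e) (hw : ‖w‖ = 1)
    (ha : ‖a‖ < 1) (hb : ‖b‖ < 1) (hc : ‖c‖ < 1) (hbc : ‖b - c‖ ≤ e)
    (hb2 : 1 - ‖b‖ ^ 2 ≤ e ^ 2) (hc2 : 1 - ‖c‖ ^ 2 ≤ e ^ 2) (hd : Diag e w a b) :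
    ‖Theta ε e w a b c‖ ≤ 10 ^ 11 * bTd ε w a b := by
  obtain ⟨d1, d2, d3⟩ := hd
  have hα := kb_al_pos hw ha
  have hαc := kb_al_pos hw hc
  have hα0 := kb_al_pos hw hb
  have hs := kb_s_nonneg ha
  have hκ := kb_kap_pos ha hb
  have hDc : 0 < Dn ε e w a c := kb_D_pos hε hw ha hc
  have hx : 0 < √(al w a) := Real.sqrt_pos.mpr hα
  have hy : 0 < √(al w b) := Real.sqrt_pos.mpr hα0
  have hσ : 0 < √ε := Real.sqrt_pos.mpr hε
  have hσ1 : √ε ≤ 1 := Real.sqrt_le_one.mpr hε1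
  have hx2 := Real.sq_sqrt hα.le
  have hy2 := Real.sq_sqrt hα0.le
  have hk2 := Real.sq_sqrt hκ.le
  have hσσ := Real.mul_self_sqrt hε.le
  have hk : 0 < √(1 - ⟪a, b⟫) := Real.sqrt_pos.mpr hκ
  -- comparison of the scalars
  have c1 : e ≤ √(al w b) := Real.le_sqrt_of_sq_le d1
  have c2 : √(al w a) ≤ 16 * √(al w b) := by
    apply le_of_sq_le_sq _ (by positivity)
    rw [mul_pow, hx2, hy2]
    linarith only [d2]
  have c3 : √(al w b) ≤ 16 * √(al w a) := by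
    apply le_of_sq_le_sq _ (by positivity)
    rw [mul_pow, hx2, hy2]
    linarith only [d3]
  have c4 : √(1 - ⟪a, b⟫) ≤ 20 * √(al w b) := by
    have := kb_sqrt_kap_le (b := b) hw ha hb
    linarith only [hy, c2, this]
  have c5 : ‖yperp w a b‖ ≤ 24 * √(1 - ⟪a, b⟫) := by
    have h1 := kb_norm_yp (b := b) hw ha hb
    have h2 : ‖yperp w a b‖ * √(al w a) ≤ 24 * √(1 - ⟪a, b⟫) * √(al w a) := by
      refine h1.trans ?_
      have h3 := mul_le_mul_of_nonneg_right c3 hk.le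
      linarith only [h3]
    exact le_of_mul_le_mul_right h2 hx
  have c6 : ‖w + c‖ ≤ 4 * √(al w b) := by
    have h1 := kb_norm_A_le hw hc
    have h2 := kb_sqrt_c_le he hw hb hc hbc hb2 hc2
    linarith only [c1, h1, h2]
  have c7 : ‖w + a‖ ≤ 24 * √(al w b) := by
    have h1 := kb_norm_A_le hw ha
    linarith only [c2, h1]
  have c8 : al w c ≤ 4 * √(al w b) := by
    have h1 := Real.sq_sqrt (kb_al_pos hw hc).le
    have h2 := kb_sqrt_c_le he hw hb hc hbc hb2 hc2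
    have h3 := kb_sqrt_lt hw hc
    have h4 := Real.sqrt_nonneg (al w c)
    have h5 : √(al w c) ≤ 8 / 3 * √(al w b) := by linarith only [c1, h2]
    calc al w c = √(al w c) * √(al w c) := by rw [← sq, h1]
      _ ≤ (3 / 2) * (8 / 3 * √(al w b)) := mul_le_mul h3.le h5 h4 (by norm_num)
      _ = _ := by ring
  have c9 : ‖khat w a c‖ ≤ 192 * √(al w b) ^ 2 := by
    have h1 := kb_norm_khat_c_le (a := a) he hw ha hb hc hbc hb2 hc2
    calc _ ≤ _ := h1
      _ ≤ 6 * ((16 * √(al w b)) * (√(al w b) + √(al w b))) := by (clear * - he hα0 c1 c2; gcongr)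
      _ = _ := by ring
  have c10 : (Dn ε e w a c)⁻¹ ≤ 256 * (√(al w b) ^ 2)⁻¹ := by
    have h1 : √(al w b) ^ 2 / 256 ≤ Dn ε e w a c := by
      rw [hy2]
      unfold Dn
      have h2 := kb_al_pos hw hc
      have h3 : 0 < ε * (al w c + e ^ 2) := by positivity
      linarith only [d3, h3]
    calc (Dn ε e w a c)⁻¹ ≤ (√(al w b) ^ 2 / 256)⁻¹ := inv_anti₀ (by positivity) h1
      _ = _ := by rw [inv_div]; ring
  have c11 : ε ≤ √ε := by
    calc ε = √ε * √ε := hσσ.symm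
      _ ≤ √ε * 1 := mul_le_mul_of_nonneg_left hσ1 hσ.le
      _ = √ε := mul_one _
  refine (kb_norm_Theta_dir (e := e) hε hw ha hb hc).trans ?_
  -- first term
  have A1 : (1 - ‖a‖ ^ 2) / al w a * (1 + ‖Psi ε e w a b c‖) ≤
      761 * ((√ε)⁻¹ * ((1 - ‖a‖ ^ 2) / al w a)) := by
    have h1 := kb_norm_Psi hε he hw ha hb hc hbc hb2 hc2
    have h2 : e / √(al w a) ≤ 16 := by
      rw [div_le_iff₀ hx]
      exact c1.trans c3
    have h3 : 1 ≤ (√ε)⁻¹ := by
      rw [one_le_inv₀ hσ]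
      exact hσ1
    have h4 : 1 + ‖Psi ε e w a b c‖ ≤ 761 * (√ε)⁻¹ := by linarith only [h1, h2, h3]
    have h5 : 0 ≤ (1 - ‖a‖ ^ 2) / al w a := by (clear * - hα hs; positivity)
    have h6 := mul_le_mul_of_nonneg_left h4 h5
    linarith only [h6]
  -- second term
  have A2 : ε / Dn ε e w a c * (‖dkhat w a c (yperp w a b)‖ +
        (1 - ⟪a, b⟫) / al w a * ‖khat w a c‖) ≤
      10 ^ 9 * (√ε * (√(1 - ⟪a, b⟫) / √(al w b))) := by
    have h1 : ‖dkhat w a c (yperp w a b)‖ ≤ 1152 * (√(al w b) * √(1 - ⟪a, b⟫)) := by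
      have h2 := kb_norm_dkhat_le (a := a) hw hc (kb_yp_w (b := b) hw ha)
      have h3 := kb_norm_A_le_two hw ha
      calc _ ≤ _ := h2
        _ ≤ (24 * √(1 - ⟪a, b⟫)) * (2 * (2 * (4 * √(al w b))) + 4 * √(al w b) +
            24 * √(al w b) + 4 * √(al w b)) := by (clear * - hαc hκ c5 c6 c7 c8 h3; gcongr)
        _ = _ := by ring
    have h2 : (1 - ⟪a, b⟫) / al w a * ‖khat w a c‖ ≤
        983040 * (√(al w b) * √(1 - ⟪a, b⟫)) := by
      have h3 : (al w a)⁻¹ ≤ 256 * (√(al w b) ^ 2)⁻¹ := by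
        have h4 : √(al w b) ^ 2 / 256 ≤ al w a := by
          rw [hy2]
          linarith only [d3]
        calc (al w a)⁻¹ ≤ (√(al w b) ^ 2 / 256)⁻¹ := inv_anti₀ (by positivity) h4
          _ = _ := by rw [inv_div]; ring
      calc (1 - ⟪a, b⟫) / al w a * ‖khat w a c‖ =
            √(1 - ⟪a, b⟫) * √(1 - ⟪a, b⟫) * (al w a)⁻¹ * ‖khat w a c‖ := by
            rw [Real.mul_self_sqrt hκ.le]; ring
        _ ≤ √(1 - ⟪a, b⟫) * (20 * √(al w b)) * (256 * (√(al w b) ^ 2)⁻¹) *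
            (192 * √(al w b) ^ 2) := by (clear * - hα hα0 hκ c4 c9 h3; gcongr)
        _ = 983040 * (√(al w b) * √(1 - ⟪a, b⟫)) * ((√(al w b) ^ 2)⁻¹ * √(al w b) ^ 2) := by ring
        _ = _ := by
            rw [inv_mul_cancel₀ (by positivity), mul_one]
    calc ε / Dn ε e w a c * (‖dkhat w a c (yperp w a b)‖ +
          (1 - ⟪a, b⟫) / al w a * ‖khat w a c‖) =
          ε * (Dn ε e w a c)⁻¹ * (‖dkhat w a c (yperp w a b)‖ +
          (1 - ⟪a, b⟫) / al w a * ‖khat w a c‖) := by ring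
      _ ≤ √ε * (256 * (√(al w b) ^ 2)⁻¹) * (1152 * (√(al w b) * √(1 - ⟪a, b⟫)) +
          983040 * (√(al w b) * √(1 - ⟪a, b⟫))) := by (clear * - hε hα hα0 hκ hDc c10 c11 h1 h2; gcongr)
      _ = 251953152 * (√ε * (√(1 - ⟪a, b⟫) / √(al w b))) := by
          field_simp
          ring
      _ ≤ _ := by
          have : 0 ≤ √ε * (√(1 - ⟪a, b⟫) / √(al w b)) := by positivity
          exact mul_le_mul_of_nonneg_right (by norm_num) this
  -- third term
  have A3 : ε * |⟪a, yperp w a b⟫ + ε * ⟪c, yperp w a b⟫| / Dn ε e w a c ^ 2 * ‖khat w a c‖ ≤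
      10 ^ 10 * (√ε * (√(1 - ⟪a, b⟫) / √(al w b))) := by
    have h1 : |⟪a, yperp w a b⟫| ≤ (24 * √(al w b)) * (24 * √(1 - ⟪a, b⟫)) := by
      rw [kb_a_yp hw ha]
      exact (abs_real_inner_le_norm _ _).trans (by (clear * - hα0 c5 c7; gcongr))
    have h2 : |⟪c, yperp w a b⟫| ≤ (4 * √(al w b)) * (24 * √(1 - ⟪a, b⟫)) := by
      rw [kb_c_yp hw ha]
      exact (abs_real_inner_le_norm _ _).trans (by (clear * - hα0 c5 c6; gcongr))
    have h3 : |⟪a, yperp w a b⟫ + ε * ⟪c, yperp w a b⟫| ≤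
        672 * (√(al w b) * √(1 - ⟪a, b⟫)) := by
      calc _ ≤ |⟪a, yperp w a b⟫| + |ε * ⟪c, yperp w a b⟫| := abs_add_le _ _
        _ = |⟪a, yperp w a b⟫| + ε * |⟪c, yperp w a b⟫| := by rw [abs_mul ε, abs_of_pos hε]
        _ ≤ (24 * √(al w b)) * (24 * √(1 - ⟪a, b⟫)) +
            1 * ((4 * √(al w b)) * (24 * √(1 - ⟪a, b⟫))) := by (clear * - hε1 h1 h2; gcongr)
        _ = _ := by ring
    calc ε * |⟪a, yperp w a b⟫ + ε * ⟪c, yperp w a b⟫| / Dn ε e w a c ^ 2 * ‖khat w a c‖ =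
          ε * |⟪a, yperp w a b⟫ + ε * ⟪c, yperp w a b⟫| *
            ((Dn ε e w a c)⁻¹ * (Dn ε e w a c)⁻¹) * ‖khat w a c‖ := by
          (clear * - hε hDc; field_simp)
      _ ≤ √ε * (672 * (√(al w b) * √(1 - ⟪a, b⟫))) *
            ((256 * (√(al w b) ^ 2)⁻¹) * (256 * (√(al w b) ^ 2)⁻¹)) *
            (192 * √(al w b) ^ 2) := by (clear * - hε hα0 hκ hDc c9 c10 c11 h3; gcongr)
      _ = 8455716864 * (√ε * (√(1 - ⟪a, b⟫) / √(al w b))) := by
          field_simp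
          ring
      _ ≤ _ := by
          have : 0 ≤ √ε * (√(1 - ⟪a, b⟫) / √(al w b)) := by positivity
          exact mul_le_mul_of_nonneg_right (by norm_num) this
  unfold bTd
  rw [Real.sqrt_div hκ.le]
  have p1 : 0 ≤ (√ε)⁻¹ * ((1 - ‖a‖ ^ 2) / al w a) := by (clear * - hε hα hs; positivity)
  have p2 : 0 ≤ √ε * (√(1 - ⟪a, b⟫) / √(al w b)) := by (clear * - hε hα0 hκ; positivity)
  have q1 : 761 * ((√ε)⁻¹ * ((1 - ‖a‖ ^ 2) / al w a)) ≤
      10 ^ 11 * ((√ε)⁻¹ * ((1 - ‖a‖ ^ 2) / al w a)) :=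
    mul_le_mul_of_nonneg_right (by norm_num) p1
  have q2 : (10 ^ 9 + 10 ^ 10) * (√ε * (√(1 - ⟪a, b⟫) / √(al w b))) ≤
      10 ^ 11 * (√ε * (√(1 - ⟪a, b⟫) / √(al w b))) :=
    mul_le_mul_of_nonneg_right (by norm_num) p2
  linarith only [A1, A2, A3, p1, p2]

/-- K3 and K4. -/
theorem Theta_bound : ∃ C : ℝ, 0 < C ∧ ∀ (ε e : ℝ) (w a b c : E3), 0 < ε → ε ≤ 1 → 0 < e → e ≤ 1 →
    ‖w‖ = 1 → ‖a‖ < 1 → ‖b‖ < 1 → ‖c‖ < 1 → ‖b - c‖ ≤ e → 1 - ‖b‖ ^ 2 ≤ e ^ 2 →
    1 - ‖c‖ ^ 2 ≤ e ^ 2 → ‖Theta ε e w a b c‖ ≤ C * bTT ε e w a b := by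
  refine ⟨10 ^ 11, by norm_num, ?_⟩
  intro ε e w a b c hε hε1 he _ hw ha hb hc hbc hb2 hc2
  unfold bTT
  split_ifs with hd
  · exact kb_diag hε hε1 he hw ha hb hc hbc hb2 hc2 hd
  · refine (kb_gen hε hε1 he hw ha hb hc hbc hb2 hc2).trans ?_
    have hα := kb_al_pos hw ha
    have hs := kb_s_nonneg ha
    have hDb : 0 < Dn ε e w a b := kb_D_pos hε hw ha hb
    have : 0 ≤ bT ε e w a b := by
      unfold bT
      (clear * - hε he hα hs hDb; positivity)
    nlinarith only [this]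

end Vale.Agent.P107
end
end
end

section

section

attribute [-instance] ProperSMul.toContinuousSMul IsTopologicalTorsor.toContinuousSMul
  IdemSemiring.toCanonicallyOrderedAdd IdemSemiring.toMulLeftMono IdemSemiring.toMulRightMono
  AddQuantale.instAddLeftMono AddQuantale.instAddRightMono Quantale.instMulLeftMono
  Quantale.instMulRightMono FiniteDimensional.rclike_to_real IsScalarTower.complexToReal
  FiniteDimensional.complexToReal

section

/-!
`StatT`: the T-sums.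
-/

open Set Filter Topology
open scoped ENNReal NNReal

namespace Vale.Agent.P107.Ar.TT

open Tl

lemma logb_le {n x : ℝ} (hn : 0 < n) (h : n ≤ (2 : ℝ) ^ x) : Real.logb 2 n ≤ x :=
  (Real.logb_le_iff_le_rpow one_lt_two hn).mpr h

lemma mul_le_two {x n u t : ℝ} (hx : x ≤ (2 : ℝ) ^ u) (hn : 0 < n) (h : u + Real.logb 2 n ≤ t) :
    x * n ≤ (2 : ℝ) ^ t := by
  have h1 : n = (2 : ℝ) ^ (Real.logb 2 n) := (Real.rpow_logb (by norm_num) (by norm_num) hn).symm
  calc x * n ≤ (2 : ℝ) ^ u * n := by gcongr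
    _ = (2 : ℝ) ^ u * (2 : ℝ) ^ (Real.logb 2 n) := by rw [← h1]
    _ = (2 : ℝ) ^ (u + Real.logb 2 n) := by rw [Real.rpow_add (by norm_num)]
    _ ≤ (2 : ℝ) ^ t := Real.rpow_le_rpow_of_exponent_le (by norm_num) h

lemma KK_pos {c₁ : ℝ} (hc : 0 < c₁) (p j i k : ℕ) : 0 < KK c₁ p j i k := by
  unfold KK
  have := dl_pos hc p j
  have := dl_pos hc p i
  positivity

/-- The `V` bound in logarithms. -/
lemma V_le {c₁ : ℝ} (hc : 0 < c₁) (hc1 : c₁ ≤ 1) (p j i k m l : ℕ) :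
    dl c₁ p j * (1 / 8) ^ k * (1 / 4) ^ m * (1 / 4) ^ l * qq p i ^ 3
      ≤ (2 : ℝ) ^ (-(2 * (j : ℝ)) - 3 * k - 2 * m - 2 * l + 3 * ((p : ℝ) - i)) := by
  have h := dl_le hc hc1 p j
  have hq := qq_pos p i
  calc dl c₁ p j * (1 / 8) ^ k * (1 / 4) ^ m * (1 / 4) ^ l * qq p i ^ 3
      ≤ (2 : ℝ) ^ (-(2 * (j : ℝ))) * (1 / 8) ^ k * (1 / 4) ^ m * (1 / 4) ^ l * qq p i ^ 3 := by
        gcongr
    _ = _ := by
        rw [powh8, powh4, powh4, qq_eq, ← Real.rpow_natCast _ 3, ← Real.rpow_mul (by norm_num),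
          ← Real.rpow_add (by norm_num), ← Real.rpow_add (by norm_num),
          ← Real.rpow_add (by norm_num), ← Real.rpow_add (by norm_num)]
        congr 1; push_cast; ring

lemma F_le {c₁ : ℝ} (hc : 0 < c₁) (hc1 : c₁ ≤ 1) (p j i l : ℕ) :
    dl c₁ p j * 4 ^ l / qq p i ≤ (2 : ℝ) ^ (-(2 * (j : ℝ)) + 2 * l - ((p : ℝ) - i)) := by
  have h := dl_le hc hc1 p j
  have hq := qq_pos p i
  calc dl c₁ p j * 4 ^ l / qq p i ≤ (2 : ℝ) ^ (-(2 * (j : ℝ))) * 4 ^ l / qq p i := by (clear * - h hq; gcongr)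
    _ = _ := by
        rw [pow4, qq_eq, ← Real.rpow_add (by norm_num), ← Real.rpow_sub (by norm_num)]

lemma S_le {c₁ : ℝ} (hc : 0 < c₁) (hc1 : c₁ ≤ 1) (p j i k m : ℕ) {n : ℝ} (hn : 0 < n)
    (h : n ≤ (dl c₁ p j + (1 / 2) ^ k) * 4 ^ m / qq p i) :
    ((1 / 2 : ℝ) ^ k ≤ dl c₁ p j ∧ Near (p : ℝ) j i k m (Real.logb 2 n)) ∨
    Far (p : ℝ) j i k m (Real.logb 2 (La c₁ p)) (Real.logb 2 n) := by
  have hq := qq_pos p i
  rcases sum_le hc hc1 p j k with ⟨h1, h2, h3⟩ | ⟨h1, h2, h3⟩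
  · left
    refine ⟨h2, h1, logb_le hn (h.trans ?_)⟩
    calc (dl c₁ p j + (1 / 2) ^ k) * 4 ^ m / qq p i
        ≤ (2 : ℝ) ^ (1 - 2 * (j : ℝ)) * 4 ^ m / qq p i := by gcongr
      _ = _ := by
        rw [pow4, qq_eq, ← Real.rpow_add (by norm_num), ← Real.rpow_sub (by norm_num)]
  · right
    refine ⟨h1, logb_le hn (h.trans ?_)⟩
    calc (dl c₁ p j + (1 / 2) ^ k) * 4 ^ m / qq p i
        ≤ (2 : ℝ) ^ (1 - (k : ℝ)) * 4 ^ m / qq p i := by gcongr
      _ = _ := by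
        rw [pow4, qq_eq, ← Real.rpow_add (by norm_num), ← Real.rpow_sub (by norm_num)]

/-- The stay bound in logarithms. -/
lemma St_le {c₁ : ℝ} (hc : 0 < c₁) (hc1 : c₁ ≤ 1) (p j i k : ℕ) {n y x : ℝ} (hn : 0 < n)
    (hy : y = (2 : ℝ) ^ x) (h : n ≤ y * KK c₁ p j i k) :
    Real.logb 2 n ≤ x + (Real.logb 2 (La c₁ p) + 1) ∨
    Real.logb 2 n ≤ x + (Real.logb 2 (La c₁ p) + 1 + (2 * (i : ℝ) - 2 * j)) ∨
    Real.logb 2 n ≤ x + (Real.logb 2 (La c₁ p) + 1 + (2 * (i : ℝ) - k)) := by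
  have hy0 : 0 < y := by rw [hy]; positivity
  rcases KK_le hc hc1 p j i k with h1 | h1 | h1
  · left
    apply logb_le hn
    rw [Real.rpow_add (by norm_num), ← hy]
    exact h.trans (by gcongr)
  · right; left
    apply logb_le hn
    rw [Real.rpow_add (by norm_num), ← hy]
    exact h.trans (by gcongr)
  · right; right
    apply logb_le hn
    rw [Real.rpow_add (by norm_num), ← hy]
    exact h.trans (by gcongr)

lemma gd_good {p j i a : ℕ} (h : gd p j i ((1 / 2) ^ a)) :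
    12 * (i : ℝ) ≤ 5 * p ∧ 10 - 5 / 8 * ((p : ℝ) - i) ≤ -(a : ℝ) ∧
      10 - 5 / 8 * ((p : ℝ) - j) ≤ -(a : ℝ) := (gd_iff p j i a).mp h

lemma gd_bad {p j i a : ℕ} (h : ¬ gd p j i ((1 / 2) ^ a)) : Bad (p : ℝ) j i a := by
  rw [gd_iff] at h
  unfold Bad
  by_contra hcon
  push Not at hcon
  exact h ⟨hcon.1, hcon.2.1, hcon.2.2⟩

lemma rg {c₁ : ℝ} (hc : 0 < c₁) (hc1 : c₁ ≤ 1) {p j i k m l : ℕ} (h12 : 12 * j ≤ 5 * p)
    (hi : i ≤ p) (hm : m ≤ p - j + 3) :
    Rg (p : ℝ) j i k m l (Real.logb 2 (La c₁ p)) := by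
  have hj : j ≤ p := by omega
  have hm' : m + j ≤ p + 3 := by omega
  refine ⟨by positivity, by positivity, by positivity, by positivity, by positivity,
    by exact_mod_cast h12, by exact_mod_cast hi, ?_, la_ge hc hc1 p⟩
  have : (m : ℝ) + j ≤ p + 3 := by exact_mod_cast hm'
  linarith only [this]

/-! ### Aligned cells -/

section A

variable {c₁ : ℝ} (hc : 0 < c₁) (hc1 : c₁ ≤ 1) {p j i k m l : ℕ}

include hc in
lemma nA_pos : 0 < nA c₁ p j i k m l := by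
  have h1 := dl_pos hc p j
  have h2 := qq_pos p i
  have h3 := KK_pos hc p j i k
  unfold nA
  refine lt_min (lt_min (by positivity) (by positivity)) (lt_min (by positivity) ?_)
  split_ifs <;> positivity

lemma nA_le_V : nA c₁ p j i k m l
    ≤ dl c₁ p j * (1 / 8) ^ k * (1 / 4) ^ m * (1 / 4) ^ l * qq p i ^ 3 :=
  (min_le_left _ _).trans (min_le_left _ _)

lemma nA_le_F : nA c₁ p j i k m l ≤ dl c₁ p j * 4 ^ l / qq p i :=
  (min_le_left _ _).trans (min_le_right _ _)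

lemma nA_le_S : nA c₁ p j i k m l ≤ (dl c₁ p j + (1 / 2) ^ k) * 4 ^ m / qq p i :=
  (min_le_right _ _).trans (min_le_left _ _)

lemma nA_le_St (h : gd p j i ((1 / 2) ^ m)) :
    nA c₁ p j i k m l ≤ 8 ^ m * (1 / 2) ^ k * KK c₁ p j i k / qq p i := by
  refine (min_le_right _ _).trans ((min_le_right _ _).trans ?_)
  rw [if_pos h]

include hc hc1 in
lemma nA_good (h : gd p j i ((1 / 2) ^ m)) :
    Good (p : ℝ) j i k (Real.logb 2 (La c₁ p)) (Real.logb 2 (nA c₁ p j i k m l)) m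
      (3 * m - k - ((p : ℝ) - i)) := by
  refine ⟨gd_good h, ?_⟩
  refine St_le hc hc1 p j i k (y := 8 ^ m * (1 / 2) ^ k / qq p i) (nA_pos hc) ?_ ?_
  · rw [pow8, powh2, qq_eq, ← Real.rpow_add (by norm_num), ← Real.rpow_sub (by norm_num)]
    congr 1
  · refine (nA_le_St h).trans (le_of_eq ?_)
    ring

include hc hc1 in
lemma nA_cases : (((1 / 2 : ℝ) ^ k ≤ dl c₁ p j ∧ gd p j i ((1 / 2) ^ m)) ∨
      SlackC (p : ℝ) j i k m (Real.logb 2 (La c₁ p)) (Real.logb 2 (nA c₁ p j i k m l)) m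
        (3 * m - k - ((p : ℝ) - i))) ∧
    AllC (p : ℝ) j i k m (Real.logb 2 (La c₁ p)) (Real.logb 2 (nA c₁ p j i k m l)) m
        (3 * m - k - ((p : ℝ) - i)) := by
  have hS := S_le hc hc1 p j i k m (nA_pos hc) (nA_le_S (c₁ := c₁) (p := p) (j := j) (i := i)
    (k := k) (m := m) (l := l))
  by_cases hg : gd p j i ((1 / 2) ^ m)
  · have hG := nA_good (l := l) (k := k) hc hc1 hg
    rcases hS with ⟨hn, hN⟩ | hF
    · exact ⟨Or.inl ⟨hn, hg⟩, Or.inl hN, Or.inr hG⟩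
    · exact ⟨Or.inr (Or.inr ⟨hF, Or.inr hG⟩), Or.inr hF, Or.inr hG⟩
  · have hB := gd_bad hg
    rcases hS with ⟨hn, hN⟩ | hF
    · exact ⟨Or.inr (Or.inl ⟨hN, hB⟩), Or.inl hN, Or.inl hB⟩
    · exact ⟨Or.inr (Or.inr ⟨hF, Or.inl hB⟩), Or.inr hF, Or.inl hB⟩

/-- The kernel factor of the critical term. -/
noncomputable def WA (p j m l : ℕ) : ℝ := (1 / 2) ^ j * (1 / 4) ^ m / DD p j m l

lemma WA_pos (p j m l : ℕ) : 0 < WA p j m l := by
  unfold WA
  have := DD_pos p j m l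
  positivity

noncomputable def aA (c₁ : ℝ) (p j m l i : ℕ) : ℝ :=
  WA p j m l * (dl c₁ p j * (1 / 4) ^ m * (1 / 4) ^ l * qq p i ^ 3)

noncomputable def bA (c₁ : ℝ) (p j m l i : ℕ) : ℝ :=
  WA p j m l * (8 ^ m * KI c₁ p j i / qq p i)

include hc in
lemma critA (hn : (1 / 2 : ℝ) ^ k ≤ dl c₁ p j) (hg : gd p j i ((1 / 2) ^ m)) :
    4 ^ k * WA p j m l * nA c₁ p j i k m l
      ≤ min (aA c₁ p j m l i * (1 / 2) ^ k) (bA c₁ p j m l i * 2 ^ k) := by
  have hW := WA_pos p j m l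
  have hq := qq_pos p i
  have hKI := KI_pos hc p j i
  apply le_min
  · calc 4 ^ k * WA p j m l * nA c₁ p j i k m l
        ≤ 4 ^ k * WA p j m l
          * (dl c₁ p j * (1 / 8) ^ k * (1 / 4) ^ m * (1 / 4) ^ l * qq p i ^ 3) := by
          gcongr; exact nA_le_V
      _ = aA c₁ p j m l i * (4 ^ k * (1 / 8) ^ k) := by unfold aA; ring
      _ = aA c₁ p j m l i * (1 / 2) ^ k := by rw [← mul_pow]; norm_num
  · calc 4 ^ k * WA p j m l * nA c₁ p j i k m l
        ≤ 4 ^ k * WA p j m l * (8 ^ m * (1 / 2) ^ k * KI c₁ p j i / qq p i) := by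
          gcongr
          refine (nA_le_St hg).trans ?_
          have := KK_le_KI hc p j i k hn
          gcongr
      _ = bA c₁ p j m l i * (4 ^ k * (1 / 2) ^ k) := by unfold bA; ring
      _ = bA c₁ p j m l i * 2 ^ k := by rw [← mul_pow]; norm_num

include hc hc1 in
/-- Pointwise bound for aligned cells. -/
lemma pointA (h12 : 12 * j ≤ 5 * p) (hr : rA p j i m l) :
    4 ^ k * tA p j i m l * nA c₁ p j i k m l ≤ 3 * (Bs c₁ p j * rr ^ k)
      + (if 12 * i ≤ 5 * p then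
          min (aA c₁ p j m l i * (1 / 2) ^ k) (bA c₁ p j m l i * 2 ^ k) else 0) := by
  obtain ⟨hml, hi, hm, hl⟩ := hr
  have hR := rg (k := k) (l := l) hc hc1 h12 hi hm
  have hn := nA_pos (p := p) (j := j) (i := i) (k := k) (m := m) (l := l) hc
  have hLP : (l : ℝ) ≤ (p : ℝ) - i + 1 := by
    have : l + i ≤ p + 1 := by omega
    have : (l : ℝ) + i ≤ p + 1 := by exact_mod_cast this
    linarith only [this]
  have hML : (m : ℝ) + 4 ≤ l := by exact_mod_cast hml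
  have hV := logb_le hn (nA_le_V.trans (V_le hc hc1 p j i k m l))
  have hF := logb_le hn (nA_le_F.trans (F_le hc hc1 p j i l))
  obtain ⟨hcase, hall⟩ := nA_cases (p := p) (j := j) (i := i) (k := k) (m := m) (l := l) hc hc1
  have hq := qq_pos p i
  have hDD := DD_pos p j m l
  set n := nA c₁ p j i k m l with hnn
  -- term 1
  have t1 : 4 ^ k * (2 ^ j * 4 ^ l / qq p i ^ 2) * n ≤ Bs c₁ p j * rr ^ k := by
    rw [← Bs_eq hc]
    refine mul_le_two (u := 2 * k + j + 2 * l - 2 * ((p : ℝ) - i)) (le_of_eq ?_) hn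
      (lpA1 hR hLP hML hV hF hall)
    rw [pow4, pow2, pow4, qq_eq, ← Real.rpow_natCast _ 2, ← Real.rpow_mul (by norm_num),
      ← Real.rpow_add (by norm_num), ← Real.rpow_sub (by norm_num), ← Real.rpow_add (by norm_num)]
    congr 1; push_cast; ring
  -- term 3
  have t3 : 4 ^ k * (ee p j * 2 ^ l) * n ≤ Bs c₁ p j * rr ^ k := by
    rw [← Bs_eq hc]
    refine mul_le_two (u := 2 * k - 5 / 8 * ((p : ℝ) - j) + l) (le_of_eq ?_) hn
      (lpA3 hR hLP hML hV hF hall)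
    rw [pow4, pow2, ee_eq, ← Real.rpow_add (by norm_num), ← Real.rpow_add (by norm_num)]
    congr 1; ring
  -- term 2
  have t2 : 4 ^ k * ((1 / 2) ^ j * (1 / 4) ^ m / DD p j m l) * n ≤ Bs c₁ p j * rr ^ k
      + (if 12 * i ≤ 5 * p then
          min (aA c₁ p j m l i * (1 / 2) ^ k) (bA c₁ p j m l i * 2 ^ k) else 0) := by
    have hcrit0 : 0 ≤ (if 12 * i ≤ 5 * p then
          min (aA c₁ p j m l i * (1 / 2) ^ k) (bA c₁ p j m l i * 2 ^ k) else 0) := by
      split_ifs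
      · have hW := WA_pos p j m l
        have hKI := KI_pos hc p j i
        have := dl_pos hc p j
        unfold aA bA
        exact le_min (by (clear * - hq hW this; positivity)) (by positivity)
      · exact le_rfl
    have hBs : 0 ≤ Bs c₁ p j * rr ^ k := by
      have := Bs_pos hc p j
      have := rr_pos
      positivity
    rcases hcase with ⟨hnear, hgood⟩ | hslack
    · have hi12 : 12 * i ≤ 5 * p := hgood.1
      rw [if_pos hi12]
      have := critA (l := l) hc hnear hgood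
      rw [WA] at this
      linarith only [hBs, this]
    · have h1 : 4 ^ k * ((1 / 2) ^ j * (1 / 4) ^ m / DD p j m l) * n ≤ Bs c₁ p j * rr ^ k := by
        rw [← Bs_eq hc]
        have hD0 : 0 < 1 / DD p j m l := by positivity
        have hD1 := logb_le hD0 (invDD_le1 p j m l)
        have hD2 := logb_le hD0 (invDD_le2 p j m l)
        have hD3 := logb_le hD0 (invDD_le3 p j m l)
        have hDe : 1 / DD p j m l = (2 : ℝ) ^ (Real.logb 2 (1 / DD p j m l)) :=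
          (Real.rpow_logb (by norm_num) (by norm_num) hD0).symm
        refine mul_le_two (u := 2 * k - j - 2 * m + Real.logb 2 (1 / DD p j m l)) (le_of_eq ?_) hn
          (lpA2 hR hLP hML hV hF hD1 hD2 hD3 hslack)
        rw [div_eq_mul_one_div, hDe, ← hDe, pow4, powh2, powh4, ← Real.rpow_add (by norm_num)]
        conv_lhs => rw [hDe]
        rw [← Real.rpow_add (by norm_num), ← Real.rpow_add (by norm_num)]
        congr 1; ring
      linarith only [hcrit0, h1]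
  have hsplit : 4 ^ k * tA p j i m l * n = 4 ^ k * (2 ^ j * 4 ^ l / qq p i ^ 2) * n
      + 4 ^ k * ((1 / 2) ^ j * (1 / 4) ^ m / DD p j m l) * n + 4 ^ k * (ee p j * 2 ^ l) * n := by
    unfold tA; ring
  rw [hsplit]
  linarith only [t1, t3, t2]

noncomputable def gA (j m l : ℕ) : ℝ := (3 / 4) ^ m * (1 / 2) ^ ((l - (m + j)) + ((m + j) - l))

lemma WA_sq (p j m l : ℕ) : WA p j m l ^ 2 * 2 ^ m * (1 / 4) ^ l ≤ gA j m l ^ 2 := by
  have hDD := DD_pos p j m l
  have hW := WA_pos p j m l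
  have h1 : WA p j m l ≤ (1 / 2) ^ j * (1 / 4) ^ m * 4 ^ l := by
    unfold WA
    rw [div_eq_mul_one_div]
    have := invDD_le1 p j m l
    rw [← pow4] at this
    gcongr
  have h2 : WA p j m l ≤ 2 ^ j := by
    have h3 := invDD_le2 p j m l
    rw [Real.rpow_add (by norm_num), ← pow4, ← pow4] at h3
    calc WA p j m l = (1 / 2) ^ j * (1 / 4) ^ m * (1 / DD p j m l) := by
          unfold WA; rw [div_eq_mul_one_div]
      _ ≤ (1 / 2) ^ j * (1 / 4) ^ m * (4 ^ j * 4 ^ m) := by gcongr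
      _ = ((1 / 2) ^ j * 4 ^ j) * ((1 / 4) ^ m * 4 ^ m) := by ring
      _ = 2 ^ j := by rw [← mul_pow, ← mul_pow]; norm_num
  have hm : (1 / 2 : ℝ) ^ m ≤ (9 / 16) ^ m := pow_le_pow_left₀ (by norm_num) (by norm_num) m
  have key : WA p j m l ^ 2 * 2 ^ m * (1 / 4) ^ l
      ≤ (1 / 2) ^ m * (1 / 4) ^ ((l - (m + j)) + ((m + j) - l)) := by
    rcases le_total l (m + j) with h | h
    · obtain ⟨d, hd⟩ := Nat.exists_eq_add_of_le h
      have e0 : (l - (m + j)) + ((m + j) - l) = d := by omega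
      rw [e0]
      calc WA p j m l ^ 2 * 2 ^ m * (1 / 4) ^ l
          ≤ ((1 / 2) ^ j * (1 / 4) ^ m * 4 ^ l) ^ 2 * 2 ^ m * (1 / 4) ^ l := by (clear * - hW h1; gcongr)
        _ = (1 / 2) ^ m * (1 / 4 : ℝ) ^ (m + j) * 4 ^ l := by
            have e1 : ((1 / 2 : ℝ) ^ j * (1 / 4) ^ m * 4 ^ l) ^ 2
                = (1 / 4) ^ j * (1 / 16) ^ m * 16 ^ l := by
              rw [mul_pow, mul_pow, ← pow_mul, ← pow_mul, ← pow_mul, mul_comm j 2, mul_comm m 2,
                mul_comm l 2, pow_mul, pow_mul, pow_mul]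
              norm_num
            rw [e1, pow_add]
            have e2 : (1 / 16 : ℝ) ^ m * 2 ^ m = (1 / 2) ^ m * (1 / 4) ^ m := by
              rw [← mul_pow, ← mul_pow]; norm_num
            have e3 : (16 : ℝ) ^ l * (1 / 4) ^ l = 4 ^ l := by rw [← mul_pow]; norm_num
            calc (1 / 4 : ℝ) ^ j * (1 / 16) ^ m * 16 ^ l * 2 ^ m * (1 / 4) ^ l
                = (1 / 4) ^ j * ((1 / 16) ^ m * 2 ^ m) * (16 ^ l * (1 / 4) ^ l) := by ring
              _ = _ := by rw [e2, e3]; ring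
        _ = (1 / 2) ^ m * (1 / 4) ^ d * ((1 / 4) ^ l * 4 ^ l) := by
            rw [hd, pow_add]; ring
        _ = (1 / 2) ^ m * (1 / 4) ^ d := by rw [← mul_pow]; norm_num
        _ ≤ (1 / 2) ^ m * (1 / 4) ^ d := le_rfl
    · obtain ⟨d, hd⟩ := Nat.exists_eq_add_of_le h
      have e0 : (l - (m + j)) + ((m + j) - l) = d := by omega
      rw [e0]
      calc WA p j m l ^ 2 * 2 ^ m * (1 / 4) ^ l
          ≤ (2 ^ j) ^ 2 * 2 ^ m * (1 / 4) ^ l := by (clear * - hW h2; gcongr)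
        _ = (4 ^ j * (1 / 4) ^ j) * (2 ^ m * (1 / 4) ^ m) * (1 / 4) ^ d := by
            rw [hd, pow_add, pow_add, ← pow_mul, mul_comm j 2, pow_mul]; norm_num; ring
        _ = (1 / 2) ^ m * (1 / 4) ^ d := by
            rw [← mul_pow, ← mul_pow]; norm_num
  refine key.trans ?_
  have e4 : gA j m l ^ 2 = (9 / 16) ^ m * (1 / 4) ^ ((l - (m + j)) + ((m + j) - l)) := by
    unfold gA
    rw [mul_pow, ← pow_mul, ← pow_mul, mul_comm m 2, mul_comm _ 2, pow_mul, pow_mul]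
    norm_num
  rw [e4]
  (clear * - hm; gcongr)

lemma sqrtA {c₁ : ℝ} (hc : 0 < c₁) (p j m l i : ℕ) :
    √(aA c₁ p j m l i * bA c₁ p j m l i)
      ≤ √(dl c₁ p j * KI c₁ p j i) * qq p i * gA j m l := by
  have hd := dl_pos hc p j
  have hKI := KI_pos hc p j i
  have hq := qq_pos p i
  have hg : 0 ≤ gA j m l := by unfold gA; positivity
  apply Real.sqrt_le_iff.mpr
  refine ⟨by positivity, ?_⟩
  rw [mul_pow, mul_pow, Real.sq_sqrt (by positivity)]
  have e1 : aA c₁ p j m l i * bA c₁ p j m l i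
      = dl c₁ p j * KI c₁ p j i * qq p i ^ 2 * (WA p j m l ^ 2 * 2 ^ m * (1 / 4) ^ l) := by
    have e2 : (1 / 4 : ℝ) ^ m * 8 ^ m = 2 ^ m := by rw [← mul_pow]; norm_num
    unfold aA bA
    rw [← e2]
    (clear * - hd hKI hq; field_simp)
  rw [e1]
  have := WA_sq p j m l
  gcongr

lemma sum_gA (j : ℕ) : ∑' (m : ℕ) (l : ℕ), ENNReal.ofReal (gA j m l) ≤ ENNReal.ofReal 12 := by
  have h1 : ∀ m l : ℕ, ENNReal.ofReal (gA j m l) = ENNReal.ofReal (1 * (3 / 4 : ℝ) ^ m)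
      * ENNReal.ofReal ((1 / 2) ^ ((l - (m + j)) + ((m + j) - l))) := by
    intro m l
    rw [← ENNReal.ofReal_mul (by positivity), one_mul]; rfl
  simp only [h1, ENNReal.tsum_mul_left]
  calc ∑' m : ℕ, ENNReal.ofReal (1 * (3 / 4 : ℝ) ^ m)
        * ∑' l : ℕ, ENNReal.ofReal ((1 / 2) ^ ((l - (m + j)) + ((m + j) - l)))
      ≤ ∑' m : ℕ, ENNReal.ofReal (1 * (3 / 4 : ℝ) ^ m) * ENNReal.ofReal 3 := by
        refine ENNReal.tsum_le_tsum fun m => ?_
        gcongr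
        exact tsum_abs_le (m + j)
    _ = ENNReal.ofReal 12 := by
        rw [ENNReal.tsum_mul_right, tsum_geom (by norm_num) (by norm_num) (by norm_num),
          ← ENNReal.ofReal_mul (by norm_num)]
        norm_num

open Classical in
lemma sumA {c₁ : ℝ} (hc : 0 < c₁) (hc1 : c₁ ≤ 1) {p j : ℕ} (h12 : 12 * j ≤ 5 * p)
    (hsl : 24 / (1 - rr) ^ 2 * Bs c₁ p j * (1 + (p : ℝ)) ^ 3 ≤ √c₁ * qq p j) :
    (∑' (k : ℕ) (m : ℕ) (l : ℕ) (i : ℕ), if rA p j i m l then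
      ENNReal.ofReal (4 ^ k * tA p j i m l * nA c₁ p j i k m l) else 0)
    ≤ ENNReal.ofReal (1000 * √c₁ * qq p j) := by
  have hBs := Bs_pos hc p j
  have hrr := rr_pos
  have hrr1 : 0 < 1 - rr := by have := rr_lt; linarith only [this]
  have hq := qq_pos p j
  -- pointwise
  have hpt : ∀ k m l i : ℕ, (if rA p j i m l then
      ENNReal.ofReal (4 ^ k * tA p j i m l * nA c₁ p j i k m l) else 0)
      ≤ ENNReal.ofReal (3 * Bs c₁ p j * rr ^ k) * (if m ≤ p + 3 then 1 else 0)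
          * (if l ≤ p + 1 then 1 else 0) * (if i ≤ p then 1 else 0)
        + (if 12 * i ≤ 5 * p then ENNReal.ofReal
            (min (aA c₁ p j m l i * (1 / 2) ^ k) (bA c₁ p j m l i * 2 ^ k)) else 0) := by
    intro k m l i
    by_cases h : rA p j i m l
    · have hp := pointA (c₁ := c₁) (k := k) hc hc1 h12 h
      obtain ⟨g1, g2, g3, g4⟩ := h
      rw [if_pos (show rA p j i m l from ⟨g1, g2, g3, g4⟩), if_pos (show m ≤ p + 3 by omega),
        if_pos (show l ≤ p + 1 by omega), if_pos g2]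
      simp only [mul_one]
      by_cases h4 : 12 * i ≤ 5 * p
      · rw [if_pos h4] at hp ⊢
        refine (ENNReal.ofReal_le_ofReal hp).trans ?_
        refine ENNReal.ofReal_add_le.trans (le_of_eq ?_)
        congr 2; ring
      · rw [if_neg h4] at hp ⊢
        rw [add_zero] at hp ⊢
        refine (ENNReal.ofReal_le_ofReal hp).trans (le_of_eq ?_)
        congr 1; ring
    · rw [if_neg h]
      exact zero_le
  refine (s4_mono hpt).trans ?_
  rw [s4_add]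
  have hS := slack_sum p (fun k m l i => ENNReal.ofReal (3 * Bs c₁ p j * rr ^ k)
      * (if m ≤ p + 3 then 1 else 0) * (if l ≤ p + 1 then 1 else 0) * (if i ≤ p then 1 else 0))
    (B := 3 * Bs c₁ p j) (W := (p : ℝ) + 2) (by positivity) (by positivity)
    (fun l => if l ≤ p + 1 then 1 else 0) (by
      have := tsum_ind_le (p + 1)
      refine this.trans (le_of_eq ?_)
      congr 1; push_cast; ring) (fun k m l i => le_rfl)
  have hC := crit_sum hc p j (fun k m l i => (if 12 * i ≤ 5 * p then ENNReal.ofReal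
            (min (aA c₁ p j m l i * (1 / 2) ^ k) (bA c₁ p j m l i * 2 ^ k)) else 0))
    (aA c₁ p j) (bA c₁ p j) (gA j) 12 (by norm_num)
    (fun m l i => by
      have := WA_pos p j m l
      have := dl_pos hc p j
      have := qq_pos p i
      unfold aA; positivity)
    (fun m l i => by
      have := WA_pos p j m l
      have := KI_pos hc p j i
      have := qq_pos p i
      unfold bA; positivity)
    (fun m l => by unfold gA; positivity) (fun k m l i => le_rfl)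
    (fun m l i _ => sqrtA hc p j m l i) (sum_gA j)
  refine (add_le_add hS hC).trans ?_
  rw [← ENNReal.ofReal_add (by (clear * - hBs hrr1; positivity)) (by positivity)]
  apply ENNReal.ofReal_le_ofReal
  have hp0 : (0 : ℝ) ≤ p := by positivity
  have h1 : 3 * Bs c₁ p j / (1 - rr) * (p + 4) * ((p : ℝ) + 2) * (p + 1)
      ≤ 24 / (1 - rr) ^ 2 * Bs c₁ p j * (1 + (p : ℝ)) ^ 3 := by
    have h2 : ((p : ℝ) + 4) * (p + 2) * (p + 1) ≤ 8 * (1 + p) ^ 3 := by
      have : (p : ℝ) + 4 ≤ 4 * (1 + p) := by linarith only []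
      have : (p : ℝ) + 2 ≤ 2 * (1 + p) := by linarith only []
      calc ((p : ℝ) + 4) * (p + 2) * (p + 1) ≤ (4 * (1 + p)) * (2 * (1 + p)) * (p + 1) := by
            gcongr
        _ = 8 * (1 + p) ^ 3 := by ring
    have h3 : 1 / (1 - rr) ≤ 1 / (1 - rr) ^ 2 := by
      apply one_div_le_one_div_of_le (by positivity)
      have : 1 - rr ≤ 1 := by linarith only [hrr]
      nlinarith only [hrr, hrr1]
    calc 3 * Bs c₁ p j / (1 - rr) * (p + 4) * ((p : ℝ) + 2) * (p + 1)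
        = 3 * Bs c₁ p j * (1 / (1 - rr)) * ((p + 4) * ((p : ℝ) + 2) * (p + 1)) := by
          (clear * - hBs hrr1; field_simp)
      _ ≤ 3 * Bs c₁ p j * (1 / (1 - rr) ^ 2) * (8 * (1 + p) ^ 3) := by (clear * - hBs hrr1 h2 h3; gcongr)
      _ = _ := by field_simp; ring
  have h5 : 0 ≤ √c₁ * qq p j := by positivity
  have h6 : 80 * 12 * √c₁ * qq p j = 960 * (√c₁ * qq p j) := by ring
  have h7 : 1000 * √c₁ * qq p j = 1000 * (√c₁ * qq p j) := by ring
  rw [h6, h7]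
  linarith only [hsl, h1, h5]

end A

/-! ### Nonaligned cells -/

section N

variable {c₁ : ℝ} (hc : 0 < c₁) (hc1 : c₁ ≤ 1) {p j i k m l : ℕ}

include hc in
lemma nN_pos : 0 < nN c₁ p j i k m l := by
  have h1 := dl_pos hc p j
  have h2 := qq_pos p i
  have h3 := KK_pos hc p j i k
  unfold nN
  refine lt_min (lt_min (by positivity) (by positivity)) (lt_min (by positivity) ?_)
  split_ifs <;> positivity

lemma nN_le_V : nN c₁ p j i k m l
    ≤ dl c₁ p j * (1 / 8) ^ k * (1 / 4) ^ m * (1 / 4) ^ l * qq p i ^ 3 :=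
  (min_le_left _ _).trans (min_le_left _ _)

lemma nN_le_F : nN c₁ p j i k m l ≤ dl c₁ p j * 4 ^ l / qq p i :=
  (min_le_left _ _).trans (min_le_right _ _)

lemma nN_le_S : nN c₁ p j i k m l ≤ (dl c₁ p j + (1 / 2) ^ k) * 4 ^ m / qq p i :=
  (min_le_right _ _).trans (min_le_left _ _)

lemma nN_le_St (h : gd p j i ((1 / 2) ^ l)) :
    nN c₁ p j i k m l ≤ 4 ^ m * 2 ^ l * (1 / 2) ^ k * KK c₁ p j i k / qq p i := by
  refine (min_le_right _ _).trans ((min_le_right _ _).trans ?_)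
  rw [if_pos h]

include hc hc1 in
lemma nN_good (h : gd p j i ((1 / 2) ^ l)) :
    Good (p : ℝ) j i k (Real.logb 2 (La c₁ p)) (Real.logb 2 (nN c₁ p j i k m l)) l
      (2 * m + l - k - ((p : ℝ) - i)) := by
  refine ⟨gd_good h, ?_⟩
  refine St_le hc hc1 p j i k (y := 4 ^ m * 2 ^ l * (1 / 2) ^ k / qq p i) (nN_pos hc) ?_ ?_
  · rw [pow4, pow2, powh2, qq_eq, ← Real.rpow_add (by norm_num), ← Real.rpow_add (by norm_num),
      ← Real.rpow_sub (by norm_num)]
    congr 1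
  · refine (nN_le_St h).trans (le_of_eq ?_)
    ring

include hc hc1 in
lemma nN_cases : (((1 / 2 : ℝ) ^ k ≤ dl c₁ p j ∧ gd p j i ((1 / 2) ^ l)) ∨
      SlackC (p : ℝ) j i k m (Real.logb 2 (La c₁ p)) (Real.logb 2 (nN c₁ p j i k m l)) l
        (2 * m + l - k - ((p : ℝ) - i))) ∧
    AllC (p : ℝ) j i k m (Real.logb 2 (La c₁ p)) (Real.logb 2 (nN c₁ p j i k m l)) l
        (2 * m + l - k - ((p : ℝ) - i)) := by
  have hS := S_le hc hc1 p j i k m (nN_pos hc) (nN_le_S (c₁ := c₁) (p := p) (j := j) (i := i)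
    (k := k) (m := m) (l := l))
  by_cases hg : gd p j i ((1 / 2) ^ l)
  · have hG := nN_good (m := m) (k := k) hc hc1 hg
    rcases hS with ⟨hn, hN⟩ | hF
    · exact ⟨Or.inl ⟨hn, hg⟩, Or.inl hN, Or.inr hG⟩
    · exact ⟨Or.inr (Or.inr ⟨hF, Or.inr hG⟩), Or.inr hF, Or.inr hG⟩
  · have hB := gd_bad hg
    rcases hS with ⟨hn, hN⟩ | hF
    · exact ⟨Or.inr (Or.inl ⟨hN, hB⟩), Or.inl hN, Or.inl hB⟩
    · exact ⟨Or.inr (Or.inr ⟨hF, Or.inl hB⟩), Or.inr hF, Or.inl hB⟩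

noncomputable def WN (j m l : ℕ) : ℝ := (1 / 2) ^ j * (1 / 2) ^ m * 2 ^ l

noncomputable def aN (c₁ : ℝ) (p j m l i : ℕ) : ℝ :=
  if l ≤ m then WN j m l * (dl c₁ p j * (1 / 4) ^ m * (1 / 4) ^ l * qq p i ^ 3) else 0

noncomputable def bN (c₁ : ℝ) (p j m l i : ℕ) : ℝ :=
  WN j m l * (4 ^ m * 2 ^ l * KI c₁ p j i / qq p i)

include hc in
lemma critN (hlm : l ≤ m) (hn : (1 / 2 : ℝ) ^ k ≤ dl c₁ p j) (hg : gd p j i ((1 / 2) ^ l)) :
    4 ^ k * WN j m l * nN c₁ p j i k m l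
      ≤ min (aN c₁ p j m l i * (1 / 2) ^ k) (bN c₁ p j m l i * 2 ^ k) := by
  have hW : 0 < WN j m l := by unfold WN; positivity
  have hq := qq_pos p i
  have hKI := KI_pos hc p j i
  apply le_min
  · calc 4 ^ k * WN j m l * nN c₁ p j i k m l
        ≤ 4 ^ k * WN j m l
          * (dl c₁ p j * (1 / 8) ^ k * (1 / 4) ^ m * (1 / 4) ^ l * qq p i ^ 3) := by
          gcongr; exact nN_le_V
      _ = aN c₁ p j m l i * (4 ^ k * (1 / 8) ^ k) := by unfold aN; rw [if_pos hlm]; ring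
      _ = aN c₁ p j m l i * (1 / 2) ^ k := by rw [← mul_pow]; norm_num
  · calc 4 ^ k * WN j m l * nN c₁ p j i k m l
        ≤ 4 ^ k * WN j m l * (4 ^ m * 2 ^ l * (1 / 2) ^ k * KI c₁ p j i / qq p i) := by
          gcongr
          refine (nN_le_St hg).trans ?_
          have := KK_le_KI hc p j i k hn
          (clear * - hq this; gcongr)
      _ = bN c₁ p j m l i * (4 ^ k * (1 / 2) ^ k) := by unfold bN; ring
      _ = bN c₁ p j m l i * 2 ^ k := by rw [← mul_pow]; norm_num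

include hc in
lemma aN_nonneg : 0 ≤ aN c₁ p j m l i := by
  unfold aN WN
  have := dl_pos hc p j
  have := qq_pos p i
  split_ifs
  · positivity
  · exact le_rfl

include hc in
lemma bN_nonneg : 0 ≤ bN c₁ p j m l i := by
  unfold bN WN
  have := KI_pos hc p j i
  have := qq_pos p i
  positivity

include hc hc1 in
/-- Pointwise bound for nonaligned cells. -/
lemma pointN (h12 : 12 * j ≤ 5 * p) (hr : rN p j i m l) :
    4 ^ k * tN p j i m l * nN c₁ p j i k m l ≤ 3 * (Bs c₁ p j * rr ^ k)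
      + (if 12 * i ≤ 5 * p then
          min (aN c₁ p j m l i * (1 / 2) ^ k) (bN c₁ p j m l i * 2 ^ k) else 0) := by
  obtain ⟨hml, hi, hm, hl⟩ := hr
  have hR := rg (k := k) (l := l) hc hc1 h12 hi hm
  have hn := nN_pos (p := p) (j := j) (i := i) (k := k) (m := m) (l := l) hc
  have hLP : (l : ℝ) ≤ (p : ℝ) - i + 1 := by
    have : l + i ≤ p + 1 := by omega
    have : (l : ℝ) + i ≤ p + 1 := by exact_mod_cast this
    linarith only [this]
  have hML : (l : ℝ) + 4 ≤ m := by exact_mod_cast hml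
  have hV := logb_le hn (nN_le_V.trans (V_le hc hc1 p j i k m l))
  have hF := logb_le hn (nN_le_F.trans (F_le hc hc1 p j i l))
  obtain ⟨hcase, hall⟩ := nN_cases (p := p) (j := j) (i := i) (k := k) (m := m) (l := l) hc hc1
  have hq := qq_pos p i
  set n := nN c₁ p j i k m l with hnn
  -- term 1
  have t1 : 4 ^ k * (2 ^ j * 4 ^ l / qq p i ^ 2) * n ≤ Bs c₁ p j * rr ^ k := by
    rw [← Bs_eq hc]
    refine mul_le_two (u := 2 * k + j + 2 * l - 2 * ((p : ℝ) - i)) (le_of_eq ?_) hn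
      (lpN1 hR hLP hML hV hF hall)
    rw [pow4, pow2, pow4, qq_eq, ← Real.rpow_natCast _ 2, ← Real.rpow_mul (by norm_num),
      ← Real.rpow_add (by norm_num), ← Real.rpow_sub (by norm_num), ← Real.rpow_add (by norm_num)]
    congr 1; push_cast; ring
  -- term 3
  have t3 : 4 ^ k * (ee p j * 2 ^ l) * n ≤ Bs c₁ p j * rr ^ k := by
    rw [← Bs_eq hc]
    refine mul_le_two (u := 2 * k - 5 / 8 * ((p : ℝ) - j) + l) (le_of_eq ?_) hn
      (lpN3 hR hLP hML hV hF hall)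
    rw [pow4, pow2, ee_eq, ← Real.rpow_add (by norm_num), ← Real.rpow_add (by norm_num)]
    congr 1; ring
  -- term 2
  have t2 : 4 ^ k * WN j m l * n ≤ Bs c₁ p j * rr ^ k
      + (if 12 * i ≤ 5 * p then
          min (aN c₁ p j m l i * (1 / 2) ^ k) (bN c₁ p j m l i * 2 ^ k) else 0) := by
    have hcrit0 : 0 ≤ (if 12 * i ≤ 5 * p then
          min (aN c₁ p j m l i * (1 / 2) ^ k) (bN c₁ p j m l i * 2 ^ k) else 0) := by
      split_ifs
      · have h1 := aN_nonneg (p := p) (j := j) (m := m) (l := l) (i := i) hc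
        have h2 := bN_nonneg (p := p) (j := j) (m := m) (l := l) (i := i) hc
        exact le_min (by (clear * - h1; positivity)) (by positivity)
      · exact le_rfl
    have hBs : 0 ≤ Bs c₁ p j * rr ^ k := by
      have := Bs_pos hc p j
      have := rr_pos
      positivity
    rcases hcase with ⟨hnear, hgood⟩ | hslack
    · have hi12 : 12 * i ≤ 5 * p := hgood.1
      rw [if_pos hi12]
      have := critN (k := k) (l := l) (m := m) hc (by omega) hnear hgood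
      linarith only [hBs, this]
    · have h1 : 4 ^ k * WN j m l * n ≤ Bs c₁ p j * rr ^ k := by
        rw [← Bs_eq hc]
        refine mul_le_two (u := 2 * k - j - m + l) (le_of_eq ?_) hn
          (lpN2 hR hLP hML hV hF hslack)
        unfold WN
        rw [pow4, powh2, powh2, pow2, ← Real.rpow_add (by norm_num),
          ← Real.rpow_add (by norm_num), ← Real.rpow_add (by norm_num)]
        congr 1; ring
      linarith only [hcrit0, h1]
  have hsplit : 4 ^ k * tN p j i m l * n = 4 ^ k * (2 ^ j * 4 ^ l / qq p i ^ 2) * n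
      + 4 ^ k * WN j m l * n + 4 ^ k * (ee p j * 2 ^ l) * n := by
    unfold tN WN; ring
  rw [hsplit]
  linarith only [t1, t3, t2]

noncomputable def gN (m l : ℕ) : ℝ := (3 / 4) ^ l * (1 / 2) ^ ((m - l) + (l - m))

include hc in
lemma sqrtN : √(aN c₁ p j m l i * bN c₁ p j m l i)
      ≤ √(dl c₁ p j * KI c₁ p j i) * qq p i * gN m l := by
  have hd := dl_pos hc p j
  have hKI := KI_pos hc p j i
  have hq := qq_pos p i
  have hg : 0 ≤ gN m l := by unfold gN; positivity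
  by_cases hlm : l ≤ m
  · apply Real.sqrt_le_iff.mpr
    refine ⟨by positivity, ?_⟩
    rw [mul_pow, mul_pow, Real.sq_sqrt (by positivity)]
    have e1 : aN c₁ p j m l i * bN c₁ p j m l i
        = dl c₁ p j * KI c₁ p j i * qq p i ^ 2 * (WN j m l ^ 2 * (1 / 2) ^ l) := by
      have e2 : (1 / 4 : ℝ) ^ m * 4 ^ m = 1 := by rw [← mul_pow]; norm_num
      have e3 : (1 / 4 : ℝ) ^ l * 2 ^ l = (1 / 2) ^ l := by rw [← mul_pow]; norm_num
      unfold aN bN
      rw [if_pos hlm, ← e3]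
      calc WN j m l * (dl c₁ p j * (1 / 4) ^ m * (1 / 4) ^ l * qq p i ^ 3)
            * (WN j m l * (4 ^ m * 2 ^ l * KI c₁ p j i / qq p i))
          = ((1 / 4 : ℝ) ^ m * 4 ^ m) * (dl c₁ p j * KI c₁ p j i * (qq p i ^ 3 / qq p i)
            * (WN j m l ^ 2 * ((1 / 4) ^ l * 2 ^ l))) := by ring
        _ = _ := by
            rw [e2, one_mul]
            congr 2
            field_simp
    rw [e1]
    have hW : WN j m l ≤ (1 / 2) ^ (m - l) := by
      unfold WN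
      obtain ⟨d, rfl⟩ := Nat.exists_eq_add_of_le hlm
      rw [Nat.add_sub_cancel_left, pow_add]
      have h1 : (1 / 2 : ℝ) ^ j ≤ 1 := pow_le_one₀ (by norm_num) (by norm_num)
      have h2 : (1 / 2 : ℝ) ^ l * 2 ^ l = 1 := by rw [← mul_pow]; norm_num
      calc (1 / 2 : ℝ) ^ j * ((1 / 2) ^ l * (1 / 2) ^ d) * 2 ^ l
          = (1 / 2 : ℝ) ^ j * ((1 / 2) ^ l * 2 ^ l) * (1 / 2) ^ d := by ring
        _ ≤ 1 * ((1 / 2) ^ l * 2 ^ l) * (1 / 2) ^ d := by (clear * - h1; gcongr)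
        _ = (1 / 2) ^ d := by rw [h2]; ring
    have hW0 : 0 ≤ WN j m l := by unfold WN; positivity
    have hg2 : WN j m l ^ 2 * (1 / 2) ^ l ≤ gN m l ^ 2 := by
      have e0 : (m - l) + (l - m) = m - l := by omega
      unfold gN
      rw [e0, mul_pow]
      have h3 : (1 / 2 : ℝ) ^ l ≤ ((3 / 4) ^ l) ^ 2 := by
        rw [← pow_mul, mul_comm l 2, pow_mul]
        exact pow_le_pow_left₀ (by norm_num) (by norm_num) l
      calc WN j m l ^ 2 * (1 / 2) ^ l ≤ ((1 / 2) ^ (m - l)) ^ 2 * ((3 / 4) ^ l) ^ 2 := by (clear * - hW hW0 h3; gcongr)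
        _ = _ := by ring
    gcongr
  · have : aN c₁ p j m l i = 0 := by unfold aN; rw [if_neg hlm]
    rw [this, zero_mul, Real.sqrt_zero]
    positivity

lemma sum_gN : ∑' (m : ℕ) (l : ℕ), ENNReal.ofReal (gN m l) ≤ ENNReal.ofReal 12 := by
  rw [ENNReal.tsum_comm]
  have h1 : ∀ l m : ℕ, ENNReal.ofReal (gN m l) = ENNReal.ofReal (1 * (3 / 4 : ℝ) ^ l)
      * ENNReal.ofReal ((1 / 2) ^ ((m - l) + (l - m))) := by
    intro l m
    rw [← ENNReal.ofReal_mul (by positivity), one_mul]; rfl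
  simp only [h1, ENNReal.tsum_mul_left]
  calc ∑' l : ℕ, ENNReal.ofReal (1 * (3 / 4 : ℝ) ^ l)
        * ∑' m : ℕ, ENNReal.ofReal ((1 / 2) ^ ((m - l) + (l - m)))
      ≤ ∑' l : ℕ, ENNReal.ofReal (1 * (3 / 4 : ℝ) ^ l) * ENNReal.ofReal 3 := by
        refine ENNReal.tsum_le_tsum fun m => ?_
        gcongr
        exact tsum_abs_le _
    _ = ENNReal.ofReal 12 := by
        rw [ENNReal.tsum_mul_right, tsum_geom (by norm_num) (by norm_num) (by norm_num),
          ← ENNReal.ofReal_mul (by norm_num)]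
        norm_num

end N

lemma poly_slack {B p : ℝ} (hB : 0 ≤ B) (hp0 : 0 ≤ p) :
    3 * B / (1 - rr) * (p + 4) * (p + 2) * (p + 1) ≤ 24 / (1 - rr) ^ 2 * B * (1 + p) ^ 3 := by
  have hrr := rr_pos
  have hrr1 : 0 < 1 - rr := by have := rr_lt; linarith only [this]
  have h2 : (p + 4) * (p + 2) * (p + 1) ≤ 8 * (1 + p) ^ 3 := by
    have : p + 4 ≤ 4 * (1 + p) := by linarith only [hp0]
    have : p + 2 ≤ 2 * (1 + p) := by linarith only [p, hp0]
    calc (p + 4) * (p + 2) * (p + 1) ≤ (4 * (1 + p)) * (2 * (1 + p)) * (p + 1) := by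
          gcongr
      _ = 8 * (1 + p) ^ 3 := by ring
  have h3 : 1 / (1 - rr) ≤ 1 / (1 - rr) ^ 2 := by
    apply one_div_le_one_div_of_le (by positivity)
    have : 1 - rr ≤ 1 := by linarith only [hrr]
    nlinarith only [hrr, hrr1]
  calc 3 * B / (1 - rr) * (p + 4) * (p + 2) * (p + 1)
      = 3 * B * (1 / (1 - rr)) * ((p + 4) * (p + 2) * (p + 1)) := by
        field_simp
    _ ≤ 3 * B * (1 / (1 - rr) ^ 2) * (8 * (1 + p) ^ 3) := by gcongr
    _ = _ := by field_simp; ring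

open Classical in
lemma sumN {c₁ : ℝ} (hc : 0 < c₁) (hc1 : c₁ ≤ 1) {p j : ℕ} (h12 : 12 * j ≤ 5 * p)
    (hsl : 24 / (1 - rr) ^ 2 * Bs c₁ p j * (1 + (p : ℝ)) ^ 3 ≤ √c₁ * qq p j) :
    (∑' (k : ℕ) (m : ℕ) (l : ℕ) (i : ℕ), if rN p j i m l then
      ENNReal.ofReal (4 ^ k * tN p j i m l * nN c₁ p j i k m l) else 0)
    ≤ ENNReal.ofReal (1000 * √c₁ * qq p j) := by
  have hBs := Bs_pos hc p j
  have hrr := rr_pos
  have hrr1 : 0 < 1 - rr := by have := rr_lt; linarith only [this]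
  have hq := qq_pos p j
  have hpt : ∀ k m l i : ℕ, (if rN p j i m l then
      ENNReal.ofReal (4 ^ k * tN p j i m l * nN c₁ p j i k m l) else 0)
      ≤ ENNReal.ofReal (3 * Bs c₁ p j * rr ^ k) * (if m ≤ p + 3 then 1 else 0)
          * (if l ≤ p + 1 then 1 else 0) * (if i ≤ p then 1 else 0)
        + (if 12 * i ≤ 5 * p then ENNReal.ofReal
            (min (aN c₁ p j m l i * (1 / 2) ^ k) (bN c₁ p j m l i * 2 ^ k)) else 0) := by
    intro k m l i
    by_cases h : rN p j i m l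
    · have hp := pointN (c₁ := c₁) (k := k) hc hc1 h12 h
      obtain ⟨g1, g2, g3, g4⟩ := h
      rw [if_pos (show rN p j i m l from ⟨g1, g2, g3, g4⟩), if_pos (show m ≤ p + 3 by omega),
        if_pos (show l ≤ p + 1 by omega), if_pos g2]
      simp only [mul_one]
      by_cases h4 : 12 * i ≤ 5 * p
      · rw [if_pos h4] at hp ⊢
        refine (ENNReal.ofReal_le_ofReal hp).trans ?_
        refine ENNReal.ofReal_add_le.trans (le_of_eq ?_)
        congr 2; ring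
      · rw [if_neg h4] at hp ⊢
        rw [add_zero] at hp ⊢
        refine (ENNReal.ofReal_le_ofReal hp).trans (le_of_eq ?_)
        congr 1; ring
    · rw [if_neg h]
      exact zero_le
  refine (s4_mono hpt).trans ?_
  rw [s4_add]
  have hS := slack_sum p (fun k m l i => ENNReal.ofReal (3 * Bs c₁ p j * rr ^ k)
      * (if m ≤ p + 3 then 1 else 0) * (if l ≤ p + 1 then 1 else 0) * (if i ≤ p then 1 else 0))
    (B := 3 * Bs c₁ p j) (W := (p : ℝ) + 2) (by positivity) (by positivity)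
    (fun l => if l ≤ p + 1 then 1 else 0) (by
      have := tsum_ind_le (p + 1)
      refine this.trans (le_of_eq ?_)
      congr 1; push_cast; ring) (fun k m l i => le_rfl)
  have hC := crit_sum hc p j (fun k m l i => (if 12 * i ≤ 5 * p then ENNReal.ofReal
            (min (aN c₁ p j m l i * (1 / 2) ^ k) (bN c₁ p j m l i * 2 ^ k)) else 0))
    (aN c₁ p j) (bN c₁ p j) gN 12 (by norm_num)
    (fun m l i => aN_nonneg hc) (fun m l i => bN_nonneg hc)
    (fun m l => by unfold gN; positivity) (fun k m l i => le_rfl)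
    (fun m l i _ => sqrtN hc) sum_gN
  refine (add_le_add hS hC).trans ?_
  rw [← ENNReal.ofReal_add (by (clear * - hBs hrr1; positivity)) (by positivity)]
  apply ENNReal.ofReal_le_ofReal
  have hp0 : (0 : ℝ) ≤ p := by positivity
  have h1 := poly_slack hBs.le hp0
  have h5 : 0 ≤ √c₁ * qq p j := by positivity
  have h6 : 80 * 12 * √c₁ * qq p j = 960 * (√c₁ * qq p j) := by ring
  have h7 : 1000 * √c₁ * qq p j = 1000 * (√c₁ * qq p j) := by ring
  rw [h6, h7]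
  linarith only [hsl, h1, h5]

/-! ### Diagonal cells -/

section D

variable {c₁ : ℝ} (hc : 0 < c₁) (hc1 : c₁ ≤ 1) {p j i k m l : ℕ}

include hc in
lemma nD_pos : 0 < nD c₁ p j i k m l := by
  have h1 := dl_pos hc p j
  have h2 := qq_pos p i
  have h3 := KK_pos hc p j i k
  unfold nD
  refine lt_min (lt_min (by positivity) (by positivity)) (lt_min (by positivity) ?_)
  split_ifs <;> positivity

lemma nD_le_V : nD c₁ p j i k m l
    ≤ dl c₁ p j * (1 / 8) ^ k * (1 / 4) ^ m * (1 / 4) ^ l * qq p i ^ 3 :=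
  (min_le_left _ _).trans (min_le_left _ _)

lemma nD_le_F : nD c₁ p j i k m l ≤ dl c₁ p j * 4 ^ m / qq p i :=
  (min_le_left _ _).trans (min_le_right _ _)

lemma nD_le_S : nD c₁ p j i k m l ≤ (dl c₁ p j + (1 / 2) ^ k) * 4 ^ m / qq p i :=
  (min_le_right _ _).trans (min_le_left _ _)

lemma nD_le_St (h : gd p j i ((1 / 2) ^ l)) :
    nD c₁ p j i k m l ≤ 2 ^ m * 4 ^ l * (1 / 2) ^ k * KK c₁ p j i k / qq p i := by
  refine (min_le_right _ _).trans ((min_le_right _ _).trans ?_)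
  rw [if_pos h]

include hc hc1 in
lemma nD_good (h : gd p j i ((1 / 2) ^ l)) :
    Good (p : ℝ) j i k (Real.logb 2 (La c₁ p)) (Real.logb 2 (nD c₁ p j i k m l)) l
      (m + 2 * l - k - ((p : ℝ) - i)) := by
  refine ⟨gd_good h, ?_⟩
  refine St_le hc hc1 p j i k (y := 2 ^ m * 4 ^ l * (1 / 2) ^ k / qq p i) (nD_pos hc) ?_ ?_
  · rw [pow4, pow2, powh2, qq_eq, ← Real.rpow_add (by norm_num), ← Real.rpow_add (by norm_num),
      ← Real.rpow_sub (by norm_num)]
    congr 1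
  · refine (nD_le_St h).trans (le_of_eq ?_)
    ring

include hc hc1 in
lemma nD_cases : (((1 / 2 : ℝ) ^ k ≤ dl c₁ p j ∧ gd p j i ((1 / 2) ^ l)) ∨
      SlackC (p : ℝ) j i k m (Real.logb 2 (La c₁ p)) (Real.logb 2 (nD c₁ p j i k m l)) l
        (m + 2 * l - k - ((p : ℝ) - i))) ∧
    AllC (p : ℝ) j i k m (Real.logb 2 (La c₁ p)) (Real.logb 2 (nD c₁ p j i k m l)) l
        (m + 2 * l - k - ((p : ℝ) - i)) := by
  have hS := S_le hc hc1 p j i k m (nD_pos hc) (nD_le_S (c₁ := c₁) (p := p) (j := j) (i := i)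
    (k := k) (m := m) (l := l))
  by_cases hg : gd p j i ((1 / 2) ^ l)
  · have hG := nD_good (m := m) (k := k) hc hc1 hg
    rcases hS with ⟨hn, hN⟩ | hF
    · exact ⟨Or.inl ⟨hn, hg⟩, Or.inl hN, Or.inr hG⟩
    · exact ⟨Or.inr (Or.inr ⟨hF, Or.inr hG⟩), Or.inr hF, Or.inr hG⟩
  · have hB := gd_bad hg
    rcases hS with ⟨hn, hN⟩ | hF
    · exact ⟨Or.inr (Or.inl ⟨hN, hB⟩), Or.inl hN, Or.inl hB⟩
    · exact ⟨Or.inr (Or.inr ⟨hF, Or.inl hB⟩), Or.inr hF, Or.inl hB⟩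

noncomputable def WD (j m l : ℕ) : ℝ := (1 / 2) ^ j * 2 ^ m * (1 / 2) ^ l

noncomputable def aD (c₁ : ℝ) (p j m l i : ℕ) : ℝ :=
  if m ≤ l + 4 then WD j m l * (dl c₁ p j * (1 / 4) ^ m * (1 / 4) ^ l * qq p i ^ 3) else 0

noncomputable def bD (c₁ : ℝ) (p j m l i : ℕ) : ℝ :=
  WD j m l * (2 ^ m * 4 ^ l * KI c₁ p j i / qq p i)

include hc in
lemma critD (hlm : m ≤ l + 4) (hn : (1 / 2 : ℝ) ^ k ≤ dl c₁ p j) (hg : gd p j i ((1 / 2) ^ l)) :
    4 ^ k * WD j m l * nD c₁ p j i k m l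
      ≤ min (aD c₁ p j m l i * (1 / 2) ^ k) (bD c₁ p j m l i * 2 ^ k) := by
  have hW : 0 < WD j m l := by unfold WD; positivity
  have hq := qq_pos p i
  have hKI := KI_pos hc p j i
  apply le_min
  · calc 4 ^ k * WD j m l * nD c₁ p j i k m l
        ≤ 4 ^ k * WD j m l
          * (dl c₁ p j * (1 / 8) ^ k * (1 / 4) ^ m * (1 / 4) ^ l * qq p i ^ 3) := by
          gcongr; exact nD_le_V
      _ = aD c₁ p j m l i * (4 ^ k * (1 / 8) ^ k) := by unfold aD; rw [if_pos hlm]; ring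
      _ = aD c₁ p j m l i * (1 / 2) ^ k := by rw [← mul_pow]; norm_num
  · calc 4 ^ k * WD j m l * nD c₁ p j i k m l
        ≤ 4 ^ k * WD j m l * (2 ^ m * 4 ^ l * (1 / 2) ^ k * KI c₁ p j i / qq p i) := by
          gcongr
          refine (nD_le_St hg).trans ?_
          have := KK_le_KI hc p j i k hn
          (clear * - hq this; gcongr)
      _ = bD c₁ p j m l i * (4 ^ k * (1 / 2) ^ k) := by unfold bD; ring
      _ = bD c₁ p j m l i * 2 ^ k := by rw [← mul_pow]; norm_num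

include hc in
lemma aD_nonneg : 0 ≤ aD c₁ p j m l i := by
  unfold aD WD
  have := dl_pos hc p j
  have := qq_pos p i
  split_ifs
  · positivity
  · exact le_rfl

include hc in
lemma bD_nonneg : 0 ≤ bD c₁ p j m l i := by
  unfold bD WD
  have := KI_pos hc p j i
  have := qq_pos p i
  positivity

/-- The slack target with decay in `n`. -/
lemma Bs_eq' {c₁ : ℝ} (hc : 0 < c₁) (p j k n : ℕ) :
    (2 : ℝ) ^ ((1 - 1 / 200) * (p : ℝ) - j - k / 100 + 4 * Real.logb 2 (La c₁ p) + 10 - n / 100)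
      = Bs c₁ p j * rr ^ k * rr ^ n := by
  rw [← Bs_eq hc, rr_pow n, ← Real.rpow_add (by norm_num)]
  congr 1; ring

include hc hc1 in
/-- Pointwise bound for diagonal cells. -/
lemma pointD (h12 : 12 * j ≤ 5 * p) (hr : rD p j i m l) :
    4 ^ k * tD p j i m l * nD c₁ p j i k m l ≤ 6 * (Bs c₁ p j * rr ^ k * rr ^ l)
      + (if 12 * i ≤ 5 * p then
          min (aD c₁ p j m l i * (1 / 2) ^ k) (bD c₁ p j m l i * 2 ^ k) else 0) := by
  obtain ⟨hml, hi, hm, hmi⟩ := hr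
  have hR := rg (k := k) (l := l) hc hc1 h12 hi hm
  have hn := nD_pos (p := p) (j := j) (i := i) (k := k) (m := m) (l := l) hc
  have hMI : (m : ℝ) ≤ (p : ℝ) - i + 4 := by
    have : m + i ≤ p + 4 := by omega
    have : (m : ℝ) + i ≤ p + 4 := by exact_mod_cast this
    linarith only [this]
  have hML : (m : ℝ) ≤ l + 4 := by exact_mod_cast hml
  have hV := logb_le hn (nD_le_V.trans (V_le hc hc1 p j i k m l))
  have hF := logb_le hn (nD_le_F.trans (F_le hc hc1 p j i m))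
  obtain ⟨hcase, hall⟩ := nD_cases (p := p) (j := j) (i := i) (k := k) (m := m) (l := l) hc hc1
  have hq := qq_pos p i
  have hqj := qq_pos p j
  have hBs : 0 ≤ Bs c₁ p j * rr ^ k * rr ^ l := by
    have := Bs_pos hc p j
    have := rr_pos
    positivity
  set n := nD c₁ p j i k m l with hnn
  -- term 1
  have t1 : 4 ^ k * (2 ^ j * 4 ^ m / qq p i ^ 2) * n ≤ Bs c₁ p j * rr ^ k * rr ^ l := by
    rw [← Bs_eq' hc]
    refine mul_le_two (u := 2 * k + j + 2 * m - 2 * ((p : ℝ) - i)) (le_of_eq ?_) hn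
      (lpD1 hR hMI hML hV hF hall)
    rw [pow4, pow2, pow4, qq_eq, ← Real.rpow_natCast _ 2, ← Real.rpow_mul (by norm_num),
      ← Real.rpow_add (by norm_num), ← Real.rpow_sub (by norm_num), ← Real.rpow_add (by norm_num)]
    congr 1; push_cast; ring
  -- terms 2b, 2c
  have t2b : 4 ^ k * ((1 / 2) ^ j * 2 ^ m / qq p i) * n ≤ Bs c₁ p j * rr ^ k * rr ^ l := by
    rw [← Bs_eq' hc]
    refine mul_le_two (u := 2 * k - j + m - ((p : ℝ) - i)) (le_of_eq ?_) hn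
      (lpD2b hR hMI hML hV hF hall)
    rw [pow4, powh2, pow2, qq_eq, ← Real.rpow_add (by norm_num), ← Real.rpow_sub (by norm_num),
      ← Real.rpow_add (by norm_num)]
    congr 1; ring
  have t2c : 4 ^ k * ((1 / 2) ^ j * 2 ^ m / qq p j) * n ≤ Bs c₁ p j * rr ^ k * rr ^ l := by
    rw [← Bs_eq' hc]
    refine mul_le_two (u := 2 * k - j + m - ((p : ℝ) - j)) (le_of_eq ?_) hn
      (lpD2c hR hMI hML hV hF hall)
    rw [pow4, powh2, pow2, qq_eq, ← Real.rpow_add (by norm_num), ← Real.rpow_sub (by norm_num),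
      ← Real.rpow_add (by norm_num)]
    congr 1; ring
  -- term 3
  have t3 : 4 ^ k * (if (1 / 4 : ℝ) ^ m < 2 * ee p j ^ 2 then (1 / 2) ^ j + ee p j * 2 ^ m else 0)
      * n ≤ 2 * (Bs c₁ p j * rr ^ k * rr ^ l) := by
    split_ifs with he
    · have he' : -(2 * (m : ℝ)) ≤ 1 - 5 / 4 * ((p : ℝ) - j) := by
        have h1 : 2 * ee p j ^ 2 = (2 : ℝ) ^ (1 - 5 / 4 * ((p : ℝ) - j)) := by
          have h2 : (1 - 5 / 4 * ((p : ℝ) - j))
              = 1 + -(5 / 8 * ((p : ℝ) - j)) * ((2 : ℕ) : ℝ) := by push_cast; ring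
          rw [h2, ee_eq, ← Real.rpow_natCast, ← Real.rpow_mul (by norm_num),
            Real.rpow_add (by norm_num), Real.rpow_one]
        rw [powh4, h1, Real.rpow_lt_rpow_left_iff (by norm_num)] at he
        exact he.le
      have t3a : 4 ^ k * ((1 / 2) ^ j) * n ≤ Bs c₁ p j * rr ^ k * rr ^ l := by
        rw [← Bs_eq' hc]
        refine mul_le_two (u := 2 * k - j) (le_of_eq ?_) hn
          (lpD3a hR hMI hML hV hF he' hall)
        rw [pow4, powh2, ← Real.rpow_add (by norm_num)]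
        congr 1
      have t3b : 4 ^ k * (ee p j * 2 ^ m) * n ≤ Bs c₁ p j * rr ^ k * rr ^ l := by
        rw [← Bs_eq' hc]
        refine mul_le_two (u := 2 * k - 5 / 8 * ((p : ℝ) - j) + m) (le_of_eq ?_) hn
          (lpD3b hR hMI hML hV hF he' hall)
        rw [pow4, pow2, ee_eq, ← Real.rpow_add (by norm_num), ← Real.rpow_add (by norm_num)]
        congr 1; ring
      have e : 4 ^ k * ((1 / 2) ^ j + ee p j * 2 ^ m) * n
          = 4 ^ k * ((1 / 2) ^ j) * n + 4 ^ k * (ee p j * 2 ^ m) * n := by ring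
      rw [e]; linarith only [t3a, t3b]
    · rw [mul_zero, zero_mul]; (clear * - hBs; positivity)
  -- term 2a
  have t2 : 4 ^ k * WD j m l * n ≤ Bs c₁ p j * rr ^ k * rr ^ l
      + (if 12 * i ≤ 5 * p then
          min (aD c₁ p j m l i * (1 / 2) ^ k) (bD c₁ p j m l i * 2 ^ k) else 0) := by
    have hcrit0 : 0 ≤ (if 12 * i ≤ 5 * p then
          min (aD c₁ p j m l i * (1 / 2) ^ k) (bD c₁ p j m l i * 2 ^ k) else 0) := by
      split_ifs
      · have h1 := aD_nonneg (p := p) (j := j) (m := m) (l := l) (i := i) hc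
        have h2 := bD_nonneg (p := p) (j := j) (m := m) (l := l) (i := i) hc
        exact le_min (by (clear * - h1; positivity)) (by positivity)
      · exact le_rfl
    rcases hcase with ⟨hnear, hgood⟩ | hslack
    · have hi12 : 12 * i ≤ 5 * p := hgood.1
      rw [if_pos hi12]
      have := critD (k := k) (l := l) (m := m) hc hml hnear hgood
      linarith only [hBs, this]
    · have h1 : 4 ^ k * WD j m l * n ≤ Bs c₁ p j * rr ^ k * rr ^ l := by
        rw [← Bs_eq' hc]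
        refine mul_le_two (u := 2 * k - j + m - l) (le_of_eq ?_) hn
          (lpD2a hR hMI hML hV hF hslack)
        unfold WD
        rw [pow4, powh2, powh2, pow2, ← Real.rpow_add (by norm_num),
          ← Real.rpow_add (by norm_num), ← Real.rpow_add (by norm_num)]
        congr 1; ring
      linarith only [hcrit0, h1]
  have hsplit : 4 ^ k * tD p j i m l * n = 4 ^ k * (2 ^ j * 4 ^ m / qq p i ^ 2) * n
      + 4 ^ k * WD j m l * n + 4 ^ k * ((1 / 2) ^ j * 2 ^ m / qq p i) * n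
      + 4 ^ k * ((1 / 2) ^ j * 2 ^ m / qq p j) * n
      + 4 ^ k * (if (1 / 4 : ℝ) ^ m < 2 * ee p j ^ 2 then (1 / 2) ^ j + ee p j * 2 ^ m else 0)
        * n := by
    unfold tD WD; ring
  rw [hsplit]
  linarith only [t1, t2b, t2c, t3, t2]

noncomputable def gD (m l : ℕ) : ℝ :=
  16 * ((3 / 4) ^ m * (1 / 2) ^ (((l + 4) - m) + (m - (l + 4))))

include hc in
lemma sqrtD : √(aD c₁ p j m l i * bD c₁ p j m l i)
      ≤ √(dl c₁ p j * KI c₁ p j i) * qq p i * gD m l := by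
  have hd := dl_pos hc p j
  have hKI := KI_pos hc p j i
  have hq := qq_pos p i
  have hg : 0 ≤ gD m l := by unfold gD; positivity
  by_cases hlm : m ≤ l + 4
  · apply Real.sqrt_le_iff.mpr
    refine ⟨by positivity, ?_⟩
    rw [mul_pow, mul_pow, Real.sq_sqrt (by positivity)]
    have e1 : aD c₁ p j m l i * bD c₁ p j m l i
        = dl c₁ p j * KI c₁ p j i * qq p i ^ 2 * (WD j m l ^ 2 * (1 / 2) ^ m) := by
      have e2 : (1 / 4 : ℝ) ^ l * 4 ^ l = 1 := by rw [← mul_pow]; norm_num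
      have e3 : (1 / 4 : ℝ) ^ m * 2 ^ m = (1 / 2) ^ m := by rw [← mul_pow]; norm_num
      unfold aD bD
      rw [if_pos hlm, ← e3]
      calc WD j m l * (dl c₁ p j * (1 / 4) ^ m * (1 / 4) ^ l * qq p i ^ 3)
            * (WD j m l * (2 ^ m * 4 ^ l * KI c₁ p j i / qq p i))
          = ((1 / 4 : ℝ) ^ l * 4 ^ l) * (dl c₁ p j * KI c₁ p j i * (qq p i ^ 3 / qq p i)
            * (WD j m l ^ 2 * ((1 / 4) ^ m * 2 ^ m))) := by ring
        _ = _ := by
            rw [e2, one_mul]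
            congr 2
            field_simp
    rw [e1]
    have hW : WD j m l ≤ 16 * (1 / 2) ^ ((l + 4) - m) := by
      unfold WD
      obtain ⟨d, hd⟩ := Nat.exists_eq_add_of_le hlm
      rw [hd, Nat.add_sub_cancel_left]
      have h1 : (1 / 2 : ℝ) ^ j ≤ 1 := pow_le_one₀ (by norm_num) (by norm_num)
      have h2 : (2 : ℝ) ^ m * (1 / 2) ^ m = 1 := by rw [← mul_pow]; norm_num
      have h3 : (1 / 2 : ℝ) ^ l = 16 * (1 / 2) ^ (l + 4) := by rw [pow_add]; norm_num; ring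
      calc (1 / 2 : ℝ) ^ j * 2 ^ m * (1 / 2) ^ l
          = (1 / 2 : ℝ) ^ j * (2 ^ m * (16 * ((1 / 2) ^ m * (1 / 2) ^ d))) := by
            rw [h3, hd, pow_add]; ring
        _ = (1 / 2 : ℝ) ^ j * (16 * ((2 ^ m * (1 / 2) ^ m) * (1 / 2) ^ d)) := by ring
        _ ≤ 1 * (16 * ((2 ^ m * (1 / 2) ^ m) * (1 / 2) ^ d)) := by gcongr
        _ = 16 * (1 / 2) ^ d := by rw [h2]; ring
    have hW0 : 0 ≤ WD j m l := by unfold WD; positivity
    have hg2 : WD j m l ^ 2 * (1 / 2) ^ m ≤ gD m l ^ 2 := by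
      have e0 : ((l + 4) - m) + (m - (l + 4)) = (l + 4) - m := by omega
      unfold gD
      rw [e0]
      have h3 : (1 / 2 : ℝ) ^ m ≤ ((3 / 4) ^ m) ^ 2 := by
        rw [← pow_mul, mul_comm m 2, pow_mul]
        exact pow_le_pow_left₀ (by norm_num) (by norm_num) m
      calc WD j m l ^ 2 * (1 / 2) ^ m
          ≤ (16 * (1 / 2) ^ ((l + 4) - m)) ^ 2 * ((3 / 4) ^ m) ^ 2 := by (clear * - hW hW0 h3; gcongr)
        _ = _ := by ring
    (clear * - hd hKI hq hg2; gcongr)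
  · have : aD c₁ p j m l i = 0 := by unfold aD; rw [if_neg hlm]
    rw [this, zero_mul, Real.sqrt_zero]
    positivity

lemma sum_gD : ∑' (m : ℕ) (l : ℕ), ENNReal.ofReal (gD m l) ≤ ENNReal.ofReal 192 := by
  have h1 : ∀ m l : ℕ, ENNReal.ofReal (gD m l) = ENNReal.ofReal (16 * (3 / 4 : ℝ) ^ m)
      * ENNReal.ofReal ((1 / 2) ^ (((l + 4) - m) + (m - (l + 4)))) := by
    intro m l
    rw [← ENNReal.ofReal_mul (by positivity)]
    unfold gD
    congr 1; ring
  simp only [h1, ENNReal.tsum_mul_left]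
  calc ∑' m : ℕ, ENNReal.ofReal (16 * (3 / 4 : ℝ) ^ m)
        * ∑' l : ℕ, ENNReal.ofReal ((1 / 2) ^ (((l + 4) - m) + (m - (l + 4))))
      ≤ ∑' m : ℕ, ENNReal.ofReal (16 * (3 / 4 : ℝ) ^ m) * ENNReal.ofReal 3 := by
        refine ENNReal.tsum_le_tsum fun m => ?_
        gcongr
        have h2 := ENNReal.tsum_comp_le_tsum_of_injective (f := fun l : ℕ => l + 4)
          (fun a b h => by simpa using h)
          (fun l' : ℕ => ENNReal.ofReal ((1 / 2 : ℝ) ^ ((l' - m) + (m - l'))))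
        exact h2.trans (tsum_abs_le m)
    _ = ENNReal.ofReal 192 := by
        rw [ENNReal.tsum_mul_right, tsum_geom (by norm_num) (by norm_num) (by norm_num),
          ← ENNReal.ofReal_mul (by norm_num)]
        norm_num

end D

lemma poly_slackD {B p : ℝ} (hB : 0 ≤ B) (hp0 : 0 ≤ p) :
    6 * B / (1 - rr) * (p + 4) * (1 / (1 - rr)) * (p + 1)
      ≤ 24 / (1 - rr) ^ 2 * B * (1 + p) ^ 3 := by
  have hrr := rr_pos
  have hrr1 : 0 < 1 - rr := by have := rr_lt; linarith only [this]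
  have h2 : (p + 4) * (p + 1) ≤ 4 * (1 + p) ^ 3 := by
    have h3 : p + 4 ≤ 4 * (1 + p) := by linarith only [hp0]
    have h4 : (1 + p) ^ 2 ≤ (1 + p) ^ 3 := by
      have : (1 : ℝ) ≤ 1 + p := by linarith only [hp0]
      exact pow_le_pow_right₀ this (by norm_num)
    calc (p + 4) * (p + 1) ≤ (4 * (1 + p)) * (p + 1) := by gcongr
      _ = 4 * (1 + p) ^ 2 := by ring
      _ ≤ _ := by gcongr
  calc 6 * B / (1 - rr) * (p + 4) * (1 / (1 - rr)) * (p + 1)
      = 6 * B * (1 / (1 - rr) ^ 2) * ((p + 4) * (p + 1)) := by field_simp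
    _ ≤ 6 * B * (1 / (1 - rr) ^ 2) * (4 * (1 + p) ^ 3) := by gcongr
    _ = _ := by field_simp; ring

open Classical in
lemma sumD {c₁ : ℝ} (hc : 0 < c₁) (hc1 : c₁ ≤ 1) {p j : ℕ} (h12 : 12 * j ≤ 5 * p)
    (hsl : 24 / (1 - rr) ^ 2 * Bs c₁ p j * (1 + (p : ℝ)) ^ 3 ≤ √c₁ * qq p j) :
    (∑' (k : ℕ) (m : ℕ) (n : ℕ) (i : ℕ), if rD p j i m n then
      ENNReal.ofReal (4 ^ k * tD p j i m n * nD c₁ p j i k m n) else 0)
    ≤ ENNReal.ofReal (16000 * √c₁ * qq p j) := by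
  have hBs := Bs_pos hc p j
  have hrr := rr_pos
  have hrr1 : 0 < 1 - rr := by have := rr_lt; linarith only [this]
  have hq := qq_pos p j
  have hpt : ∀ k m l i : ℕ, (if rD p j i m l then
      ENNReal.ofReal (4 ^ k * tD p j i m l * nD c₁ p j i k m l) else 0)
      ≤ ENNReal.ofReal (6 * Bs c₁ p j * rr ^ k) * (if m ≤ p + 3 then 1 else 0)
          * ENNReal.ofReal (1 * rr ^ l) * (if i ≤ p then 1 else 0)
        + (if 12 * i ≤ 5 * p then ENNReal.ofReal
            (min (aD c₁ p j m l i * (1 / 2) ^ k) (bD c₁ p j m l i * 2 ^ k)) else 0) := by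
    intro k m l i
    by_cases h : rD p j i m l
    · have hp := pointD (c₁ := c₁) (k := k) hc hc1 h12 h
      obtain ⟨g1, g2, g3, g4⟩ := h
      rw [if_pos (show rD p j i m l from ⟨g1, g2, g3, g4⟩), if_pos (show m ≤ p + 3 by omega),
        if_pos g2]
      simp only [mul_one]
      rw [← ENNReal.ofReal_mul (by positivity)]
      by_cases h4 : 12 * i ≤ 5 * p
      · rw [if_pos h4] at hp ⊢
        refine (ENNReal.ofReal_le_ofReal hp).trans ?_
        refine ENNReal.ofReal_add_le.trans (le_of_eq ?_)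
        congr 2; ring
      · rw [if_neg h4] at hp ⊢
        rw [add_zero] at hp ⊢
        refine (ENNReal.ofReal_le_ofReal hp).trans (le_of_eq ?_)
        congr 1; ring
    · rw [if_neg h]
      exact zero_le
  refine (s4_mono hpt).trans ?_
  rw [s4_add]
  have hS := slack_sum p (fun k m l i => ENNReal.ofReal (6 * Bs c₁ p j * rr ^ k)
      * (if m ≤ p + 3 then 1 else 0) * ENNReal.ofReal (1 * rr ^ l) * (if i ≤ p then 1 else 0))
    (B := 6 * Bs c₁ p j) (W := 1 / (1 - rr)) (by positivity) (by positivity)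
    (fun l => ENNReal.ofReal (1 * rr ^ l)) (le_of_eq (tsum_geom rr_pos.le rr_lt zero_le_one))
    (fun k m l i => le_rfl)
  have hC := crit_sum hc p j (fun k m l i => (if 12 * i ≤ 5 * p then ENNReal.ofReal
            (min (aD c₁ p j m l i * (1 / 2) ^ k) (bD c₁ p j m l i * 2 ^ k)) else 0))
    (aD c₁ p j) (bD c₁ p j) gD 192 (by norm_num)
    (fun m l i => aD_nonneg hc) (fun m l i => bD_nonneg hc)
    (fun m l => by unfold gD; positivity) (fun k m l i => le_rfl)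
    (fun m l i _ => sqrtD hc) sum_gD
  refine (add_le_add hS hC).trans ?_
  rw [← ENNReal.ofReal_add (by (clear * - hBs hrr1; positivity)) (by positivity)]
  apply ENNReal.ofReal_le_ofReal
  have hp0 : (0 : ℝ) ≤ p := by positivity
  have h1 := poly_slackD hBs.le hp0
  have h5 : 0 ≤ √c₁ * qq p j := by positivity
  have h6 : 80 * 192 * √c₁ * qq p j = 15360 * (√c₁ * qq p j) := by ring
  have h7 : 16000 * √c₁ * qq p j = 16000 * (√c₁ * qq p j) := by ring
  rw [h6, h7]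
  linarith only [hsl, h1, h5]

end Vale.Agent.P107.Ar.TT

namespace Vale.Agent.P107.Ar

open Tl TT

/-- The T-sums. -/
theorem statT : StatT := by
  refine ⟨16000, by norm_num, fun c₁ hc hc1 => ?_⟩
  obtain ⟨p₀, hp₀⟩ := Bs_limit hc (24 / (1 - rr) ^ 2) (Real.sqrt_pos.mpr hc)
  refine ⟨p₀, fun p hp j h12 => ?_⟩
  have hsl := hp₀ p hp j
  have hq := qq_pos p j
  have hmono : ENNReal.ofReal (1000 * √c₁ * qq p j) ≤ ENNReal.ofReal (16000 * √c₁ * qq p j) := by
    apply ENNReal.ofReal_le_ofReal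
    have : 0 ≤ √c₁ * qq p j := by positivity
    nlinarith only [this]
  exact ⟨(sumA hc hc1 h12 hsl).trans hmono, (sumN hc hc1 h12 hsl).trans hmono,
    sumD hc hc1 h12 hsl⟩

end Vale.Agent.P107.Ar
end
end
end

section

section

attribute [-instance] ProperSMul.toContinuousSMul IsTopologicalTorsor.toContinuousSMul
  IdemSemiring.toCanonicallyOrderedAdd IdemSemiring.toMulLeftMono IdemSemiring.toMulRightMono
  AddQuantale.instAddLeftMono AddQuantale.instAddRightMono Quantale.instMulLeftMono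
  Quantale.instMulRightMono FiniteDimensional.rclike_to_real IsScalarTower.complexToReal
  FiniteDimensional.complexToReal

section

/-!
Sums for the critical cells and for the slack cells of the S-sums.
-/

open Set Filter Topology
open scoped ENNReal NNReal

namespace Vale.Agent.P107.Ar.Sg

open Tl

/-- Powers of two with real exponents. -/
noncomputable def E (x : ℝ) : ℝ := (2 : ℝ) ^ x

lemma E_pos (x : ℝ) : 0 < E x := Real.rpow_pos_of_pos two_pos x

lemma E_nonneg (x : ℝ) : 0 ≤ E x := (E_pos x).le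

lemma E_add (x y : ℝ) : E (x + y) = E x * E y := Real.rpow_add two_pos x y

lemma E_mono {x y : ℝ} (h : x ≤ y) : E x ≤ E y :=
  Real.rpow_le_rpow_of_exponent_le one_le_two h

lemma E_zero : E 0 = 1 := Real.rpow_zero 2

lemma E_one : E 1 = 2 := Real.rpow_one 2

lemma E_natmul (n : ℕ) (x : ℝ) : E (n * x) = E x ^ n := by
  unfold E
  rw [mul_comm, Real.rpow_mul two_pos.le, Real.rpow_natCast]

lemma E_sqrt (x : ℝ) : √(E x) = E (x / 2) := by
  rw [Real.sqrt_eq_iff_mul_self_eq (E_nonneg x) (E_nonneg _), ← E_add]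
  congr 1; ring

lemma E_logb {x : ℝ} (hx : 0 < x) : E (Real.logb 2 x) = x :=
  Real.rpow_logb (by norm_num) (by norm_num) hx

lemma logb_le_of_le_E {x y : ℝ} (hx : 0 < x) (h : x ≤ E y) : Real.logb 2 x ≤ y := by
  rw [Real.logb_le_iff_le_rpow one_lt_two hx]; exact h

lemma geo (M x : ℝ) (hM : 0 ≤ M) (hx0 : 0 ≤ x) (hx1 : x < 1) :
    ∑' i : ℕ, ENNReal.ofReal (M * x ^ i) = ENNReal.ofReal (M * (1 - x)⁻¹) := by
  rw [← ENNReal.ofReal_tsum_of_nonneg (fun i => by positivity)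
    ((summable_geometric_of_lt_one hx0 hx1).mul_left M), tsum_mul_left,
    tsum_geometric_of_lt_one hx0 hx1]

lemma E_neg_half_pow (n : ℕ) : E (-((n : ℝ) / 2)) ≤ (3 / 4 : ℝ) ^ n := by
  have h1 : E (-((n : ℝ) / 2)) = E (-(1 / 2)) ^ n := by
    rw [← E_natmul]; congr 1; ring
  rw [h1]
  have h2 : E (-(1 / 2)) ^ 2 = 1 / 2 := by
    rw [← E_natmul, show ((2 : ℕ) : ℝ) * (-(1 / 2)) = -1 by norm_num]
    unfold E
    rw [Real.rpow_neg_one]; norm_num
  have h3 : E (-(1 / 2)) ≤ 3 / 4 := by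
    have := E_nonneg (-(1 / 2))
    nlinarith only [h2]
  exact pow_le_pow_left₀ (E_nonneg _) h3 n

lemma E_neg_quarter_pow (n : ℕ) : E (-((n : ℝ) / 4)) ≤ (6 / 7 : ℝ) ^ n := by
  have h1 : E (-((n : ℝ) / 4)) = E (-(1 / 4)) ^ n := by
    rw [← E_natmul]; congr 1; ring
  rw [h1]
  have h2 : E (-(1 / 4)) ^ 4 = 1 / 2 := by
    rw [← E_natmul, show ((4 : ℕ) : ℝ) * (-(1 / 4)) = -1 by norm_num]
    unfold E
    rw [Real.rpow_neg_one]; norm_num
  have h3 : E (-(1 / 4)) ≤ 6 / 7 := by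
    by_contra h
    push Not at h
    have : (6 / 7 : ℝ) ^ 4 < E (-(1 / 4)) ^ 4 := pow_lt_pow_left₀ h (by norm_num) (by norm_num)
    rw [h2] at this
    norm_num at this
  exact pow_le_pow_left₀ (E_nonneg _) h3 n

lemma two_sided (M : ℝ) (hM : 0 ≤ M) (a : ℕ) :
    ∑' k : ℕ, ENNReal.ofReal (M * E (-(|(k : ℝ) - a| / 2))) ≤ ENNReal.ofReal (7 * M) := by
  rw [← Summable.sum_add_tsum_nat_add' (k := a) ENNReal.summable]
  have h1 : ∑ i ∈ Finset.range a, ENNReal.ofReal (M * E (-(|(i : ℝ) - a| / 2)))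
      ≤ ENNReal.ofReal (3 * M) := by
    calc ∑ i ∈ Finset.range a, ENNReal.ofReal (M * E (-(|(i : ℝ) - a| / 2)))
        ≤ ∑ i ∈ Finset.range a, ENNReal.ofReal ((M * (3 / 4)) * (3 / 4) ^ (a - 1 - i)) := by
          apply Finset.sum_le_sum
          intro i hi
          have hi' : i < a := Finset.mem_range.mp hi
          apply ENNReal.ofReal_le_ofReal
          have e1 : |(i : ℝ) - a| = ((a - 1 - i + 1 : ℕ) : ℝ) := by
            rw [abs_sub_comm, abs_of_nonneg]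
            · have : a - 1 - i + 1 = a - i := by omega
              rw [this, Nat.cast_sub hi'.le]
            · have : (i : ℝ) ≤ a := by exact_mod_cast hi'.le
              linarith only [this]
          rw [e1, mul_assoc]
          have := E_neg_half_pow (a - 1 - i + 1)
          rw [pow_succ'] at this
          gcongr
      _ = ∑ i ∈ Finset.range a, ENNReal.ofReal ((M * (3 / 4)) * (3 / 4) ^ i) :=
          Finset.sum_range_reflect (fun i => ENNReal.ofReal ((M * (3 / 4)) * (3 / 4) ^ i)) a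
      _ ≤ ∑' i : ℕ, ENNReal.ofReal ((M * (3 / 4)) * (3 / 4) ^ i) := ENNReal.sum_le_tsum _
      _ = ENNReal.ofReal (3 * M) := by
          rw [geo _ _ (by positivity) (by norm_num) (by norm_num)]
          congr 1; ring
  have h2 : ∑' i : ℕ, ENNReal.ofReal (M * E (-(|((i + a : ℕ) : ℝ) - a| / 2)))
      ≤ ENNReal.ofReal (4 * M) := by
    calc ∑' i : ℕ, ENNReal.ofReal (M * E (-(|((i + a : ℕ) : ℝ) - a| / 2)))
        ≤ ∑' i : ℕ, ENNReal.ofReal (M * (3 / 4) ^ i) := by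
          apply ENNReal.tsum_le_tsum
          intro i
          apply ENNReal.ofReal_le_ofReal
          have e1 : |((i + a : ℕ) : ℝ) - a| = i := by
            push_cast
            rw [add_sub_cancel_right, abs_of_nonneg (by positivity)]
          rw [e1]
          have := E_neg_half_pow i
          (clear * - hM this; gcongr)
      _ = ENNReal.ofReal (4 * M) := by
          rw [geo _ _ (by positivity) (by norm_num) (by norm_num)]
          congr 1; ring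
  refine (add_le_add h1 h2).trans (le_of_eq ?_)
  rw [← ENNReal.ofReal_add (by positivity) (by positivity)]
  congr 1; ring

lemma E_half_le : E (1 / 2) ≤ 10 / 7 := by
  have h2 : E (1 / 2) * E (1 / 2) = 2 := by
    rw [← E_add, show (1 / 2 + 1 / 2 : ℝ) = 1 by norm_num, E_one]
  have := E_nonneg (1 / 2)
  nlinarith only [h2]

/-- The sum over `k` of the smaller one of an increasing and a decreasing geometric sequence. -/
lemma ksum (z a b : ℝ) :
    ∑' k : ℕ, ENNReal.ofReal (E (z - (a + b) / 4 + min (a - k) (b + k) / 2))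
      ≤ ENNReal.ofReal (10 * E z) := by
  set κ : ℝ := (a - b) / 2 with hκ
  have hfl : ∀ k : ℕ, |(k : ℝ) - (⌊κ⌋₊ : ℕ)| - 1 ≤ |(k : ℝ) - κ| := by
    intro k
    rcases le_or_gt 0 κ with h0 | h0
    · have h1 := Nat.floor_le h0
      have h2 := (Nat.lt_floor_add_one κ).le
      rcases abs_cases ((k : ℝ) - (⌊κ⌋₊ : ℕ)) with ⟨h3, _⟩ | ⟨h3, _⟩ <;>
        rcases abs_cases ((k : ℝ) - κ) with ⟨h4, _⟩ | ⟨h4, _⟩ <;> rw [h3, h4] <;> linarith
    · rw [Nat.floor_of_nonpos h0.le]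
      have hk : (0 : ℝ) ≤ k := by positivity
      rw [abs_of_nonneg (by linarith only [h0] : 0 ≤ (k : ℝ) - κ)]
      simp only [Nat.cast_zero, sub_zero]
      rw [abs_of_nonneg hk]
      linarith only [h0]
  calc ∑' k : ℕ, ENNReal.ofReal (E (z - (a + b) / 4 + min (a - k) (b + k) / 2))
      ≤ ∑' k : ℕ, ENNReal.ofReal ((E z * E (1 / 2)) * E (-(|(k : ℝ) - (⌊κ⌋₊ : ℕ)| / 2))) := by
        apply ENNReal.tsum_le_tsum
        intro k
        apply ENNReal.ofReal_le_ofReal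
        rw [← E_add, ← E_add]
        apply E_mono
        have h1 := hfl k
        have h2 : min (a - k) (b + k) ≤ (a + b) / 2 - |(k : ℝ) - κ| := by
          rcases abs_cases ((k : ℝ) - κ) with ⟨h3, _⟩ | ⟨h3, _⟩
          · rw [h3]; refine (min_le_left _ _).trans ?_; rw [hκ]; linarith only []
          · rw [h3]; refine (min_le_right _ _).trans ?_; rw [hκ]; linarith only []
        linarith only [h1, h2]
    _ ≤ ENNReal.ofReal (7 * (E z * E (1 / 2))) :=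
        two_sided _ (mul_nonneg (E_nonneg _) (E_nonneg _)) _
    _ ≤ ENNReal.ofReal (10 * E z) := by
        apply ENNReal.ofReal_le_ofReal
        have := E_half_le
        have := E_pos z
        nlinarith

/-- Summation over three indices of a critical cell family. -/
lemma crit3 (f : ℕ → ℕ → ℕ → ℝ≥0∞) (x : ℝ) (c : ℕ → ℕ) (a b : ℕ → ℕ → ℝ)
    (hf : ∀ g h k : ℕ, f g h k ≤ ENNReal.ofReal
      (E (x + 6 - (g : ℝ) / 4 - |(h : ℝ) - c g| / 2 - (a g h + b g h) / 4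
        + min (a g h - k) (b g h + k) / 2))) :
    ∑' (g : ℕ) (h : ℕ) (k : ℕ), f g h k ≤ ENNReal.ofReal (490 * E (x + 6)) := by
  calc ∑' (g : ℕ) (h : ℕ) (k : ℕ), f g h k
      ≤ ∑' (g : ℕ) (h : ℕ), ENNReal.ofReal
          ((10 * E (x + 6 - (g : ℝ) / 4)) * E (-(|(h : ℝ) - c g| / 2))) := by
        apply ENNReal.tsum_le_tsum
        intro g
        apply ENNReal.tsum_le_tsum
        intro h
        refine (ENNReal.tsum_le_tsum (hf g h)).trans ((ksum _ _ _).trans (le_of_eq ?_))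
        rw [mul_assoc, ← E_add]
        congr 2
    _ ≤ ∑' (g : ℕ), ENNReal.ofReal ((70 * E (x + 6)) * (6 / 7) ^ g) := by
        apply ENNReal.tsum_le_tsum
        intro g
        refine (two_sided _ (by have := E_nonneg (x + 6 - (g : ℝ) / 4); positivity) _).trans ?_
        apply ENNReal.ofReal_le_ofReal
        have h1 := E_neg_quarter_pow g
        have h2 : E (x + 6 - (g : ℝ) / 4) = E (x + 6) * E (-((g : ℝ) / 4)) := by
          rw [← E_add]; congr 1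
        rw [h2]
        have h3 : E (x + 6) * E (-((g : ℝ) / 4)) ≤ E (x + 6) * (6 / 7) ^ g :=
          mul_le_mul_of_nonneg_left h1 (E_nonneg _)
        calc 7 * (10 * (E (x + 6) * E (-((g : ℝ) / 4))))
            ≤ 7 * (10 * (E (x + 6) * (6 / 7) ^ g)) := by gcongr
          _ = 70 * E (x + 6) * (6 / 7) ^ g := by ring
    _ = ENNReal.ofReal (490 * E (x + 6)) := by
        rw [geo _ _ (by have := E_nonneg (x + 6); positivity) (by norm_num) (by norm_num)]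
        congr 1; ring

/-! ### The class sum -/

/-- The logarithm of `c₁`. -/
lemma sqrt_c {c₁ : ℝ} (hc : 0 < c₁) : √c₁ = E (Real.logb 2 c₁ / 2) := by
  rw [← E_sqrt, E_logb hc]

lemma qq_E (p i : ℕ) : qq p i = E ((p : ℝ) - i) := qq_eq p i

lemma d_le_c {c₁ : ℝ} (hc : 0 < c₁) (p j : ℕ) :
    Real.logb 2 (dl c₁ p j) ≤ Real.logb 2 c₁ - 2 * j := by
  apply logb_le_of_le_E (dl_pos hc p j)
  rw [sub_eq_add_neg, E_add, E_logb hc]
  have := dl_le_c hc p j
  rwa [powh4] at this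

lemma logc_le {c₁ : ℝ} (hc : 0 < c₁) (hc1 : c₁ ≤ 1) : Real.logb 2 c₁ ≤ 0 := by
  apply logb_le_of_le_E hc
  rwa [E_zero]

lemma neg_d_le {c₁ : ℝ} (hc : 0 < c₁) (p i : ℕ) :
    -Real.logb 2 (dl c₁ p i) ≤ Real.logb 2 (La c₁ p) - 1 + 2 * i := by
  have h := inv_dl_le hc p i
  rw [← Real.logb_inv, ← one_div]
  apply logb_le_of_le_E (by have := dl_pos hc p i; positivity)
  refine h.trans (le_of_eq ?_)
  rw [E_add, show Real.logb 2 (La c₁ p) - 1 = Real.logb 2 (La c₁ p) + -1 by ring, E_add,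
    E_logb (La_pos hc p), pow4]
  unfold E
  rw [Real.rpow_neg_one]
  ring

lemma dl4 {c₁ : ℝ} (hc : 0 < c₁) (p j : ℕ) :
    4 * Real.logb 2 (dl c₁ p j) + Real.logb 2 (La c₁ p) + 6 * j ≤ 2 + 3 * Real.logb 2 c₁ := by
  have h1 : dl c₁ p j ^ 4 * La c₁ p * 64 ^ j ≤ 4 * c₁ ^ 3 := by
    unfold dl La
    have hp : (0 : ℝ) ≤ p := by positivity
    set x : ℝ := 4 ^ j with hx
    set y : ℝ := 2 ^ j * (1 + p) with hy
    have hx0 : 0 < x := by positivity
    have hy0 : 0 < y := by positivity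
    have h64 : (64 : ℝ) ^ j = x ^ 3 := by
      rw [hx, ← pow_mul, mul_comm j 3, pow_mul]; norm_num
    have hy1 : (1 + p : ℝ) ≤ y := by
      have : (1 : ℝ) ≤ 2 ^ j := one_le_pow₀ (by norm_num)
      rw [hy]; nlinarith only [this]
    rw [h64, div_pow]
    rw [show c₁ ^ 4 / (x + y) ^ 4 * (4 * (1 + (p : ℝ)) / c₁) * x ^ 3
      = (4 * c₁ ^ 3) * ((1 + p) * x ^ 3 / (x + y) ^ 4) by field_simp]
    have h2 : (1 + p) * x ^ 3 / (x + y) ^ 4 ≤ 1 := by
      rw [div_le_one (by positivity)]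
      calc (1 + p) * x ^ 3 ≤ y * x ^ 3 := by gcongr
        _ ≤ (x + y) * (x + y) ^ 3 := by gcongr <;> linarith only [hx0, p, j, x, y, hy0]
        _ = (x + y) ^ 4 := by ring
    have : 0 < 4 * c₁ ^ 3 := by positivity
    nlinarith only [h2, this]
  have hd := dl_pos hc p j
  have hLa := La_pos hc p
  have h2 : E (4 * Real.logb 2 (dl c₁ p j) + Real.logb 2 (La c₁ p) + 6 * j)
      ≤ E (2 + 3 * Real.logb 2 c₁) := by
    rw [E_add, E_add, E_logb hLa]
    have e1 : E (4 * Real.logb 2 (dl c₁ p j)) = dl c₁ p j ^ 4 := by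
      have := E_natmul 4 (Real.logb 2 (dl c₁ p j))
      rw [E_logb hd] at this
      exact_mod_cast this
    have e2 : E (6 * (j : ℝ)) = 64 ^ j := by
      rw [show (6 * (j : ℝ)) = j * 6 by ring, E_natmul]
      congr 1
      unfold E; norm_num
    have e3 : E (2 + 3 * Real.logb 2 c₁) = 4 * c₁ ^ 3 := by
      rw [E_add]
      have := E_natmul 3 (Real.logb 2 c₁)
      rw [E_logb hc] at this
      have e4 : E 2 = 4 := by unfold E; norm_num
      rw [e4, ← this]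
      norm_num
    rw [e1, e2, e3]
    exact h1
  unfold E at h2
  rwa [Real.rpow_le_rpow_left_iff one_lt_two] at h2

/-- The exponent of the class `i`. -/
noncomputable def xc (c₁ : ℝ) (p j i : ℕ) : ℝ :=
  3 / 4 * Real.logb 2 (dl c₁ p j) + Real.logb 2 (1 + 2 * dl c₁ p j / dl c₁ p i) / 4
    + ((p : ℝ) - i) + j / 2

lemma class_sum {c₁ : ℝ} (hc : 0 < c₁) (hc1 : c₁ ≤ 1) (p j : ℕ) :
    ∑' i : ℕ, ENNReal.ofReal (E (xc c₁ p j i)) ≤ ENNReal.ofReal (12 * √c₁ * qq p j) := by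
  set d := Real.logb 2 (dl c₁ p j) with hd
  set lam := Real.logb 2 (La c₁ p) with hlam
  set c := Real.logb 2 c₁ with hcc
  have hX : √c₁ * qq p j = E (c / 2 + ((p : ℝ) - j)) := by
    rw [sqrt_c hc, qq_E, ← E_add]
  have hc0 := logc_le hc hc1
  have h1 := d_le_c hc p j
  have h2 := dl4 hc p j
  have hdj := dl_pos hc p j
  calc ∑' i : ℕ, ENNReal.ofReal (E (xc c₁ p j i))
      ≤ ∑' i : ℕ, (ENNReal.ofReal ((2 * E (c / 2 + ((p : ℝ) - j))) * (1 / 2) ^ i)
          + ENNReal.ofReal ((2 * E (c / 2 + ((p : ℝ) - j))) * (3 / 4) ^ i)) := by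
        apply ENNReal.tsum_le_tsum
        intro i
        have hdi := dl_pos hc p i
        have h3 := neg_d_le hc p i
        rw [← ENNReal.ofReal_add (by have := E_nonneg (c / 2 + ((p : ℝ) - j)); (clear * - this; positivity))
          (by have := E_nonneg (c / 2 + ((p : ℝ) - j)); (clear * - this; positivity))]
        apply ENNReal.ofReal_le_ofReal
        have hK0 : 0 < 1 + 2 * dl c₁ p j / dl c₁ p i := by positivity
        have e2 : ∀ y, E (1 + y) = 2 * E y := fun y => by rw [E_add, E_one]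
        have hnn := E_nonneg (c / 2 + ((p : ℝ) - j))
        rcases le_or_gt (2 * dl c₁ p j / dl c₁ p i) 1 with h4 | h4
        · have hk : Real.logb 2 (1 + 2 * dl c₁ p j / dl c₁ p i) ≤ 1 :=
            logb_le_of_le_E hK0 (by rw [E_one]; linarith only [h4])
          have h5 : E (xc c₁ p j i) ≤ (2 * E (c / 2 + ((p : ℝ) - j))) * (1 / 2) ^ i := by
            rw [powh2, ← e2]
            change _ ≤ _ * E _
            rw [← E_add]
            apply E_mono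
            unfold xc
            linarith only [hc0, h1, hk]
          have h6 : 0 ≤ (2 * E (c / 2 + ((p : ℝ) - j))) * (3 / 4 : ℝ) ^ i := by positivity
          linarith only [h5, h6]
        · have hk : Real.logb 2 (1 + 2 * dl c₁ p j / dl c₁ p i) ≤ 1 + d + lam + 2 * i := by
            have h7 : 1 + 2 * dl c₁ p j / dl c₁ p i ≤ E (2 + d - Real.logb 2 (dl c₁ p i)) := by
              have : E (2 + d - Real.logb 2 (dl c₁ p i)) = 4 * dl c₁ p j / dl c₁ p i := by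
                unfold E
                rw [Real.rpow_sub two_pos, Real.rpow_add two_pos, hd,
                  Real.rpow_logb (by norm_num) (by norm_num) hdj,
                  Real.rpow_logb (by norm_num) (by norm_num) hdi]
                norm_num
              rw [this]
              have : 4 * dl c₁ p j / dl c₁ p i = 2 * dl c₁ p j / dl c₁ p i
                + 2 * dl c₁ p j / dl c₁ p i := by ring
              linarith only [h4, this]
            have := logb_le_of_le_E hK0 h7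
            linarith only [h3, this]
          have h5 : E (xc c₁ p j i) ≤ (2 * E (c / 2 + ((p : ℝ) - j))) * (3 / 4) ^ i := by
            have h8 := E_neg_half_pow i
            have h9 : E (xc c₁ p j i) ≤ (2 * E (c / 2 + ((p : ℝ) - j))) * E (-((i : ℝ) / 2)) := by
              rw [← e2, ← E_add]
              apply E_mono
              unfold xc
              linarith only [hc0, h2, hk]
            refine h9.trans ?_
            (clear * - hnn h8; gcongr)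
          have h6 : 0 ≤ (2 * E (c / 2 + ((p : ℝ) - j))) * (1 / 2 : ℝ) ^ i := by positivity
          linarith only [h5, h6]
    _ = ENNReal.ofReal (12 * √c₁ * qq p j) := by
        have hnn := E_nonneg (c / 2 + ((p : ℝ) - j))
        rw [ENNReal.tsum_add, geo _ _ (by positivity) (by norm_num) (by norm_num),
          geo _ _ (by positivity) (by norm_num) (by norm_num),
          ← ENNReal.ofReal_add (by norm_num; positivity) (by norm_num; positivity),
          mul_assoc 12, hX]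
        congr 1
        ring

/-! ### The slack sum -/

lemma count (n : ℕ) : ∑' i : ℕ, (if i < n then (1 : ℝ≥0∞) else 0) = n := by
  rw [tsum_eq_sum (s := Finset.range n)]
  · rw [Finset.sum_congr rfl (g := fun _ => (1 : ℝ≥0∞))]
    · simp
    · intro i hi
      rw [if_pos (Finset.mem_range.mp hi)]
  · intro i hi
    rw [if_neg]
    simpa using hi

lemma slack_sum (p : ℕ) (M ρ : ℝ) (hM : 0 ≤ M) (h0 : 0 ≤ ρ) (h1 : ρ < 1)
    (f : ℕ → ℕ → ℕ → ℕ → ℝ≥0∞)
    (hf : ∀ k m l i, m < p + 4 → i < p + 1 → f k m l i ≤ ENNReal.ofReal (M * ρ ^ k * ρ ^ l))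
    (hf0 : ∀ k m l i, ¬ (m < p + 4 ∧ i < p + 1) → f k m l i = 0) :
    ∑' (k : ℕ) (m : ℕ) (l : ℕ) (i : ℕ), f k m l i
      ≤ ENNReal.ofReal (M * (1 - ρ)⁻¹ ^ 2 * ((p + 4) * (p + 1))) := by
  have hinv : 0 < (1 - ρ)⁻¹ := by
    have : 0 < 1 - ρ := by linarith only [h1]
    positivity
  calc ∑' (k : ℕ) (m : ℕ) (l : ℕ) (i : ℕ), f k m l i
      ≤ ∑' (k : ℕ) (m : ℕ) (l : ℕ) (i : ℕ), (ENNReal.ofReal (M * ρ ^ k)
          * ((if m < p + 4 then (1 : ℝ≥0∞) else 0) * (ENNReal.ofReal (1 * ρ ^ l)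
          * (if i < p + 1 then (1 : ℝ≥0∞) else 0)))) := by
        refine ENNReal.tsum_le_tsum fun k => ENNReal.tsum_le_tsum fun m =>
          ENNReal.tsum_le_tsum fun l => ENNReal.tsum_le_tsum fun i => ?_
        by_cases hm : m < p + 4
        · by_cases hi : i < p + 1
          · rw [if_pos hm, if_pos hi, one_mul, mul_one, ← ENNReal.ofReal_mul (by positivity),
              one_mul]
            exact hf k m l i hm hi
          · rw [hf0 k m l i (fun h => hi h.2)]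
            exact zero_le
        · rw [hf0 k m l i (fun h => hm h.1)]
          exact zero_le
    _ = ENNReal.ofReal (M * (1 - ρ)⁻¹) * (((p + 4 : ℕ) : ℝ≥0∞)
          * (ENNReal.ofReal (1 * (1 - ρ)⁻¹) * ((p + 1 : ℕ) : ℝ≥0∞))) := by
        simp_rw [ENNReal.tsum_mul_left, ENNReal.tsum_mul_right, count]
        rw [geo M ρ hM h0 h1, geo 1 ρ zero_le_one h0 h1]
    _ = ENNReal.ofReal (M * (1 - ρ)⁻¹ ^ 2 * ((p + 4) * (p + 1))) := by
        rw [← ENNReal.ofReal_natCast (p + 4), ← ENNReal.ofReal_natCast (p + 1),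
          ← ENNReal.ofReal_mul (by positivity), ← ENNReal.ofReal_mul (by positivity),
          ← ENNReal.ofReal_mul (by positivity)]
        congr 1
        push_cast
        ring

/-- Reordering of a fourfold sum. -/
lemma reorder (f : ℕ → ℕ → ℕ → ℕ → ℝ≥0∞) :
    ∑' (k : ℕ) (m : ℕ) (l : ℕ) (i : ℕ), f k m l i
      = ∑' (i : ℕ) (m : ℕ) (l : ℕ) (k : ℕ), f k m l i := by
  calc ∑' (k : ℕ) (m : ℕ) (l : ℕ) (i : ℕ), f k m l i
      = ∑' (k : ℕ) (m : ℕ) (i : ℕ) (l : ℕ), f k m l i :=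
        tsum_congr fun k => tsum_congr fun m => ENNReal.tsum_comm
    _ = ∑' (k : ℕ) (i : ℕ) (m : ℕ) (l : ℕ), f k m l i :=
        tsum_congr fun k => ENNReal.tsum_comm
    _ = ∑' (i : ℕ) (k : ℕ) (m : ℕ) (l : ℕ), f k m l i := ENNReal.tsum_comm
    _ = ∑' (i : ℕ) (m : ℕ) (k : ℕ) (l : ℕ), f k m l i :=
        tsum_congr fun i => ENNReal.tsum_comm
    _ = ∑' (i : ℕ) (m : ℕ) (l : ℕ) (k : ℕ), f k m l i :=
        tsum_congr fun i => tsum_congr fun m => ENNReal.tsum_comm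

lemma asym {c₁ : ℝ} (hc : 0 < c₁) : ∃ p₀ : ℕ, ∀ p ≥ p₀,
    2 * E (-((p : ℝ) / 200) + 10 * Real.logb 2 (La c₁ p) + 100)
      * (1 - E (-(1 / 100)))⁻¹ ^ 2 * ((p + 4) * (p + 1)) ≤ √c₁ := by
  set G : ℝ := (1 - E (-(1 / 100)))⁻¹ with hG
  have hr : |E (-(1 / 200))| < 1 := by
    rw [abs_of_nonneg (E_nonneg _)]
    exact Real.rpow_lt_one_of_one_lt_of_neg one_lt_two (by norm_num)
  have h1 := tendsto_pow_const_mul_const_pow_of_abs_lt_one 12 hr
  have h2 : Tendsto (fun n : ℕ => (2 * E 100 * G ^ 2 * 10 * (8 / c₁) ^ 10)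
      * ((n : ℝ) ^ 12 * E (-(1 / 200)) ^ n)) atTop (𝓝 0) := by
    simpa using h1.const_mul (2 * E 100 * G ^ 2 * 10 * (8 / c₁) ^ 10)
  have hs : 0 < √c₁ := Real.sqrt_pos.mpr hc
  obtain ⟨p₁, hp₁⟩ := (h2.eventually (ge_mem_nhds hs)).exists_forall_of_atTop
  refine ⟨max p₁ 1, fun p hp => ?_⟩
  have hp1 : p₁ ≤ p := (le_max_left _ _).trans hp
  have hp2 : (1 : ℝ) ≤ p := by exact_mod_cast (le_max_right _ _).trans hp
  refine le_trans ?_ (hp₁ p hp1)
  have e1 : E (-((p : ℝ) / 200) + 10 * Real.logb 2 (La c₁ p) + 100)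
      = E (-(1 / 200)) ^ p * La c₁ p ^ 10 * E 100 := by
    rw [E_add, E_add, ← E_natmul, ← E_logb (La_pos hc p), ← E_natmul 10, E_logb (La_pos hc p)]
    congr 2
    congr 1
    ring
  rw [e1]
  have e2 : La c₁ p ≤ 8 / c₁ * p := by
    unfold La
    rw [div_mul_eq_mul_div]
    apply div_le_div_of_nonneg_right _ hc.le
    linarith only [hp2]
  have e3 : La c₁ p ^ 10 ≤ (8 / c₁ * p) ^ 10 := pow_le_pow_left₀ (La_pos hc p).le e2 10
  have e4 : ((p : ℝ) + 4) * (p + 1) ≤ 10 * p ^ 2 := by nlinarith only [hp2]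
  have e5 := E_nonneg (-(1 / 200))
  have e6 := E_nonneg 100
  calc 2 * (E (-(1 / 200)) ^ p * La c₁ p ^ 10 * E 100) * G ^ 2 * (((p : ℝ) + 4) * (p + 1))
      ≤ 2 * (E (-(1 / 200)) ^ p * (8 / c₁ * p) ^ 10 * E 100) * G ^ 2 * (10 * p ^ 2) := by
        (clear * - hc hp2 e3 e4 e5 e6; gcongr)
    _ = (2 * E 100 * G ^ 2 * 10 * (8 / c₁) ^ 10) * ((p : ℝ) ^ 12 * E (-(1 / 200)) ^ p) := by
        ring

/-- The slack cells give a small total. -/
lemma slack_total {c₁ : ℝ} (hc : 0 < c₁) : ∃ p₀ : ℕ, ∀ p ≥ p₀, ∀ (j : ℕ)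
    (f : ℕ → ℕ → ℕ → ℕ → ℝ≥0∞),
    (∀ k m l i : ℕ, m < p + 4 → i < p + 1 → f k m l i ≤ ENNReal.ofReal
      (2 * E ((p : ℝ) - j - p / 200 - k / 100 - l / 100 + 10 * Real.logb 2 (La c₁ p) + 100))) →
    (∀ k m l i, ¬ (m < p + 4 ∧ i < p + 1) → f k m l i = 0) →
    ∑' (k : ℕ) (m : ℕ) (l : ℕ) (i : ℕ), f k m l i ≤ ENNReal.ofReal (√c₁ * qq p j) := by
  obtain ⟨p₀, hp₀⟩ := asym hc
  refine ⟨p₀, fun p hp j f hf hf0 => ?_⟩
  have hr0 := E_nonneg (-(1 / 100))
  have hr1 : E (-(1 / 100)) < 1 := Real.rpow_lt_one_of_one_lt_of_neg one_lt_two (by norm_num)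
  have h1 := slack_sum p
    (2 * E ((p : ℝ) - j - p / 200 + 10 * Real.logb 2 (La c₁ p) + 100)) (E (-(1 / 100)))
    (by have := E_nonneg ((p : ℝ) - j - p / 200 + 10 * Real.logb 2 (La c₁ p) + 100); positivity)
    hr0 hr1 f
    (fun k m l i hm hi => (hf k m l i hm hi).trans (le_of_eq (by
      rw [← E_natmul, ← E_natmul, mul_assoc 2, mul_assoc 2, ← E_add, ← E_add]
      congr 3
      ring))) hf0
  refine h1.trans (ENNReal.ofReal_le_ofReal ?_)
  have h2 := hp₀ p hp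
  have h3 : E ((p : ℝ) - j - p / 200 + 10 * Real.logb 2 (La c₁ p) + 100)
      = E (-((p : ℝ) / 200) + 10 * Real.logb 2 (La c₁ p) + 100) * qq p j := by
    rw [qq_E, ← E_add]; congr 1; ring
  rw [h3]
  have h4 : 0 < qq p j := qq_pos p j
  calc 2 * (E (-((p : ℝ) / 200) + 10 * Real.logb 2 (La c₁ p) + 100) * qq p j)
        * (1 - E (-(1 / 100)))⁻¹ ^ 2 * ((p + 4) * (p + 1))
      = (2 * E (-((p : ℝ) / 200) + 10 * Real.logb 2 (La c₁ p) + 100)
        * (1 - E (-(1 / 100)))⁻¹ ^ 2 * ((p + 4) * (p + 1))) * qq p j := by ring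
    _ ≤ √c₁ * qq p j := by gcongr

/-- The critical cells. -/
lemma crit_total {c₁ : ℝ} (hc : 0 < c₁) (hc1 : c₁ ≤ 1) (p j : ℕ)
    (f : ℕ → ℕ → ℕ → ℕ → ℝ≥0∞) (c : ℕ → ℕ) (a b : ℕ → ℕ → ℕ → ℝ)
    (hf : ∀ i g h k : ℕ, f i g h k ≤ ENNReal.ofReal
      (E (xc c₁ p j i + 6 - (g : ℝ) / 4 - |(h : ℝ) - c g| / 2 - (a i g h + b i g h) / 4
        + min (a i g h - k) (b i g h + k) / 2))) :
    ∑' (i : ℕ) (g : ℕ) (h : ℕ) (k : ℕ), f i g h k
      ≤ ENNReal.ofReal (400000 * √c₁ * qq p j) := by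
  calc ∑' (i : ℕ) (g : ℕ) (h : ℕ) (k : ℕ), f i g h k
      ≤ ∑' (i : ℕ), ENNReal.ofReal (31360 * E (xc c₁ p j i)) := by
        apply ENNReal.tsum_le_tsum
        intro i
        refine (crit3 (f i) (xc c₁ p j i) c (a i) (b i) (hf i)).trans (le_of_eq ?_)
        rw [E_add]
        have : E 6 = 64 := by unfold E; norm_num
        rw [this]
        congr 1; ring
    _ = ENNReal.ofReal 31360 * ∑' (i : ℕ), ENNReal.ofReal (E (xc c₁ p j i)) := by
        rw [← ENNReal.tsum_mul_left]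
        refine tsum_congr fun i => ?_
        rw [ENNReal.ofReal_mul (by norm_num)]
    _ ≤ ENNReal.ofReal 31360 * ENNReal.ofReal (12 * √c₁ * qq p j) := by
        gcongr
        exact class_sum hc hc1 p j
    _ ≤ ENNReal.ofReal (400000 * √c₁ * qq p j) := by
        rw [← ENNReal.ofReal_mul (by norm_num)]
        apply ENNReal.ofReal_le_ofReal
        have : 0 ≤ √c₁ * qq p j := mul_nonneg (Real.sqrt_nonneg _) (qq_pos p j).le
        nlinarith only [this]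

end Vale.Agent.P107.Ar.Sg
end
end
end

section

section

attribute [-instance] ProperSMul.toContinuousSMul IsTopologicalTorsor.toContinuousSMul
  IdemSemiring.toCanonicallyOrderedAdd IdemSemiring.toMulLeftMono IdemSemiring.toMulRightMono
  AddQuantale.instAddLeftMono AddQuantale.instAddRightMono Quantale.instMulLeftMono
  Quantale.instMulRightMono FiniteDimensional.rclike_to_real IsScalarTower.complexToReal
  FiniteDimensional.complexToReal

section

/-! Linear arithmetic behind the slack cells of the S-sums. -/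

namespace Vale.Agent.P107.Ar

theorem slackA1 (p j i k m l N S d lam kap : ℝ) (_hj : 0 ≤ j) (_hi0 : 0 ≤ i)
    (_hk : 0 ≤ k) (_hm0 : 0 ≤ m) (_hl0 : 0 ≤ l) (_hlam : 0 ≤ lam) (_h12 : 12 * j ≤ 5 * p)
    (_hip : i ≤ p) (_hm : m ≤ p - j + 3) (_hl : l ≤ p - i + 1) (_hml : m ≤ l)
    (_hd1 : d ≤ -2 * j) (_hd2 : -2 * j - lam ≤ d)
    (_hV : N ≤ d - 3 * k - 2 * m - 2 * l + 4 * (p - i)) (_hF : N ≤ d + 2 * l)
    (hS : (-k ≤ d ∧ N ≤ d + 1 + 2 * m) ∨ (d ≤ -k ∧ N ≤ -k + 1 + 2 * m))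
    (hG : (12 * i ≤ 5 * p ∧ m ≤ 5 / 8 * (p - i) - 10 ∧ m ≤ 5 / 8 * (p - j) - 10 ∧
      N ≤ 3 * m - k + kap ∧ ((kap ≤ lam + 2 ∧ i ≤ j ∧ 2 * i ≤ k) ∨
        (kap ≤ lam + 2 + 2 * i - 2 * j ∧ j ≤ i ∧ 2 * j ≤ k) ∨
        (kap ≤ lam + 2 + 2 * i - k ∧ k ≤ 2 * i ∧ k ≤ 2 * j))) ∨
      5 * p ≤ 12 * i ∨ 5 / 8 * (p - i) - 10 ≤ m ∨ 5 / 8 * (p - j) - 10 ≤ m)
    (hnc : ¬ (-k ≤ d) ∨ ¬ (12 * i ≤ 5 * p ∧ m ≤ 5 / 8 * (p - i) - 10 ∧
      m ≤ 5 / 8 * (p - j) - 10))
    (_hs : (S ≤ -m + 2 * l ∧ S ≤ m + 2 * j ∧ S ≤ -m + 2 * j + 5 / 4 * (p - j))) :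
    k + S - l + d / 2 + N / 2 ≤ p - j - p / 200 - k / 100 - l / 100 + 10 * lam + 100 := by
  obtain ⟨s1, s2, s3⟩ := _hs
  rcases hS with ⟨h1, h2⟩ | ⟨h1, h2⟩ <;>
    rcases hG with ⟨g1, g2, g3, g4, g5⟩ | g | g | g
  · exfalso
    rcases hnc with h | h
    · exact h h1
    · exact h ⟨g1, g2, g3⟩
  · linarith only [_hj, _hi0, _hm0, _hlam, _hd1, _hV, s1, s2, h2, g]
  · linarith only [_hj, _hi0, _hm0, _hlam, _hd1, _hV, s1, s2, h2, g]
  · linarith only [_hj, _hi0, _hm0, _hlam, _hd1, _hV, s1, s2, h2, g]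
  · rcases g5 with ⟨g5, g6, g7⟩ | ⟨g5, g6, g7⟩ | ⟨g5, g6, g7⟩ <;> linarith only [_hi0, _hm0, _hlam, _h12, _hd1, _hV, s1, s2, h1, h2]
  · linarith only [_hi0, _hm0, _hlam, _h12, _hd1, _hV, s1, s2, h1, h2]
  · linarith only [_hi0, _hm0, _hlam, _h12, _hd1, _hV, s1, s2, h1, h2]
  · linarith only [_hi0, _hm0, _hlam, _h12, _hd1, _hV, s1, s2, h1, h2]

theorem slackA2 (p j i k m l N S d lam kap : ℝ) (_hj : 0 ≤ j) (_hi0 : 0 ≤ i)
    (_hk : 0 ≤ k) (_hm0 : 0 ≤ m) (_hl0 : 0 ≤ l) (_hlam : 0 ≤ lam) (_h12 : 12 * j ≤ 5 * p)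
    (_hip : i ≤ p) (_hm : m ≤ p - j + 3) (_hl : l ≤ p - i + 1) (_hml : m ≤ l)
    (_hd1 : d ≤ -2 * j) (_hd2 : -2 * j - lam ≤ d)
    (_hV : N ≤ d - 3 * k - 2 * m - 2 * l + 4 * (p - i)) (_hF : N ≤ d + 2 * l)
    (hS : (-k ≤ d ∧ N ≤ d + 1 + 2 * m) ∨ (d ≤ -k ∧ N ≤ -k + 1 + 2 * m))
    (hG : (12 * i ≤ 5 * p ∧ m ≤ 5 / 8 * (p - i) - 10 ∧ m ≤ 5 / 8 * (p - j) - 10 ∧
      N ≤ 3 * m - k + kap ∧ ((kap ≤ lam + 2 ∧ i ≤ j ∧ 2 * i ≤ k) ∨
        (kap ≤ lam + 2 + 2 * i - 2 * j ∧ j ≤ i ∧ 2 * j ≤ k) ∨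
        (kap ≤ lam + 2 + 2 * i - k ∧ k ≤ 2 * i ∧ k ≤ 2 * j))) ∨
      5 * p ≤ 12 * i ∨ 5 / 8 * (p - i) - 10 ≤ m ∨ 5 / 8 * (p - j) - 10 ≤ m)
    (_hs : S ≤ -5 / 8 * (p - j) + 2 * l) :
    k + S - l + d / 2 + N / 2 ≤ p - j - p / 200 - k / 100 - l / 100 + 10 * lam + 100 := by
  rcases hS with ⟨h1, h2⟩ | ⟨h1, h2⟩ <;>
    rcases hG with ⟨g1, g2, g3, g4, g5⟩ | g | g | g
  · rcases g5 with ⟨g5, g6, g7⟩ | ⟨g5, g6, g7⟩ | ⟨g5, g6, g7⟩ <;> linarith only [_hj, _hi0, _hm0, _hlam, _hl, _hd1, _hV, _hs, h2, g4, g5]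
  · linarith only [_hj, _hi0, _hm0, _hlam, _hl, _hd1, _hV, _hs, h2, g]
  · linarith only [_hj, _hi0, _hm0, _hlam, _hl, _hd1, _hV, _hs, h2, g]
  · linarith only [_hj, _hi0, _hm0, _hlam, _hl, _hd1, _hV, _hs, h2, g]
  · rcases g5 with ⟨g5, g6, g7⟩ | ⟨g5, g6, g7⟩ | ⟨g5, g6, g7⟩ <;> linarith only [_hi0, _hk, _hm0, _hlam, _h12, _hl, _hd1, _hV, _hs, h2]
  · linarith only [_hi0, _hk, _hm0, _hlam, _h12, _hl, _hd1, _hV, _hs, h2]
  · linarith only [_hi0, _hk, _hm0, _hlam, _h12, _hl, _hd1, _hV, _hs, h2]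
  · linarith only [_hi0, _hk, _hm0, _hlam, _h12, _hl, _hd1, _hV, _hs, h2]

theorem slackN1 (p j i k m l N S d lam kap : ℝ) (_hj : 0 ≤ j) (_hi0 : 0 ≤ i)
    (_hk : 0 ≤ k) (_hm0 : 0 ≤ m) (_hl0 : 0 ≤ l) (_hlam : 0 ≤ lam) (_h12 : 12 * j ≤ 5 * p)
    (_hip : i ≤ p) (_hm : m ≤ p - j + 3) (_hl : l ≤ p - i + 1) (_hml : l ≤ m)
    (_hd1 : d ≤ -2 * j) (_hd2 : -2 * j - lam ≤ d)
    (_hV : N ≤ d - 3 * k - 2 * m - 2 * l + 4 * (p - i)) (_hF : N ≤ d + 2 * l)
    (hS : (-k ≤ d ∧ N ≤ d + 1 + 2 * m) ∨ (d ≤ -k ∧ N ≤ -k + 1 + 2 * m))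
    (hG : (12 * i ≤ 5 * p ∧ l ≤ 5 / 8 * (p - i) - 10 ∧ l ≤ 5 / 8 * (p - j) - 10 ∧
      N ≤ 2 * m + l - k + kap ∧ ((kap ≤ lam + 2 ∧ i ≤ j ∧ 2 * i ≤ k) ∨
        (kap ≤ lam + 2 + 2 * i - 2 * j ∧ j ≤ i ∧ 2 * j ≤ k) ∨
        (kap ≤ lam + 2 + 2 * i - k ∧ k ≤ 2 * i ∧ k ≤ 2 * j))) ∨
      5 * p ≤ 12 * i ∨ 5 / 8 * (p - i) - 10 ≤ l ∨ 5 / 8 * (p - j) - 10 ≤ l)
    (hnc : ¬ (-k ≤ d) ∨ ¬ (12 * i ≤ 5 * p ∧ l ≤ 5 / 8 * (p - i) - 10 ∧
      l ≤ 5 / 8 * (p - j) - 10))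
    (_hs : S ≤ -m + 2 * l) :
    k + S - l + d / 2 + N / 2 ≤ p - j - p / 200 - k / 100 - l / 100 + 10 * lam + 100 := by
  rcases hS with ⟨h1, h2⟩ | ⟨h1, h2⟩ <;>
    rcases hG with ⟨g1, g2, g3, g4, g5⟩ | g | g | g
  · exfalso
    rcases hnc with h | h
    · exact h h1
    · exact h ⟨g1, g2, g3⟩
  · linarith only [_hj, _hi0, _hm0, _hlam, _hml, _hd1, _hV, _hF, _hs, g]
  · linarith only [_hj, _hi0, _hm0, _hlam, _hml, _hd1, _hV, _hF, _hs, g]
  · linarith only [_hj, _hi0, _hm0, _hlam, _hml, _hd1, _hV, _hF, _hs, g]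
  · rcases g5 with ⟨g5, g6, g7⟩ | ⟨g5, g6, g7⟩ | ⟨g5, g6, g7⟩ <;> linarith only [_hi0, _hm0, _hlam, _hml, _hd1, _hV, _hF, _hs, h1, g3]
  · linarith only [_hj, _hi0, _hm0, _hlam, _hml, _hd1, _hV, _hF, _hs, h1]
  · linarith only [_hj, _hi0, _hm0, _hlam, _hml, _hd1, _hV, _hF, _hs, h1]
  · linarith only [_hj, _hi0, _hm0, _hlam, _hml, _hd1, _hV, _hF, _hs, h1]

theorem slackN2 (p j i k m l N S d lam kap : ℝ) (_hj : 0 ≤ j) (_hi0 : 0 ≤ i)
    (_hk : 0 ≤ k) (_hm0 : 0 ≤ m) (_hl0 : 0 ≤ l) (_hlam : 0 ≤ lam) (_h12 : 12 * j ≤ 5 * p)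
    (_hip : i ≤ p) (_hm : m ≤ p - j + 3) (_hl : l ≤ p - i + 1) (_hml : l ≤ m)
    (_hd1 : d ≤ -2 * j) (_hd2 : -2 * j - lam ≤ d)
    (_hV : N ≤ d - 3 * k - 2 * m - 2 * l + 4 * (p - i)) (_hF : N ≤ d + 2 * l)
    (hS : (-k ≤ d ∧ N ≤ d + 1 + 2 * m) ∨ (d ≤ -k ∧ N ≤ -k + 1 + 2 * m))
    (hG : (12 * i ≤ 5 * p ∧ l ≤ 5 / 8 * (p - i) - 10 ∧ l ≤ 5 / 8 * (p - j) - 10 ∧
      N ≤ 2 * m + l - k + kap ∧ ((kap ≤ lam + 2 ∧ i ≤ j ∧ 2 * i ≤ k) ∨
        (kap ≤ lam + 2 + 2 * i - 2 * j ∧ j ≤ i ∧ 2 * j ≤ k) ∨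
        (kap ≤ lam + 2 + 2 * i - k ∧ k ≤ 2 * i ∧ k ≤ 2 * j))) ∨
      5 * p ≤ 12 * i ∨ 5 / 8 * (p - i) - 10 ≤ l ∨ 5 / 8 * (p - j) - 10 ≤ l)
    (_hs : S ≤ -5 / 8 * (p - j) + 2 * l) :
    k + S - l + d / 2 + N / 2 ≤ p - j - p / 200 - k / 100 - l / 100 + 10 * lam + 100 := by
  rcases hS with ⟨h1, h2⟩ | ⟨h1, h2⟩ <;>
    rcases hG with ⟨g1, g2, g3, g4, g5⟩ | g | g | g
  · rcases g5 with ⟨g5, g6, g7⟩ | ⟨g5, g6, g7⟩ | ⟨g5, g6, g7⟩ <;> linarith only [_hj, _hi0, _hm0, _hlam, _hml, _hd1, _hV, _hF, _hs, g3]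
  · linarith only [_hj, _hi0, _hk, _hm0, _hlam, _hml, _hd1, _hV, _hF, _hs]
  · linarith only [_hj, _hi0, _hk, _hm0, _hlam, _hml, _hd1, _hV, _hF, _hs]
  · linarith only [_hj, _hi0, _hk, _hm0, _hlam, _hml, _hd1, _hV, _hF, _hs]
  · rcases g5 with ⟨g5, g6, g7⟩ | ⟨g5, g6, g7⟩ | ⟨g5, g6, g7⟩ <;> linarith only [_hi0, _hm0, _hl0, _hlam, _hd1, _hV, _hF, _hs, h1, g3]
  · linarith only [_hj, _hi0, _hk, _hm0, _hlam, _hml, _hd1, _hV, _hF, _hs]
  · linarith only [_hj, _hi0, _hk, _hm0, _hlam, _hml, _hd1, _hV, _hF, _hs]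
  · linarith only [_hj, _hi0, _hk, _hm0, _hlam, _hml, _hd1, _hV, _hF, _hs]

theorem slackD1 (p j i k m l N S d lam kap : ℝ) (_hj : 0 ≤ j) (_hi0 : 0 ≤ i)
    (_hk : 0 ≤ k) (_hm0 : 0 ≤ m) (_hl0 : 0 ≤ l) (_hlam : 0 ≤ lam) (_h12 : 12 * j ≤ 5 * p)
    (_hip : i ≤ p) (_hm : m ≤ p - j + 3) (_hl : m ≤ p - i + 4) (_hml : m ≤ l + 4)
    (_hd1 : d ≤ -2 * j) (_hd2 : -2 * j - lam ≤ d)
    (_hV : N ≤ d - 3 * k - 2 * m - 2 * l + 4 * (p - i)) (_hF : N ≤ d + 2 * m)
    (hS : (-k ≤ d ∧ N ≤ d + 1 + 2 * m) ∨ (d ≤ -k ∧ N ≤ -k + 1 + 2 * m))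
    (hG : (12 * i ≤ 5 * p ∧ l ≤ 5 / 8 * (p - i) - 10 ∧ l ≤ 5 / 8 * (p - j) - 10 ∧
      N ≤ m + 2 * l - k + kap ∧ ((kap ≤ lam + 2 ∧ i ≤ j ∧ 2 * i ≤ k) ∨
        (kap ≤ lam + 2 + 2 * i - 2 * j ∧ j ≤ i ∧ 2 * j ≤ k) ∨
        (kap ≤ lam + 2 + 2 * i - k ∧ k ≤ 2 * i ∧ k ≤ 2 * j))) ∨
      5 * p ≤ 12 * i ∨ 5 / 8 * (p - i) - 10 ≤ l ∨ 5 / 8 * (p - j) - 10 ≤ l)
    (hnc : ¬ (-k ≤ d) ∨ ¬ (12 * i ≤ 5 * p ∧ l ≤ 5 / 8 * (p - i) - 10 ∧
      l ≤ 5 / 8 * (p - j) - 10))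
    (_hs : S ≤ m) :
    k + S - l + d / 2 + N / 2 ≤ p - j - p / 200 - k / 100 - l / 100 + 10 * lam + 100 := by
  rcases hS with ⟨h1, h2⟩ | ⟨h1, h2⟩ <;>
    rcases hG with ⟨g1, g2, g3, g4, g5⟩ | g | g | g
  · exfalso
    rcases hnc with h | h
    · exact h h1
    · exact h ⟨g1, g2, g3⟩
  · linarith only [_hj, _hi0, _hl0, _hlam, _hml, _hd1, _hV, _hF, _hs, g]
  · linarith only [_hj, _hi0, _hl0, _hlam, _hml, _hd1, _hV, _hF, _hs, g]
  · linarith only [_hj, _hi0, _hl0, _hlam, _hml, _hd1, _hV, _hF, _hs, g]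
  · rcases g5 with ⟨g5, g6, g7⟩ | ⟨g5, g6, g7⟩ | ⟨g5, g6, g7⟩ <;> linarith only [_hj, _hi0, _hl0, _hlam, _hml, _hd1, _hV, _hF, _hs, h1]
  · linarith only [_hj, _hi0, _hl0, _hlam, _hml, _hd1, _hV, _hF, _hs, h1]
  · linarith only [_hj, _hi0, _hl0, _hlam, _hml, _hd1, _hV, _hF, _hs, h1]
  · linarith only [_hj, _hi0, _hl0, _hlam, _hml, _hd1, _hV, _hF, _hs, h1]

theorem slackD2 (p j i k m l N S d lam kap : ℝ) (_hj : 0 ≤ j) (_hi0 : 0 ≤ i)
    (_hk : 0 ≤ k) (_hm0 : 0 ≤ m) (_hl0 : 0 ≤ l) (_hlam : 0 ≤ lam) (_h12 : 12 * j ≤ 5 * p)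
    (_hip : i ≤ p) (_hm : m ≤ p - j + 3) (_hl : m ≤ p - i + 4) (_hml : m ≤ l + 4)
    (_hd1 : d ≤ -2 * j) (_hd2 : -2 * j - lam ≤ d)
    (_hV : N ≤ d - 3 * k - 2 * m - 2 * l + 4 * (p - i)) (_hF : N ≤ d + 2 * m)
    (hS : (-k ≤ d ∧ N ≤ d + 1 + 2 * m) ∨ (d ≤ -k ∧ N ≤ -k + 1 + 2 * m))
    (hG : (12 * i ≤ 5 * p ∧ l ≤ 5 / 8 * (p - i) - 10 ∧ l ≤ 5 / 8 * (p - j) - 10 ∧
      N ≤ m + 2 * l - k + kap ∧ ((kap ≤ lam + 2 ∧ i ≤ j ∧ 2 * i ≤ k) ∨
        (kap ≤ lam + 2 + 2 * i - 2 * j ∧ j ≤ i ∧ 2 * j ≤ k) ∨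
        (kap ≤ lam + 2 + 2 * i - k ∧ k ≤ 2 * i ∧ k ≤ 2 * j))) ∨
      5 * p ≤ 12 * i ∨ 5 / 8 * (p - i) - 10 ≤ l ∨ 5 / 8 * (p - j) - 10 ≤ l)
    (_hs : S ≤ -5 / 8 * (p - j) + 2 * m) :
    k + S - l + d / 2 + N / 2 ≤ p - j - p / 200 - k / 100 - l / 100 + 10 * lam + 100 := by
  rcases hS with ⟨h1, h2⟩ | ⟨h1, h2⟩ <;>
    rcases hG with ⟨g1, g2, g3, g4, g5⟩ | g | g | g
  · rcases g5 with ⟨g5, g6, g7⟩ | ⟨g5, g6, g7⟩ | ⟨g5, g6, g7⟩ <;> linarith only [_hj, _hi0, _hl0, _hlam, _hml, _hd1, _hV, _hF, _hs, h1]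
  · linarith only [_hj, _hi0, _hl0, _hlam, _hm, _hml, _hd1, _hV, _hF, _hs]
  · linarith only [_hj, _hi0, _hl0, _hlam, _hm, _hml, _hd1, _hV, _hF, _hs]
  · linarith only [_hj, _hi0, _hl0, _hlam, _hm, _hml, _hd1, _hV, _hF, _hs]
  · rcases g5 with ⟨g5, g6, g7⟩ | ⟨g5, g6, g7⟩ | ⟨g5, g6, g7⟩ <;> linarith only [_hj, _hi0, _hk, _hl0, _hlam, _hml, _hd1, _hV, _hF, _hs]
  · linarith only [_hj, _hi0, _hl0, _hlam, _hm, _hml, _hd1, _hV, _hF, _hs]
  · linarith only [_hj, _hi0, _hl0, _hlam, _hm, _hml, _hd1, _hV, _hF, _hs]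
  · linarith only [_hj, _hi0, _hl0, _hlam, _hm, _hml, _hd1, _hV, _hF, _hs]

end Vale.Agent.P107.Ar
end
end
end

section

section

attribute [-instance] ProperSMul.toContinuousSMul IsTopologicalTorsor.toContinuousSMul
  IdemSemiring.toCanonicallyOrderedAdd IdemSemiring.toMulLeftMono IdemSemiring.toMulRightMono
  AddQuantale.instAddLeftMono AddQuantale.instAddRightMono Quantale.instMulLeftMono
  Quantale.instMulRightMono FiniteDimensional.rclike_to_real IsScalarTower.complexToReal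
  FiniteDimensional.complexToReal

section

/-!
The S-sums with the flux budget: `statSg : StatSg`.
-/

open Set Filter Topology
open scoped ENNReal NNReal

namespace Vale.Agent.P107.Ar.Sg

open Tl

lemma term_le {k l : ℕ} {s q δ n S : ℝ} (hs : s ≤ E S) (hq : 0 < q) (hδ : 0 < δ)
    (hn : 0 < n) :
    2 ^ k * s * q⁻¹ * √δ * √(q ^ 3 * (1 / 4) ^ l * n)
      ≤ E (k + S - l + Real.logb 2 δ / 2 + Real.logb 2 (q * n) / 2) := by
  have h4 : (1 / 4 : ℝ) ^ l = ((1 / 2 : ℝ) ^ l) ^ 2 := by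
    rw [← pow_mul, mul_comm, pow_mul]; norm_num
  have h1 : √(q ^ 3 * (1 / 4) ^ l * n) = q * (1 / 2) ^ l * √(q * n) := by
    rw [show q ^ 3 * (1 / 4) ^ l * n = (q * (1 / 2) ^ l) ^ 2 * (q * n) by rw [h4]; ring,
      Real.sqrt_mul (by positivity), Real.sqrt_sq (by positivity)]
  have h2 : √δ = E (Real.logb 2 δ / 2) := by rw [← E_sqrt, E_logb hδ]
  have h3 : √(q * n) = E (Real.logb 2 (q * n) / 2) := by
    rw [← E_sqrt, E_logb (mul_pos hq hn)]
  have h5 : 2 ^ k * s * q⁻¹ * √δ * √(q ^ 3 * (1 / 4) ^ l * n)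
      = s * (2 ^ k * (1 / 2) ^ l * √δ * √(q * n)) := by
    rw [h1]; (clear * - hq hδ hn; field_simp)
  have h6 : E (k + S - l + Real.logb 2 δ / 2 + Real.logb 2 (q * n) / 2)
      = E S * (2 ^ k * (1 / 2) ^ l * √δ * √(q * n)) := by
    rw [h2, h3, pow2, powh2]
    change _ = E S * (E k * E (-(l : ℝ)) * E (Real.logb 2 δ / 2) * E (Real.logb 2 (q * n) / 2))
    simp only [← E_add]
    congr 1; ring
  rw [h5, h6]
  gcongr

section
variable {c₁ : ℝ} {p j i k m l : ℕ} {n : ℝ}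

lemma V_log (hc : 0 < c₁) (hn : 0 < n)
    (h : n ≤ dl c₁ p j * (1 / 8) ^ k * (1 / 4) ^ m * (1 / 4) ^ l * qq p i ^ 3) :
    Real.logb 2 (qq p i * n) ≤ Real.logb 2 (dl c₁ p j) - 3 * k - 2 * m - 2 * l
      + 4 * ((p : ℝ) - i) := by
  have hq := qq_pos p i
  apply logb_le_of_le_E (mul_pos hq hn)
  calc qq p i * n ≤ qq p i * (dl c₁ p j * (1 / 8) ^ k * (1 / 4) ^ m * (1 / 4) ^ l
        * qq p i ^ 3) := by gcongr
    _ = dl c₁ p j * (1 / 8) ^ k * (1 / 4) ^ m * (1 / 4) ^ l * qq p i ^ 4 := by ring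
    _ = E (Real.logb 2 (dl c₁ p j)) * E (-(3 * (k : ℝ))) * E (-(2 * (m : ℝ)))
        * E (-(2 * (l : ℝ))) * E ((4 : ℕ) * ((p : ℝ) - i)) := by
        rw [E_logb (dl_pos hc p j), powh8, powh4, powh4, E_natmul, qq_E]
        rfl
    _ = E (Real.logb 2 (dl c₁ p j) - 3 * k - 2 * m - 2 * l + 4 * ((p : ℝ) - i)) := by
        simp only [← E_add]
        congr 1

lemma F_log (hc : 0 < c₁) (hn : 0 < n) (h : n ≤ dl c₁ p j * 4 ^ l / qq p i) :
    Real.logb 2 (qq p i * n) ≤ Real.logb 2 (dl c₁ p j) + 2 * l := by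
  have hq := qq_pos p i
  apply logb_le_of_le_E (mul_pos hq hn)
  rw [le_div_iff₀ hq, mul_comm] at h
  refine h.trans (le_of_eq ?_)
  rw [E_add, E_logb (dl_pos hc p j), pow4]
  rfl

lemma near_iff (hc : 0 < c₁) : (1 / 2 : ℝ) ^ k ≤ dl c₁ p j ↔
    -(k : ℝ) ≤ Real.logb 2 (dl c₁ p j) := by
  rw [Real.le_logb_iff_rpow_le one_lt_two (dl_pos hc p j), powh2]

lemma S_log (hc : 0 < c₁) (hn : 0 < n)
    (h : n ≤ (dl c₁ p j + (1 / 2) ^ k) * 4 ^ m / qq p i) :
    (-(k : ℝ) ≤ Real.logb 2 (dl c₁ p j) ∧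
      Real.logb 2 (qq p i * n) ≤ Real.logb 2 (dl c₁ p j) + 1 + 2 * m) ∨
    (Real.logb 2 (dl c₁ p j) ≤ -(k : ℝ) ∧
      Real.logb 2 (qq p i * n) ≤ -(k : ℝ) + 1 + 2 * m) := by
  have hq := qq_pos p i
  have hd := dl_pos hc p j
  rw [le_div_iff₀ hq, mul_comm] at h
  rcases le_or_gt (-(k : ℝ)) (Real.logb 2 (dl c₁ p j)) with h1 | h1
  · left
    refine ⟨h1, ?_⟩
    rw [← near_iff hc] at h1
    apply logb_le_of_le_E (mul_pos hq hn)
    rw [E_add, E_add, E_logb hd, E_one]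
    have : E (2 * (m : ℝ)) = 4 ^ m := (pow4 m).symm
    rw [this]
    refine h.trans ?_
    gcongr
    linarith only [h1]
  · right
    refine ⟨h1.le, ?_⟩
    have h2 : dl c₁ p j ≤ (1 / 2 : ℝ) ^ k := by
      rw [powh2, ← E_logb hd]
      exact E_mono h1.le
    apply logb_le_of_le_E (mul_pos hq hn)
    rw [E_add, E_add, E_one]
    have e1 : E (2 * (m : ℝ)) = 4 ^ m := (pow4 m).symm
    have e2 : E (-(k : ℝ)) = (1 / 2) ^ k := (powh2 k).symm
    rw [e1, e2]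
    refine h.trans ?_
    gcongr
    linarith only [h2]

lemma KK_pos (hc : 0 < c₁) : 0 < KK c₁ p j i k := by
  have h1 := dl_pos hc p j
  have h2 := dl_pos hc p i
  unfold KK
  positivity

lemma G_log (hc : 0 < c₁) (hn : 0 < n) {x : ℝ}
    (h : n ≤ E x * (1 / 2) ^ k * KK c₁ p j i k / qq p i) :
    Real.logb 2 (qq p i * n) ≤ x - k + Real.logb 2 (KK c₁ p j i k) := by
  have hq := qq_pos p i
  apply logb_le_of_le_E (mul_pos hq hn)
  rw [le_div_iff₀ hq, mul_comm] at h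
  refine h.trans (le_of_eq ?_)
  rw [E_add, E_logb (KK_pos hc), sub_eq_add_neg, E_add, powh2]
  rfl

lemma KK_near (hc : 0 < c₁) (h : -(k : ℝ) ≤ Real.logb 2 (dl c₁ p j)) :
    Real.logb 2 (KK c₁ p j i k) ≤ Real.logb 2 (1 + 2 * dl c₁ p j / dl c₁ p i) := by
  rw [← near_iff hc] at h
  apply Real.logb_le_logb_of_le one_lt_two (KK_pos hc)
  unfold KK
  have h2 := dl_pos hc p i
  gcongr
  linarith only [h]

lemma KK_log (hc : 0 < c₁) (hc1 : c₁ ≤ 1) :
    (Real.logb 2 (KK c₁ p j i k) ≤ Real.logb 2 (La c₁ p) + 2 ∧ (i : ℝ) ≤ j ∧ 2 * (i : ℝ) ≤ k) ∨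
    (Real.logb 2 (KK c₁ p j i k) ≤ Real.logb 2 (La c₁ p) + 2 + 2 * i - 2 * j ∧ (j : ℝ) ≤ i ∧
      2 * (j : ℝ) ≤ k) ∨
    (Real.logb 2 (KK c₁ p j i k) ≤ Real.logb 2 (La c₁ p) + 2 + 2 * i - k ∧ (k : ℝ) ≤ 2 * i ∧
      (k : ℝ) ≤ 2 * j) := by
  have hLa := La_ge hc hc1 p
  have hLp := La_pos hc p
  have h1 := inv_dl_le hc p i
  have h2 := dl_le hc hc1 p j
  set x : ℝ := E (2 * (i : ℝ) - 2 * j) with hx
  set y : ℝ := E (2 * (i : ℝ) - k) with hy
  have hKK : KK c₁ p j i k ≤ 1 + La c₁ p / 2 * (x + y) := by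
    unfold KK
    have h3 : (dl c₁ p j + (1 / 2) ^ k) / dl c₁ p i
        ≤ ((2 : ℝ) ^ (-(2 * (j : ℝ))) + (2 : ℝ) ^ (-(k : ℝ))) * (La c₁ p / 2 * 4 ^ i) := by
      rw [div_eq_mul_one_div]
      have := dl_pos hc p i
      have h4 := La_pos hc p
      rw [powh2]
      (clear * - h1 h2 this; gcongr)
    have h5 : ((2 : ℝ) ^ (-(2 * (j : ℝ))) + (2 : ℝ) ^ (-(k : ℝ))) * (La c₁ p / 2 * 4 ^ i)
        = La c₁ p / 2 * (x + y) := by
      have hx' : x = (2 : ℝ) ^ (-(2 * (j : ℝ))) * 4 ^ i := by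
        rw [hx, pow4]
        change _ = E _ * E _
        rw [← E_add]; congr 1; ring
      have hy' : y = (2 : ℝ) ^ (-(k : ℝ)) * 4 ^ i := by
        rw [hy, pow4]
        change _ = E _ * E _
        rw [← E_add]; congr 1; ring
      rw [hx', hy']; ring
    linarith only [h3, h5]
  have key : ∀ z : ℝ, 0 ≤ z → x ≤ E z → y ≤ E z →
      Real.logb 2 (KK c₁ p j i k) ≤ Real.logb 2 (La c₁ p) + 1 + z := by
    intro z hz hxz hyz
    have h1z : 1 ≤ E z := by rw [← E_zero]; exact E_mono hz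
    apply logb_le_of_le_E (KK_pos hc)
    rw [E_add, E_add, E_logb hLp, E_one]
    have : La c₁ p / 2 * (x + y) ≤ La c₁ p / 2 * (E z + E z) := by (clear * - hLa hxz hyz; gcongr)
    nlinarith only [hLa, hKK, h1z, this]
  rcases le_total (i : ℝ) j with hij | hij
  · rcases le_total (2 * (i : ℝ)) k with hik | hik
    · left
      refine ⟨?_, hij, hik⟩
      have := key 0 le_rfl (E_mono (by linarith only [hij])) (E_mono (by linarith only [hik]))
      linarith only [this]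
    · right; right
      refine ⟨?_, hik, by linarith only [hij, hik]⟩
      have := key (2 * (i : ℝ) - k) (by linarith only [hik]) (E_mono (by linarith only [hij, hik])) (E_mono (by linarith only []))
      linarith only [this]
  · rcases le_total (2 * (j : ℝ)) k with hjk | hjk
    · right; left
      refine ⟨?_, hij, hjk⟩
      have := key (2 * (i : ℝ) - 2 * j) (by linarith only [hij]) (E_mono (by linarith only []))
        (E_mono (by linarith only [hjk]))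
      linarith only [this]
    · right; right
      refine ⟨?_, by linarith only [hij, hjk], hjk⟩
      have := key (2 * (i : ℝ) - k) (by linarith only [hij, hjk]) (E_mono (by linarith only [hjk])) (E_mono (by linarith only []))
      linarith only [this]

end

/-- The bad cases of `gd`. -/
lemma not_gd {p j i a : ℕ} (h : ¬ gd p j i ((1 / 2) ^ a)) :
    5 * (p : ℝ) ≤ 12 * i ∨ 5 / 8 * ((p : ℝ) - i) - 10 ≤ a ∨ 5 / 8 * ((p : ℝ) - j) - 10 ≤ a := by
  rw [gd_iff] at h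
  by_contra hcon
  push Not at hcon
  exact h ⟨by linarith only [hcon.1], by linarith only [hcon.2.1], by linarith only [hcon.2.2]⟩

lemma of_gd {p j i a : ℕ} (h : gd p j i ((1 / 2) ^ a)) :
    12 * (i : ℝ) ≤ 5 * p ∧ (a : ℝ) ≤ 5 / 8 * ((p : ℝ) - i) - 10 ∧
      (a : ℝ) ≤ 5 / 8 * ((p : ℝ) - j) - 10 := by
  rw [gd_iff] at h
  exact ⟨h.1, by linarith only [h.2.1], by linarith only [h.2.2]⟩

lemma d_le {c₁ : ℝ} (hc : 0 < c₁) (hc1 : c₁ ≤ 1) (p j : ℕ) :
    Real.logb 2 (dl c₁ p j) ≤ -2 * j := by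
  have h1 := d_le_c hc p j
  have h2 := logc_le hc hc1
  linarith only [h1, h2]

/-- The slack exponent. -/
noncomputable def sl (c₁ : ℝ) (p j k l : ℕ) : ℝ :=
  (p : ℝ) - j - p / 200 - k / 100 - l / 100 + 10 * Real.logb 2 (La c₁ p) + 100

/-- The number of windows of a near shell, as an exponent. -/
noncomputable def kp (c₁ : ℝ) (p j i : ℕ) : ℝ := Real.logb 2 (1 + 2 * dl c₁ p j / dl c₁ p i)

lemma cell_gen {c₁ : ℝ} (hc : 0 < c₁) {p j i k l : ℕ} {s1 s2 n S2 C Sl : ℝ} (hs1 : 0 < s1)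
    (hs2 : s2 ≤ E S2) (hn : 0 < n)
    (h1 : k + Real.logb 2 s1 - l + Real.logb 2 (dl c₁ p j) / 2
      + Real.logb 2 (qq p i * n) / 2 ≤ C ∨ k + Real.logb 2 s1 - l
      + Real.logb 2 (dl c₁ p j) / 2 + Real.logb 2 (qq p i * n) / 2 ≤ Sl)
    (h2 : k + S2 - l + Real.logb 2 (dl c₁ p j) / 2 + Real.logb 2 (qq p i * n) / 2 ≤ Sl) :
    2 ^ k * (s1 + s2) * (qq p i)⁻¹ * √(dl c₁ p j) * √(qq p i ^ 3 * (1 / 4) ^ l * n)
      ≤ E C + 2 * E Sl := by
  have e1 := term_le (k := k) (l := l) (le_of_eq (E_logb hs1).symm) (qq_pos p i)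
    (dl_pos hc p j) hn
  have e2 := term_le (k := k) (l := l) hs2 (qq_pos p i) (dl_pos hc p j) hn
  have e3 : 2 ^ k * (s1 + s2) * (qq p i)⁻¹ * √(dl c₁ p j) * √(qq p i ^ 3 * (1 / 4) ^ l * n)
      = 2 ^ k * s1 * (qq p i)⁻¹ * √(dl c₁ p j) * √(qq p i ^ 3 * (1 / 4) ^ l * n)
        + 2 ^ k * s2 * (qq p i)⁻¹ * √(dl c₁ p j) * √(qq p i ^ 3 * (1 / 4) ^ l * n) := by ring
  rw [e3]
  have e4 := e2.trans (E_mono h2)
  have e5 : 2 ^ k * s1 * (qq p i)⁻¹ * √(dl c₁ p j) * √(qq p i ^ 3 * (1 / 4) ^ l * n)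
      ≤ E C + E Sl := by
    rcases h1 with h1 | h1
    · have := e1.trans (E_mono h1)
      have := E_nonneg Sl
      linarith
    · have := e1.trans (E_mono h1)
      have := E_nonneg C
      linarith
  linarith only [e4, e5]

section
variable {c₁ : ℝ} {p j i k m l : ℕ}

lemma cellA (hc : 0 < c₁) (hc1 : c₁ ≤ 1) (h12 : 12 * j ≤ 5 * p) (hr : rA p j i m l) :
    2 ^ k * sA p j m l * (qq p i)⁻¹ * √(dl c₁ p j) * √(qq p i ^ 3 * (1 / 4) ^ l
        * nA c₁ p j i k m l)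
      ≤ E (xc c₁ p j i + 6 - (m : ℝ) / 4 - |(l : ℝ) - ((m + j : ℕ) : ℝ)| / 2
          - ((Real.logb 2 (dl c₁ p j) - 2 * m - 2 * l + 4 * ((p : ℝ) - i))
            + (3 * m + kp c₁ p j i)) / 4
          + min ((Real.logb 2 (dl c₁ p j) - 2 * m - 2 * l + 4 * ((p : ℝ) - i)) - k)
            ((3 * m + kp c₁ p j i) + k) / 2) + 2 * E (sl c₁ p j k l) := by
  obtain ⟨r1, r2, r3, r4⟩ := hr
  have hn : 0 < nA c₁ p j i k m l := by
    have h1 := dl_pos hc p j
    have h2 := qq_pos p i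
    have h3 : 0 < KK c₁ p j i k := KK_pos hc
    unfold nA
    refine lt_min (lt_min (by positivity) (by positivity)) (lt_min (by positivity) ?_)
    split_ifs <;> positivity
  set n := nA c₁ p j i k m l with hndef
  set d := Real.logb 2 (dl c₁ p j) with hd
  set N := Real.logb 2 (qq p i * n) with hN
  set lam := Real.logb 2 (La c₁ p) with hlam
  have hV : N ≤ d - 3 * k - 2 * m - 2 * l + 4 * ((p : ℝ) - i) :=
    V_log hc hn ((min_le_left _ _).trans (min_le_left _ _))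
  have hF : N ≤ d + 2 * l := F_log hc hn ((min_le_left _ _).trans (min_le_right _ _))
  have hS := S_log hc hn (p := p) (j := j) (i := i) (k := k) (m := m)
    ((min_le_right _ _).trans (min_le_left _ _))
  have hdd1 := d_le hc hc1 p j
  have hdd2 := neg_d_le hc p j
  have hlam0 : 2 ≤ lam := la_ge hc hc1 p
  have hmR : (m : ℝ) ≤ p - j + 3 := by
    have : m + j ≤ p + 3 := by omega
    have : (m : ℝ) + j ≤ p + 3 := by exact_mod_cast this
    linarith only [this]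
  have hlR : (l : ℝ) ≤ p - i + 1 := by
    have : l + i ≤ p + 1 := by omega
    have : (l : ℝ) + i ≤ p + 1 := by exact_mod_cast this
    linarith only [this]
  have hmlR : (m : ℝ) ≤ l := by exact_mod_cast (by omega : m ≤ l)
  have hiR : (i : ℝ) ≤ p := by exact_mod_cast r2
  have h12R : 12 * (j : ℝ) ≤ 5 * p := by exact_mod_cast h12
  have hj0 : (0 : ℝ) ≤ j := by positivity
  have hi0 : (0 : ℝ) ≤ i := by positivity
  have hk0 : (0 : ℝ) ≤ k := by positivity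
  have hm0 : (0 : ℝ) ≤ m := by positivity
  have hl0 : (0 : ℝ) ≤ l := by positivity
  have hGd : gd p j i ((1 / 2) ^ m) → N ≤ 3 * m - k + Real.logb 2 (KK c₁ p j i k) := by
    intro hg
    have h1 : n ≤ 8 ^ m * (1 / 2) ^ k * KK c₁ p j i k / qq p i := by
      rw [hndef]
      unfold nA
      rw [if_pos hg]
      exact (min_le_right _ _).trans (min_le_right _ _)
    rw [pow8] at h1
    exact G_log hc hn h1
  have hG : (12 * (i : ℝ) ≤ 5 * p ∧ (m : ℝ) ≤ 5 / 8 * (p - i) - 10 ∧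
      (m : ℝ) ≤ 5 / 8 * (p - j) - 10 ∧ N ≤ 3 * m - k + Real.logb 2 (KK c₁ p j i k) ∧
      ((Real.logb 2 (KK c₁ p j i k) ≤ lam + 2 ∧ (i : ℝ) ≤ j ∧ 2 * (i : ℝ) ≤ k) ∨
        (Real.logb 2 (KK c₁ p j i k) ≤ lam + 2 + 2 * i - 2 * j ∧ (j : ℝ) ≤ i ∧
          2 * (j : ℝ) ≤ k) ∨
        (Real.logb 2 (KK c₁ p j i k) ≤ lam + 2 + 2 * i - k ∧ (k : ℝ) ≤ 2 * i ∧
          (k : ℝ) ≤ 2 * j))) ∨
      5 * (p : ℝ) ≤ 12 * i ∨ 5 / 8 * ((p : ℝ) - i) - 10 ≤ m ∨ 5 / 8 * ((p : ℝ) - j) - 10 ≤ m := by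
    by_cases hg : gd p j i ((1 / 2) ^ m)
    · left
      obtain ⟨g1, g2, g3⟩ := of_gd hg
      exact ⟨g1, g2, g3, hGd hg, KK_log hc hc1⟩
    · right
      exact not_gd hg
  have hs1 : 0 < (1 / 2 : ℝ) ^ m / DD p j m l := by
    have := DD_pos p j m l
    positivity
  have hs1' : ∀ y : ℝ, 1 / DD p j m l ≤ E y → Real.logb 2 ((1 / 2 : ℝ) ^ m / DD p j m l)
      ≤ -m + y := by
    intro y hy
    apply logb_le_of_le_E hs1
    rw [E_add, div_eq_mul_one_div, powh2]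
    exact mul_le_mul_of_nonneg_left hy (E_nonneg _)
  have hsa := hs1' _ (invDD_le1 p j m l)
  have hsb := hs1' _ (invDD_le2 p j m l)
  have hsc := hs1' _ (invDD_le3 p j m l)
  have hs2 : ee p j * 4 ^ l ≤ E (-5 / 8 * ((p : ℝ) - j) + 2 * l) := by
    rw [E_add, ee_eq, pow4]
    apply le_of_eq
    unfold E
    congr 2; ring
  unfold sA
  refine cell_gen hc hs1 hs2 hn ?_ ?_
  · by_cases hcrit : -(k : ℝ) ≤ d ∧ gd p j i ((1 / 2) ^ m)
    · left
      obtain ⟨hc3, hc4⟩ := hcrit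
      have g4 := hGd hc4
      have g5 : Real.logb 2 (KK c₁ p j i k) ≤ kp c₁ p j i := KK_near hc hc3
      have hmin : k + N / 2 ≤ min ((d - 2 * m - 2 * l + 4 * ((p : ℝ) - i)) - k)
          ((3 * m + kp c₁ p j i) + k) / 2 := by
        have : 2 * k + N ≤ min ((d - 2 * m - 2 * l + 4 * ((p : ℝ) - i)) - k)
          ((3 * m + kp c₁ p j i) + k) := le_min (by linarith only [hV]) (by linarith only [g4, g5])
        linarith only [this]
      have hx : xc c₁ p j i = 3 / 4 * d + kp c₁ p j i / 4 + ((p : ℝ) - i) + j / 2 := rfl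
      rw [hx]
      push_cast
      rcases abs_cases ((l : ℝ) - (m + j)) with ⟨h3, _⟩ | ⟨h3, _⟩
      · rw [h3]; linarith only [hsa, hsb, hmin]
      · rw [h3]; linarith only [hsa, hmin]
    · right
      refine slackA1 p j i k m l N _ d lam (Real.logb 2 (KK c₁ p j i k)) hj0 hi0 hk0 hm0 hl0
        (by linarith only [hlam0]) h12R hiR hmR hlR hmlR hdd1 (by linarith only [hdd2]) hV hF hS hG ?_ ?_
      · by_contra hcon
        push Not at hcon
        refine hcrit ⟨hcon.1, ?_⟩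
        rw [gd_iff]
        exact ⟨hcon.2.1, by linarith only [hcon.2.2.1], by linarith only [hcon.2.2.2]⟩
      · exact ⟨by linarith only [hsa], by linarith only [hsb], by linarith only [hsc]⟩
  · exact slackA2 p j i k m l N _ d lam (Real.logb 2 (KK c₁ p j i k)) hj0 hi0 hk0 hm0 hl0
        (by linarith only [hlam0]) h12R hiR hmR hlR hmlR hdd1 (by linarith only [hdd2]) hV hF hS hG le_rfl

lemma cellN (hc : 0 < c₁) (hc1 : c₁ ≤ 1) (h12 : 12 * j ≤ 5 * p) (hr : rN p j i m l) :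
    2 ^ k * sN p j m l * (qq p i)⁻¹ * √(dl c₁ p j) * √(qq p i ^ 3 * (1 / 4) ^ l
        * nN c₁ p j i k m l)
      ≤ E (xc c₁ p j i + 6 - (l : ℝ) / 4 - |(m : ℝ) - (l : ℝ)| / 2
          - ((Real.logb 2 (dl c₁ p j) - 2 * m - 2 * l + 4 * ((p : ℝ) - i))
            + (2 * m + l + kp c₁ p j i)) / 4
          + min ((Real.logb 2 (dl c₁ p j) - 2 * m - 2 * l + 4 * ((p : ℝ) - i)) - k)
            ((2 * m + l + kp c₁ p j i) + k) / 2) + 2 * E (sl c₁ p j k l) := by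
  obtain ⟨r1, r2, r3, r4⟩ := hr
  have hn : 0 < nN c₁ p j i k m l := by
    have h1 := dl_pos hc p j
    have h2 := qq_pos p i
    have h3 : 0 < KK c₁ p j i k := KK_pos hc
    unfold nN
    refine lt_min (lt_min (by positivity) (by positivity)) (lt_min (by positivity) ?_)
    split_ifs <;> positivity
  set n := nN c₁ p j i k m l with hndef
  set d := Real.logb 2 (dl c₁ p j) with hd
  set N := Real.logb 2 (qq p i * n) with hN
  set lam := Real.logb 2 (La c₁ p) with hlam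
  have hV : N ≤ d - 3 * k - 2 * m - 2 * l + 4 * ((p : ℝ) - i) :=
    V_log hc hn ((min_le_left _ _).trans (min_le_left _ _))
  have hF : N ≤ d + 2 * l := F_log hc hn ((min_le_left _ _).trans (min_le_right _ _))
  have hS := S_log hc hn (p := p) (j := j) (i := i) (k := k) (m := m)
    ((min_le_right _ _).trans (min_le_left _ _))
  have hdd1 := d_le hc hc1 p j
  have hdd2 := neg_d_le hc p j
  have hlam0 : 2 ≤ lam := la_ge hc hc1 p
  have hmR : (m : ℝ) ≤ p - j + 3 := by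
    have : m + j ≤ p + 3 := by omega
    have : (m : ℝ) + j ≤ p + 3 := by exact_mod_cast this
    linarith only [this]
  have hlR : (l : ℝ) ≤ p - i + 1 := by
    have : l + i ≤ p + 1 := by omega
    have : (l : ℝ) + i ≤ p + 1 := by exact_mod_cast this
    linarith only [this]
  have hmlR : (l : ℝ) ≤ m := by exact_mod_cast (by omega : l ≤ m)
  have hiR : (i : ℝ) ≤ p := by exact_mod_cast r2
  have h12R : 12 * (j : ℝ) ≤ 5 * p := by exact_mod_cast h12
  have hj0 : (0 : ℝ) ≤ j := by positivity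
  have hi0 : (0 : ℝ) ≤ i := by positivity
  have hk0 : (0 : ℝ) ≤ k := by positivity
  have hm0 : (0 : ℝ) ≤ m := by positivity
  have hl0 : (0 : ℝ) ≤ l := by positivity
  have hGd : gd p j i ((1 / 2) ^ l) → N ≤ 2 * m + l - k + Real.logb 2 (KK c₁ p j i k) := by
    intro hg
    have h1 : n ≤ 4 ^ m * 2 ^ l * (1 / 2) ^ k * KK c₁ p j i k / qq p i := by
      rw [hndef]
      unfold nN
      rw [if_pos hg]
      exact (min_le_right _ _).trans (min_le_right _ _)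
    rw [pow4, pow2] at h1
    refine G_log hc hn (x := 2 * m + l) ?_
    rw [E_add]
    exact h1
  have hG : (12 * (i : ℝ) ≤ 5 * p ∧ (l : ℝ) ≤ 5 / 8 * (p - i) - 10 ∧
      (l : ℝ) ≤ 5 / 8 * (p - j) - 10 ∧ N ≤ 2 * m + l - k + Real.logb 2 (KK c₁ p j i k) ∧
      ((Real.logb 2 (KK c₁ p j i k) ≤ lam + 2 ∧ (i : ℝ) ≤ j ∧ 2 * (i : ℝ) ≤ k) ∨
        (Real.logb 2 (KK c₁ p j i k) ≤ lam + 2 + 2 * i - 2 * j ∧ (j : ℝ) ≤ i ∧
          2 * (j : ℝ) ≤ k) ∨
        (Real.logb 2 (KK c₁ p j i k) ≤ lam + 2 + 2 * i - k ∧ (k : ℝ) ≤ 2 * i ∧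
          (k : ℝ) ≤ 2 * j))) ∨
      5 * (p : ℝ) ≤ 12 * i ∨ 5 / 8 * ((p : ℝ) - i) - 10 ≤ l ∨ 5 / 8 * ((p : ℝ) - j) - 10 ≤ l := by
    by_cases hg : gd p j i ((1 / 2) ^ l)
    · left
      obtain ⟨g1, g2, g3⟩ := of_gd hg
      exact ⟨g1, g2, g3, hGd hg, KK_log hc hc1⟩
    · right
      exact not_gd hg
  have hs1 : 0 < (1 / 2 : ℝ) ^ m * 4 ^ l := by positivity
  have hsa : Real.logb 2 ((1 / 2 : ℝ) ^ m * 4 ^ l) ≤ -m + 2 * l := by
    apply logb_le_of_le_E hs1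
    rw [E_add, powh2, pow4]
    exact le_rfl
  have hs2' : ee p j * 4 ^ l ≤ E (-5 / 8 * ((p : ℝ) - j) + 2 * l) := by
    rw [E_add, ee_eq, pow4]
    apply le_of_eq
    unfold E
    congr 2; ring
  have hs2 : ee p j * 4 ^ l * min 1 ((1 / 4) ^ j * ((1 / 4) ^ m + ee p j ^ 2) * 4 ^ l)
      ≤ E (-5 / 8 * ((p : ℝ) - j) + 2 * l) := by
    refine le_trans ?_ hs2'
    have := ee_pos p j
    exact mul_le_of_le_one_right (by positivity) (min_le_left _ _)
  unfold sN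
  refine cell_gen hc hs1 hs2 hn ?_ ?_
  · by_cases hcrit : -(k : ℝ) ≤ d ∧ gd p j i ((1 / 2) ^ l)
    · left
      obtain ⟨hc3, hc4⟩ := hcrit
      have g4 := hGd hc4
      have g5 : Real.logb 2 (KK c₁ p j i k) ≤ kp c₁ p j i := KK_near hc hc3
      have hmin : k + N / 2 ≤ min ((d - 2 * m - 2 * l + 4 * ((p : ℝ) - i)) - k)
          ((2 * m + l + kp c₁ p j i) + k) / 2 := by
        have : 2 * k + N ≤ min ((d - 2 * m - 2 * l + 4 * ((p : ℝ) - i)) - k)
          ((2 * m + l + kp c₁ p j i) + k) := le_min (by linarith only [hV]) (by linarith only [g4, g5])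
        linarith only [this]
      have hx : xc c₁ p j i = 3 / 4 * d + kp c₁ p j i / 4 + ((p : ℝ) - i) + j / 2 := rfl
      rw [hx]
      rcases abs_cases ((m : ℝ) - l) with ⟨h3, _⟩ | ⟨h3, _⟩
      · rw [h3]; linarith only [hmlR, hj0, hsa, hmin]
      · rw [h3]; linarith
    · right
      refine slackN1 p j i k m l N _ d lam (Real.logb 2 (KK c₁ p j i k)) hj0 hi0 hk0 hm0 hl0
        (by linarith only [hlam0]) h12R hiR hmR hlR hmlR hdd1 (by linarith only [hdd2]) hV hF hS hG ?_ ?_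
      · by_contra hcon
        push Not at hcon
        refine hcrit ⟨hcon.1, ?_⟩
        rw [gd_iff]
        exact ⟨hcon.2.1, by linarith only [hcon.2.2.1], by linarith only [hcon.2.2.2]⟩
      · exact hsa
  · exact slackN2 p j i k m l N _ d lam (Real.logb 2 (KK c₁ p j i k)) hj0 hi0 hk0 hm0 hl0
        (by linarith only [hlam0]) h12R hiR hmR hlR hmlR hdd1 (by linarith only [hdd2]) hV hF hS hG le_rfl

lemma cellD (hc : 0 < c₁) (hc1 : c₁ ≤ 1) (h12 : 12 * j ≤ 5 * p) (hr : rD p j i m l) :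
    2 ^ k * sD p j m * (qq p i)⁻¹ * √(dl c₁ p j) * √(qq p i ^ 3 * (1 / 4) ^ l
        * nD c₁ p j i k m l)
      ≤ E (xc c₁ p j i + 6 - (m : ℝ) / 4 - |(l : ℝ) - (m : ℝ)| / 2
          - ((Real.logb 2 (dl c₁ p j) - 2 * m - 2 * l + 4 * ((p : ℝ) - i))
            + (m + 2 * l + kp c₁ p j i)) / 4
          + min ((Real.logb 2 (dl c₁ p j) - 2 * m - 2 * l + 4 * ((p : ℝ) - i)) - k)
            ((m + 2 * l + kp c₁ p j i) + k) / 2) + 2 * E (sl c₁ p j k l) := by
  obtain ⟨r1, r2, r3, r4⟩ := hr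
  have hn : 0 < nD c₁ p j i k m l := by
    have h1 := dl_pos hc p j
    have h2 := qq_pos p i
    have h3 : 0 < KK c₁ p j i k := KK_pos hc
    unfold nD
    refine lt_min (lt_min (by positivity) (by positivity)) (lt_min (by positivity) ?_)
    split_ifs <;> positivity
  set n := nD c₁ p j i k m l with hndef
  set d := Real.logb 2 (dl c₁ p j) with hd
  set N := Real.logb 2 (qq p i * n) with hN
  set lam := Real.logb 2 (La c₁ p) with hlam
  have hV : N ≤ d - 3 * k - 2 * m - 2 * l + 4 * ((p : ℝ) - i) :=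
    V_log hc hn ((min_le_left _ _).trans (min_le_left _ _))
  have hF : N ≤ d + 2 * m := F_log hc hn ((min_le_left _ _).trans (min_le_right _ _))
  have hS := S_log hc hn (p := p) (j := j) (i := i) (k := k) (m := m)
    ((min_le_right _ _).trans (min_le_left _ _))
  have hdd1 := d_le hc hc1 p j
  have hdd2 := neg_d_le hc p j
  have hlam0 : 2 ≤ lam := la_ge hc hc1 p
  have hmR : (m : ℝ) ≤ p - j + 3 := by
    have : m + j ≤ p + 3 := by omega
    have : (m : ℝ) + j ≤ p + 3 := by exact_mod_cast this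
    linarith only [this]
  have hlR : (m : ℝ) ≤ p - i + 4 := by
    have : m + i ≤ p + 4 := by omega
    have : (m : ℝ) + i ≤ p + 4 := by exact_mod_cast this
    linarith only [this]
  have hmlR : (m : ℝ) ≤ l + 4 := by exact_mod_cast r1
  have hiR : (i : ℝ) ≤ p := by exact_mod_cast r2
  have h12R : 12 * (j : ℝ) ≤ 5 * p := by exact_mod_cast h12
  have hj0 : (0 : ℝ) ≤ j := by (clear * -; positivity)
  have hi0 : (0 : ℝ) ≤ i := by positivity
  have hk0 : (0 : ℝ) ≤ k := by positivity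
  have hm0 : (0 : ℝ) ≤ m := by positivity
  have hl0 : (0 : ℝ) ≤ l := by positivity
  have hGd : gd p j i ((1 / 2) ^ l) → N ≤ m + 2 * l - k + Real.logb 2 (KK c₁ p j i k) := by
    intro hg
    have h1 : n ≤ 2 ^ m * 4 ^ l * (1 / 2) ^ k * KK c₁ p j i k / qq p i := by
      rw [hndef]
      unfold nD
      rw [if_pos hg]
      exact (min_le_right _ _).trans (min_le_right _ _)
    rw [pow4, pow2] at h1
    refine G_log hc hn (x := m + 2 * l) ?_
    rw [E_add]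
    exact h1
  have hG : (12 * (i : ℝ) ≤ 5 * p ∧ (l : ℝ) ≤ 5 / 8 * (p - i) - 10 ∧
      (l : ℝ) ≤ 5 / 8 * (p - j) - 10 ∧ N ≤ m + 2 * l - k + Real.logb 2 (KK c₁ p j i k) ∧
      ((Real.logb 2 (KK c₁ p j i k) ≤ lam + 2 ∧ (i : ℝ) ≤ j ∧ 2 * (i : ℝ) ≤ k) ∨
        (Real.logb 2 (KK c₁ p j i k) ≤ lam + 2 + 2 * i - 2 * j ∧ (j : ℝ) ≤ i ∧
          2 * (j : ℝ) ≤ k) ∨
        (Real.logb 2 (KK c₁ p j i k) ≤ lam + 2 + 2 * i - k ∧ (k : ℝ) ≤ 2 * i ∧
          (k : ℝ) ≤ 2 * j))) ∨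
      5 * (p : ℝ) ≤ 12 * i ∨ 5 / 8 * ((p : ℝ) - i) - 10 ≤ l ∨ 5 / 8 * ((p : ℝ) - j) - 10 ≤ l := by
    by_cases hg : gd p j i ((1 / 2) ^ l)
    · left
      obtain ⟨g1, g2, g3⟩ := of_gd hg
      exact ⟨g1, g2, g3, hGd hg, KK_log hc hc1⟩
    · right
      exact not_gd hg
  have hs1 : 0 < (2 : ℝ) ^ m := by positivity
  have hsa : Real.logb 2 ((2 : ℝ) ^ m) ≤ m := by
    apply logb_le_of_le_E hs1
    rw [pow2]
    exact le_rfl
  have hs2 : ee p j * 4 ^ m ≤ E (-5 / 8 * ((p : ℝ) - j) + 2 * m) := by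
    rw [E_add, ee_eq, pow4]
    apply le_of_eq
    unfold E
    congr 2; ring
  unfold sD
  refine cell_gen hc hs1 hs2 hn ?_ ?_
  · by_cases hcrit : -(k : ℝ) ≤ d ∧ gd p j i ((1 / 2) ^ l)
    · left
      obtain ⟨hc3, hc4⟩ := hcrit
      have g4 := hGd hc4
      have g5 : Real.logb 2 (KK c₁ p j i k) ≤ kp c₁ p j i := KK_near hc hc3
      have hmin : k + N / 2 ≤ min ((d - 2 * m - 2 * l + 4 * ((p : ℝ) - i)) - k)
          ((m + 2 * l + kp c₁ p j i) + k) / 2 := by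
        have : 2 * k + N ≤ min ((d - 2 * m - 2 * l + 4 * ((p : ℝ) - i)) - k)
          ((m + 2 * l + kp c₁ p j i) + k) := le_min (by linarith only [hV]) (by linarith only [g4, g5])
        linarith only [this]
      have hx : xc c₁ p j i = 3 / 4 * d + kp c₁ p j i / 4 + ((p : ℝ) - i) + j / 2 := rfl
      rw [hx]
      rcases abs_cases ((l : ℝ) - m) with ⟨h3, _⟩ | ⟨h3, _⟩
      · rw [h3]; linarith only [hmlR, hj0, hsa, hmin]
      · rw [h3]; linarith only [hmlR, hj0, hsa, hmin]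
    · right
      refine slackD1 p j i k m l N _ d lam (Real.logb 2 (KK c₁ p j i k)) hj0 hi0 hk0 hm0 hl0
        (by linarith only [hlam0]) h12R hiR hmR hlR hmlR hdd1 (by linarith only [hdd2]) hV hF hS hG ?_ ?_
      · by_contra hcon
        push Not at hcon
        refine hcrit ⟨hcon.1, ?_⟩
        rw [gd_iff]
        exact ⟨hcon.2.1, by linarith only [hcon.2.2.1], by linarith only [hcon.2.2.2]⟩
      · exact hsa
  · exact slackD2 p j i k m l N _ d lam (Real.logb 2 (KK c₁ p j i k)) hj0 hi0 hk0 hm0 hl0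
        (by linarith only [hlam0]) h12R hiR hmR hlR hmlR hdd1 (by linarith only [hdd2]) hV hF hS hG le_rfl

end

lemma assemble (f crit slack : ℕ → ℕ → ℕ → ℕ → ℝ≥0∞) (X Y : ℝ≥0∞)
    (h : ∀ k m l i, f k m l i ≤ crit k m l i + slack k m l i)
    (hcrit : ∑' (i : ℕ) (m : ℕ) (l : ℕ) (k : ℕ), crit k m l i ≤ X)
    (hs : ∑' (k : ℕ) (m : ℕ) (l : ℕ) (i : ℕ), slack k m l i ≤ Y) :
    ∑' (k : ℕ) (m : ℕ) (l : ℕ) (i : ℕ), f k m l i ≤ X + Y := by
  calc ∑' (k : ℕ) (m : ℕ) (l : ℕ) (i : ℕ), f k m l i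
      ≤ ∑' (k : ℕ) (m : ℕ) (l : ℕ) (i : ℕ), (crit k m l i + slack k m l i) :=
        ENNReal.tsum_le_tsum fun k => ENNReal.tsum_le_tsum fun m =>
          ENNReal.tsum_le_tsum fun l => ENNReal.tsum_le_tsum fun i => h k m l i
    _ = ∑' (k : ℕ) (m : ℕ) (l : ℕ) (i : ℕ), crit k m l i
        + ∑' (k : ℕ) (m : ℕ) (l : ℕ) (i : ℕ), slack k m l i := by
        simp_rw [ENNReal.tsum_add]
    _ ≤ X + Y := by
        rw [reorder crit]
        exact add_le_add hcrit hs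

end Vale.Agent.P107.Ar.Sg

namespace Vale.Agent.P107.Ar

open Sg Tl

open Classical in
theorem statSg : StatSg := by
  refine ⟨400001, by norm_num, fun c₁ hc hc1 => ?_⟩
  obtain ⟨p₀, hp₀⟩ := slack_total hc
  refine ⟨p₀, fun p hp j h12 => ?_⟩
  have hX0 : 0 ≤ √c₁ * qq p j := mul_nonneg (Real.sqrt_nonneg _) (qq_pos p j).le
  have hfin : ENNReal.ofReal (400000 * √c₁ * qq p j) + ENNReal.ofReal (√c₁ * qq p j)
      = ENNReal.ofReal (400001 * √c₁ * qq p j) := by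
    rw [← ENNReal.ofReal_add (by rw [mul_assoc]; positivity) hX0]
    congr 1; ring
  have hslack := hp₀ p hp j (fun k m l i => if m < p + 4 ∧ i < p + 1 then
    ENNReal.ofReal (2 * E (sl c₁ p j k l)) else 0)
    (fun k m l i hm hi => by rw [if_pos ⟨hm, hi⟩]; exact le_rfl)
    (fun k m l i hmi => by rw [if_neg hmi])
  refine ⟨?_, ?_, ?_⟩
  · rw [← hfin]
    refine assemble _ (fun k m l i => ENNReal.ofReal
      (E (xc c₁ p j i + 6 - (m : ℝ) / 4 - |(l : ℝ) - ((m + j : ℕ) : ℝ)| / 2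
          - ((Real.logb 2 (dl c₁ p j) - 2 * m - 2 * l + 4 * ((p : ℝ) - i))
            + (3 * m + kp c₁ p j i)) / 4
          + min ((Real.logb 2 (dl c₁ p j) - 2 * m - 2 * l + 4 * ((p : ℝ) - i)) - k)
            ((3 * m + kp c₁ p j i) + k) / 2))) _ _ _ ?_ ?_ hslack
    · intro k m l i
      by_cases hr : rA p j i m l
      · rw [if_pos hr, if_pos ⟨by have := hr.2.2.1; omega, by have := hr.2.1; omega⟩,
          ← ENNReal.ofReal_add (E_nonneg _) (mul_nonneg two_pos.le (E_nonneg _))]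
        exact ENNReal.ofReal_le_ofReal (Sg.cellA hc hc1 h12 hr)
      · rw [if_neg hr]
        exact zero_le
    · exact crit_total hc hc1 p j _ (fun m => m + j)
        (fun i m l => Real.logb 2 (dl c₁ p j) - 2 * m - 2 * l + 4 * ((p : ℝ) - i))
        (fun i m l => 3 * m + kp c₁ p j i) (fun i m l k => le_rfl)
  · rw [← hfin]
    refine assemble _ (fun k m l i => ENNReal.ofReal
      (E (xc c₁ p j i + 6 - (l : ℝ) / 4 - |(m : ℝ) - (l : ℝ)| / 2
          - ((Real.logb 2 (dl c₁ p j) - 2 * m - 2 * l + 4 * ((p : ℝ) - i))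
            + (2 * m + l + kp c₁ p j i)) / 4
          + min ((Real.logb 2 (dl c₁ p j) - 2 * m - 2 * l + 4 * ((p : ℝ) - i)) - k)
            ((2 * m + l + kp c₁ p j i) + k) / 2))) _ _ _ ?_ ?_ hslack
    · intro k m l i
      by_cases hr : rN p j i m l
      · rw [if_pos hr, if_pos ⟨by have := hr.2.2.1; omega, by have := hr.2.1; omega⟩,
          ← ENNReal.ofReal_add (E_nonneg _) (mul_nonneg two_pos.le (E_nonneg _))]
        exact ENNReal.ofReal_le_ofReal (cellN hc hc1 h12 hr)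
      · rw [if_neg hr]
        exact zero_le
    · refine le_trans (le_of_eq (tsum_congr fun i => ENNReal.tsum_comm)) ?_
      exact crit_total hc hc1 p j _ (fun m => m)
        (fun i l m => Real.logb 2 (dl c₁ p j) - 2 * m - 2 * l + 4 * ((p : ℝ) - i))
        (fun i l m => 2 * m + l + kp c₁ p j i) (fun i l m k => le_rfl)
  · rw [← hfin]
    refine assemble _ (fun k m l i => ENNReal.ofReal
      (E (xc c₁ p j i + 6 - (m : ℝ) / 4 - |(l : ℝ) - (m : ℝ)| / 2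
          - ((Real.logb 2 (dl c₁ p j) - 2 * m - 2 * l + 4 * ((p : ℝ) - i))
            + (m + 2 * l + kp c₁ p j i)) / 4
          + min ((Real.logb 2 (dl c₁ p j) - 2 * m - 2 * l + 4 * ((p : ℝ) - i)) - k)
            ((m + 2 * l + kp c₁ p j i) + k) / 2))) _ _ _ ?_ ?_ hslack
    · intro k m l i
      by_cases hr : rD p j i m l
      · rw [if_pos hr, if_pos ⟨by have := hr.2.2.1; omega, by have := hr.2.1; omega⟩,
          ← ENNReal.ofReal_add (E_nonneg _) (mul_nonneg two_pos.le (E_nonneg _))]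
        exact ENNReal.ofReal_le_ofReal (Sg.cellD hc hc1 h12 hr)
      · rw [if_neg hr]
        exact zero_le
    · exact crit_total hc hc1 p j _ (fun m => m)
        (fun i m l => Real.logb 2 (dl c₁ p j) - 2 * m - 2 * l + 4 * ((p : ℝ) - i))
        (fun i m l => m + 2 * l + kp c₁ p j i) (fun i m l k => le_rfl)

end Vale.Agent.P107.Ar
end
end
end

section

section

attribute [-instance] ProperSMul.toContinuousSMul IsTopologicalTorsor.toContinuousSMul
  IdemSemiring.toCanonicallyOrderedAdd IdemSemiring.toMulLeftMono IdemSemiring.toMulRightMono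
  AddQuantale.instAddLeftMono AddQuantale.instAddRightMono Quantale.instMulLeftMono
  Quantale.instMulRightMono FiniteDimensional.rclike_to_real IsScalarTower.complexToReal
  FiniteDimensional.complexToReal

section

/-! Linear arithmetic behind the slack cells of the S-sums with the magnetic budget. -/

namespace Vale.Agent.P107.Ar

theorem farA1 (p j i k m l N S d lam kap : ℝ) (_hj : 0 ≤ j) (_hi0 : 0 ≤ i)
    (_hk : 0 ≤ k) (_hm0 : 0 ≤ m) (_hl0 : 0 ≤ l) (_hlam : 0 ≤ lam) (_h12 : 12 * j ≤ 5 * p)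
    (_hip : i ≤ p) (_hm : m ≤ p - j + 3) (_hl : l ≤ p - i + 1) (_hml : m ≤ l)
    (_hd1 : d ≤ -2 * j) (_hd2 : -2 * j - lam ≤ d)
    (_hV : N ≤ d - 3 * k - 2 * m - 2 * l + 4 * (p - i)) (_hF : N ≤ d + 2 * l)
    (hS : d ≤ -k ∧ N ≤ -k + 1 + 2 * m)
    (hG : (12 * i ≤ 5 * p ∧ m ≤ 5 / 8 * (p - i) - 10 ∧ m ≤ 5 / 8 * (p - j) - 10 ∧
      N ≤ 3 * m - k + kap ∧ ((kap ≤ lam + 2 ∧ i ≤ j ∧ 2 * i ≤ k) ∨
        (kap ≤ lam + 2 + 2 * i - 2 * j ∧ j ≤ i ∧ 2 * j ≤ k) ∨
        (kap ≤ lam + 2 + 2 * i - k ∧ k ≤ 2 * i ∧ k ≤ 2 * j))) ∨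
      5 * p ≤ 12 * i ∨ 5 / 8 * (p - i) - 10 ≤ m ∨ 5 / 8 * (p - j) - 10 ≤ m)
    (_hs : (S ≤ -m + 2 * l ∧ S ≤ m + 2 * j ∧ S ≤ -m + 2 * j + 5 / 4 * (p - j)) ∨
      S ≤ -5 / 8 * (p - j) + 2 * l) :
    k + S - l + d / 2 + N / 2 + ((1 - k) / 2 - d / 2 + (m - l))
      ≤ p - j - p / 200 - k / 100 - l / 100 + 10 * lam + 100 := by
  obtain ⟨h1, h2⟩ := hS
  rcases _hs with ⟨s1, s2, s3⟩ | s1 <;> rcases hG with ⟨g1, g2, g3, g4, g5⟩ | g | g | g
  · rcases g5 with ⟨g5, g6, g7⟩ | ⟨g5, g6, g7⟩ | ⟨g5, g6, g7⟩ <;> linarith only [_hi0, _hk, _hm0, _hlam, _h12, _hd1, _hV, _hF, h2, s1]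
  · linarith only [_hi0, _hk, _hm0, _hlam, _h12, _hd1, _hV, _hF, h2, s1]
  · linarith only [_hi0, _hk, _hm0, _hlam, _h12, _hd1, _hV, _hF, h2, s1]
  · linarith only [_hi0, _hk, _hm0, _hlam, _h12, _hd1, _hV, _hF, h2, s1]
  · rcases g5 with ⟨g5, g6, g7⟩ | ⟨g5, g6, g7⟩ | ⟨g5, g6, g7⟩ <;> linarith only [_hi0, _hk, _hm0, _hlam, _h12, _hd1, _hV, _hF, s1, g3]
  · linarith only [_hi0, _hk, _hl0, _hlam, _h12, _hm, _hd1, _hV, _hF, s1]
  · linarith only [_hi0, _hk, _hl0, _hlam, _h12, _hm, _hd1, _hV, _hF, s1]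
  · linarith only [_hi0, _hk, _hl0, _hlam, _h12, _hm, _hd1, _hV, _hF, s1]

theorem farN1 (p j i k m l N S d lam kap : ℝ) (_hj : 0 ≤ j) (_hi0 : 0 ≤ i)
    (_hk : 0 ≤ k) (_hm0 : 0 ≤ m) (_hl0 : 0 ≤ l) (_hlam : 0 ≤ lam) (_h12 : 12 * j ≤ 5 * p)
    (_hip : i ≤ p) (_hm : m ≤ p - j + 3) (_hl : l ≤ p - i + 1) (_hml : l ≤ m)
    (_hd1 : d ≤ -2 * j) (_hd2 : -2 * j - lam ≤ d)
    (_hV : N ≤ d - 3 * k - 2 * m - 2 * l + 4 * (p - i)) (_hF : N ≤ d + 2 * l)
    (hS : d ≤ -k ∧ N ≤ -k + 1 + 2 * m)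
    (hG : (12 * i ≤ 5 * p ∧ l ≤ 5 / 8 * (p - i) - 10 ∧ l ≤ 5 / 8 * (p - j) - 10 ∧
      N ≤ 2 * m + l - k + kap ∧ ((kap ≤ lam + 2 ∧ i ≤ j ∧ 2 * i ≤ k) ∨
        (kap ≤ lam + 2 + 2 * i - 2 * j ∧ j ≤ i ∧ 2 * j ≤ k) ∨
        (kap ≤ lam + 2 + 2 * i - k ∧ k ≤ 2 * i ∧ k ≤ 2 * j))) ∨
      5 * p ≤ 12 * i ∨ 5 / 8 * (p - i) - 10 ≤ l ∨ 5 / 8 * (p - j) - 10 ≤ l)
    (_hs : S ≤ -m + 2 * l) :
    k + S - l + d / 2 + N / 2 + ((1 - k) / 2 - d / 2 + (m - l))
      ≤ p - j - p / 200 - k / 100 - l / 100 + 10 * lam + 100 := by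
  obtain ⟨h1, h2⟩ := hS
  rcases hG with ⟨g1, g2, g3, g4, g5⟩ | g | g | g
  · rcases g5 with ⟨g5, g6, g7⟩ | ⟨g5, g6, g7⟩ | ⟨g5, g6, g7⟩ <;> linarith only [_hi0, _hm0, _hl0, _hlam, _hd1, _hV, _hF, _hs, h1, g3]
  · linarith only [_hi0, _hk, _hm0, _hlam, _hml, _hd1, _hV, _hF, _hs]
  · linarith only [_hi0, _hk, _hm0, _hlam, _hml, _hd1, _hV, _hF, _hs]
  · linarith only [_hi0, _hk, _hm0, _hlam, _hml, _hd1, _hV, _hF, _hs]

theorem farN2 (p j i k m l N S d lam kap : ℝ) (_hj : 0 ≤ j) (_hi0 : 0 ≤ i)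
    (_hk : 0 ≤ k) (_hm0 : 0 ≤ m) (_hl0 : 0 ≤ l) (_hlam : 0 ≤ lam) (_h12 : 12 * j ≤ 5 * p)
    (_hip : i ≤ p) (_hm : m ≤ p - j + 3) (_hl : l ≤ p - i + 1) (_hml : l ≤ m)
    (_hd1 : d ≤ -2 * j) (_hd2 : -2 * j - lam ≤ d)
    (_hV : N ≤ d - 3 * k - 2 * m - 2 * l + 4 * (p - i)) (_hF : N ≤ d + 2 * l)
    (hS : d ≤ -k ∧ N ≤ -k + 1 + 2 * m)
    (hG : (12 * i ≤ 5 * p ∧ l ≤ 5 / 8 * (p - i) - 10 ∧ l ≤ 5 / 8 * (p - j) - 10 ∧
      N ≤ 2 * m + l - k + kap ∧ ((kap ≤ lam + 2 ∧ i ≤ j ∧ 2 * i ≤ k) ∨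
        (kap ≤ lam + 2 + 2 * i - 2 * j ∧ j ≤ i ∧ 2 * j ≤ k) ∨
        (kap ≤ lam + 2 + 2 * i - k ∧ k ≤ 2 * i ∧ k ≤ 2 * j))) ∨
      5 * p ≤ 12 * i ∨ 5 / 8 * (p - i) - 10 ≤ l ∨ 5 / 8 * (p - j) - 10 ≤ l)
    (_hs : S ≤ -5 / 8 * (p - j) + 2 * l)
    (_hs2 : S ≤ -5 / 8 * (p - j) + 4 * l - 2 * j - 2 * m + 1 ∨
      S ≤ -5 / 8 * (p - j) + 4 * l - 2 * j - 5 / 4 * (p - j) + 1) :
    k + S - l + d / 2 + N / 2 + ((1 - k) / 2 - d / 2 + (m - l))
      ≤ p - j - p / 200 - k / 100 - l / 100 + 10 * lam + 100 := by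
  obtain ⟨h1, h2⟩ := hS
  rcases _hs2 with s2 | s2 <;> rcases hG with ⟨g1, g2, g3, g4, g5⟩ | g | g | g
  · rcases g5 with ⟨g5, g6, g7⟩ | ⟨g5, g6, g7⟩ | ⟨g5, g6, g7⟩ <;> linarith only [_hk, _hm0, _hlam, _hml, _hd2, _hF, h1, s2, g3]
  · linarith only [_hi0, _hk, _hl0, _hlam, _h12, _hm, _hd1, _hV, _hF, _hs]
  · linarith only [_hi0, _hk, _hl0, _hlam, _h12, _hm, _hd1, _hV, _hF, _hs]
  · linarith only [_hi0, _hk, _hl0, _hlam, _h12, _hm, _hd1, _hV, _hF, _hs]
  · rcases g5 with ⟨g5, g6, g7⟩ | ⟨g5, g6, g7⟩ | ⟨g5, g6, g7⟩ <;> linarith only [_hj, _hi0, _hlam, _hm, _hd1, _hV, _hF, h1, s2, g3]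
  · linarith only [_hi0, _hk, _hl0, _hlam, _h12, _hm, _hd1, _hV, _hF, _hs]
  · linarith only [_hi0, _hk, _hl0, _hlam, _h12, _hm, _hd1, _hV, _hF, _hs]
  · linarith only [_hi0, _hk, _hl0, _hlam, _h12, _hm, _hd1, _hV, _hF, _hs]

theorem farD1 (p j i k m l N S d lam kap : ℝ) (_hj : 0 ≤ j) (_hi0 : 0 ≤ i)
    (_hk : 0 ≤ k) (_hm0 : 0 ≤ m) (_hl0 : 0 ≤ l) (_hlam : 0 ≤ lam) (_h12 : 12 * j ≤ 5 * p)
    (_hip : i ≤ p) (_hm : m ≤ p - j + 3) (_hl : m ≤ p - i + 4) (_hml : m ≤ l + 4)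
    (_hd1 : d ≤ -2 * j) (_hd2 : -2 * j - lam ≤ d)
    (_hV : N ≤ d - 3 * k - 2 * m - 2 * l + 4 * (p - i)) (_hF : N ≤ d + 2 * m)
    (hS : d ≤ -k ∧ N ≤ -k + 1 + 2 * m)
    (hG : (12 * i ≤ 5 * p ∧ l ≤ 5 / 8 * (p - i) - 10 ∧ l ≤ 5 / 8 * (p - j) - 10 ∧
      N ≤ m + 2 * l - k + kap ∧ ((kap ≤ lam + 2 ∧ i ≤ j ∧ 2 * i ≤ k) ∨
        (kap ≤ lam + 2 + 2 * i - 2 * j ∧ j ≤ i ∧ 2 * j ≤ k) ∨
        (kap ≤ lam + 2 + 2 * i - k ∧ k ≤ 2 * i ∧ k ≤ 2 * j))) ∨
      5 * p ≤ 12 * i ∨ 5 / 8 * (p - i) - 10 ≤ l ∨ 5 / 8 * (p - j) - 10 ≤ l)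
    (_hs : S ≤ m ∨ S ≤ -5 / 8 * (p - j) + 2 * m) :
    k + S - l + d / 2 + N / 2 + ((1 - k) / 2 - d / 2)
      ≤ p - j - p / 200 - k / 100 - l / 100 + 10 * lam + 100 := by
  obtain ⟨h1, h2⟩ := hS
  rcases _hs with s1 | s1 <;> rcases hG with ⟨g1, g2, g3, g4, g5⟩ | g | g | g
  · rcases g5 with ⟨g5, g6, g7⟩ | ⟨g5, g6, g7⟩ | ⟨g5, g6, g7⟩ <;> linarith only [_hj, _hi0, _hm0, _hlam, _hm, _hml, _hd1, _hV, _hF, s1]
  · linarith only [_hj, _hi0, _hl0, _hlam, _hm, _hml, _hd1, _hV, _hF, s1]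
  · linarith only [_hj, _hi0, _hl0, _hlam, _hm, _hml, _hd1, _hV, _hF, s1]
  · linarith only [_hj, _hi0, _hl0, _hlam, _hm, _hml, _hd1, _hV, _hF, s1]
  · rcases g5 with ⟨g5, g6, g7⟩ | ⟨g5, g6, g7⟩ | ⟨g5, g6, g7⟩ <;> linarith only [_hj, _hi0, _hk, _hlam, _h12, _hml, _hd1, _hV, _hF, s1]
  · linarith only [_hj, _hi0, _hk, _hlam, _hm, _hml, _hd1, _hV, _hF, s1]
  · linarith only [_hj, _hi0, _hk, _hlam, _hm, _hml, _hd1, _hV, _hF, s1]
  · linarith only [_hj, _hi0, _hk, _hlam, _hm, _hml, _hd1, _hV, _hF, s1]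

theorem nearN1 (p j i k m l N S d lam : ℝ) (_hj : 0 ≤ j) (_hi0 : 0 ≤ i)
    (_hk : 0 ≤ k) (_hm0 : 0 ≤ m) (_hl0 : 0 ≤ l) (_hlam : 0 ≤ lam) (_h12 : 12 * j ≤ 5 * p)
    (_hip : i ≤ p) (_hm : m ≤ p - j + 3) (_hl : l ≤ p - i + 1) (_hml : l ≤ m)
    (_hd1 : d ≤ -2 * j) (_hd2 : -2 * j - lam ≤ d)
    (_hV : N ≤ d - 3 * k - 2 * m - 2 * l + 4 * (p - i)) (_hF : N ≤ d + 2 * l)
    (hS : -k ≤ d ∧ N ≤ d + 1 + 2 * m)
    (hG : 5 * p ≤ 12 * i ∨ 5 / 8 * (p - i) - 10 ≤ l ∨ 5 / 8 * (p - j) - 10 ≤ l)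
    (_hs : S ≤ -m + 2 * l) :
    k + S - l + d / 2 + N / 2 + (m - l)
      ≤ p - j - p / 200 - k / 100 - l / 100 + 10 * lam + 100 := by
  obtain ⟨h1, h2⟩ := hS
  rcases hG with g | g | g
  · linarith only [_hj, _hi0, _hm0, _hl0, _hlam, _hd1, _hV, _hF, _hs, g]
  · linarith only [_hj, _hi0, _hm0, _hlam, _hml, _hd1, _hV, _hF, _hs, g]
  · linarith only [_hj, _hi0, _hm0, _hlam, _hml, _hd1, _hV, _hF, _hs, g]

theorem nearN2 (p j i k m l N S d lam kap : ℝ) (_hj : 0 ≤ j) (_hi0 : 0 ≤ i)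
    (_hk : 0 ≤ k) (_hm0 : 0 ≤ m) (_hl0 : 0 ≤ l) (_hlam : 0 ≤ lam) (_h12 : 12 * j ≤ 5 * p)
    (_hip : i ≤ p) (_hm : m ≤ p - j + 3) (_hl : l ≤ p - i + 1) (_hml : l ≤ m)
    (_hd1 : d ≤ -2 * j) (_hd2 : -2 * j - lam ≤ d)
    (_hV : N ≤ d - 3 * k - 2 * m - 2 * l + 4 * (p - i)) (_hF : N ≤ d + 2 * l)
    (hS : -k ≤ d ∧ N ≤ d + 1 + 2 * m)
    (hG : (12 * i ≤ 5 * p ∧ l ≤ 5 / 8 * (p - i) - 10 ∧ l ≤ 5 / 8 * (p - j) - 10 ∧
      N ≤ 2 * m + l - k + kap ∧ ((kap ≤ lam + 2 ∧ i ≤ j ∧ 2 * i ≤ k) ∨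
        (kap ≤ lam + 2 + 2 * i - 2 * j ∧ j ≤ i ∧ 2 * j ≤ k) ∨
        (kap ≤ lam + 2 + 2 * i - k ∧ k ≤ 2 * i ∧ k ≤ 2 * j))) ∨
      5 * p ≤ 12 * i ∨ 5 / 8 * (p - i) - 10 ≤ l ∨ 5 / 8 * (p - j) - 10 ≤ l)
    (_hs : S ≤ -5 / 8 * (p - j) + 2 * l)
    (_hs2 : S ≤ -5 / 8 * (p - j) + 4 * l - 2 * j - 2 * m + 1 ∨
      S ≤ -5 / 8 * (p - j) + 4 * l - 2 * j - 5 / 4 * (p - j) + 1) :
    k + S - l + d / 2 + N / 2 + (m - l)
      ≤ p - j - p / 200 - k / 100 - l / 100 + 10 * lam + 100 := by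
  obtain ⟨h1, h2⟩ := hS
  rcases _hs2 with s2 | s2 <;> rcases hG with ⟨g1, g2, g3, g4, g5⟩ | g | g | g
  · rcases g5 with ⟨g5, g6, g7⟩ | ⟨g5, g6, g7⟩ | ⟨g5, g6, g7⟩ <;> linarith only [_hj, _hi0, _hm0, _hlam, _hd1, _hV, _hs, s2, g3, g4, g5, _hF]
  · linarith only [_hj, _hi0, _hl0, _hlam, _hm, _hd1, _hV, _hF, _hs, s2]
  · linarith only [_hj, _hi0, _hl0, _hlam, _hm, _hd1, _hV, _hF, _hs, s2]
  · linarith only [_hj, _hi0, _hl0, _hlam, _hm, _hd1, _hV, _hF, _hs, s2]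
  · rcases g5 with ⟨g5, g6, g7⟩ | ⟨g5, g6, g7⟩ | ⟨g5, g6, g7⟩ <;> linarith only [_hj, _hi0, _hk, _hl0, _hlam, _hd1, _hV, s2, g3]
  · linarith only [_hj, _hi0, _hl0, _hlam, _hm, _hd1, _hV, _hF, _hs, s2]
  · linarith only [_hj, _hi0, _hl0, _hlam, _hm, _hd1, _hV, _hF, _hs, s2]
  · linarith only [_hj, _hi0, _hl0, _hlam, _hm, _hd1, _hV, _hF, _hs, s2]

end Vale.Agent.P107.Ar
end
end
end

section

section

attribute [-instance] ProperSMul.toContinuousSMul IsTopologicalTorsor.toContinuousSMul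
  IdemSemiring.toCanonicallyOrderedAdd IdemSemiring.toMulLeftMono IdemSemiring.toMulRightMono
  AddQuantale.instAddLeftMono AddQuantale.instAddRightMono Quantale.instMulLeftMono
  Quantale.instMulRightMono FiniteDimensional.rclike_to_real IsScalarTower.complexToReal
  FiniteDimensional.complexToReal

section

/-!
Sums for the S-sums with the magnetic budget: square roots of sums, reduction of the near and far
sums to cell estimates, and the class sum with the factor `√(1+p)`.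
-/

open Set Filter Topology
open scoped ENNReal NNReal

namespace Vale.Agent.P107.Ar.Sb

open Sg Tl

/-! ### Square roots of sums -/

lemma rpow_half_sq (x : ℝ≥0∞) : (x * x) ^ (1 / 2 : ℝ) = x := by
  rw [← sq, ← ENNReal.rpow_natCast, ← ENNReal.rpow_mul]; norm_num

lemma half_sq (x : ℝ≥0∞) : x ^ (1 / 2 : ℝ) * x ^ (1 / 2 : ℝ) = x := by
  rw [← ENNReal.rpow_add_of_nonneg _ _ (by norm_num) (by norm_num)]; norm_num

lemma sum_sq_le (a : ℕ → ℝ≥0∞) : ∑' m, a m * a m ≤ (∑' m, a m) * (∑' m, a m) := by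
  rw [← ENNReal.tsum_mul_right]
  exact ENNReal.tsum_le_tsum fun m => mul_le_mul' le_rfl (ENNReal.le_tsum m)

lemma half_tsum (a : ℕ → ℝ≥0∞) : (∑' m, a m) ^ (1 / 2 : ℝ) ≤ ∑' m, (a m) ^ (1 / 2 : ℝ) := by
  calc (∑' m, a m) ^ (1 / 2 : ℝ)
      = (∑' m, (a m) ^ (1 / 2 : ℝ) * (a m) ^ (1 / 2 : ℝ)) ^ (1 / 2 : ℝ) := by simp_rw [half_sq]
    _ ≤ ((∑' m, (a m) ^ (1 / 2 : ℝ)) * (∑' m, (a m) ^ (1 / 2 : ℝ))) ^ (1 / 2 : ℝ) :=
        ENNReal.rpow_le_rpow (sum_sq_le _) (by norm_num)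
    _ = _ := rpow_half_sq _

lemma half_tsum2 (a : ℕ → ℕ → ℝ≥0∞) :
    (∑' (k : ℕ) (m : ℕ), a k m) ^ (1 / 2 : ℝ) ≤ ∑' (k : ℕ) (m : ℕ), (a k m) ^ (1 / 2 : ℝ) :=
  (half_tsum _).trans (ENNReal.tsum_le_tsum fun _ => half_tsum _)

lemma ofReal_half {x : ℝ} (hx : 0 ≤ x) :
    ENNReal.ofReal x ^ (1 / 2 : ℝ) = ENNReal.ofReal (√x) := by
  rw [ENNReal.ofReal_rpow_of_nonneg hx (by norm_num), Real.sqrt_eq_rpow]

lemma half_ite (P : Prop) [Decidable P] {x : ℝ} (hx : 0 ≤ x) :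
    (if P then ENNReal.ofReal x else 0) ^ (1 / 2 : ℝ) = if P then ENNReal.ofReal (√x) else 0 := by
  split_ifs
  · exact ofReal_half hx
  · exact ENNReal.zero_rpow_of_pos (by norm_num)

/-! ### Reordering -/

lemma comm3 (f : ℕ → ℕ → ℕ → ℝ≥0∞) :
    ∑' (l : ℕ) (i : ℕ) (m : ℕ), f m l i = ∑' (m : ℕ) (l : ℕ) (i : ℕ), f m l i := by
  calc ∑' (l : ℕ) (i : ℕ) (m : ℕ), f m l i
      = ∑' (l : ℕ) (m : ℕ) (i : ℕ), f m l i := tsum_congr fun l => ENNReal.tsum_comm
    _ = ∑' (m : ℕ) (l : ℕ) (i : ℕ), f m l i := ENNReal.tsum_comm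

lemma comm4 (f : ℕ → ℕ → ℕ → ℕ → ℝ≥0∞) :
    ∑' (l : ℕ) (i : ℕ) (k : ℕ) (m : ℕ), f k m l i
      = ∑' (k : ℕ) (m : ℕ) (l : ℕ) (i : ℕ), f k m l i := by
  calc ∑' (l : ℕ) (i : ℕ) (k : ℕ) (m : ℕ), f k m l i
      = ∑' (k : ℕ) (l : ℕ) (i : ℕ) (m : ℕ), f k m l i :=
        comm3 (fun k l i => ∑' m : ℕ, f k m l i)
    _ = ∑' (k : ℕ) (m : ℕ) (l : ℕ) (i : ℕ), f k m l i :=
        tsum_congr fun k => comm3 (fun m l i => f k m l i)

open Classical in
/-- The far sum is a sum of slack cells. -/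
lemma far_le {c₁ : ℝ} {p j : ℕ} {r : ℕ → ℕ → ℕ → Prop} {w : ℕ → ℕ → ℕ → ℕ → ℝ}
    (hw : ∀ k m l i, 0 ≤ w k m l i) (hr : ∀ m l i, r m l i → m < p + 4 ∧ i < p + 1)
    (h : ∀ k m l i : ℕ, dl c₁ p j < (1 / 2 : ℝ) ^ k → r m l i →
      √(dl c₁ p j + (1 / 2) ^ k) * √(w k m l i) ≤ 2 * E (sl c₁ p j k l)) :
    ∑' (k : ℕ) (l : ℕ) (i : ℕ), ENNReal.ofReal (√(dl c₁ p j + (1 / 2) ^ k)) *
      (∑' (m : ℕ), if dl c₁ p j < (1 / 2 : ℝ) ^ k ∧ r m l i then
        ENNReal.ofReal (w k m l i) else 0) ^ (1 / 2 : ℝ)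
    ≤ ∑' (k : ℕ) (m : ℕ) (l : ℕ) (i : ℕ), if m < p + 4 ∧ i < p + 1 then
        ENNReal.ofReal (2 * E (sl c₁ p j k l)) else 0 := by
  refine ENNReal.tsum_le_tsum fun k => ?_
  rw [← comm3]
  refine ENNReal.tsum_le_tsum fun l => ENNReal.tsum_le_tsum fun i => ?_
  refine (mul_le_mul' le_rfl (half_tsum _)).trans ?_
  rw [← ENNReal.tsum_mul_left]
  refine ENNReal.tsum_le_tsum fun m => ?_
  rw [half_ite _ (hw k m l i)]
  by_cases h1 : dl c₁ p j < (1 / 2 : ℝ) ^ k ∧ r m l i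
  · rw [if_pos h1, if_pos (hr m l i h1.2), ← ENNReal.ofReal_mul (Real.sqrt_nonneg _)]
    exact ENNReal.ofReal_le_ofReal (h k m l i h1.1 h1.2)
  · rw [if_neg h1, mul_zero]
    exact zero_le

open Classical in
/-- A near sum bounded by a plain sum. -/
lemma near_le {c₁ : ℝ} {p j : ℕ} {r : ℕ → ℕ → ℕ → Prop} {w g : ℕ → ℕ → ℕ → ℕ → ℝ}
    (hw : ∀ k m l i, 0 ≤ w k m l i)
    (h : ∀ k m l i : ℕ, r m l i → √(dl c₁ p j) * √(w k m l i) ≤ g k m l i) :
    ∑' (l : ℕ) (i : ℕ), ENNReal.ofReal (√(dl c₁ p j)) *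
      (∑' (k : ℕ) (m : ℕ), if (1 / 2 : ℝ) ^ k ≤ dl c₁ p j ∧ r m l i then
        ENNReal.ofReal (w k m l i) else 0) ^ (1 / 2 : ℝ)
    ≤ ∑' (k : ℕ) (m : ℕ) (l : ℕ) (i : ℕ), if r m l i then
        ENNReal.ofReal (g k m l i) else 0 := by
  rw [← comm4]
  refine ENNReal.tsum_le_tsum fun l => ENNReal.tsum_le_tsum fun i => ?_
  refine (mul_le_mul' le_rfl (half_tsum2 _)).trans ?_
  rw [← ENNReal.tsum_mul_left]
  refine ENNReal.tsum_le_tsum fun k => ?_
  rw [← ENNReal.tsum_mul_left]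
  refine ENNReal.tsum_le_tsum fun m => ?_
  rw [half_ite _ (hw k m l i)]
  by_cases h1 : (1 / 2 : ℝ) ^ k ≤ dl c₁ p j ∧ r m l i
  · rw [if_pos h1, if_pos h1.2, ← ENNReal.ofReal_mul (Real.sqrt_nonneg _)]
    exact ENNReal.ofReal_le_ofReal (h k m l i h1.2)
  · rw [if_neg h1, mul_zero]
    exact zero_le

/-! ### The sum over near shells for the nonaligned family -/

lemma ksq (a b : ℝ) : ∑' k : ℕ, ENNReal.ofReal (E (min (a - k) (b + k)))
    ≤ ENNReal.ofReal (100 * E ((a + b) / 2)) := by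
  have h1 := ksum ((a + b) / 4) a b
  calc ∑' k : ℕ, ENNReal.ofReal (E (min (a - k) (b + k)))
      = ∑' k : ℕ, ENNReal.ofReal (E ((a + b) / 4 - (a + b) / 4 + min (a - k) (b + k) / 2))
        * ENNReal.ofReal (E ((a + b) / 4 - (a + b) / 4 + min (a - k) (b + k) / 2)) := by
        refine tsum_congr fun k => ?_
        rw [← ENNReal.ofReal_mul (E_nonneg _), ← E_add]
        congr 2; ring
    _ ≤ _ := sum_sq_le _
    _ ≤ ENNReal.ofReal (10 * E ((a + b) / 4)) * ENNReal.ofReal (10 * E ((a + b) / 4)) := by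
        gcongr
    _ = ENNReal.ofReal (100 * E ((a + b) / 2)) := by
        rw [← ENNReal.ofReal_mul (mul_nonneg (by norm_num) (E_nonneg _))]
        have : E ((a + b) / 2) = E ((a + b) / 4) * E ((a + b) / 4) := by
          rw [← E_add]; congr 1; ring
        rw [this]
        congr 1; ring

lemma kmsum (p : ℕ) (a b : ℕ → ℝ) (s : ℝ) (hs : ∀ m, a m + b m = s) :
    (∑' (k : ℕ) (m : ℕ), if m < p + 4 then
      ENNReal.ofReal (2 * E (min (a m - k) (b m + k))) else 0) ^ (1 / 2 : ℝ)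
      ≤ ENNReal.ofReal (√(200 * (p + 4)) * E (s / 4)) := by
  have h1 : (∑' (k : ℕ) (m : ℕ), if m < p + 4 then
      ENNReal.ofReal (2 * E (min (a m - k) (b m + k))) else 0)
      ≤ ENNReal.ofReal (200 * (p + 4) * E (s / 2)) := by
    rw [ENNReal.tsum_comm]
    calc (∑' (m : ℕ) (k : ℕ), if m < p + 4 then
        ENNReal.ofReal (2 * E (min (a m - k) (b m + k))) else 0)
        ≤ ∑' m : ℕ, (if m < p + 4 then (1 : ℝ≥0∞) else 0) * ENNReal.ofReal (200 * E (s / 2)) := by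
          refine ENNReal.tsum_le_tsum fun m => ?_
          split_ifs with h
          · rw [one_mul]
            calc ∑' k : ℕ, ENNReal.ofReal (2 * E (min (a m - k) (b m + k)))
                = ENNReal.ofReal 2 * ∑' k : ℕ, ENNReal.ofReal (E (min (a m - k) (b m + k))) := by
                  rw [← ENNReal.tsum_mul_left]
                  exact tsum_congr fun k => ENNReal.ofReal_mul (by norm_num)
              _ ≤ ENNReal.ofReal 2 * ENNReal.ofReal (100 * E ((a m + b m) / 2)) := by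
                  gcongr
                  exact ksq _ _
              _ = ENNReal.ofReal (200 * E (s / 2)) := by
                  rw [← ENNReal.ofReal_mul (by norm_num), hs]
                  congr 1; ring
          · simp
      _ = ENNReal.ofReal (200 * (p + 4) * E (s / 2)) := by
          rw [ENNReal.tsum_mul_right, count, ← ENNReal.ofReal_natCast,
            ← ENNReal.ofReal_mul (by positivity)]
          congr 1
          push_cast; ring
  refine (ENNReal.rpow_le_rpow h1 (by norm_num)).trans (le_of_eq ?_)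
  rw [ofReal_half (mul_nonneg (by positivity) (E_nonneg _)), Real.sqrt_mul (by positivity), E_sqrt]
  congr 3; ring

/-! ### The class sum -/

lemma dlL {c₁ : ℝ} (hc : 0 < c₁) (p j : ℕ) :
    Real.logb 2 (dl c₁ p j) ≤ Real.logb 2 c₁ - j - Real.logb 2 (1 + p) := by
  have hp : (0 : ℝ) < 1 + p := by positivity
  apply logb_le_of_le_E (dl_pos hc p j)
  have : E (Real.logb 2 c₁ - j - Real.logb 2 (1 + p)) = c₁ / (2 ^ j * (1 + p)) := by
    unfold E
    rw [Real.rpow_sub two_pos, Real.rpow_sub two_pos,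
      Real.rpow_logb (by norm_num) (by norm_num) hc,
      Real.rpow_logb (by norm_num) (by norm_num) hp, Real.rpow_natCast, div_div]
  rw [this]
  unfold dl
  gcongr
  have : (0 : ℝ) < 4 ^ j := by positivity
  linarith only [this]

lemma lam_eq {c₁ : ℝ} (hc : 0 < c₁) (p : ℕ) :
    Real.logb 2 (La c₁ p) = 2 + Real.logb 2 (1 + p) - Real.logb 2 c₁ := by
  have hp : (0 : ℝ) < 1 + p := by positivity
  unfold La
  rw [Real.logb_div (by positivity) (by positivity), Real.logb_mul (by norm_num) (by positivity)]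
  congr 2
  rw [show (4 : ℝ) = (2 : ℝ) ^ (2 : ℝ) by norm_num, Real.logb_rpow (by norm_num) (by norm_num)]

lemma class_sum_c {c₁ : ℝ} (hc : 0 < c₁) (hc1 : c₁ ≤ 1) (p j : ℕ) :
    ∑' i : ℕ, ENNReal.ofReal (E (xc c₁ p j i - j / 2 + Real.logb 2 (1 + p) / 2))
      ≤ ENNReal.ofReal (12 * √c₁ * qq p j) := by
  set d := Real.logb 2 (dl c₁ p j) with hd
  set Lp := Real.logb 2 (1 + (p : ℝ)) with hLp
  set c := Real.logb 2 c₁ with hcc
  have hlam := lam_eq hc p
  have hX : √c₁ * qq p j = E (c / 2 + ((p : ℝ) - j)) := by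
    rw [sqrt_c hc, qq_E, ← E_add]
  have hc0 := logc_le hc hc1
  have h1 := d_le_c hc p j
  have h2 := dlL hc p j
  have hdj := dl_pos hc p j
  calc ∑' i : ℕ, ENNReal.ofReal (E (xc c₁ p j i - j / 2 + Lp / 2))
      ≤ ∑' i : ℕ, (ENNReal.ofReal ((2 * E (c / 2 + ((p : ℝ) - j))) * (1 / 2) ^ i)
          + ENNReal.ofReal ((2 * E (c / 2 + ((p : ℝ) - j))) * (3 / 4) ^ i)) := by
        apply ENNReal.tsum_le_tsum
        intro i
        have hdi := dl_pos hc p i
        have h3 := neg_d_le hc p i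
        rw [← ENNReal.ofReal_add (by have := E_nonneg (c / 2 + ((p : ℝ) - j)); (clear * - this; positivity))
          (by have := E_nonneg (c / 2 + ((p : ℝ) - j)); (clear * - this; positivity))]
        apply ENNReal.ofReal_le_ofReal
        have hK0 : 0 < 1 + 2 * dl c₁ p j / dl c₁ p i := by positivity
        have e2 : ∀ y, E (1 + y) = 2 * E y := fun y => by rw [E_add, E_one]
        have hnn := E_nonneg (c / 2 + ((p : ℝ) - j))
        rcases le_or_gt (2 * dl c₁ p j / dl c₁ p i) 1 with h4 | h4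
        · have hk : Real.logb 2 (1 + 2 * dl c₁ p j / dl c₁ p i) ≤ 1 :=
            logb_le_of_le_E hK0 (by rw [E_one]; linarith only [h4])
          have h5 : E (xc c₁ p j i - j / 2 + Lp / 2)
              ≤ (2 * E (c / 2 + ((p : ℝ) - j))) * (1 / 2) ^ i := by
            rw [powh2, ← e2]
            change _ ≤ _ * E _
            rw [← E_add]
            apply E_mono
            unfold xc
            linarith only [hc0, h1, h2, hk]
          have h6 : 0 ≤ (2 * E (c / 2 + ((p : ℝ) - j))) * (3 / 4 : ℝ) ^ i := by (clear * - hnn; positivity)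
          linarith only [h5, h6]
        · have hk : Real.logb 2 (1 + 2 * dl c₁ p j / dl c₁ p i)
              ≤ 1 + d + Real.logb 2 (La c₁ p) + 2 * i := by
            have h7 : 1 + 2 * dl c₁ p j / dl c₁ p i ≤ E (2 + d - Real.logb 2 (dl c₁ p i)) := by
              have : E (2 + d - Real.logb 2 (dl c₁ p i)) = 4 * dl c₁ p j / dl c₁ p i := by
                unfold E
                rw [Real.rpow_sub two_pos, Real.rpow_add two_pos, hd,
                  Real.rpow_logb (by norm_num) (by norm_num) hdj,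
                  Real.rpow_logb (by norm_num) (by norm_num) hdi]
                norm_num
              rw [this]
              have : 4 * dl c₁ p j / dl c₁ p i = 2 * dl c₁ p j / dl c₁ p i
                + 2 * dl c₁ p j / dl c₁ p i := by ring
              linarith only [h4, this]
            have := logb_le_of_le_E hK0 h7
            linarith only [h3, this]
          have h5 : E (xc c₁ p j i - j / 2 + Lp / 2)
              ≤ (2 * E (c / 2 + ((p : ℝ) - j))) * (3 / 4) ^ i := by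
            have h8 := E_neg_half_pow i
            have h9 : E (xc c₁ p j i - j / 2 + Lp / 2)
                ≤ (2 * E (c / 2 + ((p : ℝ) - j))) * E (-((i : ℝ) / 2)) := by
              rw [← e2, ← E_add]
              apply E_mono
              unfold xc
              linarith only [hlam, hc0, h1, h2, hk]
            refine h9.trans ?_
            (clear * - hnn h8; gcongr)
          have h6 : 0 ≤ (2 * E (c / 2 + ((p : ℝ) - j))) * (1 / 2 : ℝ) ^ i := by positivity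
          linarith only [h5, h6]
    _ = ENNReal.ofReal (12 * √c₁ * qq p j) := by
        have hnn := E_nonneg (c / 2 + ((p : ℝ) - j))
        rw [ENNReal.tsum_add, geo _ _ (by positivity) (by norm_num) (by norm_num),
          geo _ _ (by positivity) (by norm_num) (by norm_num),
          ← ENNReal.ofReal_add (by norm_num; positivity) (by norm_num; positivity),
          mul_assoc 12, hX]
        congr 1
        ring

end Vale.Agent.P107.Ar.Sb
end
end
end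

section

section

attribute [-instance] ProperSMul.toContinuousSMul IsTopologicalTorsor.toContinuousSMul
  IdemSemiring.toCanonicallyOrderedAdd IdemSemiring.toMulLeftMono IdemSemiring.toMulRightMono
  AddQuantale.instAddLeftMono AddQuantale.instAddRightMono Quantale.instMulLeftMono
  Quantale.instMulRightMono FiniteDimensional.rclike_to_real IsScalarTower.complexToReal
  FiniteDimensional.complexToReal

section

/-!
The S-sums with the magnetic budget: `statSb : StatSb`.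
-/

open Set Filter Topology
open scoped ENNReal NNReal

namespace Vale.Agent.P107.Ar.Sb

open Sg Tl

/-! ### Facts about the cells -/

/-- The alternatives for the goodness of a cell, with `a` the logarithm of the scale and `g` the
exponent of the stay bound. -/
def Gd (p j i k a g N lam kap : ℝ) : Prop :=
  (12 * i ≤ 5 * p ∧ a ≤ 5 / 8 * (p - i) - 10 ∧ a ≤ 5 / 8 * (p - j) - 10 ∧
      N ≤ g - k + kap ∧ ((kap ≤ lam + 2 ∧ i ≤ j ∧ 2 * i ≤ k) ∨
        (kap ≤ lam + 2 + 2 * i - 2 * j ∧ j ≤ i ∧ 2 * j ≤ k) ∨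
        (kap ≤ lam + 2 + 2 * i - k ∧ k ≤ 2 * i ∧ k ≤ 2 * j))) ∨
      5 * p ≤ 12 * i ∨ 5 / 8 * (p - i) - 10 ≤ a ∨ 5 / 8 * (p - j) - 10 ≤ a

section
variable {c₁ : ℝ} {p j i k m l : ℕ}

lemma nA_pos (hc : 0 < c₁) : 0 < nA c₁ p j i k m l := by
  have h1 := dl_pos hc p j
  have h2 := qq_pos p i
  have h3 : 0 < KK c₁ p j i k := KK_pos hc
  unfold nA
  refine lt_min (lt_min (by positivity) (by positivity)) (lt_min (by positivity) ?_)
  split_ifs <;> positivity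

lemma nN_pos (hc : 0 < c₁) : 0 < nN c₁ p j i k m l := by
  have h1 := dl_pos hc p j
  have h2 := qq_pos p i
  have h3 : 0 < KK c₁ p j i k := KK_pos hc
  unfold nN
  refine lt_min (lt_min (by positivity) (by positivity)) (lt_min (by positivity) ?_)
  split_ifs <;> positivity

lemma nD_pos (hc : 0 < c₁) : 0 < nD c₁ p j i k m l := by
  have h1 := dl_pos hc p j
  have h2 := qq_pos p i
  have h3 : 0 < KK c₁ p j i k := KK_pos hc
  unfold nD
  refine lt_min (lt_min (by positivity) (by positivity)) (lt_min (by positivity) ?_)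
  split_ifs <;> positivity

lemma GdA (hc : 0 < c₁) (hc1 : c₁ ≤ 1) :
    Gd p j i k m (3 * m) (Real.logb 2 (qq p i * nA c₁ p j i k m l))
      (Real.logb 2 (La c₁ p)) (Real.logb 2 (KK c₁ p j i k)) := by
  have hn : 0 < nA c₁ p j i k m l := nA_pos hc
  by_cases hg : gd p j i ((1 / 2) ^ m)
  · left
    obtain ⟨g1, g2, g3⟩ := of_gd hg
    refine ⟨g1, g2, g3, ?_, KK_log hc hc1⟩
    have h1 : nA c₁ p j i k m l ≤ 8 ^ m * (1 / 2) ^ k * KK c₁ p j i k / qq p i := by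
      unfold nA
      rw [if_pos hg]
      exact (min_le_right _ _).trans (min_le_right _ _)
    rw [pow8] at h1
    exact G_log hc hn h1
  · right
    exact not_gd hg

lemma GdN (hc : 0 < c₁) (hc1 : c₁ ≤ 1) :
    Gd p j i k l (2 * m + l) (Real.logb 2 (qq p i * nN c₁ p j i k m l))
      (Real.logb 2 (La c₁ p)) (Real.logb 2 (KK c₁ p j i k)) := by
  have hn : 0 < nN c₁ p j i k m l := nN_pos hc
  by_cases hg : gd p j i ((1 / 2) ^ l)
  · left
    obtain ⟨g1, g2, g3⟩ := of_gd hg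
    refine ⟨g1, g2, g3, ?_, KK_log hc hc1⟩
    have h1 : nN c₁ p j i k m l ≤ 4 ^ m * 2 ^ l * (1 / 2) ^ k * KK c₁ p j i k / qq p i := by
      unfold nN
      rw [if_pos hg]
      exact (min_le_right _ _).trans (min_le_right _ _)
    rw [pow4, pow2] at h1
    refine G_log hc hn (x := 2 * m + l) ?_
    rw [E_add]
    exact h1
  · right
    exact not_gd hg

lemma GdD (hc : 0 < c₁) (hc1 : c₁ ≤ 1) :
    Gd p j i k l (m + 2 * l) (Real.logb 2 (qq p i * nD c₁ p j i k m l))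
      (Real.logb 2 (La c₁ p)) (Real.logb 2 (KK c₁ p j i k)) := by
  have hn : 0 < nD c₁ p j i k m l := nD_pos hc
  by_cases hg : gd p j i ((1 / 2) ^ l)
  · left
    obtain ⟨g1, g2, g3⟩ := of_gd hg
    refine ⟨g1, g2, g3, ?_, KK_log hc hc1⟩
    have h1 : nD c₁ p j i k m l ≤ 2 ^ m * 4 ^ l * (1 / 2) ^ k * KK c₁ p j i k / qq p i := by
      unfold nD
      rw [if_pos hg]
      exact (min_le_right _ _).trans (min_le_right _ _)
    rw [pow4, pow2] at h1
    refine G_log hc hn (x := m + 2 * l) ?_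
    rw [E_add]
    exact h1
  · right
    exact not_gd hg

end

/-! ### Generic bounds of the terms -/

lemma sqrt_w {X Y : ℝ} (hX : 0 ≤ X) : √(X ^ 2 * Y) = X * √Y := by
  rw [Real.sqrt_mul (sq_nonneg X), Real.sqrt_sq hX]

lemma shift_term {k l : ℕ} {s q δ n S t : ℝ} (hs : s ≤ E S) (hq : 0 < q) (hδ : 0 < δ)
    (hn : 0 < n) :
    E t * (2 ^ k * s * q⁻¹ * √δ * √(q ^ 3 * (1 / 4) ^ l * n))
      ≤ E (k + S - l + Real.logb 2 δ / 2 + Real.logb 2 (q * n) / 2 + t) := by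
  rw [E_add (k + S - l + Real.logb 2 δ / 2 + Real.logb 2 (q * n) / 2) t, mul_comm (E t)]
  exact mul_le_mul_of_nonneg_right (term_le hs hq hδ hn) (E_nonneg t)

/-- The cell term with a shift. -/
lemma gen_le {k l : ℕ} {s1 s2 q δ n S1 S2 t A B : ℝ} (hs1 : s1 ≤ E S1) (hs2 : s2 ≤ E S2)
    (hq : 0 < q) (hδ : 0 < δ) (hn : 0 < n)
    (h1 : k + S1 - l + Real.logb 2 δ / 2 + Real.logb 2 (q * n) / 2 + t ≤ A)
    (h2 : k + S2 - l + Real.logb 2 δ / 2 + Real.logb 2 (q * n) / 2 + t ≤ B) :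
    E t * (2 ^ k * (s1 + s2) * q⁻¹ * √δ * √(q ^ 3 * (1 / 4) ^ l * n)) ≤ E A + E B := by
  have e1 := (shift_term (k := k) (l := l) (t := t) hs1 hq hδ hn).trans (E_mono h1)
  have e2 := (shift_term (k := k) (l := l) (t := t) hs2 hq hδ hn).trans (E_mono h2)
  have e3 : E t * (2 ^ k * (s1 + s2) * q⁻¹ * √δ * √(q ^ 3 * (1 / 4) ^ l * n))
      = E t * (2 ^ k * s1 * q⁻¹ * √δ * √(q ^ 3 * (1 / 4) ^ l * n))
        + E t * (2 ^ k * s2 * q⁻¹ * √δ * √(q ^ 3 * (1 / 4) ^ l * n)) := by ring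
  rw [e3]
  exact add_le_add e1 e2

lemma sqrt_sum_le {δ : ℝ} {k : ℕ} (hδ : 0 < δ) (h : δ < (1 / 2 : ℝ) ^ k) :
    √(δ + (1 / 2) ^ k) ≤ E ((1 - k) / 2 - Real.logb 2 δ / 2) * √δ := by
  have h1 : √δ = E (Real.logb 2 δ / 2) := by rw [← E_sqrt, E_logb hδ]
  rw [h1, ← E_add]
  have h2 : E ((1 - k) / 2 - Real.logb 2 δ / 2 + Real.logb 2 δ / 2) = √(E (1 - k)) := by
    rw [E_sqrt]; congr 1; ring
  rw [h2]
  apply Real.sqrt_le_sqrt
  rw [sub_eq_add_neg, E_add, E_one]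
  have : E (-(k : ℝ)) = (1 / 2) ^ k := (powh2 k).symm
  rw [this]
  linarith only [h]

/-- Far cells of the families with the factor `2^{m-l}`. -/
lemma far_gen {k m l : ℕ} {s1 s2 q δ n S1 S2 B : ℝ} (hs1 : s1 ≤ E S1) (hs2 : s2 ≤ E S2)
    (hs0 : 0 ≤ s1 + s2) (hq : 0 < q) (hδ : 0 < δ) (hn : 0 < n) (hfar : δ < (1 / 2 : ℝ) ^ k)
    (h1 : k + S1 - l + Real.logb 2 δ / 2 + Real.logb 2 (q * n) / 2
      + ((1 - k) / 2 - Real.logb 2 δ / 2 + (m - l)) ≤ B)
    (h2 : k + S2 - l + Real.logb 2 δ / 2 + Real.logb 2 (q * n) / 2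
      + ((1 - k) / 2 - Real.logb 2 δ / 2 + (m - l)) ≤ B) :
    √(δ + (1 / 2) ^ k) * √((2 ^ k * (s1 + s2) * q⁻¹ * 2 ^ m * (1 / 2) ^ l) ^ 2
        * (q ^ 3 * (1 / 4) ^ l * n)) ≤ 2 * E B := by
  rw [sqrt_w (by positivity)]
  have h3 := gen_le (k := k) (l := l) hs1 hs2 hq hδ hn h1 h2
  have h4 : E ((1 - k) / 2 - Real.logb 2 δ / 2 + (m - l))
      * (2 ^ k * (s1 + s2) * q⁻¹ * √δ * √(q ^ 3 * (1 / 4) ^ l * n))
      = (E ((1 - k) / 2 - Real.logb 2 δ / 2) * √δ) *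
        (2 ^ k * (s1 + s2) * q⁻¹ * 2 ^ m * (1 / 2) ^ l * √(q ^ 3 * (1 / 4) ^ l * n)) := by
    have e1 : E ((m : ℝ) - l) = 2 ^ m * (1 / 2) ^ l := by
      rw [sub_eq_add_neg, E_add, pow2, powh2]; rfl
    rw [E_add _ ((m : ℝ) - l), e1]
    ring
  rw [h4] at h3
  have h5 : 0 ≤ 2 ^ k * (s1 + s2) * q⁻¹ * 2 ^ m * (1 / 2) ^ l * √(q ^ 3 * (1 / 4) ^ l * n) := by
    (clear * - hs0 hq hn; positivity)
  calc _ ≤ (E ((1 - k) / 2 - Real.logb 2 δ / 2) * √δ) *
        (2 ^ k * (s1 + s2) * q⁻¹ * 2 ^ m * (1 / 2) ^ l * √(q ^ 3 * (1 / 4) ^ l * n)) :=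
        mul_le_mul_of_nonneg_right (sqrt_sum_le hδ hfar) h5
    _ ≤ E B + E B := h3
    _ = 2 * E B := by ring

/-- Far cells of the diagonal family. -/
lemma far_genD {k l : ℕ} {s1 s2 q δ n S1 S2 B : ℝ} (hs1 : s1 ≤ E S1) (hs2 : s2 ≤ E S2)
    (hs0 : 0 ≤ s1 + s2) (hq : 0 < q) (hδ : 0 < δ) (hn : 0 < n) (hfar : δ < (1 / 2 : ℝ) ^ k)
    (h1 : k + S1 - l + Real.logb 2 δ / 2 + Real.logb 2 (q * n) / 2
      + ((1 - k) / 2 - Real.logb 2 δ / 2) ≤ B)
    (h2 : k + S2 - l + Real.logb 2 δ / 2 + Real.logb 2 (q * n) / 2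
      + ((1 - k) / 2 - Real.logb 2 δ / 2) ≤ B) :
    √(δ + (1 / 2) ^ k) * √((2 ^ k * (s1 + s2) * q⁻¹) ^ 2
        * (q ^ 3 * (1 / 4) ^ l * n)) ≤ 2 * E B := by
  rw [sqrt_w (by positivity)]
  have h3 := gen_le (k := k) (l := l) hs1 hs2 hq hδ hn h1 h2
  have h4 : E ((1 - k) / 2 - Real.logb 2 δ / 2)
      * (2 ^ k * (s1 + s2) * q⁻¹ * √δ * √(q ^ 3 * (1 / 4) ^ l * n))
      = (E ((1 - k) / 2 - Real.logb 2 δ / 2) * √δ) *
        (2 ^ k * (s1 + s2) * q⁻¹ * √(q ^ 3 * (1 / 4) ^ l * n)) := by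
    ring
  rw [h4] at h3
  have h5 : 0 ≤ 2 ^ k * (s1 + s2) * q⁻¹ * √(q ^ 3 * (1 / 4) ^ l * n) := by
    (clear * - hs0 hq hn; positivity)
  calc _ ≤ (E ((1 - k) / 2 - Real.logb 2 δ / 2) * √δ) *
        (2 ^ k * (s1 + s2) * q⁻¹ * √(q ^ 3 * (1 / 4) ^ l * n)) :=
        mul_le_mul_of_nonneg_right (sqrt_sum_le hδ hfar) h5
    _ ≤ E B + E B := h3
    _ = 2 * E B := by ring

/-- Near cells of the nonaligned family. -/
lemma near_gen {k m l : ℕ} {s1 s2 q δ n S1 S2 A B : ℝ} (hs1 : s1 ≤ E S1) (hs2 : s2 ≤ E S2)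
    (hs0 : 0 ≤ s1 + s2) (hq : 0 < q) (hδ : 0 < δ) (hn : 0 < n)
    (h1 : k + S1 - l + Real.logb 2 (q * n) / 2 + (m - l) ≤ A ∨
      k + S1 - l + Real.logb 2 δ / 2 + Real.logb 2 (q * n) / 2 + (m - l) ≤ B)
    (h2 : k + S2 - l + Real.logb 2 δ / 2 + Real.logb 2 (q * n) / 2 + (m - l) ≤ B) :
    (2 ^ k * (s1 + s2) * q⁻¹ * 2 ^ m * (1 / 2) ^ l) ^ 2 * (q ^ 3 * (1 / 4) ^ l * n)
      ≤ 2 * E (2 * A) + 8 * E (2 * B - Real.logb 2 δ) := by
  have hw0 : 0 ≤ q ^ 3 * (1 / 4) ^ l * n := by positivity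
  have h4 : E (m - l - Real.logb 2 δ / 2)
      * (2 ^ k * (s1 + s2) * q⁻¹ * √δ * √(q ^ 3 * (1 / 4) ^ l * n))
      = 2 ^ k * (s1 + s2) * q⁻¹ * 2 ^ m * (1 / 2) ^ l * √(q ^ 3 * (1 / 4) ^ l * n) := by
    have e1 : E ((m : ℝ) - l) = 2 ^ m * (1 / 2) ^ l := by
      rw [sub_eq_add_neg, E_add, pow2, powh2]; rfl
    have e2 : √δ = E (Real.logb 2 δ / 2) := by rw [← E_sqrt, E_logb hδ]
    have e3 : E (m - l - Real.logb 2 δ / 2) * √δ = 2 ^ m * (1 / 2) ^ l := by
      rw [e2, ← E_add, ← e1]; congr 1; ring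
    calc _ = (E (m - l - Real.logb 2 δ / 2) * √δ) *
          (2 ^ k * (s1 + s2) * q⁻¹ * √(q ^ 3 * (1 / 4) ^ l * n)) := by ring
      _ = _ := by rw [e3]; ring
  have h3 : 2 ^ k * (s1 + s2) * q⁻¹ * 2 ^ m * (1 / 2) ^ l * √(q ^ 3 * (1 / 4) ^ l * n)
      ≤ E A + 2 * E (B - Real.logb 2 δ / 2) := by
    rw [← h4]
    rcases h1 with h1 | h1
    · have h5 := gen_le (k := k) (l := l) (t := m - l - Real.logb 2 δ / 2) (A := A)
        (B := B - Real.logb 2 δ / 2) hs1 hs2 hq hδ hn (by linarith only [h1]) (by linarith only [h2])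
      have := E_nonneg (B - Real.logb 2 δ / 2)
      linarith only [h5, this]
    · have h5 := gen_le (k := k) (l := l) (t := m - l - Real.logb 2 δ / 2)
        (A := B - Real.logb 2 δ / 2)
        (B := B - Real.logb 2 δ / 2) hs1 hs2 hq hδ hn (by linarith only [h1]) (by linarith only [h2])
      have := E_nonneg A
      linarith only [h5, this]
  have h5 : (2 ^ k * (s1 + s2) * q⁻¹ * 2 ^ m * (1 / 2) ^ l) ^ 2 * (q ^ 3 * (1 / 4) ^ l * n)
      = (2 ^ k * (s1 + s2) * q⁻¹ * 2 ^ m * (1 / 2) ^ l * √(q ^ 3 * (1 / 4) ^ l * n)) ^ 2 := by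
    rw [mul_pow _ (√(q ^ 3 * (1 / 4) ^ l * n)), Real.sq_sqrt hw0]
  have h6 : 0 ≤ 2 ^ k * (s1 + s2) * q⁻¹ * 2 ^ m * (1 / 2) ^ l * √(q ^ 3 * (1 / 4) ^ l * n) := by
    (clear * - hs0 hq hn; positivity)
  rw [h5]
  refine (pow_le_pow_left₀ h6 h3 2).trans ?_
  have e1 : E (2 * A) = E A ^ 2 := by
    have := E_natmul 2 A
    push_cast at this
    exact this
  have e2 : E (2 * B - Real.logb 2 δ) = E (B - Real.logb 2 δ / 2) ^ 2 := by
    have := E_natmul 2 (B - Real.logb 2 δ / 2)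
    push_cast at this
    rw [← this]; congr 1; ring
  rw [e1, e2]
  nlinarith only [sq_nonneg (E A - 2 * E (B - Real.logb 2 δ / 2))]

/-! ### The cells -/

section
variable {c₁ : ℝ} {p j i k m l : ℕ}

lemma far_log (hc : 0 < c₁) (hfar : dl c₁ p j < (1 / 2 : ℝ) ^ k) :
    Real.logb 2 (dl c₁ p j) ≤ -(k : ℝ) := by
  by_contra h
  push Not at h
  exact absurd ((near_iff hc).mpr h.le) (not_le.mpr hfar)

lemma far_S (hc : 0 < c₁) (hfar : dl c₁ p j < (1 / 2 : ℝ) ^ k) {n : ℝ} (hn : 0 < n)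
    (h : n ≤ (dl c₁ p j + (1 / 2) ^ k) * 4 ^ m / qq p i) :
    Real.logb 2 (dl c₁ p j) ≤ -(k : ℝ) ∧ Real.logb 2 (qq p i * n) ≤ -(k : ℝ) + 1 + 2 * m := by
  refine ⟨far_log hc hfar, ?_⟩
  have h1 := far_log hc hfar
  rcases S_log hc hn h with ⟨h2, h3⟩ | ⟨h2, h3⟩
  · linarith only [h1, h3]
  · exact h3

lemma near_S (hc : 0 < c₁) (hnear : (1 / 2 : ℝ) ^ k ≤ dl c₁ p j) {n : ℝ} (hn : 0 < n)
    (h : n ≤ (dl c₁ p j + (1 / 2) ^ k) * 4 ^ m / qq p i) :
    -(k : ℝ) ≤ Real.logb 2 (dl c₁ p j) ∧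
      Real.logb 2 (qq p i * n) ≤ Real.logb 2 (dl c₁ p j) + 1 + 2 * m := by
  have h1 := (near_iff hc).mp hnear
  refine ⟨h1, ?_⟩
  rcases S_log hc hn h with ⟨h2, h3⟩ | ⟨h2, h3⟩
  · exact h3
  · linarith only [h1, h3]

lemma farA (hc : 0 < c₁) (hc1 : c₁ ≤ 1) (h12 : 12 * j ≤ 5 * p)
    (hfar : dl c₁ p j < (1 / 2 : ℝ) ^ k) (hr : rA p j i m l) :
    √(dl c₁ p j + (1 / 2) ^ k) * √((2 ^ k * sA p j m l * (qq p i)⁻¹ * 2 ^ m * (1 / 2) ^ l) ^ 2
        * (qq p i ^ 3 * (1 / 4) ^ l * nA c₁ p j i k m l)) ≤ 2 * E (sl c₁ p j k l) := by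
  obtain ⟨r1, r2, r3, r4⟩ := hr
  have hn : 0 < nA c₁ p j i k m l := nA_pos hc
  have hV := V_log (k := k) (m := m) (l := l) hc hn ((min_le_left _ _).trans (min_le_left _ _))
  have hF := F_log (l := l) hc hn ((min_le_left _ _).trans (min_le_right _ _))
  have hS := far_S hc hfar hn ((min_le_right _ _).trans (min_le_left _ _))
  have hG : Gd p j i k m (3 * m) (Real.logb 2 (qq p i * nA c₁ p j i k m l))
      (Real.logb 2 (La c₁ p)) (Real.logb 2 (KK c₁ p j i k)) := GdA hc hc1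
  have hdd1 := d_le hc hc1 p j
  have hdd2 := neg_d_le hc p j
  have hlam0 : 2 ≤ Real.logb 2 (La c₁ p) := la_ge hc hc1 p
  have hmR : (m : ℝ) ≤ p - j + 3 := by
    have : m + j ≤ p + 3 := by omega
    have : (m : ℝ) + j ≤ p + 3 := by exact_mod_cast this
    linarith only [this]
  have hlR : (l : ℝ) ≤ p - i + 1 := by
    have : l + i ≤ p + 1 := by omega
    have : (l : ℝ) + i ≤ p + 1 := by exact_mod_cast this
    linarith only [this]
  have hmlR : (m : ℝ) ≤ l := by exact_mod_cast (by omega : m ≤ l)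
  have hiR : (i : ℝ) ≤ p := by exact_mod_cast r2
  have h12R : 12 * (j : ℝ) ≤ 5 * p := by exact_mod_cast h12
  have hs1 : 0 < (1 / 2 : ℝ) ^ m / DD p j m l := by
    have := DD_pos p j m l
    positivity
  have hs1' : ∀ y : ℝ, 1 / DD p j m l ≤ E y → Real.logb 2 ((1 / 2 : ℝ) ^ m / DD p j m l)
      ≤ -m + y := by
    intro y hy
    apply logb_le_of_le_E hs1
    rw [E_add, div_eq_mul_one_div, powh2]
    exact mul_le_mul_of_nonneg_left hy (E_nonneg _)
  have hsa := hs1' _ (invDD_le1 p j m l)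
  have hsb := hs1' _ (invDD_le2 p j m l)
  have hsc := hs1' _ (invDD_le3 p j m l)
  have hs2 : ee p j * 4 ^ l ≤ E (-5 / 8 * ((p : ℝ) - j) + 2 * l) := by
    rw [E_add, ee_eq, pow4]
    apply le_of_eq
    unfold E
    congr 2; ring
  have hs0 : 0 ≤ (1 / 2 : ℝ) ^ m / DD p j m l + ee p j * 4 ^ l := by
    have := ee_pos p j
    positivity
  unfold sA
  refine far_gen (le_of_eq (E_logb hs1).symm) hs2 hs0 (qq_pos p i) (dl_pos hc p j) hn hfar ?_ ?_
  · exact farA1 p j i k m l _ _ _ _ _ (by positivity) (by positivity) (by positivity)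
      (by positivity) (by positivity) (by linarith only [hlam0]) h12R hiR hmR hlR hmlR hdd1 (by linarith only [hdd2])
      hV hF hS hG (Or.inl ⟨by linarith only [hsa], by linarith only [hsb], by linarith only [hsc]⟩)
  · exact farA1 p j i k m l _ _ _ _ _ (by positivity) (by positivity) (by positivity)
      (by positivity) (by positivity) (by linarith only [hlam0]) h12R hiR hmR hlR hmlR hdd1 (by linarith only [hdd2])
      hV hF hS hG (Or.inr le_rfl)

lemma sN2_le (p j m l : ℕ) :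
    ee p j * 4 ^ l * min 1 ((1 / 4) ^ j * ((1 / 4) ^ m + ee p j ^ 2) * 4 ^ l)
      ≤ E (-5 / 8 * ((p : ℝ) - j) + 2 * l) ∧
    (ee p j * 4 ^ l * min 1 ((1 / 4) ^ j * ((1 / 4) ^ m + ee p j ^ 2) * 4 ^ l)
      ≤ E (-5 / 8 * ((p : ℝ) - j) + 4 * l - 2 * j - 2 * m + 1) ∨
     ee p j * 4 ^ l * min 1 ((1 / 4) ^ j * ((1 / 4) ^ m + ee p j ^ 2) * 4 ^ l)
      ≤ E (-5 / 8 * ((p : ℝ) - j) + 4 * l - 2 * j - 5 / 4 * ((p : ℝ) - j) + 1)) := by
  have he := ee_pos p j
  have hee : ee p j = E (-5 / 8 * ((p : ℝ) - j)) := by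
    rw [ee_eq]; unfold E; congr 1; ring
  have h2 : ee p j * 4 ^ l = E (-5 / 8 * ((p : ℝ) - j) + 2 * l) := by
    rw [E_add, hee, pow4]; rfl
  constructor
  · rw [← h2]
    exact mul_le_of_le_one_right (by positivity) (min_le_left _ _)
  · have h3 : ∀ x y : ℝ, (1 / 4 : ℝ) ^ m + ee p j ^ 2 ≤ 2 * E x →
        y = -5 / 8 * ((p : ℝ) - j) + 4 * l - 2 * j + x + 1 →
        ee p j * 4 ^ l * min 1 ((1 / 4) ^ j * ((1 / 4) ^ m + ee p j ^ 2) * 4 ^ l) ≤ E y := by
      intro x y hx hy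
      calc ee p j * 4 ^ l * min 1 ((1 / 4) ^ j * ((1 / 4) ^ m + ee p j ^ 2) * 4 ^ l)
          ≤ ee p j * 4 ^ l * ((1 / 4) ^ j * ((1 / 4) ^ m + ee p j ^ 2) * 4 ^ l) := by
            gcongr
            exact min_le_right _ _
        _ ≤ ee p j * 4 ^ l * ((1 / 4) ^ j * (2 * E x) * 4 ^ l) := by (clear * - he hx; gcongr)
        _ = E (-5 / 8 * ((p : ℝ) - j) + 2 * l) * (E (-(2 * (j : ℝ))) * (E 1 * E x)
              * E (2 * (l : ℝ))) := by
            rw [h2, E_one, powh4, pow4]; rfl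
        _ = E y := by
            simp only [← E_add]
            congr 1
            rw [hy]; ring
    have hee2 : ee p j ^ 2 = E (-5 / 4 * ((p : ℝ) - j)) := by
      rw [hee, ← E_natmul]; congr 1; push_cast; ring
    have h4m : (1 / 4 : ℝ) ^ m = E (-(2 * (m : ℝ))) := powh4 m
    rcases le_total (ee p j ^ 2) ((1 / 4 : ℝ) ^ m) with h | h
    · left
      refine h3 (-(2 * (m : ℝ))) _ ?_ (by ring)
      rw [← h4m]; linarith only [h]
    · right
      refine h3 (-5 / 4 * ((p : ℝ) - j)) _ ?_ (by ring)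
      rw [← hee2]; linarith only [h]

/-- Uniform package of bounds for the second kernel of the nonaligned family. -/
lemma sN2_ex (p j m l : ℕ) : ∃ S : ℝ,
    ee p j * 4 ^ l * min 1 ((1 / 4) ^ j * ((1 / 4) ^ m + ee p j ^ 2) * 4 ^ l) ≤ E S ∧
    S ≤ -5 / 8 * ((p : ℝ) - j) + 2 * l ∧
    (S ≤ -5 / 8 * ((p : ℝ) - j) + 4 * l - 2 * j - 2 * m + 1 ∨
     S ≤ -5 / 8 * ((p : ℝ) - j) + 4 * l - 2 * j - 5 / 4 * ((p : ℝ) - j) + 1) := by
  obtain ⟨h1, h2⟩ := sN2_le p j m l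
  rcases h2 with h2 | h2
  · refine ⟨min (-5 / 8 * ((p : ℝ) - j) + 2 * l)
      (-5 / 8 * ((p : ℝ) - j) + 4 * l - 2 * j - 2 * m + 1), ?_, min_le_left _ _,
      Or.inl (min_le_right _ _)⟩
    rcases min_choice (-5 / 8 * ((p : ℝ) - j) + 2 * l)
      (-5 / 8 * ((p : ℝ) - j) + 4 * l - 2 * j - 2 * m + 1) with h3 | h3 <;> rw [h3] <;> assumption
  · refine ⟨min (-5 / 8 * ((p : ℝ) - j) + 2 * l)
      (-5 / 8 * ((p : ℝ) - j) + 4 * l - 2 * j - 5 / 4 * ((p : ℝ) - j) + 1), ?_,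
      min_le_left _ _, Or.inr (min_le_right _ _)⟩
    rcases min_choice (-5 / 8 * ((p : ℝ) - j) + 2 * l)
      (-5 / 8 * ((p : ℝ) - j) + 4 * l - 2 * j - 5 / 4 * ((p : ℝ) - j) + 1) with h3 | h3 <;>
      rw [h3] <;> assumption

lemma farN (hc : 0 < c₁) (hc1 : c₁ ≤ 1) (h12 : 12 * j ≤ 5 * p)
    (hfar : dl c₁ p j < (1 / 2 : ℝ) ^ k) (hr : rN p j i m l) :
    √(dl c₁ p j + (1 / 2) ^ k) * √((2 ^ k * sN p j m l * (qq p i)⁻¹ * 2 ^ m * (1 / 2) ^ l) ^ 2
        * (qq p i ^ 3 * (1 / 4) ^ l * nN c₁ p j i k m l)) ≤ 2 * E (sl c₁ p j k l) := by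
  obtain ⟨r1, r2, r3, r4⟩ := hr
  have hn : 0 < nN c₁ p j i k m l := nN_pos hc
  have hV := V_log (k := k) (m := m) (l := l) hc hn ((min_le_left _ _).trans (min_le_left _ _))
  have hF := F_log (l := l) hc hn ((min_le_left _ _).trans (min_le_right _ _))
  have hS := far_S hc hfar hn ((min_le_right _ _).trans (min_le_left _ _))
  have hG : Gd p j i k l (2 * m + l) (Real.logb 2 (qq p i * nN c₁ p j i k m l))
      (Real.logb 2 (La c₁ p)) (Real.logb 2 (KK c₁ p j i k)) := GdN hc hc1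
  have hdd1 := d_le hc hc1 p j
  have hdd2 := neg_d_le hc p j
  have hlam0 : 2 ≤ Real.logb 2 (La c₁ p) := la_ge hc hc1 p
  have hmR : (m : ℝ) ≤ p - j + 3 := by
    have : m + j ≤ p + 3 := by omega
    have : (m : ℝ) + j ≤ p + 3 := by exact_mod_cast this
    linarith only [this]
  have hlR : (l : ℝ) ≤ p - i + 1 := by
    have : l + i ≤ p + 1 := by omega
    have : (l : ℝ) + i ≤ p + 1 := by exact_mod_cast this
    linarith only [this]
  have hmlR : (l : ℝ) ≤ m := by exact_mod_cast (by omega : l ≤ m)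
  have hiR : (i : ℝ) ≤ p := by exact_mod_cast r2
  have h12R : 12 * (j : ℝ) ≤ 5 * p := by exact_mod_cast h12
  have hs1 : (1 / 2 : ℝ) ^ m * 4 ^ l ≤ E (-m + 2 * l) := by
    rw [E_add, powh2, pow4]
    exact le_rfl
  obtain ⟨S2, hs2, hS21, hS22⟩ := sN2_ex p j m l
  have hs0 : 0 ≤ (1 / 2 : ℝ) ^ m * 4 ^ l
      + ee p j * 4 ^ l * min 1 ((1 / 4) ^ j * ((1 / 4) ^ m + ee p j ^ 2) * 4 ^ l) := by
    have := ee_pos p j
    (clear * - this; positivity)
  unfold sN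
  refine far_gen hs1 hs2 hs0 (qq_pos p i) (dl_pos hc p j) hn hfar ?_ ?_
  · exact farN1 p j i k m l _ _ _ _ _ (by positivity) (by positivity) (by positivity)
      (by positivity) (by positivity) (by linarith only [hlam0]) h12R hiR hmR hlR hmlR hdd1 (by linarith only [hdd2])
      hV hF hS hG le_rfl
  · exact farN2 p j i k m l _ _ _ _ _ (by positivity) (by positivity) (by positivity)
      (by positivity) (by positivity) (by linarith only [hlam0]) h12R hiR hmR hlR hmlR hdd1 (by linarith only [hdd2])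
      hV hF hS hG hS21 hS22

lemma farD (hc : 0 < c₁) (hc1 : c₁ ≤ 1) (h12 : 12 * j ≤ 5 * p)
    (hfar : dl c₁ p j < (1 / 2 : ℝ) ^ k) (hr : rD p j i m l) :
    √(dl c₁ p j + (1 / 2) ^ k) * √((2 ^ k * sD p j m * (qq p i)⁻¹) ^ 2
        * (qq p i ^ 3 * (1 / 4) ^ l * nD c₁ p j i k m l)) ≤ 2 * E (sl c₁ p j k l) := by
  obtain ⟨r1, r2, r3, r4⟩ := hr
  have hn : 0 < nD c₁ p j i k m l := nD_pos hc
  have hV := V_log (k := k) (m := m) (l := l) hc hn ((min_le_left _ _).trans (min_le_left _ _))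
  have hF := F_log (l := m) hc hn ((min_le_left _ _).trans (min_le_right _ _))
  have hS := far_S hc hfar hn ((min_le_right _ _).trans (min_le_left _ _))
  have hG : Gd p j i k l (m + 2 * l) (Real.logb 2 (qq p i * nD c₁ p j i k m l))
      (Real.logb 2 (La c₁ p)) (Real.logb 2 (KK c₁ p j i k)) := GdD hc hc1
  have hdd1 := d_le hc hc1 p j
  have hdd2 := neg_d_le hc p j
  have hlam0 : 2 ≤ Real.logb 2 (La c₁ p) := la_ge hc hc1 p
  have hmR : (m : ℝ) ≤ p - j + 3 := by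
    have : m + j ≤ p + 3 := by omega
    have : (m : ℝ) + j ≤ p + 3 := by exact_mod_cast this
    linarith only [this]
  have hlR : (m : ℝ) ≤ p - i + 4 := by
    have : m + i ≤ p + 4 := by omega
    have : (m : ℝ) + i ≤ p + 4 := by exact_mod_cast this
    linarith only [this]
  have hmlR : (m : ℝ) ≤ l + 4 := by exact_mod_cast r1
  have hiR : (i : ℝ) ≤ p := by exact_mod_cast r2
  have h12R : 12 * (j : ℝ) ≤ 5 * p := by exact_mod_cast h12
  have hs1 : (2 : ℝ) ^ m ≤ E m := le_of_eq (pow2 m)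
  have hs2 : ee p j * 4 ^ m ≤ E (-5 / 8 * ((p : ℝ) - j) + 2 * m) := by
    rw [E_add, ee_eq, pow4]
    apply le_of_eq
    unfold E
    congr 2; ring
  have hs0 : 0 ≤ (2 : ℝ) ^ m + ee p j * 4 ^ m := by
    have := ee_pos p j
    positivity
  unfold sD
  refine far_genD hs1 hs2 hs0 (qq_pos p i) (dl_pos hc p j) hn hfar ?_ ?_
  · exact farD1 p j i k m l _ _ _ _ _ (by positivity) (by positivity) (by positivity)
      (by positivity) (by positivity) (by linarith only [hlam0]) h12R hiR hmR hlR hmlR hdd1 (by linarith only [hdd2])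
      hV hF hS hG (Or.inl le_rfl)
  · exact farD1 p j i k m l _ _ _ _ _ (by positivity) (by positivity) (by positivity)
      (by positivity) (by positivity) (by linarith only [hlam0]) h12R hiR hmR hlR hmlR hdd1 (by linarith only [hdd2])
      hV hF hS hG (Or.inr le_rfl)

/-- The exponents of the volume bound and of the stay bound of the nonaligned family. -/
noncomputable def aN (c₁ : ℝ) (p j i l m : ℕ) : ℝ :=
  Real.logb 2 (dl c₁ p j) - 2 * m - 2 * l + 4 * ((p : ℝ) - i)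

noncomputable def bN (c₁ : ℝ) (p j i l m : ℕ) : ℝ := 2 * m + l + kp c₁ p j i

lemma nearN (hc : 0 < c₁) (hc1 : c₁ ≤ 1) (h12 : 12 * j ≤ 5 * p)
    (hnear : (1 / 2 : ℝ) ^ k ≤ dl c₁ p j) (hr : rN p j i m l) :
    (2 ^ k * sN p j m l * (qq p i)⁻¹ * 2 ^ m * (1 / 2) ^ l) ^ 2
        * (qq p i ^ 3 * (1 / 4) ^ l * nN c₁ p j i k m l)
      ≤ 2 * E (min (aN c₁ p j i l m - k) (bN c₁ p j i l m + k))
        + 8 * E (2 * sl c₁ p j k l - Real.logb 2 (dl c₁ p j)) := by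
  obtain ⟨r1, r2, r3, r4⟩ := hr
  have hn : 0 < nN c₁ p j i k m l := nN_pos hc
  have hV := V_log (k := k) (m := m) (l := l) hc hn ((min_le_left _ _).trans (min_le_left _ _))
  have hF := F_log (l := l) hc hn ((min_le_left _ _).trans (min_le_right _ _))
  have hS := near_S hc hnear hn ((min_le_right _ _).trans (min_le_left _ _))
  have hG : Gd p j i k l (2 * m + l) (Real.logb 2 (qq p i * nN c₁ p j i k m l))
      (Real.logb 2 (La c₁ p)) (Real.logb 2 (KK c₁ p j i k)) := GdN hc hc1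
  have hdd1 := d_le hc hc1 p j
  have hdd2 := neg_d_le hc p j
  have hlam0 : 2 ≤ Real.logb 2 (La c₁ p) := la_ge hc hc1 p
  have hmR : (m : ℝ) ≤ p - j + 3 := by
    have : m + j ≤ p + 3 := by omega
    have : (m : ℝ) + j ≤ p + 3 := by exact_mod_cast this
    linarith only [this]
  have hlR : (l : ℝ) ≤ p - i + 1 := by
    have : l + i ≤ p + 1 := by omega
    have : (l : ℝ) + i ≤ p + 1 := by exact_mod_cast this
    linarith only [this]
  have hmlR : (l : ℝ) ≤ m := by exact_mod_cast (by omega : l ≤ m)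
  have hiR : (i : ℝ) ≤ p := by exact_mod_cast r2
  have h12R : 12 * (j : ℝ) ≤ 5 * p := by exact_mod_cast h12
  have hs1 : (1 / 2 : ℝ) ^ m * 4 ^ l ≤ E (-m + 2 * l) := by
    rw [E_add, powh2, pow4]
    exact le_rfl
  obtain ⟨S2, hs2, hS21, hS22⟩ := sN2_ex p j m l
  have hs0 : 0 ≤ (1 / 2 : ℝ) ^ m * 4 ^ l
      + ee p j * 4 ^ l * min 1 ((1 / 4) ^ j * ((1 / 4) ^ m + ee p j ^ 2) * 4 ^ l) := by
    have := ee_pos p j
    (clear * - this; positivity)
  have hK : Real.logb 2 (KK c₁ p j i k) ≤ kp c₁ p j i := KK_near hc hS.1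
  unfold sN
  refine (near_gen (A := min (aN c₁ p j i l m - k) (bN c₁ p j i l m + k) / 2)
    (B := sl c₁ p j k l) hs1 hs2 hs0 (qq_pos p i) (dl_pos hc p j) hn ?_ ?_).trans
    (le_of_eq (by congr 3; ring))
  · rcases hG with ⟨g1, g2, g3, g4, g5⟩ | hG
    · left
      have hmin : 2 * (k : ℝ) + Real.logb 2 (qq p i * nN c₁ p j i k m l)
          ≤ min (aN c₁ p j i l m - k) (bN c₁ p j i l m + k) := by
        refine le_min ?_ ?_
        · unfold aN; linarith only [hV]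
        · unfold bN; linarith only [hK, g4]
      linarith only [hmin]
    · right
      exact nearN1 p j i k m l _ _ _ _ (by positivity) (by positivity) (by positivity)
        (by positivity) (by positivity) (by linarith only [hlam0]) h12R hiR hmR hlR hmlR hdd1 (by linarith only [hdd2])
        hV hF hS hG le_rfl
  · exact nearN2 p j i k m l _ _ _ _ _ (by positivity) (by positivity) (by positivity)
      (by positivity) (by positivity) (by linarith only [hlam0]) h12R hiR hmR hlR hmlR hdd1 (by linarith only [hdd2])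
      hV hF hS hG hS21 hS22

end

/-! ### The near sum of the nonaligned family -/

lemma crit_factor {c₁ : ℝ} (hc : 0 < c₁) (p j i l : ℕ) :
    √(dl c₁ p j) * (√(200 * (p + 4)) * E ((Real.logb 2 (dl c₁ p j) - l + 4 * ((p : ℝ) - i)
      + kp c₁ p j i) / 4))
    ≤ 29 * (6 / 7) ^ l * E (xc c₁ p j i - j / 2 + Real.logb 2 (1 + p) / 2) := by
  have hp : (0 : ℝ) ≤ p := by positivity
  have h1 : √(dl c₁ p j) = E (Real.logb 2 (dl c₁ p j) / 2) := by
    rw [← E_sqrt, E_logb (dl_pos hc p j)]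
  have h2 : √(200 * ((p : ℝ) + 4)) ≤ 29 * E (Real.logb 2 (1 + p) / 2) := by
    rw [← E_sqrt, E_logb (by positivity)]
    have : (29 : ℝ) * √(1 + p) = √(29 ^ 2 * (1 + p)) := by
      rw [Real.sqrt_mul (by norm_num), Real.sqrt_sq (by norm_num)]
    rw [this]
    apply Real.sqrt_le_sqrt
    nlinarith only []
  have h3 := E_neg_quarter_pow l
  have hx : xc c₁ p j i = 3 / 4 * Real.logb 2 (dl c₁ p j) + kp c₁ p j i / 4 + ((p : ℝ) - i)
    + j / 2 := rfl
  set d := Real.logb 2 (dl c₁ p j) with hd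
  calc √(dl c₁ p j) * (√(200 * (p + 4)) * E ((d - l + 4 * ((p : ℝ) - i) + kp c₁ p j i) / 4))
      ≤ E (d / 2) * ((29 * E (Real.logb 2 (1 + p) / 2))
        * E ((d - l + 4 * ((p : ℝ) - i) + kp c₁ p j i) / 4)) := by
        rw [h1]
        have := E_nonneg (d / 2)
        have := E_nonneg ((d - l + 4 * ((p : ℝ) - i) + kp c₁ p j i) / 4)
        gcongr
    _ = 29 * E (-((l : ℝ) / 4)) * E (xc c₁ p j i - j / 2 + Real.logb 2 (1 + p) / 2) := by
        have : E (d / 2) * (E (Real.logb 2 (1 + p) / 2)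
            * E ((d - l + 4 * ((p : ℝ) - i) + kp c₁ p j i) / 4))
            = E (-((l : ℝ) / 4)) * E (xc c₁ p j i - j / 2 + Real.logb 2 (1 + p) / 2) := by
          simp only [← E_add]
          congr 1
          rw [hx]; ring
        linear_combination 29 * this
    _ ≤ 29 * (6 / 7) ^ l * E (xc c₁ p j i - j / 2 + Real.logb 2 (1 + p) / 2) := by
        have := E_nonneg (xc c₁ p j i - j / 2 + Real.logb 2 (1 + p) / 2)
        (clear * - h3 this; gcongr)

lemma slack_factor {c₁ : ℝ} (hc : 0 < c₁) (p j : ℕ) (x : ℝ) :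
    √(dl c₁ p j) * √(8 * E (2 * x - Real.logb 2 (dl c₁ p j))) ≤ 2 * (2 * E x) := by
  rw [← Real.sqrt_mul (dl_pos hc p j).le]
  have h1 : dl c₁ p j * (8 * E (2 * x - Real.logb 2 (dl c₁ p j))) = 8 * E x ^ 2 := by
    have h2 : E (2 * x - Real.logb 2 (dl c₁ p j)) * dl c₁ p j = E x ^ 2 := by
      rw [← E_natmul]
      nth_rewrite 2 [← E_logb (dl_pos hc p j)]
      rw [← E_add]
      congr 1; push_cast; ring
    linear_combination 8 * h2
  rw [h1]
  apply Real.sqrt_le_iff.mpr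
  have := E_nonneg x
  constructor
  · positivity
  · nlinarith only []

open Classical in
lemma nearN_sum {c₁ : ℝ} (hc : 0 < c₁) (hc1 : c₁ ≤ 1) {p j : ℕ} (h12 : 12 * j ≤ 5 * p)
    (hsl : ∑' (k : ℕ) (m : ℕ) (l : ℕ) (i : ℕ), (if m < p + 4 ∧ i < p + 1 then
        ENNReal.ofReal (2 * E (sl c₁ p j k l)) else 0) ≤ ENNReal.ofReal (√c₁ * qq p j)) :
    ∑' (l : ℕ) (i : ℕ), ENNReal.ofReal (√(dl c₁ p j)) *
      (∑' (k : ℕ) (m : ℕ), if (1 / 2 : ℝ) ^ k ≤ dl c₁ p j ∧ rN p j i m l then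
        ENNReal.ofReal ((2 ^ k * sN p j m l * (qq p i)⁻¹ * 2 ^ m * (1 / 2) ^ l) ^ 2
        * (qq p i ^ 3 * (1 / 4) ^ l * nN c₁ p j i k m l)) else 0) ^ (1 / 2 : ℝ)
    ≤ ENNReal.ofReal (2500 * √c₁ * qq p j) := by
  have hX0 : 0 ≤ √c₁ * qq p j := mul_nonneg (Real.sqrt_nonneg _) (qq_pos p j).le
  have hstep : ∀ l i : ℕ, ENNReal.ofReal (√(dl c₁ p j)) *
      (∑' (k : ℕ) (m : ℕ), if (1 / 2 : ℝ) ^ k ≤ dl c₁ p j ∧ rN p j i m l then
        ENNReal.ofReal ((2 ^ k * sN p j m l * (qq p i)⁻¹ * 2 ^ m * (1 / 2) ^ l) ^ 2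
        * (qq p i ^ 3 * (1 / 4) ^ l * nN c₁ p j i k m l)) else 0) ^ (1 / 2 : ℝ)
      ≤ ENNReal.ofReal (29 * (6 / 7) ^ l)
          * ENNReal.ofReal (E (xc c₁ p j i - j / 2 + Real.logb 2 (1 + p) / 2))
        + ENNReal.ofReal 2 * ∑' (k : ℕ) (m : ℕ), (if m < p + 4 ∧ i < p + 1 then
            ENNReal.ofReal (2 * E (sl c₁ p j k l)) else 0) := by
    intro l i
    have e1 : (∑' (k : ℕ) (m : ℕ), if (1 / 2 : ℝ) ^ k ≤ dl c₁ p j ∧ rN p j i m l then
        ENNReal.ofReal ((2 ^ k * sN p j m l * (qq p i)⁻¹ * 2 ^ m * (1 / 2) ^ l) ^ 2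
        * (qq p i ^ 3 * (1 / 4) ^ l * nN c₁ p j i k m l)) else 0)
        ≤ (∑' (k : ℕ) (m : ℕ), if m < p + 4 then
            ENNReal.ofReal (2 * E (min (aN c₁ p j i l m - k) (bN c₁ p j i l m + k))) else 0)
          + ∑' (k : ℕ) (m : ℕ), if m < p + 4 ∧ i < p + 1 then
            ENNReal.ofReal (8 * E (2 * sl c₁ p j k l - Real.logb 2 (dl c₁ p j))) else 0 := by
      rw [← ENNReal.tsum_add]
      refine ENNReal.tsum_le_tsum fun k => ?_
      rw [← ENNReal.tsum_add]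
      refine ENNReal.tsum_le_tsum fun m => ?_
      by_cases h : (1 / 2 : ℝ) ^ k ≤ dl c₁ p j ∧ rN p j i m l
      · have hm : m < p + 4 := by have := h.2.2.2.1; omega
        have hi : i < p + 1 := by have := h.2.2.1; omega
        rw [if_pos h, if_pos hm, if_pos ⟨hm, hi⟩,
          ← ENNReal.ofReal_add (mul_nonneg two_pos.le (E_nonneg _))
            (mul_nonneg (by norm_num) (E_nonneg _))]
        exact ENNReal.ofReal_le_ofReal (nearN hc hc1 h12 h.1 h.2)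
      · rw [if_neg h]
        exact zero_le
    have e2 := (ENNReal.rpow_le_rpow e1 (show (0 : ℝ) ≤ 1 / 2 by norm_num)).trans
      (ENNReal.rpow_add_le_add_rpow _ _ (show (0 : ℝ) ≤ 1 / 2 by norm_num)
        (show (1 / 2 : ℝ) ≤ 1 by norm_num))
    have e3 := kmsum p (fun m => aN c₁ p j i l m) (fun m => bN c₁ p j i l m)
      (Real.logb 2 (dl c₁ p j) - l + 4 * ((p : ℝ) - i) + kp c₁ p j i)
      (fun m => by simp only [aN, bN]; ring)
    refine (mul_le_mul' le_rfl (e2.trans (add_le_add e3 (half_tsum2 _)))).trans ?_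
    rw [mul_add]
    refine add_le_add ?_ ?_
    · rw [← ENNReal.ofReal_mul (Real.sqrt_nonneg _), ← ENNReal.ofReal_mul (by positivity)]
      exact ENNReal.ofReal_le_ofReal (crit_factor hc p j i l)
    · rw [← ENNReal.tsum_mul_left, ← ENNReal.tsum_mul_left]
      refine ENNReal.tsum_le_tsum fun k => ?_
      rw [← ENNReal.tsum_mul_left, ← ENNReal.tsum_mul_left]
      refine ENNReal.tsum_le_tsum fun m => ?_
      rw [half_ite _ (mul_nonneg (by norm_num) (E_nonneg _))]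
      split_ifs with h
      · rw [← ENNReal.ofReal_mul (Real.sqrt_nonneg _), ← ENNReal.ofReal_mul (by norm_num)]
        exact ENNReal.ofReal_le_ofReal (slack_factor hc p j _)
      · simp
  calc _ ≤ ∑' (l : ℕ) (i : ℕ), (ENNReal.ofReal (29 * (6 / 7) ^ l)
          * ENNReal.ofReal (E (xc c₁ p j i - j / 2 + Real.logb 2 (1 + p) / 2))
        + ENNReal.ofReal 2 * ∑' (k : ℕ) (m : ℕ), (if m < p + 4 ∧ i < p + 1 then
            ENNReal.ofReal (2 * E (sl c₁ p j k l)) else 0)) :=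
        ENNReal.tsum_le_tsum fun l => ENNReal.tsum_le_tsum fun i => hstep l i
    _ = ENNReal.ofReal 203 * ∑' i : ℕ,
          ENNReal.ofReal (E (xc c₁ p j i - j / 2 + Real.logb 2 (1 + p) / 2))
        + ENNReal.ofReal 2 * ∑' (k : ℕ) (m : ℕ) (l : ℕ) (i : ℕ), (if m < p + 4 ∧ i < p + 1 then
            ENNReal.ofReal (2 * E (sl c₁ p j k l)) else 0) := by
        simp_rw [ENNReal.tsum_add, ENNReal.tsum_mul_left, ENNReal.tsum_mul_right]
        rw [geo 29 (6 / 7) (by norm_num) (by norm_num) (by norm_num), comm4]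
        norm_num
    _ ≤ ENNReal.ofReal 203 * ENNReal.ofReal (12 * √c₁ * qq p j)
        + ENNReal.ofReal 2 * ENNReal.ofReal (√c₁ * qq p j) := by
        gcongr
        exact class_sum_c hc hc1 p j
    _ ≤ ENNReal.ofReal (2500 * √c₁ * qq p j) := by
        rw [← ENNReal.ofReal_mul (by norm_num), ← ENNReal.ofReal_mul (by norm_num),
          ← ENNReal.ofReal_add (by rw [mul_assoc 12]; positivity) (by positivity)]
        apply ENNReal.ofReal_le_ofReal
        nlinarith only [hX0]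

/-! ### Near sums of the other families -/

section
variable {c₁ : ℝ} {p j i k m l : ℕ}

lemma nearA_term (hr : rA p j i m l) :
    √(dl c₁ p j) * √((2 ^ k * sA p j m l * (qq p i)⁻¹ * 2 ^ m * (1 / 2) ^ l) ^ 2
        * (qq p i ^ 3 * (1 / 4) ^ l * nA c₁ p j i k m l))
      ≤ 2 ^ k * sA p j m l * (qq p i)⁻¹ * √(dl c₁ p j)
        * √(qq p i ^ 3 * (1 / 4) ^ l * nA c₁ p j i k m l) := by
  have hs : 0 ≤ sA p j m l := by
    have := ee_pos p j
    have := DD_pos p j m l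
    unfold sA
    positivity
  have hq := qq_pos p i
  rw [sqrt_w (by positivity)]
  have h1 : (2 : ℝ) ^ m * (1 / 2) ^ l ≤ 1 := by
    have h2 : (1 / 2 : ℝ) ^ l ≤ (1 / 2) ^ m :=
      pow_le_pow_of_le_one (by norm_num) (by norm_num) (by have := hr.1; omega)
    calc (2 : ℝ) ^ m * (1 / 2) ^ l ≤ 2 ^ m * (1 / 2) ^ m := by gcongr
      _ = 1 := by rw [← mul_pow]; norm_num
  have h3 : 0 ≤ 2 ^ k * sA p j m l * (qq p i)⁻¹ * √(dl c₁ p j)
        * √(qq p i ^ 3 * (1 / 4) ^ l * nA c₁ p j i k m l) := by (clear * - hs hq; positivity)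
  calc _ = (2 ^ m * (1 / 2) ^ l) * (2 ^ k * sA p j m l * (qq p i)⁻¹ * √(dl c₁ p j)
        * √(qq p i ^ 3 * (1 / 4) ^ l * nA c₁ p j i k m l)) := by ring
    _ ≤ 1 * (2 ^ k * sA p j m l * (qq p i)⁻¹ * √(dl c₁ p j)
        * √(qq p i ^ 3 * (1 / 4) ^ l * nA c₁ p j i k m l)) := by (clear * - hs hq h1; gcongr)
    _ = _ := one_mul _

lemma nearD_term :
    √(dl c₁ p j) * √((2 ^ k * sD p j m * (qq p i)⁻¹) ^ 2
        * (qq p i ^ 3 * (1 / 4) ^ l * nD c₁ p j i k m l))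
      ≤ 2 ^ k * sD p j m * (qq p i)⁻¹ * √(dl c₁ p j)
        * √(qq p i ^ 3 * (1 / 4) ^ l * nD c₁ p j i k m l) := by
  have hs : 0 ≤ sD p j m := by
    have := ee_pos p j
    unfold sD
    positivity
  have hq := qq_pos p i
  rw [sqrt_w (by positivity)]
  apply le_of_eq
  ring

end

end Vale.Agent.P107.Ar.Sb

namespace Vale.Agent.P107.Ar

open Sg Tl Sb

open Classical in
theorem statSb : StatSb := by
  obtain ⟨C, hC, hSg⟩ := statSg
  refine ⟨C + 2501, by positivity, fun c₁ hc hc1 => ?_⟩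
  obtain ⟨p₁, hp₁⟩ := hSg c₁ hc hc1
  obtain ⟨p₂, hp₂⟩ := slack_total hc
  refine ⟨max p₁ p₂, fun p hp j h12 => ?_⟩
  obtain ⟨hgA, -, hgD⟩ := hp₁ p ((le_max_left _ _).trans hp) j h12
  have hX0 : 0 ≤ √c₁ * qq p j := mul_nonneg (Real.sqrt_nonneg _) (qq_pos p j).le
  have hslack := hp₂ p ((le_max_right _ _).trans hp) j
    (fun k m l i => if m < p + 4 ∧ i < p + 1 then
      ENNReal.ofReal (2 * E (sl c₁ p j k l)) else 0)
    (fun k m l i hm hi => by rw [if_pos ⟨hm, hi⟩]; exact le_rfl)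
    (fun k m l i hmi => by rw [if_neg hmi])
  have hfin : ∀ D : ℝ, 0 ≤ D → D ≤ C + 2500 →
      ENNReal.ofReal (D * √c₁ * qq p j) + ENNReal.ofReal (√c₁ * qq p j)
      ≤ ENNReal.ofReal ((C + 2501) * √c₁ * qq p j) := by
    intro D hD0 hD
    rw [← ENNReal.ofReal_add (by rw [mul_assoc]; positivity) hX0]
    apply ENNReal.ofReal_le_ofReal
    nlinarith only [hX0, hD]
  have hn := qq_pos
  refine ⟨?_, ?_, ?_⟩
  · refine le_trans (add_le_add ?_ ?_) (hfin C hC.le (by linarith only []))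
    · refine (near_le (r := fun m l i => rA p j i m l) (fun k m l i => ?_)
        (fun k m l i hr => nearA_term hr)).trans hgA
      have := (nA_pos (c₁ := c₁) (p := p) (j := j) (i := i) (k := k) (m := m) (l := l) hc).le
      have := hn p i
      positivity
    · refine (far_le (r := fun m l i => rA p j i m l) (fun k m l i => ?_)
        (fun m l i hr => ⟨by have := hr.2.2.1; omega, by have := hr.2.1; omega⟩)
        (fun k m l i hfar hr => farA hc hc1 h12 hfar hr)).trans hslack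
      have := (nA_pos (c₁ := c₁) (p := p) (j := j) (i := i) (k := k) (m := m) (l := l) hc).le
      have := hn p i
      positivity
  · refine le_trans (add_le_add ?_ ?_) (hfin 2500 (by norm_num) (by linarith only [hC]))
    · exact nearN_sum hc hc1 h12 hslack
    · refine (far_le (r := fun m l i => rN p j i m l) (fun k m l i => ?_)
        (fun m l i hr => ⟨by have := hr.2.2.1; omega, by have := hr.2.1; omega⟩)
        (fun k m l i hfar hr => farN hc hc1 h12 hfar hr)).trans hslack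
      have := (nN_pos (c₁ := c₁) (p := p) (j := j) (i := i) (k := k) (m := m) (l := l) hc).le
      have := hn p i
      positivity
  · refine le_trans (add_le_add ?_ ?_) (hfin C hC.le (by linarith only []))
    · refine (near_le (r := fun m n i => rD p j i m n) (fun k m l i => ?_)
        (fun k m l i _ => nearD_term)).trans hgD
      have := (nD_pos (c₁ := c₁) (p := p) (j := j) (i := i) (k := k) (m := m) (l := l) hc).le
      have := hn p i
      positivity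
    · refine (far_le (r := fun m n i => rD p j i m n) (fun k m l i => ?_)
        (fun m l i hr => ⟨by have := hr.2.2.1; omega, by have := hr.2.1; omega⟩)
        (fun k m l i hfar hr => farD hc hc1 h12 hfar hr)).trans hslack
      have := (nD_pos (c₁ := c₁) (p := p) (j := j) (i := i) (k := k) (m := m) (l := l) hc).le
      have := hn p i
      positivity

end Vale.Agent.P107.Ar
end
end
end

section

section

attribute [-instance] ProperSMul.toContinuousSMul IsTopologicalTorsor.toContinuousSMul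
  IdemSemiring.toCanonicallyOrderedAdd IdemSemiring.toMulLeftMono IdemSemiring.toMulRightMono
  AddQuantale.instAddLeftMono AddQuantale.instAddRightMono Quantale.instMulLeftMono
  Quantale.instMulRightMono FiniteDimensional.rclike_to_real IsScalarTower.complexToReal
  FiniteDimensional.complexToReal

section

/-! The explicit sum `StatB`. -/

open Set Filter Topology
open scoped ENNReal NNReal

namespace Vale.Agent.P107.Ar

namespace ArB

lemma two_rpow_pow (n : ℕ) : (2 : ℝ) ^ n = (2 : ℝ) ^ (n : ℝ) := (Real.rpow_natCast 2 n).symm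

lemma half_pow (n : ℕ) : ((1 : ℝ) / 2) ^ n = (2 : ℝ) ^ (-(n : ℝ)) := by
  rw [Real.rpow_neg (by norm_num), Real.rpow_natCast, one_div, inv_pow]

lemma quarter_pow (n : ℕ) : ((1 : ℝ) / 4) ^ n = (2 : ℝ) ^ (-(2 * n : ℝ)) := by
  rw [Real.rpow_neg (by norm_num), show (2 * n : ℝ) = ((2 * n : ℕ) : ℝ) by push_cast; ring,
    Real.rpow_natCast, pow_mul, one_div, inv_pow]
  norm_num

lemma eighth_pow (n : ℕ) : ((1 : ℝ) / 8) ^ n = (2 : ℝ) ^ (-(3 * n : ℝ)) := by
  rw [Real.rpow_neg (by norm_num), show (3 * n : ℝ) = ((3 * n : ℕ) : ℝ) by push_cast; ring,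
    Real.rpow_natCast, pow_mul, one_div, inv_pow]
  norm_num

lemma four_pow (n : ℕ) : (4 : ℝ) ^ n = (2 : ℝ) ^ (2 * n : ℝ) := by
  rw [show (2 * n : ℝ) = ((2 * n : ℕ) : ℝ) by push_cast; ring,
    Real.rpow_natCast, pow_mul]
  norm_num

lemma qq_eq (p i : ℕ) : qq p i = (2 : ℝ) ^ ((p : ℝ) - i) := by
  unfold qq
  rw [Real.rpow_sub (by norm_num), Real.rpow_natCast, Real.rpow_natCast]

lemma ee_eq (p j : ℕ) : ee p j = (2 : ℝ) ^ (-(5 / 8 : ℝ) * ((p : ℝ) - j)) := by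
  unfold ee
  rw [qq_eq, ← Real.rpow_mul (by norm_num)]
  ring_nf

lemma ee_pos (p j : ℕ) : 0 < ee p j := by
  rw [ee_eq]; positivity

lemma DD_pos (p j m l : ℕ) : 0 < DD p j m l := by
  unfold DD
  have := ee_pos p j
  positivity

/-- The kernel. -/
noncomputable def ker (p j m l : ℕ) : ℝ :=
  (1 / 4) ^ j * (1 / 2) ^ l * ((1 / 2) ^ m + ee p j) / DD p j m l

lemma quarter_sq (n : ℕ) : ((1 : ℝ) / 4) ^ n = ((1 / 2) ^ n) ^ 2 := by
  rw [← pow_mul, mul_comm, pow_mul]; norm_num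

lemma DD_ge (p j m l : ℕ) :
    ((1 / 2 : ℝ) ^ l) ^ 2 + ((1 / 2) ^ j) ^ 2 * ((1 / 2) ^ m + ee p j) ^ 2 / 2 ≤ DD p j m l := by
  unfold DD
  rw [quarter_sq l, quarter_sq j, quarter_sq m]
  have h := sq_nonneg ((1 / 2 : ℝ) ^ m - ee p j)
  have h2 : (0 : ℝ) ≤ ((1 / 2) ^ j) ^ 2 := by positivity
  nlinarith only [h]

lemma ker_le1 (p j m l : ℕ) : ker p j m l ≤ (1 / 2) ^ j := by
  unfold ker
  rw [div_le_iff₀ (DD_pos p j m l)]
  have h := DD_ge p j m l
  have he := ee_pos p j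
  set a : ℝ := (1 / 2) ^ l
  set b : ℝ := (1 / 2) ^ j
  set s : ℝ := (1 / 2) ^ m + ee p j
  have ha : 0 < a := by positivity
  have hb : 0 < b := by positivity
  have hs : 0 < s := by positivity
  rw [quarter_sq]
  have h3 : b * a * s ≤ DD p j m l := by
    nlinarith only [h, sq_nonneg (b * s)]
  calc b ^ 2 * a * s = b * (b * a * s) := by ring
    _ ≤ b * DD p j m l := by gcongr

lemma ker_le2 (p j m l : ℕ) : ker p j m l ≤ 2 * (1 / 2) ^ l * 2 ^ m := by
  unfold ker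
  rw [div_le_iff₀ (DD_pos p j m l)]
  have h := DD_ge p j m l
  have he := ee_pos p j
  set a : ℝ := (1 / 2) ^ l
  set b : ℝ := (1 / 2) ^ j
  set s : ℝ := (1 / 2) ^ m + ee p j with hs'
  have ha : 0 < a := by positivity
  have hb : 0 < b := by positivity
  have hs : 0 < s := by positivity
  have hs1 : 1 ≤ 2 ^ m * s := by
    have : (1 : ℝ) = 2 ^ m * (1 / 2) ^ m := by rw [← mul_pow]; norm_num
    calc (1 : ℝ) = 2 ^ m * (1 / 2) ^ m := this
      _ ≤ 2 ^ m * s := by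
        gcongr
        rw [hs']; linarith only [he]
  rw [quarter_sq]
  have h3 : b ^ 2 * s ^ 2 / 2 ≤ DD p j m l := by nlinarith only [h]
  calc b ^ 2 * a * s = b ^ 2 * a * s * 1 := by ring
    _ ≤ b ^ 2 * a * s * (2 ^ m * s) := by (clear * - p j l he hs1; gcongr)
    _ = 2 * a * 2 ^ m * (b ^ 2 * s ^ 2 / 2) := by ring
    _ ≤ 2 * a * 2 ^ m * DD p j m l := by gcongr

lemma ker_nonneg (p j m l : ℕ) : 0 ≤ ker p j m l := by
  unfold ker
  have := ee_pos p j
  have := DD_pos p j m l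
  positivity

/-- The bound of one term. -/
lemma term_le {p j i k m l : ℕ} (h : 12 * j ≤ 5 * p) :
    2 ^ k * ((1 / 4) ^ j * (1 / 2) ^ l * ((1 / 2) ^ m + ee p j) / DD p j m l)
        * min ((1 / 8) ^ k * (1 / 4) ^ m * (1 / 4) ^ l * qq p i ^ 3) (4 ^ l / qq p i) ≤
      2 * ((2 : ℝ) ^ (-(1 / 100 : ℝ))) ^ k * ((2 : ℝ) ^ (-(1 / 100 : ℝ))) ^ p
        * (ee p j * qq p j) := by
  change 2 ^ k * ker p j m l * _ ≤ _
  have hk0 := ker_nonneg p j m l
  have hV : (1 / 8 : ℝ) ^ k * (1 / 4) ^ m * (1 / 4) ^ l * qq p i ^ 3 =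
      2 ^ (-(3 * k : ℝ) - 2 * m - 2 * l + 3 * ((p : ℝ) - i)) := by
    rw [eighth_pow, quarter_pow, quarter_pow, qq_eq, ← Real.rpow_natCast ((2 : ℝ) ^ ((p : ℝ) - i)) 3,
      ← Real.rpow_mul (by norm_num), ← Real.rpow_add (by norm_num), ← Real.rpow_add (by norm_num),
      ← Real.rpow_add (by norm_num)]
    congr 1
    push_cast
    ring
  have hF : (4 : ℝ) ^ l / qq p i = 2 ^ ((2 * l : ℝ) - ((p : ℝ) - i)) := by
    rw [four_pow, qq_eq, ← Real.rpow_sub (by norm_num)]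
  have hK1 : ker p j m l ≤ 2 ^ (-(j : ℝ)) := (ker_le1 p j m l).trans_eq (half_pow j)
  have hK2 : ker p j m l ≤ 2 ^ (1 + (m : ℝ) - l) := by
    refine (ker_le2 p j m l).trans_eq ?_
    rw [half_pow, two_rpow_pow, Real.rpow_sub (by norm_num), Real.rpow_add (by norm_num),
      Real.rpow_neg (by norm_num), Real.rpow_one]
    field_simp
  have hK : ker p j m l ≤ 2 ^ (min (-(j : ℝ)) (1 + (m : ℝ) - l)) := by
    rcases min_choice (-(j : ℝ)) (1 + (m : ℝ) - l) with h1 | h1 <;> rw [h1]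
    · exact hK1
    · exact hK2
  have hN : min ((1 / 8 : ℝ) ^ k * (1 / 4) ^ m * (1 / 4) ^ l * qq p i ^ 3) (4 ^ l / qq p i) ≤
      2 ^ (min (-(3 * k : ℝ) - 2 * m - 2 * l + 3 * ((p : ℝ) - i))
        ((2 * l : ℝ) - ((p : ℝ) - i))) := by
    rw [hV, hF]
    rcases min_choice (-(3 * k : ℝ) - 2 * m - 2 * l + 3 * ((p : ℝ) - i))
      ((2 * l : ℝ) - ((p : ℝ) - i)) with h1 | h1 <;> rw [h1]
    · exact min_le_left _ _
    · exact min_le_right _ _
  have hN0 : 0 ≤ min ((1 / 8 : ℝ) ^ k * (1 / 4) ^ m * (1 / 4) ^ l * qq p i ^ 3)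
      (4 ^ l / qq p i) := by
    have : 0 < qq p i := by rw [qq_eq]; positivity
    (clear * - this; positivity)
  have hR : 2 * ((2 : ℝ) ^ (-(1 / 100 : ℝ))) ^ k * ((2 : ℝ) ^ (-(1 / 100 : ℝ))) ^ p
        * (ee p j * qq p j) =
      2 ^ (1 - (k : ℝ) / 100 - (p : ℝ) / 100 + 3 / 8 * ((p : ℝ) - j)) := by
    rw [ee_eq, qq_eq, ← Real.rpow_natCast _ k, ← Real.rpow_natCast _ p,
      ← Real.rpow_mul (by norm_num), ← Real.rpow_mul (by norm_num), ← Real.rpow_add (by norm_num)]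
    conv_lhs => rw [show (2 : ℝ) * 2 ^ (-(1 / 100 : ℝ) * k) = 2 ^ (1 : ℝ) * 2 ^ (-(1 / 100 : ℝ) * k)
      by rw [Real.rpow_one]]
    rw [← Real.rpow_add (by norm_num), ← Real.rpow_add (by norm_num), ← Real.rpow_add (by norm_num)]
    congr 1
    ring
  rw [hR]
  calc 2 ^ k * ker p j m l * _
      ≤ 2 ^ (k : ℝ) * 2 ^ (min (-(j : ℝ)) (1 + (m : ℝ) - l)) *
        2 ^ (min (-(3 * k : ℝ) - 2 * m - 2 * l + 3 * ((p : ℝ) - i))
        ((2 * l : ℝ) - ((p : ℝ) - i))) := by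
        rw [two_rpow_pow]
        (clear * - hK hN hN0; gcongr)
    _ = 2 ^ ((k : ℝ) + min (-(j : ℝ)) (1 + (m : ℝ) - l) +
        min (-(3 * k : ℝ) - 2 * m - 2 * l + 3 * ((p : ℝ) - i)) ((2 * l : ℝ) - ((p : ℝ) - i))) := by
        rw [← Real.rpow_add (by norm_num), ← Real.rpow_add (by norm_num)]
    _ ≤ _ := by
        apply Real.rpow_le_rpow_of_exponent_le (by norm_num)
        have e1 := min_le_left (-(j : ℝ)) (1 + (m : ℝ) - l)
        have e2 := min_le_right (-(j : ℝ)) (1 + (m : ℝ) - l)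
        have e3 := min_le_left (-(3 * k : ℝ) - 2 * m - 2 * l + 3 * ((p : ℝ) - i))
          ((2 * l : ℝ) - ((p : ℝ) - i))
        have e4 := min_le_right (-(3 * k : ℝ) - 2 * m - 2 * l + 3 * ((p : ℝ) - i))
          ((2 * l : ℝ) - ((p : ℝ) - i))
        have h' : 12 * (j : ℝ) ≤ 5 * p := by exact_mod_cast h
        have hk : (0 : ℝ) ≤ k := by positivity
        have hm : (0 : ℝ) ≤ m := by positivity
        have hl : (0 : ℝ) ≤ l := by positivity
        have hi : (0 : ℝ) ≤ i := by positivity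
        have hp : (0 : ℝ) ≤ p := by positivity
        linarith only [e1, e2, e3, e4, h']

lemma tsum_range {M : ℕ} {f : ℕ → ℝ≥0∞} {b : ℝ≥0∞} (h0 : ∀ n, M ≤ n → f n = 0)
    (hb : ∀ n, f n ≤ b) : ∑' n, f n ≤ M * b := by
  rw [tsum_eq_sum (s := Finset.range M) (fun n hn => h0 n (by simpa using hn))]
  calc ∑ n ∈ Finset.range M, f n ≤ ∑ _n ∈ Finset.range M, b := Finset.sum_le_sum fun n _ => hb n
    _ = M * b := by simp

end ArB

open ArB in
theorem statB : StatB := by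
  intro θ hθ
  set r : ℝ := (2 : ℝ) ^ (-(1 / 100 : ℝ)) with hr
  have hr0 : 0 < r := by positivity
  have hr1 : r < 1 := Real.rpow_lt_one_of_one_lt_of_neg (by norm_num) (by norm_num)
  -- the threshold
  have hlim : Tendsto (fun p : ℕ => ((p : ℝ) ^ 3 * r ^ p) * (125 * 2 * (1 - r)⁻¹)) atTop (𝓝 0) := by
    have := (tendsto_pow_const_mul_const_pow_of_abs_lt_one 3
      (by rw [abs_of_pos hr0]; exact hr1)).mul_const (125 * 2 * (1 - r)⁻¹)
    rwa [zero_mul] at this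
  obtain ⟨p₀, hp₀⟩ := eventually_atTop.mp (hlim.eventually (gt_mem_nhds hθ))
  refine ⟨max p₀ 1, fun p hp j hj => ?_⟩
  have hpp := hp₀ p (le_trans (le_max_left _ _) hp)
  have hp1 : 1 ≤ p := le_trans (le_max_right _ _) hp
  have hq : 0 < ee p j * qq p j := by
    rw [ee_eq, qq_eq]; positivity
  set A : ℝ := 2 * r ^ p * (ee p j * qq p j) with hA
  have hA0 : 0 ≤ A := by positivity
  calc _ ≤ ∑' k : ℕ, (((p + 4 : ℕ) : ℝ≥0∞) * (((p + 4 : ℕ) : ℝ≥0∞) * (((p + 4 : ℕ) : ℝ≥0∞) *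
          (ENNReal.ofReal A * ENNReal.ofReal r ^ k)))) := by
        refine ENNReal.tsum_le_tsum fun k => ?_
        have hb : ∀ m l i : ℕ, (if i ≤ p ∧ m ≤ p - j + 3 ∧ l ≤ p - i + 1 then
            ENNReal.ofReal (2 ^ k * ((1 / 4) ^ j * (1 / 2) ^ l * ((1 / 2) ^ m + ee p j) /
              DD p j m l) * min ((1 / 8) ^ k * (1 / 4) ^ m * (1 / 4) ^ l * qq p i ^ 3)
              (4 ^ l / qq p i)) else 0) ≤ ENNReal.ofReal A * ENNReal.ofReal r ^ k := by
          intro m l i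
          split_ifs with hc
          · rw [← ENNReal.ofReal_pow hr0.le, ← ENNReal.ofReal_mul hA0]
            refine ENNReal.ofReal_le_ofReal ((term_le hj).trans_eq ?_)
            rw [hA]; ring
          · exact zero_le
        refine tsum_range (fun m hm => ?_) fun m => tsum_range (fun l hl => ?_) fun l =>
          tsum_range (fun i hi => ?_) fun i => hb m l i
        · refine ENNReal.tsum_eq_zero.mpr fun l => ENNReal.tsum_eq_zero.mpr fun i => ?_
          rw [if_neg]; omega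
        · refine ENNReal.tsum_eq_zero.mpr fun i => ?_
          rw [if_neg]; omega
        · rw [if_neg]; omega
    _ = ENNReal.ofReal (((p : ℝ) + 4) ^ 3 * A * (1 - r)⁻¹) := by
        rw [ENNReal.tsum_mul_left, ENNReal.tsum_mul_left, ENNReal.tsum_mul_left,
          ENNReal.tsum_mul_left, ENNReal.tsum_geometric]
        have h1 : (1 - ENNReal.ofReal r)⁻¹ = ENNReal.ofReal (1 - r)⁻¹ := by
          rw [ENNReal.ofReal_inv_of_pos (by linarith only [hr1]), ENNReal.ofReal_sub _ hr0.le,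
            ENNReal.ofReal_one]
        have h2 : ((p + 4 : ℕ) : ℝ≥0∞) = ENNReal.ofReal ((p : ℝ) + 4) := by
          rw [← ENNReal.ofReal_natCast]; push_cast; rfl
        rw [h1, h2, ← ENNReal.ofReal_mul hA0, ← ENNReal.ofReal_mul (by positivity),
          ← ENNReal.ofReal_mul (by positivity), ← ENNReal.ofReal_mul (by positivity)]
        congr 1
        ring
    _ ≤ ENNReal.ofReal (θ * (ee p j * qq p j)) := by
        refine ENNReal.ofReal_le_ofReal ?_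
        have hp1' : (1 : ℝ) ≤ p := by exact_mod_cast hp1
        have h3 : ((p : ℝ) + 4) ^ 3 ≤ 125 * (p : ℝ) ^ 3 := by
          have h5 : (p : ℝ) + 4 ≤ 5 * p := by linarith only [hp1']
          calc ((p : ℝ) + 4) ^ 3 ≤ (5 * (p : ℝ)) ^ 3 := by (clear * - hp1 h5; gcongr)
            _ = _ := by ring
        have h1r : 0 < (1 - r)⁻¹ := inv_pos.mpr (by linarith only [hr1])
        calc ((p : ℝ) + 4) ^ 3 * A * (1 - r)⁻¹ ≤ (125 * (p : ℝ) ^ 3) * A * (1 - r)⁻¹ := by (clear * - hr1 j hq h3; gcongr)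
          _ = (((p : ℝ) ^ 3 * r ^ p) * (125 * 2 * (1 - r)⁻¹)) * (ee p j * qq p j) := by
            rw [hA]; ring
          _ ≤ θ * (ee p j * qq p j) := by gcongr

end Vale.Agent.P107.Ar
end
end
end

section

section

attribute [-instance] ProperSMul.toContinuousSMul IsTopologicalTorsor.toContinuousSMul
  IdemSemiring.toCanonicallyOrderedAdd IdemSemiring.toMulLeftMono IdemSemiring.toMulRightMono
  AddQuantale.instAddLeftMono AddQuantale.instAddRightMono Quantale.instMulLeftMono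
  Quantale.instMulRightMono FiniteDimensional.rclike_to_real IsScalarTower.complexToReal
  FiniteDimensional.complexToReal

section

/-!
The change of momentum along a characteristic.
-/

open MeasureTheory Set Filter Topology
open scoped RealInnerProductSpace ENNReal NNReal

namespace Vale.Agent.P107

variable {T : ℝ} {f : ℝ → E3 → E3 → ℝ} {E B : ℝ → E3 → E3}

/-! ### Measurability -/

lemma measurable_dir : Measurable (dir : E3 → E3) := by
  unfold dir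
  exact measurable_norm.inv.smul measurable_id

lemma measurable_al' {X : Type*} [MeasurableSpace X] {p r : X → E3} (hp : Measurable p)
    (hr : Measurable r) : Measurable fun y => al (p y) (r y) := by
  unfold al
  exact measurable_const.add (hr.inner hp)

lemma measurable_khat' {X : Type*} [MeasurableSpace X] {p r s : X → E3} (hp : Measurable p)
    (hr : Measurable r) (hs : Measurable s) : Measurable fun y => khat (p y) (r y) (s y) := by
  unfold khat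
  have h1 : Measurable fun y => p y + r y := hp.add hr
  have h2 : Measurable fun y => p y + s y := hp.add hs
  have h3 : Measurable fun y => ⟪p y + s y, p y + r y⟫ := h2.inner h1
  exact ((measurable_al' hp hs).smul h1).sub (h3.smul hp)

lemma measurable_apply' {X : Type*} [MeasurableSpace X] {p : X → E3} (hp : Measurable p)
    (i : Fin 3) : Measurable fun y => (p y) i :=
  (EuclideanSpace.proj i : E3 →L[ℝ] ℝ).continuous.measurable.comp hp

lemma kerV_kLT (b : E3) (i : Fin 3) : KerV (fun v z => kLT b i (u v) z) := by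
  have k := fun l => kerV_kT l
  have kt : ∀ l m : Fin 3, KerV (fun v z => (u v) l * kT (u v) m z) := fun l m =>
    (kerV_kT m).mul_v (cont_ui l)
  have h1 := ((kerV_kT i).sub (((kt (i + 1) i).sub (kt i (i + 1))).const_mul (b (i + 1)))).add
    (((kt i (i + 2)).sub (kt (i + 2) i)).const_mul (b (i + 2)))
  refine h1.congr ?_ (fun v => by simp [kLT]) (fun v z hz => ?_)
  · unfold kLT
    have hp : Measurable fun w : E3 × E3 => dir w.2 := measurable_dir.comp measurable_snd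
    have hr : Measurable fun w : E3 × E3 => u w.1 := cont_u.measurable.comp measurable_fst
    refine (measurable_snd.norm.inv.pow_const 2).mul (Measurable.mul ?_ ?_)
    · exact (measurable_const.sub (hr.norm.pow_const 2)).div ((measurable_al' hp hr).pow_const 2)
    · exact measurable_apply' ((measurable_khat' hp hr measurable_const).add
        ((measurable_al' hp hr).smul hp)) i
  · exact kLT_eq hz (norm_u_lt_one v) b i

lemma kerV_kLS (b : E3) (i : Fin 3) : KerV (fun v z => kLS b i (u v) z) := by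
  have ks : ∀ l m : Fin 3, KerV (fun v z => (u v) l * kS (u v) m z) := fun l m =>
    (kerV_kS m).mul_v (cont_ui l)
  have h1 := ((kerV_kS i).sub (((ks (i + 1) i).sub (ks i (i + 1))).const_mul (b (i + 1)))).add
    (((ks i (i + 2)).sub (ks (i + 2) i)).const_mul (b (i + 2)))
  refine h1.congr ?_ (fun v => by simp [kLS]) (fun v z hz => ?_)
  · unfold kLS
    have hp : Measurable fun w : E3 × E3 => dir w.2 := measurable_dir.comp measurable_snd
    have hr : Measurable fun w : E3 × E3 => u w.1 := cont_u.measurable.comp measurable_fst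
    refine measurable_snd.norm.inv.mul (Measurable.mul ?_ ?_)
    · exact (measurable_al' hp hr).inv
    · exact measurable_apply' ((measurable_khat' hp hr measurable_const).add
        ((measurable_al' hp hr).smul hp)) i
  · exact kLS_eq hz (norm_u_lt_one v) b i

/-! ### The combined kernels -/

lemma kLT_add_kd (ε e : ℝ) (b c : E3) (i : Fin 3) (a z : E3) :
    kLT b i a z + kd ε e b c i a z = - ((‖z‖⁻¹) ^ 2 * (Theta ε e (dir z) a b c) i) := by
  unfold kLT kd Theta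
  simp only [PiLp.add_apply, PiLp.sub_apply, PiLp.smul_apply, smul_eq_mul]
  ring

lemma kLS_sub_kcr (ε e : ℝ) (b c : E3) (i : Fin 3) {a z : E3} (hz : z ≠ 0) (ha : ‖a‖ < 1) :
    kLS b i a z - kcr ε e b c i a z = kX ε e b c i a z := by
  have hα := KA.al_pos (norm_dir_pl hz) ha
  unfold kLS kcr kc kX Psi
  simp only [PiLp.add_apply, PiLp.sub_apply, PiLp.smul_apply, smul_eq_mul]
  field_simp
  ring

/-- The derivative of the density in direction `(1, b)`. -/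
noncomputable def HD (t₀ : ℝ) (f : ℝ → E3 → E3 → ℝ) (b : E3) (p : ℝ × E3) (v : E3) : ℝ :=
  fderiv ℝ (Gcut (chi t₀) f) (p.1, p.2, v) (1, b, 0)

lemma lateV_HD (h : IsClassicalSolution T f E B) {t₀ : ℝ} (h0 : 0 < t₀) (b : E3) :
    LateV T (HD t₀ f b) :=
  lateV_fderiv h.f_contDiff h.compact_support (by linarith only [h0] : 0 < t₀ / 2)
    ((contDiff_chi t₀).of_le (by norm_num)) (fun _ hs => chi_eq_zero h0 hs)
    (d := fun _ => (1, b, 0)) continuous_const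

/-- The derivative of the momentum correction. -/
lemma bv_kc (h : IsClassicalSolution T f E B) {t₀ : ℝ} (h0 : 0 < t₀) {t : ℝ} (ht : t < T)
    (x : E3) {ε e : ℝ} (hε : 0 < ε) (hε1 : ε ≤ 1) (he : 0 < e) (he1 : e ≤ 1) {b c : E3}
    (hb : ‖b‖ < 1) (hc : ‖c‖ < 1) (i : Fin 3) :
    bv t x (fun v z => kc ε e c i (u v) z) (HD t₀ f b)
      = bv t x (fun v z => kcr ε e b c i (u v) z) (HS (chi t₀) f)
        - bv t x (fun v z => kd ε e b c i (u v) z) (F0 t₀ f) := by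
  have V0 := lateV_F0 h h0
  have VS := lateV_HS h h0
  have VD := lateV_HD h h0 b
  have K1 := kerV_kc hε hε1 he he1 hc i
  have K2 := kerV_kcr hε hε1 he he1 hb hc i
  have K3 := kerV_kd hε hε1 he he1 hb hc i
  unfold bv
  rw [← K1.swap VD ht x, ← K2.swap VS ht x, ← K3.swap V0 ht x]
  have i2 : Integrable (fun v => br t x (fun z => kcr ε e b c i (u v) z)
      (fun p => HS (chi t₀) f p v)) := (K2.integrable VS ht x).integral_prod_left
  have i3 : Integrable (fun v => br t x (fun z => kd ε e b c i (u v) z)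
      (fun p => F0 t₀ f p v)) := (K3.integrable V0 ht x).integral_prod_left
  rw [← integral_sub i2 i3]
  refine integral_congr_ae (ae_of_all _ fun v => ?_)
  have h1 := kc_ibp (late_F0 h h0 v) ht x hε hε1 he he1 (norm_u_lt_one v) hb hc i
  rw [br_congr ht x (fun p hp => DF0 h h0 v hp b), br_congr ht x (fun p hp => SF0 h h0 v hp)] at h1
  exact h1

/-- The Lorentz force plus the derivative of the momentum correction. -/
theorem repr_sum (h : IsClassicalSolution T f E B) {t₀ : ℝ} (h0 : 0 < t₀) {t : ℝ}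
    (ht0 : t₀ ≤ t) (ht : t < T) (x : E3) {ε e : ℝ} (hε : 0 < ε) (hε1 : ε ≤ 1) (he : 0 < e)
    (he1 : e ≤ 1) {b c : E3} (hb : ‖b‖ < 1) (hc : ‖c‖ < 1) (i : Fin 3) :
    sph.real univ * (E t x + cross b (B t x)) i
        + bv t x (fun v z => kc ε e c i (u v) z) (HD t₀ f b)
      = bv t x (fun v z => (‖z‖⁻¹) ^ 2 * (Theta ε e (dir z) (u v) b c) i) (F0 t₀ f)
      - bv t x (fun v z => kX ε e b c i (u v) z) (HS (chi t₀) f) - DtermL t₀ E B t x b i := by
  have V0 := lateV_F0 h h0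
  have VS := lateV_HS h h0
  have K2 := kerV_kcr hε hε1 he he1 hb hc i
  have K3 := kerV_kd hε hε1 he he1 hb hc i
  have r1 := reprL h h0 ht0 ht x b i
  have r2 := bv_kc h h0 ht x hε hε1 he he1 hb hc i
  have e1 : bv t x (fun v z => (‖z‖⁻¹) ^ 2 * (Theta ε e (dir z) (u v) b c) i) (F0 t₀ f)
      = - (bv t x (fun v z => kLT b i (u v) z) (F0 t₀ f)
        + bv t x (fun v z => kd ε e b c i (u v) z) (F0 t₀ f)) := by
    rw [← bv_add (kerV_kLT b i) K3 V0 ht x, ← neg_one_mul, ← bv_const_mul]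
    refine bv_congr x fun v z _ => ?_
    rw [kLT_add_kd]
    ring
  have e2 : bv t x (fun v z => kX ε e b c i (u v) z) (HS (chi t₀) f)
      = bv t x (fun v z => kLS b i (u v) z) (HS (chi t₀) f)
        - bv t x (fun v z => kcr ε e b c i (u v) z) (HS (chi t₀) f) := by
    rw [← bv_sub (kerV_kLS b i) K2 VS ht x]
    exact (bv_congr x fun v z hz => kLS_sub_kcr ε e b c i hz (norm_u_lt_one v)).symm
  rw [r2, e1, e2]
  linear_combination - r1

/-! ### Bounds -/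

lemma ofReal_F0_le (h : IsClassicalSolution T f E B) {t₀ : ℝ} (h0 : 0 < t₀) {t : ℝ}
    (ht : t < T) (x z v : E3) :
    ENNReal.ofReal |F0 t₀ f (rp t x z) v| ≤ fl (t₀ / 2) T f (t - ‖z‖) (x + z) v := by
  have hz := norm_nonneg z
  unfold fl F0 rp
  by_cases h1 : t₀ / 2 ≤ t - ‖z‖
  · have h2 : t - ‖z‖ < T := by linarith only [ht, hz]
    have hf := h.f_nonneg (t - ‖z‖) ⟨by linarith only [h0, h1], h2⟩ (x + z) v
    rw [if_pos ⟨h1, h2⟩]
    apply ENNReal.ofReal_le_ofReal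
    simp only
    rw [abs_of_nonneg (mul_nonneg (chi_nonneg _ _) hf)]
    calc chi t₀ (t - ‖z‖) * f (t - ‖z‖) (x + z) v ≤ 1 * f (t - ‖z‖) (x + z) v := by
          gcongr
          exact chi_le_one _ _
      _ = _ := one_mul _
  · push Not at h1
    simp only
    rw [chi_eq_zero h0 h1.le, zero_mul, abs_zero, ENNReal.ofReal_zero]
    exact zero_le

/-- Pointwise bounds of the kernel give bounds of brackets with the density. -/
lemma ofReal_bv_F0_le (h : IsClassicalSolution T f E B) {t₀ : ℝ} (h0 : 0 < t₀) {t : ℝ}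
    (ht : t < T) (x : E3) {κ : E3 → E3 → ℝ} {g : E3 → E3 → ℝ≥0∞}
    (hg : ∀ v, ∀ z ≠ 0, ENNReal.ofReal |κ v z| ≤ g z v) :
    ENNReal.ofReal |bv t x κ (F0 t₀ f)| ≤ coneInt (t₀ / 2) T f t x g := by
  unfold bv coneInt
  have e1 : ∀ {G : E3 → ℝ}, ENNReal.ofReal |∫ z, G z| ≤ ∫⁻ z, ENNReal.ofReal |G z| := by
    intro G
    have := enorm_integral_le_lintegral_enorm (μ := (volume : Measure E3)) G
    simpa only [Real.enorm_eq_ofReal_abs] using this
  refine e1.trans ?_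
  refine lintegral_mono_ae ?_
  filter_upwards [ae_ne_zero] with z hz
  refine e1.trans ?_
  refine lintegral_mono fun v => ?_
  rw [abs_mul, ENNReal.ofReal_mul (abs_nonneg _)]
  exact mul_le_mul' (hg v z hz) (ofReal_F0_le h h0 ht x z v)

lemma DtermL_bound (h : IsClassicalSolution T f E B) {t₀ : ℝ} (h0 : 0 < t₀) (h0T : t₀ < T)
    (R : ℝ) : ∃ C, 0 ≤ C ∧ ∀ t < T, ∀ x : E3, ‖x‖ ≤ R → ∀ b : E3, ‖b‖ ≤ 1 → ∀ i : Fin 3,
      |DtermL t₀ E B t x b i| ≤ C := by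
  have hη4 : 0 < t₀ / 4 := by linarith only [h0]
  have hc' : ContDiff ℝ 1 (deriv (chi t₀)) := contDiff_deriv_chi t₀
  have hcv' : ∀ s ≤ t₀ / 4, deriv (chi t₀) s = 0 := fun s hs => deriv_chi_early h0 hs
  have LE' := fun i => late_cut h.E_contDiff hη4 hc' hcv' i
  have LB' := fun i => late_cut h.B_contDiff hη4 hc' hcv' i
  have eE : ∀ i : Fin 3, ∀ p : ℝ × E3, t₀ < p.1 → deriv (chi t₀) p.1 * E p.1 p.2 i = 0 :=
    fun i p hp => by rw [deriv_chi_late h0 hp, zero_mul]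
  have eB : ∀ i : Fin 3, ∀ p : ℝ × E3, t₀ < p.1 → deriv (chi t₀) p.1 * B p.1 p.2 i = 0 :=
    fun i p hp => by rw [deriv_chi_late h0 hp, zero_mul]
  have b1 : ∀ i j k : Fin 3, ∃ C, 0 ≤ C ∧ ∀ t < T, ∀ x : E3, ‖x‖ ≤ R →
      |Dterm t₀ E B t x i j k| ≤ C := by
    intro i j k
    obtain ⟨C1, h1, hC1⟩ := early_br_bound h0T (LE' i).ptd_lateC (ptd_early (eE i)) ker_k1 R
    obtain ⟨C2, h2, hC2⟩ := early_br_bound h0T (LB' k).lateC (eB _) (ker_k3 j) R
    obtain ⟨C3, h3, hC3⟩ := early_br_bound h0T (LB' j).lateC (eB _) (ker_k3 k) R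
    obtain ⟨C4, h4, hC4⟩ := early_br_bound h0T (LB' k).ptd_lateC (ptd_early (eB _))
      (ker_k2l j) R
    obtain ⟨C5, h5, hC5⟩ := early_br_bound h0T (LB' j).ptd_lateC (ptd_early (eB _))
      (ker_k2l k) R
    refine ⟨C1 + C2 + C3 + C4 + C5, by (clear * - h1 h2 h3 h4 h5; positivity), fun t ht x hx => ?_⟩
    have a1 := abs_le.1 (hC1 t ht x hx)
    have a2 := abs_le.1 (hC2 t ht x hx)
    have a3 := abs_le.1 (hC3 t ht x hx)
    have a4 := abs_le.1 (hC4 t ht x hx)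
    have a5 := abs_le.1 (hC5 t ht x hx)
    unfold Dterm
    rw [abs_le]
    constructor <;> linarith only [a1.2, a2.2, a3.1, a4.2, a5.1, a1.1, a2.1, a3.2, a4.1, a5.2]
  have b2 : ∀ i j k : Fin 3, ∃ C, 0 ≤ C ∧ ∀ t < T, ∀ x : E3, ‖x‖ ≤ R →
      |DtermB t₀ E B t x i j k| ≤ C := by
    intro i j k
    obtain ⟨C1, h1, hC1⟩ := early_br_bound h0T (LB' i).ptd_lateC (ptd_early (eB i)) ker_k1 R
    obtain ⟨C2, h2, hC2⟩ := early_br_bound h0T (LE' k).lateC (eE _) (ker_k3 j) R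
    obtain ⟨C3, h3, hC3⟩ := early_br_bound h0T (LE' j).lateC (eE _) (ker_k3 k) R
    obtain ⟨C4, h4, hC4⟩ := early_br_bound h0T (LE' k).ptd_lateC (ptd_early (eE _))
      (ker_k2l j) R
    obtain ⟨C5, h5, hC5⟩ := early_br_bound h0T (LE' j).ptd_lateC (ptd_early (eE _))
      (ker_k2l k) R
    refine ⟨C1 + C2 + C3 + C4 + C5, by (clear * - h1 h2 h3 h4 h5; positivity), fun t ht x hx => ?_⟩
    have a1 := abs_le.1 (hC1 t ht x hx)
    have a2 := abs_le.1 (hC2 t ht x hx)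
    have a3 := abs_le.1 (hC3 t ht x hx)
    have a4 := abs_le.1 (hC4 t ht x hx)
    have a5 := abs_le.1 (hC5 t ht x hx)
    unfold DtermB
    rw [abs_le]
    constructor <;> linarith only [a1.1, a2.2, a3.1, a4.2, a5.1, a1.2, a2.1, a3.2, a4.1, a5.2]
  choose C1 hC10 hC1 using b1
  choose C2 hC20 hC2 using b2
  refine ⟨∑ i : Fin 3, (C1 i (i + 1) (i + 2) + C2 (i + 2) i (i + 1) + C2 (i + 1) (i + 2) i),
    Finset.sum_nonneg fun i _ => add_nonneg (add_nonneg (hC10 _ _ _) (hC20 _ _ _)) (hC20 _ _ _),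
    fun t ht x hx b hb i => ?_⟩
  refine le_trans ?_ (Finset.single_le_sum (f := fun i : Fin 3 =>
    C1 i (i + 1) (i + 2) + C2 (i + 2) i (i + 1) + C2 (i + 1) (i + 2) i)
    (fun i _ => add_nonneg (add_nonneg (hC10 _ _ _) (hC20 _ _ _)) (hC20 _ _ _))
    (Finset.mem_univ i))
  unfold DtermL
  have hbj := abs_component_le_one hb (i + 1)
  have hbk := abs_component_le_one hb (i + 2)
  have a1 := hC1 i (i + 1) (i + 2) t ht x hx
  have a2 := hC2 (i + 2) i (i + 1) t ht x hx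
  have a3 := hC2 (i + 1) (i + 2) i t ht x hx
  refine (abs_add_le _ _).trans (add_le_add ((abs_sub _ _).trans (add_le_add a1 ?_)) ?_)
  · rw [abs_mul]
    calc |b (i + 1)| * |DtermB t₀ E B t x (i + 2) i (i + 1)| ≤ 1 * C2 (i + 2) i (i + 1) := by
          (clear * - hbj a2; gcongr)
      _ = _ := one_mul _
  · rw [abs_mul]
    calc |b (i + 2)| * |DtermB t₀ E B t x (i + 1) (i + 2) i| ≤ 1 * C2 (i + 1) (i + 2) i := by
          (clear * - hbk a3; gcongr)
      _ = _ := one_mul _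

lemma LateV.abs {H : ℝ × E3 → E3 → ℝ} (h : LateV T H) : LateV T (fun p v => |H p v|) := by
  refine ⟨h.cont.abs, fun p hp v => by rw [h.vanish p hp v, abs_zero], fun t ht => ?_⟩
  obtain ⟨R, hR⟩ := h.supp t ht
  exact ⟨R, fun p hp v hv => by rw [hR p hp v hv, abs_zero]⟩

/-- The bound of the terms of order one. -/
lemma kX_term_bound (h : IsClassicalSolution T f E B) {t₀ : ℝ} (h0 : 0 < t₀) (h0T : t₀ < T)
    (R₀ : ℝ) : ∃ C : ℝ≥0, ∀ t < T, ∀ x : E3, ‖x‖ ≤ R₀ → ∀ (ε e : ℝ), 0 < ε → ε ≤ 1 →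
      ∀ b c : E3, ‖b‖ < 1 → ‖c‖ < 1 → ∀ i : Fin 3,
      ENNReal.ofReal |bv t x (fun v z => kX ε e b c i (u v) z) (HS (chi t₀) f)| ≤ C
        + coneInt (t₀ / 2) T f t x (fun z v => ENNReal.ofReal (‖z‖⁻¹
          * ‖fderiv ℝ (fun v => Psi ε e (dir z) (u v) b c) v
            (lor (E (t - ‖z‖) (x + z)) (B (t - ‖z‖) (x + z)) v)‖)) := by
  have hη2 : 0 < t₀ / 2 := by linarith only [h0]
  have hη4 : 0 < t₀ / 4 := by linarith only [h0]
  have hc1 : ContDiff ℝ 1 (chi t₀) := (contDiff_chi t₀).of_le (by norm_num)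
  have hc' : ContDiff ℝ 1 (deriv (chi t₀)) := contDiff_deriv_chi t₀
  have hcv : ∀ s ≤ t₀ / 2, chi t₀ s = 0 := fun s hs => chi_eq_zero h0 hs
  have hcv' : ∀ s ≤ t₀ / 4, deriv (chi t₀) s = 0 := fun s hs => deriv_chi_early h0 hs
  have V0' := lateV_H0 h.f_contDiff h.compact_support hη4 hc' hcv'
  have V0a := V0'.abs
  obtain ⟨R', hR'⟩ := V0'.supp t₀ h0T
  obtain ⟨C1, hC10, hC1⟩ := early_kerV_bound h0T V0a (fun p hp v => by
    rw [deriv_chi_late h0 hp, zero_mul, abs_zero]) ker_k1.kerV R₀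
  set K : ℝ := 1 + (2 * (1 + |R'|) ^ 2) * (8 + 2 * ((2 * (1 + |R'|) ^ 2) * 8)) with hK
  have hK0 : 0 ≤ K := by (clear * - R'; positivity)
  refine ⟨Real.toNNReal (K * C1), fun t ht x hx ε e hε hε1 b c hb hc i => ?_⟩
  -- the majorant of the early term
  set m : E3 → ℝ := fun z => K * ∫ v, k1 z * |deriv (chi t₀) (rp t x z).1
    * f (rp t x z).1 (rp t x z).2 v| with hm
  have hmint : Integrable m :=
    ((ker_k1.kerV.integrable V0a ht x).integral_prod_right).const_mul K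
  have hm0 : ∀ z, 0 ≤ m z := fun z => mul_nonneg hK0 (integral_nonneg fun v =>
    mul_nonneg (inv_nonneg.2 (norm_nonneg z)) (abs_nonneg _))
  have hmle : ∫⁻ z, ENNReal.ofReal (m z) ≤ (Real.toNNReal (K * C1) : ℝ≥0∞) := by
    rw [← ofReal_integral_eq_lintegral_ofReal hmint (ae_of_all _ hm0)]
    refine ENNReal.ofReal_le_ofReal ?_
    rw [hm, integral_const_mul]
    gcongr
    exact (le_abs_self _).trans (hC1 t ht x hx)
  have e1 : ∀ {G : E3 → ℝ}, ENNReal.ofReal |∫ z, G z| ≤ ∫⁻ z, ENNReal.ofReal |G z| := by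
    intro G
    have := enorm_integral_le_lintegral_enorm (μ := (volume : Measure E3)) G
    simpa only [Real.enorm_eq_ofReal_abs] using this
  refine le_trans ?_ (add_le_add hmle le_rfl)
  unfold coneInt
  rw [← lintegral_add_left' hmint.aestronglyMeasurable.aemeasurable.ennreal_ofReal]
  unfold bv
  refine e1.trans (lintegral_mono_ae ?_)
  filter_upwards [ae_ne_zero] with z hz
  have hτ : t - ‖z‖ < T := by linarith only [ht, norm_nonneg z]
  set g : E3 → ℝ := fun v => chi t₀ (t - ‖z‖) * f (t - ‖z‖) (x + z) v with hg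
  set g' : E3 → ℝ := fun v => deriv (chi t₀) (t - ‖z‖) * f (t - ‖z‖) (x + z) v with hg'
  set Λ : E3 → ℝ := fun v => kX ε e b c i (u v) z with hΛ
  set F : E3 → E3 := lor (E (t - ‖z‖) (x + z)) (B (t - ‖z‖) (x + z)) with hF
  have V0 := lateV_F0 h h0
  have hgC : ContDiff ℝ 1 g :=
    contDiff_slice h.f_contDiff hη2 hc1 hcv (p := (t - ‖z‖, x + z)) hτ
  have hgs : HasCompactSupport g := by
    obtain ⟨R, hR⟩ := V0.supp t ht
    refine HasCompactSupport.intro (isCompact_closedBall (0 : E3) R) fun v hv => ?_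
    rw [Metric.mem_closedBall, dist_zero_right, not_le] at hv
    exact hR (t - ‖z‖, x + z) (by simp) v hv
  have hgC' : ContDiff ℝ 1 g' :=
    contDiff_slice h.f_contDiff hη4 hc' hcv' (p := (t - ‖z‖, x + z)) hτ
  have hgs' : HasCompactSupport g' := by
    obtain ⟨R, hR⟩ := V0'.supp t ht
    refine HasCompactSupport.intro (isCompact_closedBall (0 : E3) R) fun v hv => ?_
    rw [Metric.mem_closedBall, dist_zero_right, not_le] at hv
    exact hR (t - ‖z‖, x + z) (by simp) v hv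
  have hΛC : ContDiff ℝ 1 Λ := contDiff_kX_u hz hc hε b i
  have hFC : Continuous F := (contDiff_lor _ _).continuous
  have i1 : Integrable fun v => Λ v * g' v :=
    (hΛC.continuous.mul hgC'.continuous).integrable_of_hasCompactSupport hgs'.mul_left
  have i2 : Integrable fun v => Λ v * fderiv ℝ g v (F v) := by
    refine (hΛC.continuous.mul ((hgC.continuous_fderiv (by norm_num)).clm_apply hFC)
      ).integrable_of_hasCompactSupport ?_
    refine HasCompactSupport.mul_left ?_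
    refine (hgs.fderiv (𝕜 := ℝ)).mono' ?_
    intro v hv
    by_contra hne
    have : fderiv ℝ g v = 0 := by
      by_contra h3
      exact hne (subset_tsupport _ h3)
    rw [Function.mem_support, this] at hv
    simp at hv
  have e2 : ∀ v, kX ε e b c i (u v) z * HS (chi t₀) f (rp t x z) v
      = Λ v * g' v - Λ v * fderiv ℝ g v (F v) := by
    intro v
    rw [HS_eq h hη2 hc1 hcv (p := rp t x z) hτ v]
    simp only [rp, hg, hg', hΛ, hF]
    ring
  rw [integral_congr_ae (ae_of_all _ e2), integral_sub i1 i2, S_ibp_gen hgC hgs hΛC, sub_neg_eq_add]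
  have e3 : |∫ v, Λ v * g' v| ≤ m z := by
    rw [hm]
    simp only
    rw [← integral_const_mul, ← Real.norm_eq_abs]
    refine norm_integral_le_of_norm_le ?_ (ae_of_all _ fun v => ?_)
    · refine Integrable.const_mul (Integrable.const_mul ?_ _) _
      exact (hgC'.continuous.abs).integrable_of_hasCompactSupport
        (hgs'.comp_left (g := fun y : ℝ => |y|) abs_zero)
    · rw [norm_mul, Real.norm_eq_abs, Real.norm_eq_abs]
      simp only [rp]
      by_cases hv : R' < ‖v‖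
      · have h4 : g' v = 0 := by
          by_cases h5 : t - ‖z‖ ≤ t₀
          · exact hR' (t - ‖z‖, x + z) h5 v hv
          · push Not at h5
            simp only [hg']
            rw [deriv_chi_late h0 h5, zero_mul]
        rw [h4, abs_zero, mul_zero]
        exact mul_nonneg hK0 (mul_nonneg (inv_nonneg.2 (norm_nonneg z)) (abs_nonneg _))
      · push Not at hv
        have h4 := abs_kX_le (e := e) hz hb hc hε hε1 i hv
        calc |Λ v| * |g' v| ≤ (K * ‖z‖⁻¹) * |g' v| := by (clear * - h4; gcongr)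
          _ = _ := by simp only [k1, hg']; ring
  have e4 : ENNReal.ofReal |∫ v, g v * fderiv ℝ Λ v (F v)|
      ≤ ∫⁻ v, ENNReal.ofReal (‖z‖⁻¹ * ‖fderiv ℝ (fun v => Psi ε e (dir z) (u v) b c) v (F v)‖)
        * fl (t₀ / 2) T f (t - ‖z‖) (x + z) v := by
    refine e1.trans (lintegral_mono fun v => ?_)
    rw [abs_mul, ENNReal.ofReal_mul (abs_nonneg _), mul_comm]
    refine mul_le_mul' (ENNReal.ofReal_le_ofReal ?_) (ofReal_F0_le h h0 ht x z v)
    exact fderiv_kX_u hz hc hε b i v (F v)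
  calc ENNReal.ofReal |(∫ v, Λ v * g' v) + ∫ v, g v * fderiv ℝ Λ v (F v)|
      ≤ ENNReal.ofReal (|∫ v, Λ v * g' v| + |∫ v, g v * fderiv ℝ Λ v (F v)|) :=
        ENNReal.ofReal_le_ofReal (abs_add_le _ _)
    _ = ENNReal.ofReal |∫ v, Λ v * g' v| + ENNReal.ofReal |∫ v, g v * fderiv ℝ Λ v (F v)| :=
        ENNReal.ofReal_add (abs_nonneg _) (abs_nonneg _)
    _ ≤ _ := add_le_add (ENNReal.ofReal_le_ofReal e3) e4

/-! ### Assembly -/

lemma coneInt_mono {ta : ℝ} {s : ℝ} {x : E3} {g g' : E3 → E3 → ℝ≥0∞}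
    (hg : ∀ z ≠ 0, ∀ v, g z v ≤ g' z v) : coneInt ta T f s x g ≤ coneInt ta T f s x g' := by
  unfold coneInt
  refine lintegral_mono_ae ?_
  filter_upwards [ae_ne_zero] with z hz
  exact lintegral_mono fun v => mul_le_mul' (hg z hz v) le_rfl

lemma coneInt_const_mul {ta : ℝ} {s : ℝ} {x : E3} {g : E3 → E3 → ℝ≥0∞} {C : ℝ≥0∞} (hC : C ≠ ⊤) :
    coneInt ta T f s x (fun z v => C * g z v) = C * coneInt ta T f s x g := by
  unfold coneInt
  rw [← lintegral_const_mul' _ _ hC]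
  refine lintegral_congr fun z => ?_
  rw [← lintegral_const_mul' _ _ hC]
  refine lintegral_congr fun v => ?_
  rw [mul_assoc]

lemma coneInt_add_le {ta : ℝ} {s : ℝ} {x : E3} (g g' : E3 → E3 → ℝ≥0∞) :
    coneInt ta T f s x g + coneInt ta T f s x g' ≤ coneInt ta T f s x (fun z v => g z v + g' z v) := by
  unfold coneInt
  refine (le_lintegral_add _ _).trans (lintegral_mono fun z => ?_)
  refine (le_lintegral_add _ _).trans (lintegral_mono fun v => ?_)
  rw [add_mul]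

lemma norm_le_sum (x : E3) : ‖x‖ ≤ ∑ i : Fin 3, |x i| := by
  have h1 : x = ∑ i, (x i) • ee i := by
    ext m
    simp [Finset.sum_apply, Pi.single_apply]
  calc ‖x‖ = ‖∑ i, (x i) • ee i‖ := by rw [← h1]
    _ ≤ ∑ i, ‖(x i) • ee i‖ := norm_sum_le _ _
    _ = _ := by
      refine Finset.sum_congr rfl fun i _ => ?_
      rw [norm_smul, Real.norm_eq_abs]
      simp

/-- R. The change of momentum along a characteristic. -/
theorem path_bound {T : ℝ} {f : ℝ → E3 → E3 → ℝ} {E B : ℝ → E3 → E3}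
    (h : IsClassicalSolution T f E B) {t₀ : ℝ} (h0 : 0 < t₀) (h0T : t₀ < T) (R₀ : ℝ) :
    ∃ C : ℝ≥0, ∀ (ε e : ℝ), 0 < ε → ε ≤ 1 → 0 < e → e ≤ 1 →
      ∀ (X V : ℝ → E3) (t₁ t₂ : ℝ), t₀ ≤ t₁ → t₁ ≤ t₂ → t₂ < T → IsChar E B X V t₁ t₂ →
      (∀ s ∈ Icc t₁ t₂, ‖X s‖ ≤ R₀) →
      ∀ c : E3, ‖c‖ < 1 → 1 - ‖c‖ ^ 2 ≤ e ^ 2 →
      (∀ s ∈ Icc t₁ t₂, ‖u (V s) - c‖ ≤ e ∧ 1 - ‖u (V s)‖ ^ 2 ≤ e ^ 2) →
      ∀ Bd : ℝ≥0∞, (∀ s ∈ Icc t₁ t₂, coneInt (t₀ / 2) T f s (X s)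
          (fun z v => ENNReal.ofReal (‖z‖⁻¹ * bC ε e (dir z) (u v) (u (V s)))) ≤ Bd) →
      ENNReal.ofReal ‖V t₂ - V t₁‖ ≤ C * Bd + C * ENNReal.ofReal (t₂ - t₁)
        + C * pathInt (t₀ / 2) T f X t₁ t₂ (fun s z v => ENNReal.ofReal
            ((‖z‖⁻¹) ^ 2 * bTT ε e (dir z) (u v) (u (V s))
              + ‖z‖⁻¹ * ((q v)⁻¹ * ‖lor (E (s - ‖z‖) (X s + z)) (B (s - ‖z‖) (X s + z)) v‖
                * bS ε e (dir z) (u v) (u (V s))))) := by
  obtain ⟨C1, hC1, kb1⟩ := ck_bound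
  obtain ⟨C2, hC2, kb2⟩ := Psi_grad_bound
  obtain ⟨C3, hC3, kb3⟩ := Theta_bound
  obtain ⟨CD, hCD, kbD⟩ := DtermL_bound h h0 h0T R₀
  obtain ⟨CX, kbX⟩ := kX_term_bound h h0 h0T R₀
  set c₀ : ℝ := sph.real univ with hc₀
  have hc₀p : 0 < c₀ := sph_pos
  set K : ℝ := max C2 C3 with hK
  have hK0 : 0 ≤ K := hC2.le.trans (le_max_left _ _)
  set A : ℝ := CX + CD with hA
  have hA0 : 0 ≤ A := add_nonneg (NNReal.coe_nonneg CX) hCD
  set L : ℝ := 3 * (c₀⁻¹ * (A + K + 2 * C1)) with hL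
  have hL0 : 0 ≤ L := by (clear * - C1 hC1 C2 hC2 C3 CD hCD CX c₀ hc₀p K A; positivity)
  refine ⟨Real.toNNReal L, fun ε e hε hε1 he he1 X V t₁ t₂ h01 h12 h2T hch hX c hc hce hVs Bd
    hBd => ?_⟩
  -- the integrand
  set g : ℝ → E3 → E3 → ℝ≥0∞ := fun s z v => ENNReal.ofReal
            ((‖z‖⁻¹) ^ 2 * bTT ε e (dir z) (u v) (u (V s))
              + ‖z‖⁻¹ * ((q v)⁻¹ * ‖lor (E (s - ‖z‖) (X s + z)) (B (s - ‖z‖) (X s + z)) v‖
                * bS ε e (dir z) (u v) (u (V s)))) with hg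
  have hsT : ∀ s ∈ Icc t₁ t₂, s < T := fun s hs => lt_of_le_of_lt hs.2 h2T
  -- bound of the right hand side of the representation
  have rho : ∀ s ∈ Icc t₁ t₂, ∀ i : Fin 3,
      ENNReal.ofReal |c₀ * (E s (X s) + cross (u (V s)) (B s (X s))) i
        + bv s (X s) (fun v z => kc ε e c i (u v) z) (HD t₀ f (u (V s)))|
      ≤ ENNReal.ofReal A + ENNReal.ofReal K * coneInt (t₀ / 2) T f s (X s) (g s) := by
    intro s hs i
    have hsT' := hsT s hs
    have hb := norm_u_lt_one (V s)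
    obtain ⟨hbc, hbe⟩ := hVs s hs
    rw [repr_sum h h0 (h01.trans hs.1) hsT' (X s) hε hε1 he he1 hb hc i]
    have p1 : ENNReal.ofReal |bv s (X s) (fun v z => (‖z‖⁻¹) ^ 2
          * (Theta ε e (dir z) (u v) (u (V s)) c) i) (F0 t₀ f)|
        ≤ coneInt (t₀ / 2) T f s (X s) (fun z v => ENNReal.ofReal K * ENNReal.ofReal
          ((‖z‖⁻¹) ^ 2 * bTT ε e (dir z) (u v) (u (V s)))) := by
      refine ofReal_bv_F0_le h h0 hsT' (X s) fun v z hz => ?_
      rw [← ENNReal.ofReal_mul hK0]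
      apply ENNReal.ofReal_le_ofReal
      rw [abs_mul, abs_of_nonneg (by positivity : (0 : ℝ) ≤ (‖z‖⁻¹) ^ 2)]
      have h1 := kb3 ε e (dir z) (u v) (u (V s)) c hε hε1 he he1 (norm_dir_pl hz)
        (norm_u_lt_one v) hb hc hbc hbe hce
      have h2 : 0 ≤ bTT ε e (dir z) (u v) (u (V s)) :=
        nonneg_of_mul_nonneg_right ((norm_nonneg _).trans h1) hC3
      calc (‖z‖⁻¹) ^ 2 * |(Theta ε e (dir z) (u v) (u (V s)) c) i|
          ≤ (‖z‖⁻¹) ^ 2 * (K * bTT ε e (dir z) (u v) (u (V s))) := by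
            refine mul_le_mul_of_nonneg_left ?_ (by positivity)
            exact (abs_component_le _ i).trans (h1.trans
              (mul_le_mul_of_nonneg_right (le_max_right _ _) h2))
        _ = _ := by ring
    have p2 : ENNReal.ofReal |bv s (X s) (fun v z => kX ε e (u (V s)) c i (u v) z)
          (HS (chi t₀) f)|
        ≤ CX + coneInt (t₀ / 2) T f s (X s) (fun z v => ENNReal.ofReal K * ENNReal.ofReal
          (‖z‖⁻¹ * ((q v)⁻¹ * ‖lor (E (s - ‖z‖) (X s + z)) (B (s - ‖z‖) (X s + z)) v‖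
                * bS ε e (dir z) (u v) (u (V s))))) := by
      refine (kbX s hsT' (X s) (hX s hs) ε e hε hε1 (u (V s)) c hb hc i).trans ?_
      refine add_le_add le_rfl (coneInt_mono fun z hz v => ?_)
      rw [← ENNReal.ofReal_mul hK0]
      apply ENNReal.ofReal_le_ofReal
      have h1 := kb2 ε e (dir z) (u (V s)) c v
        (lor (E (s - ‖z‖) (X s + z)) (B (s - ‖z‖) (X s + z)) v) hε hε1 he he1 (norm_dir_pl hz)
        hb hc hbc hbe hce
      have h2 : 0 ≤ (q v)⁻¹ * ‖lor (E (s - ‖z‖) (X s + z)) (B (s - ‖z‖) (X s + z)) v‖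
                * bS ε e (dir z) (u v) (u (V s)) :=
        nonneg_of_mul_nonneg_right ((norm_nonneg _).trans h1) hC2
      calc ‖z‖⁻¹ * ‖fderiv ℝ (fun v => Psi ε e (dir z) (u v) (u (V s)) c) v
            (lor (E (s - ‖z‖) (X s + z)) (B (s - ‖z‖) (X s + z)) v)‖
          ≤ ‖z‖⁻¹ * (K * ((q v)⁻¹ * ‖lor (E (s - ‖z‖) (X s + z)) (B (s - ‖z‖) (X s + z)) v‖
                * bS ε e (dir z) (u v) (u (V s)))) := by
            refine mul_le_mul_of_nonneg_left ?_ (by positivity)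
            exact h1.trans (mul_le_mul_of_nonneg_right (le_max_left _ _) h2)
        _ = _ := by ring
    have p3 : ENNReal.ofReal |DtermL t₀ E B s (X s) (u (V s)) i| ≤ ENNReal.ofReal CD :=
      ENNReal.ofReal_le_ofReal (kbD s hsT' (X s) (hX s hs) (u (V s)) hb.le i)
    -- positivity of the two parts of the integrand
    have q1 : ∀ z ≠ 0, ∀ v, 0 ≤ (‖z‖⁻¹) ^ 2 * bTT ε e (dir z) (u v) (u (V s)) := by
      intro z hz v
      have h1 := kb3 ε e (dir z) (u v) (u (V s)) c hε hε1 he he1 (norm_dir_pl hz)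
        (norm_u_lt_one v) hb hc hbc hbe hce
      have h2 : 0 ≤ bTT ε e (dir z) (u v) (u (V s)) :=
        nonneg_of_mul_nonneg_right ((norm_nonneg _).trans h1) hC3
      positivity
    have q2 : ∀ z ≠ 0, ∀ v, 0 ≤ ‖z‖⁻¹ * ((q v)⁻¹
        * ‖lor (E (s - ‖z‖) (X s + z)) (B (s - ‖z‖) (X s + z)) v‖
                * bS ε e (dir z) (u v) (u (V s))) := by
      intro z hz v
      have h1 := kb2 ε e (dir z) (u (V s)) c v
        (lor (E (s - ‖z‖) (X s + z)) (B (s - ‖z‖) (X s + z)) v) hε hε1 he he1 (norm_dir_pl hz)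
        hb hc hbc hbe hce
      have h2 : 0 ≤ (q v)⁻¹ * ‖lor (E (s - ‖z‖) (X s + z)) (B (s - ‖z‖) (X s + z)) v‖
                * bS ε e (dir z) (u v) (u (V s)) :=
        nonneg_of_mul_nonneg_right ((norm_nonneg _).trans h1) hC2
      exact mul_nonneg (by positivity) h2
    have p4 : coneInt (t₀ / 2) T f s (X s) (fun z v => ENNReal.ofReal K * ENNReal.ofReal
          ((‖z‖⁻¹) ^ 2 * bTT ε e (dir z) (u v) (u (V s))))
        + coneInt (t₀ / 2) T f s (X s) (fun z v => ENNReal.ofReal K * ENNReal.ofReal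
          (‖z‖⁻¹ * ((q v)⁻¹ * ‖lor (E (s - ‖z‖) (X s + z)) (B (s - ‖z‖) (X s + z)) v‖
                * bS ε e (dir z) (u v) (u (V s)))))
        ≤ ENNReal.ofReal K * coneInt (t₀ / 2) T f s (X s) (g s) := by
      refine (coneInt_add_le _ _).trans ?_
      rw [← coneInt_const_mul ENNReal.ofReal_ne_top]
      refine coneInt_mono fun z hz v => ?_
      rw [← mul_add, hg]
      simp only
      rw [ENNReal.ofReal_add (q1 z hz v) (q2 z hz v)]
    calc ENNReal.ofReal |bv s (X s) (fun v z => (‖z‖⁻¹) ^ 2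
          * (Theta ε e (dir z) (u v) (u (V s)) c) i) (F0 t₀ f)
          - bv s (X s) (fun v z => kX ε e (u (V s)) c i (u v) z) (HS (chi t₀) f)
          - DtermL t₀ E B s (X s) (u (V s)) i|
        ≤ ENNReal.ofReal (|bv s (X s) (fun v z => (‖z‖⁻¹) ^ 2
          * (Theta ε e (dir z) (u v) (u (V s)) c) i) (F0 t₀ f)|
          + |bv s (X s) (fun v z => kX ε e (u (V s)) c i (u v) z) (HS (chi t₀) f)|
          + |DtermL t₀ E B s (X s) (u (V s)) i|) :=
          ENNReal.ofReal_le_ofReal ((abs_sub _ _).trans (add_le_add (abs_sub _ _) le_rfl))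
      _ = ENNReal.ofReal |bv s (X s) (fun v z => (‖z‖⁻¹) ^ 2
          * (Theta ε e (dir z) (u v) (u (V s)) c) i) (F0 t₀ f)|
          + ENNReal.ofReal |bv s (X s) (fun v z => kX ε e (u (V s)) c i (u v) z)
            (HS (chi t₀) f)|
          + ENNReal.ofReal |DtermL t₀ E B s (X s) (u (V s)) i| := by
          rw [ENNReal.ofReal_add (by (clear * -; positivity)) (abs_nonneg _),
            ENNReal.ofReal_add (abs_nonneg _) (abs_nonneg _)]
      _ ≤ _ := add_le_add (add_le_add p1 p2) p3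
      _ = (CX + ENNReal.ofReal CD) + (coneInt (t₀ / 2) T f s (X s)
          (fun z v => ENNReal.ofReal K * ENNReal.ofReal
          ((‖z‖⁻¹) ^ 2 * bTT ε e (dir z) (u v) (u (V s))))
        + coneInt (t₀ / 2) T f s (X s) (fun z v => ENNReal.ofReal K * ENNReal.ofReal
          (‖z‖⁻¹ * ((q v)⁻¹ * ‖lor (E (s - ‖z‖) (X s + z)) (B (s - ‖z‖) (X s + z)) v‖
                * bS ε e (dir z) (u v) (u (V s)))))) := by ring
      _ ≤ _ := by
          refine add_le_add (le_of_eq ?_) p4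
          rw [hA, ENNReal.ofReal_add (NNReal.coe_nonneg CX) hCD, ENNReal.ofReal_coe_nnreal]
  -- the momentum correction
  have hbeta : ∀ s ∈ Icc t₁ t₂, ∀ i : Fin 3,
      ENNReal.ofReal |bv s (X s) (fun v z => kc ε e c i (u v) z) (F0 t₀ f)|
        ≤ ENNReal.ofReal C1 * Bd := by
    intro s hs i
    have hb := norm_u_lt_one (V s)
    obtain ⟨hbc, hbe⟩ := hVs s hs
    have h3 : ENNReal.ofReal |bv s (X s) (fun v z => kc ε e c i (u v) z) (F0 t₀ f)|
        ≤ coneInt (t₀ / 2) T f s (X s) (fun z v => ENNReal.ofReal C1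
          * ENNReal.ofReal (‖z‖⁻¹ * bC ε e (dir z) (u v) (u (V s)))) := by
      refine ofReal_bv_F0_le h h0 (hsT s hs) (X s) fun v z hz => ?_
      rw [← ENNReal.ofReal_mul hC1.le]
      apply ENNReal.ofReal_le_ofReal
      have h1 := kb1 ε e (dir z) (u v) (u (V s)) c hε hε1 he he1 (norm_dir_pl hz)
        (norm_u_lt_one v) hb hc hbc hbe hce
      unfold kc
      rw [abs_mul, abs_of_nonneg (by positivity : (0 : ℝ) ≤ ‖z‖⁻¹)]
      calc ‖z‖⁻¹ * |(ck ε e (dir z) (u v) c) i|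
          ≤ ‖z‖⁻¹ * (C1 * bC ε e (dir z) (u v) (u (V s))) :=
            mul_le_mul_of_nonneg_left ((abs_component_le _ i).trans h1) (by positivity)
        _ = _ := by ring
    refine h3.trans ?_
    rw [coneInt_const_mul ENNReal.ofReal_ne_top]
    exact mul_le_mul' le_rfl (hBd s hs)
  -- integration in time
  have hcomp : ∀ i : Fin 3, ENNReal.ofReal |(V t₂ - V t₁) i| ≤ ENNReal.ofReal c₀⁻¹
      * (ENNReal.ofReal A * ENNReal.ofReal (t₂ - t₁)
        + ENNReal.ofReal K * pathInt (t₀ / 2) T f X t₁ t₂ g + 2 * (ENNReal.ofReal C1 * Bd)) := by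
    intro i
    obtain ⟨hcont, hder⟩ := hasDerivAt_path h h0 (kerV_kc hε hε1 he he1 hc i) h12 h2T hch.hX
    set β : ℝ → ℝ := fun s => bv s (X s) (fun v z => kc ε e c i (u v) z) (F0 t₀ f) with hβ
    set φ : ℝ → ℝ := fun s => c₀ * (V s) i + β s with hφ
    have hVc : ContinuousOn (fun s => (V s) i) (Icc t₁ t₂) := fun s hs =>
      ((EuclideanSpace.proj i : E3 →L[ℝ] ℝ).continuous.continuousAt.comp_continuousWithinAt
        (hch.hV s hs).continuousWithinAt)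
    have hφc : ContinuousOn φ (Icc t₁ t₂) := (continuousOn_const.mul hVc).add hcont
    have hφd : ∀ s ∈ Ioo t₁ t₂, HasDerivAt φ
        (c₀ * (E s (X s) + cross (u (V s)) (B s (X s))) i
        + bv s (X s) (fun v z => kc ε e c i (u v) z) (HD t₀ f (u (V s)))) s := by
      intro s hs
      have h1 : HasDerivAt V (E s (X s) + cross (u (V s)) (B s (X s))) s :=
        (hch.hV s (Ioo_subset_Icc_self hs)).hasDerivAt (Icc_mem_nhds hs.1 hs.2)
      have h2 : HasDerivAt (fun s => (V s) i) ((E s (X s) + cross (u (V s)) (B s (X s))) i) s :=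
        (EuclideanSpace.proj i : E3 →L[ℝ] ℝ).hasFDerivAt.comp_hasDerivAt s h1
      exact (h2.const_mul c₀).add (hder s hs)
    have hft := ftc_bound h12 hφc hφd (g := fun s => ENNReal.ofReal A
      + ENNReal.ofReal K * coneInt (t₀ / 2) T f s (X s) (g s))
      (fun s hs => rho s (Ioo_subset_Icc_self hs) i)
    rw [lintegral_add_left measurable_const, setLIntegral_const, Real.volume_Icc,
      lintegral_const_mul' _ _ ENNReal.ofReal_ne_top] at hft
    have h3 : |(V t₂ - V t₁) i| = c₀⁻¹ * |c₀ * (V t₂) i - c₀ * (V t₁) i| := by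
      rw [← mul_sub, abs_mul, abs_of_pos hc₀p, ← mul_assoc, inv_mul_cancel₀ hc₀p.ne', one_mul]
      simp
    rw [h3, ENNReal.ofReal_mul (by positivity)]
    refine mul_le_mul' le_rfl ?_
    have h4 : |c₀ * (V t₂) i - c₀ * (V t₁) i| ≤ |φ t₂ - φ t₁| + (|β t₂| + |β t₁|) := by
      have : c₀ * (V t₂) i - c₀ * (V t₁) i = (φ t₂ - φ t₁) - (β t₂ - β t₁) := by
        simp only [hφ]; ring
      rw [this]
      exact (abs_sub _ _).trans (add_le_add le_rfl (abs_sub _ _))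
    calc ENNReal.ofReal |c₀ * (V t₂) i - c₀ * (V t₁) i|
        ≤ ENNReal.ofReal (|φ t₂ - φ t₁| + (|β t₂| + |β t₁|)) := ENNReal.ofReal_le_ofReal h4
      _ = ENNReal.ofReal |φ t₂ - φ t₁| + (ENNReal.ofReal |β t₂| + ENNReal.ofReal |β t₁|) := by
          rw [ENNReal.ofReal_add (abs_nonneg _) (by (clear * -; positivity)),
            ENNReal.ofReal_add (abs_nonneg _) (abs_nonneg _)]
      _ ≤ (ENNReal.ofReal A * ENNReal.ofReal (t₂ - t₁)
          + ENNReal.ofReal K * pathInt (t₀ / 2) T f X t₁ t₂ g)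
          + (ENNReal.ofReal C1 * Bd + ENNReal.ofReal C1 * Bd) :=
          add_le_add hft (add_le_add (hbeta t₂ ⟨h12, le_rfl⟩ i) (hbeta t₁ ⟨le_rfl, h12⟩ i))
      _ = _ := by rw [two_mul]
  -- conclusion
  have hsum : ENNReal.ofReal ‖V t₂ - V t₁‖ ≤ ∑ i : Fin 3, ENNReal.ofReal |(V t₂ - V t₁) i| := by
    rw [← ENNReal.ofReal_sum_of_nonneg fun i _ => abs_nonneg _]
    exact ENNReal.ofReal_le_ofReal (norm_le_sum _)
  have hLe : ((Real.toNNReal L : ℝ≥0) : ℝ≥0∞) = ENNReal.ofReal L := rfl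
  rw [hLe]
  refine hsum.trans ((Finset.sum_le_sum fun i _ => hcomp i).trans ?_)
  rw [Finset.sum_const, Finset.card_univ, Fintype.card_fin, nsmul_eq_mul]
  set PI := pathInt (t₀ / 2) T f X t₁ t₂ g with hPI
  have k1 : (3 : ℝ≥0∞) * (ENNReal.ofReal c₀⁻¹ * ENNReal.ofReal A) ≤ ENNReal.ofReal L := by
    have : (3 : ℝ≥0∞) = ENNReal.ofReal 3 := by simp
    rw [this, ← ENNReal.ofReal_mul (by positivity), ← ENNReal.ofReal_mul (by positivity)]
    apply ENNReal.ofReal_le_ofReal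
    rw [hL]
    gcongr
    linarith only [hC1, hK0]
  have k2 : (3 : ℝ≥0∞) * (ENNReal.ofReal c₀⁻¹ * ENNReal.ofReal K) ≤ ENNReal.ofReal L := by
    have : (3 : ℝ≥0∞) = ENNReal.ofReal 3 := by simp
    rw [this, ← ENNReal.ofReal_mul (by positivity), ← ENNReal.ofReal_mul (by positivity)]
    apply ENNReal.ofReal_le_ofReal
    rw [hL]
    gcongr
    linarith only [hC1, hA0]
  have k3 : (3 : ℝ≥0∞) * (ENNReal.ofReal c₀⁻¹ * (2 * ENNReal.ofReal C1)) ≤ ENNReal.ofReal L := by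
    have h3 : (3 : ℝ≥0∞) = ENNReal.ofReal 3 := by simp
    have h2 : (2 : ℝ≥0∞) = ENNReal.ofReal 2 := by simp
    rw [h3, h2, ← ENNReal.ofReal_mul (by positivity), ← ENNReal.ofReal_mul (by positivity),
      ← ENNReal.ofReal_mul (by positivity)]
    apply ENNReal.ofReal_le_ofReal
    rw [hL]
    gcongr
    linarith only [hK0, hA0]
  calc ((3 : ℕ) : ℝ≥0∞) * (ENNReal.ofReal c₀⁻¹
      * (ENNReal.ofReal A * ENNReal.ofReal (t₂ - t₁)
        + ENNReal.ofReal K * PI + 2 * (ENNReal.ofReal C1 * Bd)))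
      = (3 * (ENNReal.ofReal c₀⁻¹ * (2 * ENNReal.ofReal C1))) * Bd
        + (3 * (ENNReal.ofReal c₀⁻¹ * ENNReal.ofReal A)) * ENNReal.ofReal (t₂ - t₁)
        + (3 * (ENNReal.ofReal c₀⁻¹ * ENNReal.ofReal K)) * PI := by
        push_cast
        ring
    _ ≤ _ := add_le_add (add_le_add (mul_le_mul' k3 le_rfl) (mul_le_mul' k1 le_rfl))
        (mul_le_mul' k2 le_rfl)

end Vale.Agent.P107
end
end
end

section

section

attribute [-instance] ProperSMul.toContinuousSMul IsTopologicalTorsor.toContinuousSMul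
  IdemSemiring.toCanonicallyOrderedAdd IdemSemiring.toMulLeftMono IdemSemiring.toMulRightMono
  AddQuantale.instAddLeftMono AddQuantale.instAddRightMono Quantale.instMulLeftMono
  Quantale.instMulRightMono FiniteDimensional.rclike_to_real IsScalarTower.complexToReal
  FiniteDimensional.complexToReal

section

/-!
Greedy decomposition of a path (module M4a).
-/

open MeasureTheory Set Filter Topology
open scoped RealInnerProductSpace ENNReal NNReal

namespace Vale.Agent.P107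

/-- First exit time from a ball. -/
lemma first_exit {V : ℝ → E3} {s s' η : ℝ} (hη : 0 < η) (hV : ContinuousOn V (Icc s s'))
    (hex : ∃ r ∈ Icc s s', η ≤ ‖V r - V s‖) :
    ∃ r₁ ∈ Icc s s', ‖V r₁ - V s‖ = η ∧ ∀ r ∈ Icc s r₁, ‖V r - V s‖ ≤ η := by
  have hg : ContinuousOn (fun r => ‖V r - V s‖) (Icc s s') := (hV.sub continuousOn_const).norm
  set S : Set ℝ := {r ∈ Icc s s' | η ≤ ‖V r - V s‖} with hS
  have hSc : IsCompact S := by
    have h1 : S = Icc s s' ∩ (fun r => ‖V r - V s‖) ⁻¹' (Ici η) := by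
      ext r; simp [hS]
    rw [h1]
    exact isCompact_Icc.of_isClosed_subset (hg.preimage_isClosed_of_isClosed isClosed_Icc
      isClosed_Ici) inter_subset_left
  have hSn : S.Nonempty := by
    obtain ⟨r, hr, hr'⟩ := hex
    exact ⟨r, hr, hr'⟩
  have hmem := hSc.sInf_mem hSn
  set r₁ := sInf S with hr₁
  have hlt : ∀ r ∈ Icc s s', r < r₁ → ‖V r - V s‖ < η := by
    intro r hr hrr
    by_contra hcon
    push Not at hcon
    have : r₁ ≤ r := csInf_le hSc.bddBelow ⟨hr, hcon⟩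
    linarith only [r₁, r, hrr, this]
  have hsr : s ≤ r₁ := hmem.1.1
  have heq : ‖V r₁ - V s‖ = η := by
    have hivt := intermediate_value_Icc hsr (hg.mono (Icc_subset_Icc le_rfl hmem.1.2))
    have h0 : η ∈ Icc (‖V s - V s‖) (‖V r₁ - V s‖) := by
      rw [sub_self, norm_zero]
      exact ⟨hη.le, hmem.2⟩
    obtain ⟨r₂, hr₂, hr₂'⟩ := hivt h0
    rcases lt_or_eq_of_le hr₂.2 with hlt' | heq'
    · have := hlt r₂ ⟨hr₂.1, hr₂.2.trans hmem.1.2⟩ hlt'
      simp only at hr₂'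
      linarith only [V, s, η, r₁, r₂, hr₂', this]
    · rw [heq'] at hr₂'; exact hr₂'
  refine ⟨r₁, hmem.1, heq, fun r hr => ?_⟩
  rcases lt_or_eq_of_le hr.2 with h1 | h1
  · exact (hlt r ⟨hr.1, hr.2.trans hmem.1.2⟩ h1).le
  · rw [h1, heq]

/-- M4a. Greedy decomposition (purely real analysis). -/
theorem qv_of_local {V : ℝ → E3} {a b η : ℝ} (hη : 0 < η) (hV : ContinuousOn V (Icc a b))
    {Φ : ℝ → ℝ} (hΦ : MonotoneOn Φ (Icc a b))
    (hloc : ∀ s ∈ Icc a b, ∀ s' ∈ Icc a b, s ≤ s' → (∀ r ∈ Icc s s', ‖V r - V s‖ ≤ η) →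
      ‖V s' - V s‖ ≤ Φ s' - Φ s + η / 4) :
    ∀ s ∈ Icc a b, ∀ s' ∈ Icc a b, s ≤ s' → ‖V s' - V s‖ ≤ 4 / 3 * (Φ s' - Φ s) + η / 4 := by
  have key : ∀ n : ℕ, ∀ s ∈ Icc a b, ∀ s' ∈ Icc a b, s ≤ s' → Φ s' - Φ s ≤ n * (3 * η / 4) →
      ‖V s' - V s‖ ≤ 4 / 3 * (Φ s' - Φ s) + η / 4 := by
    intro n
    induction n with
    | zero =>
      intro s hs s' hs' hss hn
      by_cases hcase : ∀ r ∈ Icc s s', ‖V r - V s‖ ≤ η
      · have h1 := hloc s hs s' hs' hss hcase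
        have h2 := hΦ hs hs' hss
        linarith only [h1, h2]
      · push Not at hcase
        obtain ⟨r, hr, hr'⟩ := hcase
        obtain ⟨r₁, hr₁, heq, hle⟩ := first_exit hη (hV.mono (Icc_subset_Icc hs.1 hs'.2))
          ⟨r, hr, hr'.le⟩
        have hr₁' : r₁ ∈ Icc a b := ⟨hs.1.trans hr₁.1, hr₁.2.trans hs'.2⟩
        have h1 := hloc s hs r₁ hr₁' hr₁.1 hle
        have h2 := hΦ hr₁' hs' hr₁.2
        rw [heq] at h1
        norm_num at hn
        linarith only [hη, h1, h2, hn]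
    | succ n ih =>
      intro s hs s' hs' hss hn
      by_cases hcase : ∀ r ∈ Icc s s', ‖V r - V s‖ ≤ η
      · have h1 := hloc s hs s' hs' hss hcase
        have h2 := hΦ hs hs' hss
        linarith only [h1, h2]
      · push Not at hcase
        obtain ⟨r, hr, hr'⟩ := hcase
        obtain ⟨r₁, hr₁, heq, hle⟩ := first_exit hη (hV.mono (Icc_subset_Icc hs.1 hs'.2))
          ⟨r, hr, hr'.le⟩
        have hr₁' : r₁ ∈ Icc a b := ⟨hs.1.trans hr₁.1, hr₁.2.trans hs'.2⟩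
        have h1 := hloc s hs r₁ hr₁' hr₁.1 hle
        rw [heq] at h1
        have h3 := ih r₁ hr₁' s' hs' hr₁.2 (by push_cast at hn; linarith only [h1, hn])
        have h4 : ‖V s' - V s‖ ≤ ‖V s' - V r₁‖ + ‖V r₁ - V s‖ := by
          have := norm_add_le (V s' - V r₁) (V r₁ - V s)
          rwa [sub_add_sub_cancel] at this
        rw [heq] at h4
        linarith only [h1, h3, h4]
  intro s hs s' hs' hss
  obtain ⟨n, hn⟩ := exists_nat_ge ((Φ s' - Φ s) / (3 * η / 4))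
  refine key n s hs s' hs' hss ?_
  rwa [div_le_iff₀ (by positivity)] at hn

end Vale.Agent.P107
end
end
end

section

section

attribute [-instance] ProperSMul.toContinuousSMul IsTopologicalTorsor.toContinuousSMul
  IdemSemiring.toCanonicallyOrderedAdd IdemSemiring.toMulLeftMono IdemSemiring.toMulRightMono
  AddQuantale.instAddLeftMono AddQuantale.instAddRightMono Quantale.instMulLeftMono
  Quantale.instMulRightMono FiniteDimensional.rclike_to_real IsScalarTower.complexToReal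
  FiniteDimensional.complexToReal

section

/-!
Module M4b: from the main estimate and the path bound to the strong quasi-variation bound.
-/

open MeasureTheory Set Filter Topology
open scoped RealInnerProductSpace ENNReal NNReal

namespace Vale.Agent.P107.QvS

open Vale.Agent.P107.Ar

variable {T : ℝ} {f : ℝ → E3 → E3 → ℝ} {E B : ℝ → E3 → E3}

/-! ### The velocity map -/

lemma abs_q_sub_le (x y : E3) : |q x - q y| ≤ ‖x - y‖ := by
  have h1 : (q x - q y) * (q x + q y) = (‖x‖ - ‖y‖) * (‖x‖ + ‖y‖) := by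
    have := q_sq x
    have := q_sq y
    nlinarith
  have h2 : 0 < q x + q y := add_pos (q_pos x) (q_pos y)
  have h3 : ‖x‖ + ‖y‖ ≤ q x + q y := add_le_add (norm_lt_q x).le (norm_lt_q y).le
  have h4 : |q x - q y| * (q x + q y) ≤ ‖x - y‖ * (q x + q y) := by
    have e1 : |q x - q y| * (q x + q y) = |(q x - q y) * (q x + q y)| := by
      rw [abs_mul, abs_of_pos h2]
    rw [e1, h1, abs_mul, abs_of_nonneg (add_nonneg (norm_nonneg x) (norm_nonneg y))]
    exact mul_le_mul (abs_norm_sub_norm_le x y) h3 (by positivity) (norm_nonneg _)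
  exact le_of_mul_le_mul_right h4 h2

lemma norm_u_sub_le_div (x y : E3) : ‖u x - u y‖ ≤ 2 * ‖x - y‖ / q x := by
  have hx := q_pos x
  have hy := q_pos y
  have e1 : u x - u y = (q x)⁻¹ • (x - y) + ((q x)⁻¹ * (q y - q x)) • u y := by
    unfold u
    rw [smul_sub, smul_smul]
    have : (q x)⁻¹ * (q y - q x) * (q y)⁻¹ = (q x)⁻¹ - (q y)⁻¹ := by
      field_simp
    rw [this, sub_smul]
    abel
  rw [e1]
  have h1 : ‖(q x)⁻¹ • (x - y)‖ = ‖x - y‖ / q x := by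
    rw [norm_smul, norm_inv, Real.norm_of_nonneg hx.le]; ring
  have h2 : ‖((q x)⁻¹ * (q y - q x)) • u y‖ ≤ ‖x - y‖ / q x := by
    rw [norm_smul, norm_mul, norm_inv, Real.norm_of_nonneg hx.le, Real.norm_eq_abs]
    have h3 := abs_q_sub_le y x
    rw [norm_sub_rev] at h3
    have h4 := (norm_u_lt_one y).le
    calc (q x)⁻¹ * |q y - q x| * ‖u y‖ ≤ (q x)⁻¹ * ‖x - y‖ * 1 := by (clear * - hx h3 h4; gcongr)
      _ = ‖x - y‖ / q x := by ring
  calc _ ≤ ‖(q x)⁻¹ • (x - y)‖ + ‖((q x)⁻¹ * (q y - q x)) • u y‖ := norm_add_le _ _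
    _ ≤ ‖x - y‖ / q x + ‖x - y‖ / q x := by rw [h1]; gcongr
    _ = _ := by ring

/-! ### Path integrals -/

/-- Additivity in the time interval. -/
lemma pathInt_add_interval (ta : ℝ) (X : ℝ → E3) {t₁ s s' : ℝ} (h1 : t₁ ≤ s) (h2 : s ≤ s')
    (g : ℝ → E3 → E3 → ℝ≥0∞) :
    pathInt ta T f X t₁ s' g = pathInt ta T f X t₁ s g + pathInt ta T f X s s' g := by
  unfold pathInt
  rw [← Icc_union_Ioc_eq_Icc h1 h2, lintegral_union measurableSet_Ioc]
  · congr 1
    exact setLIntegral_congr Ioc_ae_eq_Icc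
  · rw [Set.disjoint_left]
    intro x hx hx'
    exact absurd hx.2 (not_le.2 hx'.1)

/-- Subadditivity when one of the kernels is measurable. -/
lemma pathInt_le_add (h : IsClassicalSolution T f E B) {ta : ℝ} (h0 : 0 < ta) {X : ℝ → E3}
    {t₁ t₂ : ℝ} (h12 : t₁ ≤ t₂) (hX : ContinuousOn X (Icc t₁ t₂))
    (g₁ g₂ g g₁' : ℝ → E3 → E3 → ℝ≥0∞)
    (hg' : Measurable fun y : ℝ × E3 × E3 => g₁' y.1 y.2.1 y.2.2)
    (heq : ∀ s ∈ Icc t₁ t₂, ∀ z v, g₁ s z v = g₁' s z v)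
    (hle : ∀ s ∈ Icc t₁ t₂, ∀ z v, g s z v ≤ g₁ s z v + g₂ s z v) :
    pathInt ta T f X t₁ t₂ g ≤ pathInt ta T f X t₁ t₂ g₁ + pathInt ta T f X t₁ t₂ g₂ := by
  set X' : ℝ → E3 := fun s => X (projIcc t₁ t₂ h12 s) with hX'
  have hproj : Continuous fun s : ℝ => ((projIcc t₁ t₂ h12 s : Icc t₁ t₂) : ℝ) :=
    continuous_subtype_val.comp continuous_projIcc
  have hX'c : Continuous X' := hX.comp_continuous hproj fun s => (projIcc t₁ t₂ h12 s).2
  have hXX : ∀ s ∈ Icc t₁ t₂, X' s = X s := fun s hs => by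
    simp only [hX', projIcc_of_mem h12 hs]
  set F : ℝ × E3 × E3 → ℝ≥0∞ := fun y =>
    g₁' y.1 y.2.1 y.2.2 * fl ta T f (y.1 - ‖y.2.1‖) (X' y.1 + y.2.1) y.2.2 with hF
  have hFm : Measurable F := by
    have hΨc : Continuous fun y : ℝ × E3 × E3 => (y.1 - ‖y.2.1‖, X' y.1 + y.2.1, y.2.2) := by
      have : Continuous fun y : ℝ × E3 × E3 => X' y.1 := hX'c.comp continuous_fst
      (clear * - hX'c; fun_prop)
    exact hg'.mul ((measurable_fl h h0).comp hΨc.measurable)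
  set H : ℝ × E3 → ℝ≥0∞ := fun p => ∫⁻ v, F (p.1, p.2, v) with hH
  have hHm : Measurable H := by
    have h1 : Measurable fun r : (ℝ × E3) × E3 => F (r.1.1, r.1.2, r.2) :=
      hFm.comp ((measurable_fst.comp measurable_fst).prodMk
        ((measurable_snd.comp measurable_fst).prodMk measurable_snd))
    exact h1.lintegral_prod_right'
  have hKm : Measurable fun s : ℝ => ∫⁻ z, H (s, z) := hHm.lintegral_prod_right'
  have e1 : pathInt ta T f X t₁ t₂ g₁ = ∫⁻ s in Icc t₁ t₂, ∫⁻ z, H (s, z) := by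
    unfold pathInt coneInt
    refine setLIntegral_congr_fun measurableSet_Icc fun s hs => ?_
    refine lintegral_congr fun z => lintegral_congr fun v => ?_
    simp only [hF, heq s hs, hXX s hs]
  rw [e1]
  have e2 : pathInt ta T f X t₁ t₂ g₂ = ∫⁻ s in Icc t₁ t₂, coneInt ta T f s (X s) (g₂ s) := rfl
  rw [e2, ← lintegral_add_left hKm]
  unfold pathInt
  refine setLIntegral_mono' measurableSet_Icc fun s hs => ?_
  have hHs : Measurable fun z => H (s, z) := hHm.comp (measurable_const.prodMk measurable_id)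
  unfold coneInt
  rw [← lintegral_add_left hHs]
  refine lintegral_mono fun z => ?_
  have hFs : Measurable fun v => F (s, z, v) :=
    hFm.comp (measurable_const.prodMk (measurable_const.prodMk measurable_id))
  simp only [hH]
  rw [← lintegral_add_left hFs]
  refine lintegral_mono fun v => ?_
  simp only [hF, hXX s hs]
  rw [← add_mul, ← heq s hs]
  gcongr
  exact hle s hs z v

lemma measurable_dir' : Measurable dir := (measurable_norm.inv).smul measurable_id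

/-- The kernel `kerT` is measurable when the path is continuous. -/
lemma measurable_kerT (j : ℕ) (e : ℝ) {V : ℝ → E3} (hV : Continuous V) :
    Measurable fun y : ℝ × E3 × E3 => kerT j e V y.1 y.2.1 y.2.2 := by
  have hu : Measurable u := contDiff_uu.continuous.measurable
  have m1 : Measurable fun y : ℝ × E3 × E3 => u (V y.1) :=
    hu.comp (hV.measurable.comp measurable_fst)
  have m2 : Measurable fun y : ℝ × E3 × E3 => dir y.2.1 :=
    measurable_dir'.comp (measurable_fst.comp measurable_snd)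
  have m3 : Measurable fun y : ℝ × E3 × E3 => u y.2.2 :=
    hu.comp (measurable_snd.comp measurable_snd)
  have mb : Measurable fun y : ℝ × E3 × E3 => al (dir y.2.1) (u (V y.1)) :=
    measurable_const.add (m1.inner m2)
  have ma : Measurable fun y : ℝ × E3 × E3 => al (dir y.2.1) (u y.2.2) :=
    measurable_const.add (m3.inner m2)
  have mab : Measurable fun y : ℝ × E3 × E3 => (⟪u y.2.2, u (V y.1)⟫ : ℝ) := m3.inner m1
  have mz : Measurable fun y : ℝ × E3 × E3 => ‖y.2.1‖ :=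
    (measurable_fst.comp measurable_snd).norm
  have mD : Measurable fun y : ℝ × E3 × E3 =>
      Dn ((1 / 4) ^ j) e (dir y.2.1) (u y.2.2) (u (V y.1)) := by
    unfold Dn
    exact ma.add ((mb.add_const _).const_mul _)
  have mset : MeasurableSet {y : ℝ × E3 × E3 | Diag e (dir y.2.1) (u y.2.2) (u (V y.1))} := by
    unfold Diag
    exact (measurableSet_le measurable_const mb).inter
      ((measurableSet_le ma (mb.const_mul _)).inter (measurableSet_le mb (ma.const_mul _)))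
  have mTT : Measurable fun y : ℝ × E3 × E3 =>
      bTT ((1 / 4) ^ j) e (dir y.2.1) (u y.2.2) (u (V y.1)) := by
    unfold bTT
    refine Measurable.ite mset ?_ ?_
    · unfold bTd
      exact ((((m3.norm.pow_const 2).const_sub 1).div ma).const_mul _).add
        (((mab.const_sub 1).div mb).sqrt.const_mul _)
    · unfold bT
      exact (((((m3.norm.pow_const 2).const_sub 1).div ma).const_mul _).add
        (((mb.sqrt.const_mul _).mul (mb.sqrt.add ma.sqrt)).div mD)).add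
        (measurable_const.div ma.sqrt)
  unfold kerT
  exact ((mz.inv.pow_const 2).mul mTT).ennreal_ofReal

/-! ### Arithmetic -/

lemma qq_pos' (p j : ℕ) : 0 < qq p j := by unfold qq; positivity

lemma ee_pos' (p j : ℕ) : 0 < Ar.ee p j := Real.rpow_pos_of_pos (qq_pos' p j) _

lemma ee_le_one {p j : ℕ} (hq : 1 ≤ qq p j) : Ar.ee p j ≤ 1 :=
  Real.rpow_le_one_of_one_le_of_nonpos hq (by norm_num)

lemma le_ee_sq {p j : ℕ} (hq : 256 ≤ qq p j) : 64 / qq p j ^ 2 ≤ Ar.ee p j ^ 2 := by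
  have h0 := qq_pos' p j
  have h1 : Ar.ee p j ^ 2 = qq p j ^ (-(5 / 4 : ℝ)) := by
    unfold Ar.ee
    rw [← Real.rpow_natCast, ← Real.rpow_mul h0.le]
    norm_num
  have h2 : (64 : ℝ) ≤ qq p j ^ (3 / 4 : ℝ) := by
    have h3 : (256 : ℝ) ^ (3 / 4 : ℝ) = 64 := by
      rw [show (256 : ℝ) = 4 ^ (4 : ℝ) by norm_num, ← Real.rpow_mul (by norm_num)]
      norm_num
    rw [← h3]
    exact Real.rpow_le_rpow (by norm_num) hq (by norm_num)
  rw [h1, div_le_iff₀ (by positivity)]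
  have h4 : qq p j ^ (-(5 / 4 : ℝ)) * qq p j ^ 2 = qq p j ^ (3 / 4 : ℝ) := by
    rw [← Real.rpow_natCast (qq p j) 2, ← Real.rpow_add h0]
    norm_num
  rw [h4]
  exact h2

lemma dl_le_one {c₁ : ℝ} (_hc : 0 < c₁) (hc' : c₁ ≤ 1) (p j : ℕ) : dl c₁ p j ≤ 1 := by
  unfold dl
  have h1 : (1 : ℝ) ≤ 4 ^ j := one_le_pow₀ (by norm_num)
  have h2 : (0 : ℝ) ≤ 2 ^ j * (1 + p) := by positivity
  rw [div_le_one (by linarith)]
  linarith only [c₁, hc', p, j, h1, h2]

lemma qq_large (M : ℝ) : ∃ p₁ : ℕ, ∀ p ≥ p₁, ∀ j : ℕ, 12 * j ≤ 5 * p → M ≤ qq p j := by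
  obtain ⟨n, hn⟩ := pow_unbounded_of_one_lt M (by norm_num : (1 : ℝ) < 2)
  refine ⟨2 * n, fun p hp j hj => hn.le.trans ?_⟩
  unfold qq
  rw [le_div_iff₀ (by positivity), ← pow_add]
  exact pow_le_pow_right₀ (by norm_num) (by omega)

end Vale.Agent.P107.QvS

namespace Vale.Agent.P107

open Vale.Agent.P107.Ar QvS

variable {T : ℝ} {f : ℝ → E3 → E3 → ℝ} {E B : ℝ → E3 → E3}

/-- The estimate on one window. -/
theorem qv_window (h : IsClassicalSolution T f E B) {t₀ : ℝ} (h0 : 0 < t₀) {R₀ : ℝ}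
    (hR₀ : ∀ t ∈ Ico t₀ T, ∀ x v, f t x v ≠ 0 → ‖x‖ ≤ R₀) {C : ℝ≥0}
    (hPB : ∀ (ε e : ℝ), 0 < ε → ε ≤ 1 → 0 < e → e ≤ 1 →
      ∀ (X V : ℝ → E3) (t₁ t₂ : ℝ), t₀ ≤ t₁ → t₁ ≤ t₂ → t₂ < T → IsChar E B X V t₁ t₂ →
      (∀ s ∈ Icc t₁ t₂, ‖X s‖ ≤ R₀) →
      ∀ c : E3, ‖c‖ < 1 → 1 - ‖c‖ ^ 2 ≤ e ^ 2 →
      (∀ s ∈ Icc t₁ t₂, ‖u (V s) - c‖ ≤ e ∧ 1 - ‖u (V s)‖ ^ 2 ≤ e ^ 2) →
      ∀ Bd : ℝ≥0∞, (∀ s ∈ Icc t₁ t₂, coneInt (t₀ / 2) T f s (X s)
          (fun z v => ENNReal.ofReal (‖z‖⁻¹ * bC ε e (dir z) (u v) (u (V s)))) ≤ Bd) →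
      ENNReal.ofReal ‖V t₂ - V t₁‖ ≤ C * Bd + C * ENNReal.ofReal (t₂ - t₁)
        + C * pathInt (t₀ / 2) T f X t₁ t₂ (fun s z v => ENNReal.ofReal
            ((‖z‖⁻¹) ^ 2 * bTT ε e (dir z) (u v) (u (V s))
              + ‖z‖⁻¹ * ((q v)⁻¹ * ‖lor (E (s - ‖z‖) (X s + z)) (B (s - ‖z‖) (X s + z)) v‖
                * bS ε e (dir z) (u v) (u (V s))))))
    {K M : ℝ} (hK : (C : ℝ) + 1 ≤ K) {th c₁ : ℝ} {p j : ℕ} {X V : ℝ → E3} {t₁ t₂ : ℝ}
    (hctx : Ctx T f E B t₀ th c₁ p j X V t₁ t₂) (hq1 : 256 ≤ qq p j) (hq2 : 128 * K ≤ qq p j)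
    (hM0 : 0 ≤ M) (hM : K * M ≤ qq p j / 128)
    (hTS : pathInt (t₀ / 2) T f X t₁ t₂ (kerT j (Ar.ee p j) V)
        + pathInt (t₀ / 2) T f X t₁ t₂ (kerS j (Ar.ee p j) E B X V) ≤ ENNReal.ofReal M)
    (hB : ∀ s ∈ Icc t₁ t₂, coneInt (t₀ / 2) T f s (X s) (kerB j (Ar.ee p j) V s)
        ≤ ENNReal.ofReal (1 / (64 * K) * (Ar.ee p j * qq p j))) :
    QV V t₁ t₂ (qq p j / 32) (Ar.ee p j * qq p j / 2) := by
  have hC0 : (0 : ℝ) ≤ C := C.2
  have hK1 : 1 ≤ K := by linarith only [hK]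
  have hqp := qq_pos' p j
  have hep := ee_pos' p j
  have he1 : Ar.ee p j ≤ 1 := ee_le_one (by linarith only [hq1])
  have h12 := hctx.h12
  have ht1 : 0 < t₁ := lt_of_lt_of_le h0 hctx.ht₁
  have ht2 : t₂ < T := lt_of_le_of_lt hctx.h2 hctx.hth
  have hXc : ContinuousOn X (Icc t₁ t₂) := fun s hs => (hctx.hchar.hX s hs).continuousWithinAt
  have hVc : ContinuousOn V (Icc t₁ t₂) := fun s hs => (hctx.hchar.hV s hs).continuousWithinAt
  have hXR : ∀ s ∈ Icc t₁ t₂, ‖X s‖ ≤ R₀ := by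
    intro s hs
    refine hR₀ s ⟨hctx.ht₁.trans hs.1, hs.2.trans_lt ht2⟩ (X s) (V s) ?_
    rw [h.const_along ht1 ht2 hctx.hchar.hX hctx.hchar.hV hs (left_mem_Icc.2 h12)]
    exact hctx.hsupp
  have hnu : ∀ s ∈ Icc t₁ t₂, 1 - ‖u (V s)‖ ^ 2 ≤ Ar.ee p j ^ 2 := by
    intro s hs
    rw [norm_u_sq]
    refine le_trans ?_ (le_ee_sq hq1)
    have h1 := (hctx.hq s hs).1
    have h2 : (qq p j / 8) ^ 2 ≤ q (V s) ^ 2 := pow_le_pow_left₀ (by positivity) h1 2
    calc (q (V s) ^ 2)⁻¹ ≤ ((qq p j / 8) ^ 2)⁻¹ := inv_anti₀ (by positivity) h2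
      _ = 64 / qq p j ^ 2 := by field_simp; norm_num
  -- the combined kernel
  set g : ℝ → E3 → E3 → ℝ≥0∞ := fun s z v => ENNReal.ofReal
      ((‖z‖⁻¹) ^ 2 * bTT ((1 / 4) ^ j) (Ar.ee p j) (dir z) (u v) (u (V s))
        + ‖z‖⁻¹ * ((q v)⁻¹ * ‖lor (E (s - ‖z‖) (X s + z)) (B (s - ‖z‖) (X s + z)) v‖
          * bS ((1 / 4) ^ j) (Ar.ee p j) (dir z) (u v) (u (V s)))) with hg
  have hgle : pathInt (t₀ / 2) T f X t₁ t₂ g ≤ ENNReal.ofReal M := by
    refine le_trans ?_ hTS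
    have hproj : Continuous fun s : ℝ => ((projIcc t₁ t₂ h12 s : Icc t₁ t₂) : ℝ) :=
      continuous_subtype_val.comp continuous_projIcc
    have hV'c : Continuous fun s : ℝ => V (projIcc t₁ t₂ h12 s) :=
      hVc.comp_continuous hproj fun s => (projIcc t₁ t₂ h12 s).2
    refine pathInt_le_add h (half_pos h0) h12 hXc _ _ _
      (kerT j (Ar.ee p j) fun s => V (projIcc t₁ t₂ h12 s)) (measurable_kerT j _ hV'c) ?_ ?_
    · intro s hs z v
      unfold kerT
      simp only [projIcc_of_mem h12 hs]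
    · intro s _ z v
      exact ENNReal.ofReal_add_le
  have hmono : ∀ s ∈ Icc t₁ t₂, pathInt (t₀ / 2) T f X t₁ s g ≤ ENNReal.ofReal M := by
    intro s hs
    refine le_trans ?_ hgle
    rw [pathInt_add_interval (t₀ / 2) X hs.1 hs.2 g]
    exact le_self_add
  have hfin : ∀ s ∈ Icc t₁ t₂, pathInt (t₀ / 2) T f X t₁ s g ≠ ⊤ := fun s hs =>
    ne_top_of_le_ne_top ENNReal.ofReal_ne_top (hmono s hs)
  have hadd : ∀ s ∈ Icc t₁ t₂, ∀ s' ∈ Icc t₁ t₂, s ≤ s' →
      pathInt (t₀ / 2) T f X s s' g ≠ ⊤ ∧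
      (pathInt (t₀ / 2) T f X s s' g).toReal = (pathInt (t₀ / 2) T f X t₁ s' g).toReal
        - (pathInt (t₀ / 2) T f X t₁ s g).toReal := by
    intro s hs s' hs' hss
    have h1 := pathInt_add_interval (T := T) (f := f) (t₀ / 2) X hs.1 hss g
    have h2 : pathInt (t₀ / 2) T f X s s' g ≠ ⊤ := by
      have h3 := hfin s' hs'
      rw [h1] at h3
      exact (ENNReal.add_ne_top.1 h3).2
    refine ⟨h2, ?_⟩
    rw [h1, ENNReal.toReal_add (hfin s hs) h2]
    ring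
  set Φ : ℝ → ℝ := fun s => C * (pathInt (t₀ / 2) T f X t₁ s g).toReal + C * (s - t₁) with hΦ
  have hΦd : ∀ s ∈ Icc t₁ t₂, ∀ s' ∈ Icc t₁ t₂, s ≤ s' →
      Φ s' - Φ s = C * (pathInt (t₀ / 2) T f X s s' g).toReal + C * (s' - s) := by
    intro s hs s' hs' hss
    rw [(hadd s hs s' hs' hss).2]
    simp only [hΦ]
    ring
  have hΦm : MonotoneOn Φ (Icc t₁ t₂) := by
    intro s hs s' hs' hss
    have h1 := hΦd s hs s' hs' hss
    have h2 : 0 ≤ C * (pathInt (t₀ / 2) T f X s s' g).toReal :=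
      mul_nonneg hC0 ENNReal.toReal_nonneg
    have h3 : 0 ≤ C * (s' - s) := mul_nonneg hC0 (by linarith only [hss])
    linarith only [h1, h2, h3]
  set η : ℝ := Ar.ee p j * qq p j / 16 with hη
  have hη0 : 0 < η := by positivity
  have hloc : ∀ s ∈ Icc t₁ t₂, ∀ s' ∈ Icc t₁ t₂, s ≤ s' → (∀ r ∈ Icc s s', ‖V r - V s‖ ≤ η) →
      ‖V s' - V s‖ ≤ Φ s' - Φ s + η / 4 := by
    intro s hs s' hs' hss hle
    have hsub : Icc s s' ⊆ Icc t₁ t₂ := Icc_subset_Icc hs.1 hs'.2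
    have hch : IsChar E B X V s s' :=
      ⟨fun r hr => (hctx.hchar.hX r (hsub hr)).mono hsub,
        fun r hr => (hctx.hchar.hV r (hsub hr)).mono hsub⟩
    have h1 := hPB ((1 / 4) ^ j) (Ar.ee p j) (by positivity)
      (pow_le_one₀ (by norm_num) (by norm_num)) hep he1 X V s s' (hctx.ht₁.trans hs.1) hss
      (hs'.2.trans_lt ht2) hch (fun r hr => hXR r (hsub hr)) (u (V s)) (norm_u_lt_one _)
      (hnu s hs) (fun r hr => ⟨?_, hnu r (hsub hr)⟩)
      (ENNReal.ofReal (1 / (64 * K) * (Ar.ee p j * qq p j))) (fun r hr => hB r (hsub hr))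
    · have hnn : 0 ≤ Φ s' - Φ s + η / 4 := by
        have := hΦm hs hs' hss
        linarith only [hη0, this]
      rw [← ENNReal.ofReal_le_ofReal_iff hnn]
      refine h1.trans ?_
      have e1 : (C : ℝ≥0∞) = ENNReal.ofReal (C : ℝ) := (ENNReal.ofReal_coe_nnreal).symm
      have e2 : pathInt (t₀ / 2) T f X s s' g
          = ENNReal.ofReal (pathInt (t₀ / 2) T f X s s' g).toReal :=
        (ENNReal.ofReal_toReal (hadd s hs s' hs' hss).1).symm
      rw [← hg, e2, e1, ← ENNReal.ofReal_mul hC0, ← ENNReal.ofReal_mul hC0,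
        ← ENNReal.ofReal_mul hC0, ← ENNReal.ofReal_add (by (clear * - hq1 hK1 hep; positivity))
          (mul_nonneg hC0 (by linarith only [hss])), ← ENNReal.ofReal_add
          (add_nonneg (by (clear * - hq1 hK1 hep; positivity)) (mul_nonneg hC0 (by linarith only [hss])))
          (mul_nonneg hC0 ENNReal.toReal_nonneg)]
      apply ENNReal.ofReal_le_ofReal
      rw [hΦd s hs s' hs' hss]
      have h2 : (C : ℝ) * (1 / (64 * K) * (Ar.ee p j * qq p j)) ≤ η / 4 := by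
        rw [hη]
        have h3 : (C : ℝ) * (1 / (64 * K)) ≤ 1 / 64 := by
          rw [mul_one_div, div_le_div_iff₀ (by positivity) (by norm_num)]
          linarith only [hK]
        calc (C : ℝ) * (1 / (64 * K) * (Ar.ee p j * qq p j))
            = (C : ℝ) * (1 / (64 * K)) * (Ar.ee p j * qq p j) := by ring
          _ ≤ 1 / 64 * (Ar.ee p j * qq p j) := by (clear * - hq1 hep h3; gcongr)
          _ = _ := by ring
      linarith only [h2]
    · have h3 := norm_u_sub_le_div (V s) (V r)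
      rw [norm_sub_rev] at h3
      refine h3.trans ?_
      have h4 := hle r hr
      rw [norm_sub_rev] at h4
      have h5 := (hctx.hq s hs).1
      have h6 : 0 < q (V s) := q_pos _
      rw [div_le_iff₀ h6]
      calc 2 * ‖V s - V r‖ ≤ 2 * η := by (clear * - h4; gcongr)
        _ = Ar.ee p j * (qq p j / 8) := by rw [hη]; ring
        _ ≤ Ar.ee p j * q (V s) := by (clear * - hep h5; gcongr)
  have hqv := qv_of_local hη0 hVc hΦm hloc
  refine ⟨fun s => 4 / 3 * Φ s, ?_, ?_, ?_⟩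
  · intro s hs s' hs' hss
    have := hΦm hs hs' hss
    simp only
    linarith only [this]
  · simp only
    have h1 := hΦd t₁ (left_mem_Icc.2 h12) t₂ (right_mem_Icc.2 h12) h12
    have h2 : (pathInt (t₀ / 2) T f X t₁ t₂ g).toReal ≤ M :=
      ENNReal.toReal_le_of_le_ofReal hM0 hgle
    have h3 : t₂ - t₁ ≤ 1 := hctx.hlen.trans (dl_le_one hctx.hc₁ hctx.hc₁' p j)
    have hCK : (C : ℝ) ≤ K := by linarith only [hK]
    have h4 : C * (pathInt (t₀ / 2) T f X t₁ t₂ g).toReal ≤ K * M := by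
      have := ENNReal.toReal_nonneg (a := pathInt (t₀ / 2) T f X t₁ t₂ g)
      (clear * - hK1 h2 hCK; gcongr)
    have h5 : C * (t₂ - t₁) ≤ K * 1 := by
      have : 0 ≤ t₂ - t₁ := by linarith only [h12]
      (clear * - hK1 h12 h3 hCK; gcongr)
    have h6 : 4 / 3 * Φ t₂ - 4 / 3 * Φ t₁ = 4 / 3 * (Φ t₂ - Φ t₁) := by ring
    rw [h6, h1]
    linarith only [hq1, hq2, hM, h4, h5]
  · intro s hs s' hs' hss
    have h1 := hqv s hs s' hs' hss
    have h2 : η / 4 ≤ Ar.ee p j * qq p j / 2 := by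
      rw [hη]
      have : 0 < Ar.ee p j * qq p j := by positivity
      linarith only [hη, hη0]
    simp only
    linarith only [hη, hη0, h1]

/-- M4b, with the main estimate and the path bound as hypotheses. -/
theorem qv_strong_core (h : IsClassicalSolution T f E B) {t₀ : ℝ} (h0 : 0 < t₀) (h0T : t₀ < T)
    (hME : ∃ C : ℝ, 0 < C ∧ ∀ c₁ : ℝ, 0 < c₁ → c₁ ≤ 1 → ∀ θ : ℝ, 0 < θ → ∃ p₀ : ℕ, ∀ p ≥ p₀,
      ∀ (th : ℝ) (j : ℕ) (X V : ℝ → E3) (t₁ t₂ : ℝ), Ctx T f E B t₀ th c₁ p j X V t₁ t₂ →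
      pathInt (t₀ / 2) T f X t₁ t₂ (kerT j (Ar.ee p j) V)
          + pathInt (t₀ / 2) T f X t₁ t₂ (kerS j (Ar.ee p j) E B X V)
        ≤ ENNReal.ofReal (C * √c₁ * qq p j) ∧
      ∀ s ∈ Icc t₁ t₂, coneInt (t₀ / 2) T f s (X s) (kerB j (Ar.ee p j) V s)
        ≤ ENNReal.ofReal (θ * (Ar.ee p j * qq p j)))
    (hPB : ∀ R₀ : ℝ, ∃ C : ℝ≥0, ∀ (ε e : ℝ), 0 < ε → ε ≤ 1 → 0 < e → e ≤ 1 →
      ∀ (X V : ℝ → E3) (t₁ t₂ : ℝ), t₀ ≤ t₁ → t₁ ≤ t₂ → t₂ < T → IsChar E B X V t₁ t₂ →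
      (∀ s ∈ Icc t₁ t₂, ‖X s‖ ≤ R₀) →
      ∀ c : E3, ‖c‖ < 1 → 1 - ‖c‖ ^ 2 ≤ e ^ 2 →
      (∀ s ∈ Icc t₁ t₂, ‖u (V s) - c‖ ≤ e ∧ 1 - ‖u (V s)‖ ^ 2 ≤ e ^ 2) →
      ∀ Bd : ℝ≥0∞, (∀ s ∈ Icc t₁ t₂, coneInt (t₀ / 2) T f s (X s)
          (fun z v => ENNReal.ofReal (‖z‖⁻¹ * bC ε e (dir z) (u v) (u (V s)))) ≤ Bd) →
      ENNReal.ofReal ‖V t₂ - V t₁‖ ≤ C * Bd + C * ENNReal.ofReal (t₂ - t₁)
        + C * pathInt (t₀ / 2) T f X t₁ t₂ (fun s z v => ENNReal.ofReal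
            ((‖z‖⁻¹) ^ 2 * bTT ε e (dir z) (u v) (u (V s))
              + ‖z‖⁻¹ * ((q v)⁻¹ * ‖lor (E (s - ‖z‖) (X s + z)) (B (s - ‖z‖) (X s + z)) v‖
                * bS ε e (dir z) (u v) (u (V s)))))) :
    ∃ c₁ : ℝ, 0 < c₁ ∧ c₁ ≤ 1 ∧ ∃ p₀ : ℕ, ∀ p ≥ p₀,
      ∀ (th : ℝ) (j : ℕ) (X V : ℝ → E3) (t₁ t₂ : ℝ), Ctx T f E B t₀ th c₁ p j X V t₁ t₂ →
      QV V t₁ t₂ (qq p j / 32) (Ar.ee p j * qq p j / 2) := by
  obtain ⟨R₀, hR₀⟩ := exists_x_bound h h0 h0T
  obtain ⟨C, hC⟩ := hPB R₀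
  obtain ⟨Cm, hCm0, hCm⟩ := hME
  set K : ℝ := (C : ℝ) + 1 with hK
  have hK1 : 1 ≤ K := by have : (0 : ℝ) ≤ C := C.2; linarith only [C, K, this]
  set r : ℝ := min 1 (1 / (128 * K * Cm)) with hr
  have hr0 : 0 < r := lt_min one_pos (by positivity)
  have hr1 : r ≤ 1 := min_le_left _ _
  have hr2 : 128 * K * Cm * r ≤ 1 := by
    have h1 : r ≤ 1 / (128 * K * Cm) := min_le_right _ _
    rw [le_div_iff₀ (by positivity)] at h1
    linarith only [h1]
  refine ⟨r ^ 2, by positivity, pow_le_one₀ hr0.le hr1, ?_⟩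
  obtain ⟨p₀, hp₀⟩ := hCm (r ^ 2) (by positivity) (pow_le_one₀ hr0.le hr1) (1 / (64 * K))
    (by positivity)
  obtain ⟨p₁, hp₁⟩ := qq_large (max 256 (128 * K))
  refine ⟨max p₀ p₁, fun p hp th j X V t₁ t₂ hctx => ?_⟩
  obtain ⟨hTS, hB⟩ := hp₀ p (le_trans (le_max_left _ _) hp) th j X V t₁ t₂ hctx
  have hqq := hp₁ p (le_trans (le_max_right _ _) hp) j hctx.hj
  have hqp := qq_pos' p j
  refine qv_window h h0 hR₀ hC (K := K) (M := Cm * √(r ^ 2) * qq p j) hK.ge hctx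
    ((le_max_left _ _).trans hqq) ((le_max_right _ _).trans hqq) (by positivity) ?_ hTS hB
  rw [Real.sqrt_sq hr0.le]
  have h1 : K * (Cm * r * qq p j) = (128 * K * Cm * r) * qq p j / 128 := by ring
  rw [h1]
  have h2 : 128 * K * Cm * r * qq p j ≤ 1 * qq p j := by (clear * - hr2 hqp; gcongr)
  linarith only [h2]

end Vale.Agent.P107
end
end
end

section

section

attribute [-instance] ProperSMul.toContinuousSMul IsTopologicalTorsor.toContinuousSMul
  IdemSemiring.toCanonicallyOrderedAdd IdemSemiring.toMulLeftMono IdemSemiring.toMulRightMono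
  AddQuantale.instAddLeftMono AddQuantale.instAddRightMono Quantale.instMulLeftMono
  Quantale.instMulRightMono FiniteDimensional.rclike_to_real IsScalarTower.complexToReal
  FiniteDimensional.complexToReal

section

/-!
Time induction: the weak hypothesis holds up to every time, hence the strong one (M4d).
-/

open MeasureTheory Set Filter Topology
open scoped RealInnerProductSpace ENNReal NNReal

namespace Vale.Agent.P107

open Vale.Agent.P107.Ar

variable {T : ℝ} {f : ℝ → E3 → E3 → ℝ} {E B : ℝ → E3 → E3}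

namespace GS

lemma q_sub_le (v w : E3) : q v ≤ q w + ‖v - w‖ := by
  have h1 := norm_sub_norm_le v w
  have hv := q_sq v
  have hw := q_sq w
  have hvp := q_pos v
  have hwp := q_pos w
  have hwn := norm_lt_q w
  have hn := norm_nonneg (v - w)
  have hwn0 := norm_nonneg w
  have hvn0 := norm_nonneg v
  apply le_of_sq_le_sq _ (by linarith only [v, w, hwp, hn])
  have h2 : ‖v‖ ≤ ‖w‖ + ‖v - w‖ := by linarith only [v, w, h1]
  have h3 : ‖v‖ ^ 2 ≤ (‖w‖ + ‖v - w‖) ^ 2 := by (clear * - h2; gcongr)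
  nlinarith only [hv, hw, hwn, hn, h3]

lemma qq_pos (p i : ℕ) : 0 < qq p i := by unfold qq; positivity

lemma one_le_qq {p i : ℕ} (h : 12 * i ≤ 5 * p) : 1 ≤ qq p i := by
  unfold qq
  rw [one_le_div (by positivity)]
  exact pow_le_pow_right₀ (by norm_num) (by omega)

lemma ee_pos (p i : ℕ) : 0 < Ar.ee p i := by
  unfold Ar.ee
  exact Real.rpow_pos_of_pos (qq_pos p i) _

/-- Restriction of a characteristic. -/
lemma restrict {X V : ℝ → E3} {a b a' b' : ℝ} (h : IsChar E B X V a b) (ha : a ≤ a')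
    (hb : b' ≤ b) : IsChar E B X V a' b' := by
  have hsub : Icc a' b' ⊆ Icc a b := Icc_subset_Icc ha hb
  exact ⟨fun s hs => (h.hX s (hsub hs)).mono hsub, fun s hs => (h.hV s (hsub hs)).mono hsub⟩

/-- The force is bounded along the characteristics which carry particles. -/
lemma exists_force_bound (h : IsClassicalSolution T f E B) {t₀ th : ℝ} (h0 : 0 < t₀)
    (h0th : t₀ ≤ th) (hth : th < T) :
    ∃ K : ℝ, 0 < K ∧ ∀ a b : ℝ, t₀ ≤ a → b ≤ th → ∀ X V : ℝ → E3, IsChar E B X V a b →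
      f a (X a) (V a) ≠ 0 → ∀ s ∈ Icc a b, ∀ s' ∈ Icc a b, ‖V s' - V s‖ ≤ K * |s' - s| := by
  obtain ⟨R, hR⟩ := h.compact_support th ⟨h0.le.trans h0th, hth⟩
  have hK : IsCompact (Icc t₀ th ×ˢ Metric.closedBall (0 : E3) R) :=
    isCompact_Icc.prod (isCompact_closedBall _ _)
  have hsubK : Icc t₀ th ×ˢ Metric.closedBall (0 : E3) R ⊆ Ico 0 T ×ˢ univ :=
    prod_mono (fun s hs => ⟨h0.le.trans hs.1, hs.2.trans_lt hth⟩) (subset_univ _)
  obtain ⟨M, hM⟩ := hK.exists_bound_of_continuousOn (h.E_contDiff.continuousOn.mono hsubK)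
  obtain ⟨M', hM'⟩ := hK.exists_bound_of_continuousOn (h.B_contDiff.continuousOn.mono hsubK)
  refine ⟨max 1 (M + M'), by positivity, ?_⟩
  intro a b ha hb X V hc hf s hs s' hs'
  have hforce : ∀ r ∈ Icc a b, ‖E r (X r) + cross (u (V r)) (B r (X r))‖ ≤ max 1 (M + M') := by
    intro r hr
    have hra : a ∈ Icc a b := ⟨le_rfl, hr.1.trans hr.2⟩
    have e0 : f a (X a) (V a) = f r (X r) (V r) :=
      h.const_along (h0.trans_le ha) (hb.trans_lt hth) hc.hX hc.hV hra hr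
    have hfr : f r (X r) (V r) ≠ 0 := by rwa [← e0]
    have hXr := (hR r ⟨h0.le.trans (ha.trans hr.1), hr.2.trans hb⟩ _ _ hfr).1
    have hmem : (r, X r) ∈ Icc t₀ th ×ˢ Metric.closedBall (0 : E3) R :=
      ⟨⟨ha.trans hr.1, hr.2.trans hb⟩, by simpa using hXr⟩
    have e1 := hM _ hmem
    have e2 := hM' _ hmem
    simp only at e1 e2
    have e3 : ‖cross (u (V r)) (B r (X r))‖ ≤ M' := by
      refine (norm_cross_le _ _).trans ?_
      refine le_trans ?_ e2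
      exact mul_le_of_le_one_left (norm_nonneg _) (norm_u_lt_one _).le
    exact ((norm_add_le _ _).trans (add_le_add e1 e3)).trans (le_max_right _ _)
  have := (convex_Icc a b).norm_image_sub_le_of_norm_hasDerivWithin_le hc.hV hforce hs hs'
  rwa [Real.norm_eq_abs] at this

lemma mono_QV {V : ℝ → E3} {a b Γ η Γ' η' : ℝ} (h : QV V a b Γ η) (hΓ : Γ ≤ Γ') (hη : η ≤ η') :
    QV V a b Γ' η' := by
  obtain ⟨G, hG, hGb, hGV⟩ := h
  exact ⟨G, hG, hGb.trans hΓ, fun s hs s' hs' hss => (hGV s hs s' hs' hss).trans (by linarith only [hη])⟩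

/-- One step of the time induction. -/
lemma weak_step {c₁ t₀ th th' th'' K : ℝ} {p : ℕ}
    (hK : 0 < K) (hthK : ∀ a b : ℝ, t₀ ≤ a → b ≤ th → ∀ X V : ℝ → E3, IsChar E B X V a b →
      f a (X a) (V a) ≠ 0 → ∀ s ∈ Icc a b, ∀ s' ∈ Icc a b, ‖V s' - V s‖ ≤ K * |s' - s|)
    (h2 : th'' ≤ th) (hKh : K * (th'' - th') ≤ 1 / 32)
    (hgs : GoodStrong f E B c₁ t₀ th' p) : GoodWeak f E B c₁ t₀ th'' p := by
  intro i hi a b ha hab hb hlen X V hc hf hq
  have hqq := one_le_qq hi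
  have heep := ee_pos p i
  have heq : 0 < Ar.ee p i * qq p i := by positivity
  by_cases hbt : b ≤ th'
  · obtain ⟨s, hs, hs1, hs2⟩ := hq
    have := hgs i hi a b ha hab hbt hlen X V hc hf ⟨s, hs, by linarith only [hqq, hs1], by linarith only [hqq, hs2]⟩
    exact mono_QV this (by linarith only [hqq]) (by linarith only [heq])
  push Not at hbt
  have hV := hthK a b ha (hb.trans h2) X V hc hf
  by_cases hat : th' ≤ a
  · -- short window
    refine ⟨fun s => K * s, fun s _ s' _ hss => mul_le_mul_of_nonneg_left hss hK.le, ?_, ?_⟩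
    · have : K * b - K * a = K * (b - a) := by ring
      rw [this]
      have h3 : K * (b - a) ≤ K * (th'' - th') := mul_le_mul_of_nonneg_left (by linarith only [hb, hat]) hK.le
      linarith only [hKh, hqq, h3]
    · intro s hs s' hs' hss
      have h3 := hV s hs s' hs'
      rw [abs_of_nonneg (by linarith only [hss])] at h3
      beta_reduce
      linarith only [heq, h3]
  push Not at hat
  -- the window is cut at `th'`
  have hmid : th' ∈ Icc a b := ⟨hat.le, hbt.le⟩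
  have hc' : IsChar E B X V a th' := restrict hc le_rfl hbt.le
  have hlen' : th' - a ≤ dl c₁ p i := by linarith only [hlen, hbt]
  have hq' : ∃ s ∈ Icc a th', qq p i / 4 ≤ q (V s) ∧ q (V s) ≤ 2 * qq p i := by
    obtain ⟨s, hs, hs1, hs2⟩ := hq
    by_cases hst : s ≤ th'
    · exact ⟨s, ⟨hs.1, hst⟩, by linarith only [hqq, hs1], by linarith only [hqq, hs2]⟩
    · push Not at hst
      refine ⟨th', ⟨hat.le, le_rfl⟩, ?_⟩
      have h3 := hV th' hmid s hs
      rw [abs_of_nonneg (by linarith only [hst])] at h3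
      have h4 : K * (s - th') ≤ K * (th'' - th') :=
        mul_le_mul_of_nonneg_left (by linarith only [hb, hs.2]) hK.le
      have h5 := q_sub_le (V s) (V th')
      have h6 := q_sub_le (V th') (V s)
      rw [norm_sub_rev] at h6
      constructor <;> linarith only [hKh, hqq, hs1, h3, h4, h5, hs2, h6]
  obtain ⟨G, hG, hGb, hGV⟩ := hgs i hi a th' ha hat.le le_rfl hlen' X V hc' hf hq'
  refine ⟨fun s => if s ≤ th' then G s else G th' + K * (s - th'), ?_, ?_, ?_⟩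
  · intro s hs s' hs' hss
    beta_reduce
    by_cases h3 : s' ≤ th'
    · rw [if_pos h3, if_pos (hss.trans h3)]
      exact hG ⟨hs.1, hss.trans h3⟩ ⟨hs'.1, h3⟩ hss
    · rw [if_neg h3]
      push Not at h3
      by_cases h4 : s ≤ th'
      · rw [if_pos h4]
        have h5 := hG ⟨hs.1, h4⟩ ⟨hat.le, le_rfl⟩ h4
        have h6 : 0 ≤ K * (s' - th') := mul_nonneg hK.le (by linarith only [h3])
        linarith only [h5, h6]
      · rw [if_neg h4]
        have : K * (s - th') ≤ K * (s' - th') := mul_le_mul_of_nonneg_left (by linarith only [hss]) hK.le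
        linarith only [this]
  · beta_reduce
    rw [if_neg (not_le.2 hbt), if_pos hat.le]
    have h3 : K * (b - th') ≤ K * (th'' - th') := mul_le_mul_of_nonneg_left (by linarith only [hb]) hK.le
    linarith only [hKh, hqq, hGb, h3]
  · intro s hs s' hs' hss
    beta_reduce
    by_cases h3 : s' ≤ th'
    · rw [if_pos h3, if_pos (hss.trans h3)]
      have := hGV s ⟨hs.1, hss.trans h3⟩ s' ⟨hs'.1, h3⟩ hss
      linarith only [heq, this]
    · rw [if_neg h3]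
      push Not at h3
      by_cases h4 : s ≤ th'
      · rw [if_pos h4]
        have h5 := hGV s ⟨hs.1, h4⟩ th' ⟨hat.le, le_rfl⟩ h4
        have h6 := hV th' hmid s' hs'
        rw [abs_of_nonneg (by linarith only [h3])] at h6
        have h7 : ‖V s' - V s‖ ≤ ‖V s' - V th'‖ + ‖V th' - V s‖ := by
          have := norm_add_le (V s' - V th') (V th' - V s)
          rwa [sub_add_sub_cancel] at this
        linarith only [heq, h5, h6, h7]
      · rw [if_neg h4]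
        have h6 := hV s hs s' hs'
        rw [abs_of_nonneg (by linarith only [hss])] at h6
        have h8 : K * (s' - s) = K * (s' - th') - K * (s - th') := by ring
        linarith only [heq, h6]

end GS

open GS

/-- Time induction, from the continuity argument along windows. -/
theorem good_strong_of (h : IsClassicalSolution T f E B) {t₀ : ℝ} (h0 : 0 < t₀)
    {c₁ : ℝ} {p : ℕ}
    (hsw : ∀ th : ℝ, t₀ ≤ th → th < T →
      (∀ s ∈ Icc 0 th, ∀ x v, f s x v ≠ 0 → q v ≤ 2 ^ p) →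
      GoodWeak f E B c₁ t₀ th p → GoodStrong f E B c₁ t₀ th p)
    {th : ℝ} (h0th : t₀ ≤ th) (hth : th < T)
    (hP : ∀ s ∈ Icc 0 th, ∀ x v, f s x v ≠ 0 → q v ≤ 2 ^ p) :
    GoodStrong f E B c₁ t₀ th p := by
  obtain ⟨K, hK, hthK⟩ := exists_force_bound h h0 h0th hth
  set η : ℝ := 1 / (32 * K) with hη
  have hηpos : 0 < η := by positivity
  have key : ∀ n : ℕ, GoodWeak f E B c₁ t₀ (min th (t₀ + n * η)) p := by
    intro n
    induction n with
    | zero =>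
      intro i hi a b ha hab hb hlen X V hc hf hq
      have hb' : b ≤ t₀ := by
        have := hb.trans (min_le_right _ _)
        simpa using this
      have hab' : a = b := le_antisymm hab (hb'.trans ha)
      subst hab'
      refine ⟨fun _ => 0, fun _ _ _ _ _ => le_rfl, ?_, ?_⟩
      · have := qq_pos p i
        simp only [sub_self]
        positivity
      · intro s hs s' hs' _
        have e1 : s = a := le_antisymm hs.2 hs.1
        have e2 : s' = a := le_antisymm hs'.2 hs'.1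
        rw [e1, e2]
        have := qq_pos p i
        have := ee_pos p i
        simp only [sub_self, norm_zero, zero_add]
        positivity
    | succ n ih =>
      have hm1 : t₀ ≤ min th (t₀ + n * η) := le_min h0th (by
        have : 0 ≤ (n : ℝ) * η := by (clear * - K hK; positivity)
        linarith only [this])
      have hgs := hsw _ hm1 ((min_le_left _ _).trans_lt hth)
        (fun s hs x v hne => hP s ⟨hs.1, hs.2.trans (min_le_left _ _)⟩ x v hne) ih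
      refine weak_step hK hthK (min_le_left _ _) ?_ hgs
      · have h1 : min th (t₀ + ((n + 1 : ℕ) : ℝ) * η) - min th (t₀ + n * η) ≤ η := by
          push_cast
          rcases min_choice th (t₀ + n * η) with h2 | h2
          · rw [h2]
            have := min_le_left th (t₀ + (n + 1) * η)
            linarith only [hηpos, this]
          · rw [h2]
            have := min_le_right th (t₀ + (n + 1) * η)
            linarith only [this]
        have h3 : K * (min th (t₀ + ((n + 1 : ℕ) : ℝ) * η) - min th (t₀ + n * η)) ≤ K * η :=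
          mul_le_mul_of_nonneg_left h1 hK.le
        have h4 : K * η = 1 / 32 := by
          rw [hη]
          field_simp
        linarith only [h3, h4]
  obtain ⟨n, hn⟩ := exists_nat_gt ((th - t₀) / η)
  have h1 : th ≤ t₀ + n * η := by
    rw [div_lt_iff₀ hηpos] at hn
    linarith only [hn]
  have h2 := key n
  rw [min_eq_left h1] at h2
  exact hsw th h0th hth hP h2

end Vale.Agent.P107
end
end
end

section

section

attribute [-instance] ProperSMul.toContinuousSMul IsTopologicalTorsor.toContinuousSMul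
  IdemSemiring.toCanonicallyOrderedAdd IdemSemiring.toMulLeftMono IdemSemiring.toMulRightMono
  AddQuantale.instAddLeftMono AddQuantale.instAddRightMono Quantale.instMulLeftMono
  Quantale.instMulRightMono FiniteDimensional.rclike_to_real IsScalarTower.complexToReal
  FiniteDimensional.complexToReal

section

/-!
Going back in time by `c₁ / (2 + p)` the maximal energy decreases at most by the factor `7/8`
(M4e), and the final bound (M5), both from the conclusion of the previous step.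
-/

open MeasureTheory Set Filter Topology
open scoped RealInnerProductSpace ENNReal NNReal

namespace Vale.Agent.P107

open Vale.Agent.P107.Ar

variable {T : ℝ} {f : ℝ → E3 → E3 → ℝ} {E B : ℝ → E3 → E3}

namespace GS

lemma qq_zero (p : ℕ) : qq p 0 = 2 ^ p := by unfold qq; simp

lemma dl_zero (c₁ : ℝ) (p : ℕ) : dl c₁ p 0 = c₁ / (2 + p) := by
  unfold dl
  congr 1
  simp
  ring

lemma ee_zero_le {p : ℕ} (hp : 8 ≤ p) : Ar.ee p 0 ≤ 1 / 32 := by
  unfold Ar.ee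
  rw [qq_zero, Real.rpow_neg (by positivity), one_div]
  have h1 : (32 : ℝ) ≤ ((2 : ℝ) ^ p) ^ (5 / 8 : ℝ) := by
    have h2 : (32 : ℝ) = ((2 : ℝ) ^ (8 : ℕ)) ^ (5 / 8 : ℝ) := by
      rw [← Real.rpow_natCast, ← Real.rpow_mul (by norm_num)]
      norm_num
    rw [h2]
    exact Real.rpow_le_rpow (by positivity) (pow_le_pow_right₀ (by norm_num) hp) (by norm_num)
  exact inv_anti₀ (by norm_num) h1

/-- The energy up to a fixed time is bounded. -/
lemma exists_q_bound (h : IsClassicalSolution T f E B) {t : ℝ} (ht : t ∈ Ico 0 T) :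
    ∃ M : ℝ, ∀ s ∈ Icc 0 t, ∀ x v, f s x v ≠ 0 → q v ≤ M := by
  obtain ⟨R, hR⟩ := h.compact_support t ht
  refine ⟨1 + R, fun s hs x v hne => ?_⟩
  have h1 := (hR s hs x v hne).2
  have h2 := q_sub_le v 0
  have h3 : q (0 : E3) = 1 := by simp [q]
  rw [h3, sub_zero] at h2
  linarith only [h1, h2]

end GS

open GS

/-- M4e, from the conclusion of `good_strong`. -/
theorem back_step_of (h : IsClassicalSolution T f E B) {t₀ : ℝ} (h0 : 0 < t₀) (h0T : t₀ < T)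
    (hgs : ∃ c₁ : ℝ, 0 < c₁ ∧ c₁ ≤ 1 ∧ ∃ p₀ : ℕ, ∀ p ≥ p₀, ∀ th : ℝ, t₀ ≤ th → th < T →
      (∀ s ∈ Icc 0 th, ∀ x v, f s x v ≠ 0 → q v ≤ 2 ^ p) → GoodStrong f E B c₁ t₀ th p) :
    ∃ c₁ : ℝ, 0 < c₁ ∧ ∃ p₀ : ℕ, ∀ p ≥ p₀, ∀ t : ℝ, t₀ ≤ t → t < T →
      (∀ s ∈ Icc 0 t, ∀ x v, f s x v ≠ 0 → q v ≤ 2 ^ p) →
      ∀ Q : ℝ, 2 ^ p / 2 ≤ Q → (∃ s ∈ Icc 0 t, ∃ x v, f s x v ≠ 0 ∧ Q ≤ q v) →
      t₀ ≤ t - c₁ / (2 + p) ∧
        ∃ s ∈ Icc 0 (t - c₁ / (2 + p)), ∃ x v, f s x v ≠ 0 ∧ 7 / 8 * Q ≤ q v := by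
  obtain ⟨c₁, hc₁, -, p₀, hmain⟩ := hgs
  obtain ⟨M, hM⟩ := exists_q_bound h (t := t₀) ⟨h0.le, h0T⟩
  obtain ⟨n, hn⟩ := pow_unbounded_of_one_lt (4 * M) (one_lt_two : (1 : ℝ) < 2)
  refine ⟨c₁, hc₁, max p₀ (max n 8), ?_⟩
  intro p hp t h0t htT hP Q hQ ⟨s, hs, x, v, hne, hQv⟩
  have hp0 : p₀ ≤ p := (le_max_left _ _).trans hp
  have hpn : n ≤ p := (le_max_left _ _).trans ((le_max_right _ _).trans hp)
  have hp8 : 8 ≤ p := (le_max_right _ _).trans ((le_max_right _ _).trans hp)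
  have h2p : (0 : ℝ) < 2 ^ p := by positivity
  have hMp : 4 * M < 2 ^ p := hn.trans_le (pow_le_pow_right₀ (by norm_num) hpn)
  have hd : 0 < c₁ / (2 + p) := by positivity
  have hst : t₀ < s := by
    by_contra hcon
    push Not at hcon
    have := hM s ⟨hs.1, hcon⟩ x v hne
    linarith only [hQ, hQv, h2p, hMp, this]
  set a : ℝ := max t₀ (s - c₁ / (2 + p)) with ha
  have h0a : t₀ ≤ a := le_max_left _ _
  have has : a ≤ s := max_le hst.le (by linarith only [hd])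
  obtain ⟨X, V, -, -, hXs, hVs, hX, hV, hfc⟩ :=
    exists_characteristic h (h0.trans_le h0a) has (hs.2.trans_lt htT) x v
  have hchar : IsChar E B X V a s := ⟨hX, hV⟩
  have haI : a ∈ Icc a s := ⟨le_rfl, has⟩
  have hsI : s ∈ Icc a s := ⟨has, le_rfl⟩
  have hfa : f a (X a) (V a) ≠ 0 := by rw [hfc a haI]; exact hne
  have hvP := hP s hs x v hne
  have hGS := hmain p hp0 t h0t htT hP 0 (by omega) a s h0a has hs.2 (by
      rw [dl_zero]
      have := le_max_right t₀ (s - c₁ / (2 + p))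
      linarith only [this]) X V hchar hfa
      ⟨s, hsI, by rw [hVs, qq_zero]; linarith only [hQ, hQv, h2p], by rw [hVs, qq_zero]; linarith only [h2p, hvP]⟩
  obtain ⟨G, hG, hGb, hGV⟩ := hGS
  have h1 := hGV a haI s hsI has
  rw [qq_zero] at hGb h1
  have hee := ee_zero_le hp8
  have h2 : ‖V s - V a‖ ≤ Q / 8 := by
    have : Ar.ee p 0 * 2 ^ p ≤ 1 / 32 * 2 ^ p := mul_le_mul_of_nonneg_right hee h2p.le
    linarith only [hQ, h2p, hGb, h1, this]
  have h3 := q_sub_le (V s) (V a)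
  rw [hVs] at h3 h2
  have h4 : 7 / 8 * Q ≤ q (V a) := by linarith only [hQv, h2, h3]
  have h5 : t₀ < a := by
    by_contra hcon
    push Not at hcon
    have := hM a ⟨h0.le.trans h0a, hcon⟩ (X a) (V a) hfa
    linarith only [hQ, hQv, h2p, hMp, h2, h3, this]
  have h6 : a = s - c₁ / (2 + p) := by
    rcases max_choice t₀ (s - c₁ / (2 + p)) with h7 | h7
    · rw [← ha] at h7
      linarith only [h5, h7]
    · exact h7
  refine ⟨by linarith only [h5, h6, hs.2], a, ⟨h0.le.trans h0a, by linarith only [h6, hs.2]⟩, X a, V a, hfa, h4⟩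

namespace GS

/-- The time needed to reach the energy `2^m`. -/
lemma time_lower {t₀ c₁ : ℝ} {p₀ : ℕ} (hc₁ : 0 < c₁)
    (hbs : ∀ p ≥ p₀, ∀ t : ℝ, t₀ ≤ t → t < T →
      (∀ s ∈ Icc 0 t, ∀ x v, f s x v ≠ 0 → q v ≤ 2 ^ p) →
      ∀ Q : ℝ, 2 ^ p / 2 ≤ Q → (∃ s ∈ Icc 0 t, ∃ x v, f s x v ≠ 0 ∧ Q ≤ q v) →
      t₀ ≤ t - c₁ / (2 + p) ∧
        ∃ s ∈ Icc 0 (t - c₁ / (2 + p)), ∃ x v, f s x v ≠ 0 ∧ 7 / 8 * Q ≤ q v) (m : ℕ)
    (hm : p₀ ≤ m) : ∀ t : ℝ, t₀ ≤ t → t < T →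
      (∀ s ∈ Icc 0 t, ∀ x v, f s x v ≠ 0 → q v ≤ 2 ^ m) →
      (∃ s ∈ Icc 0 t, ∃ x v, f s x v ≠ 0 ∧ 2 ^ m / 2 ≤ q v) →
      ∑ k ∈ Finset.Icc p₀ m, c₁ / (2 + k : ℝ) ≤ t - t₀ := by
  induction m, hm using Nat.le_induction with
  | base =>
    intro t h0t htT hP hQ
    have := (hbs p₀ le_rfl t h0t htT hP _ le_rfl hQ).1
    simp only [Finset.Icc_self, Finset.sum_singleton]
    linarith only [this]
  | succ m hm ih =>
    have hd : (0 : ℝ) < c₁ / (2 + (m + 1 : ℕ)) := by positivity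
    have hsum : ∑ k ∈ Finset.Icc p₀ (m + 1), c₁ / (2 + k : ℝ)
        = ∑ k ∈ Finset.Icc p₀ m, c₁ / (2 + k : ℝ) + c₁ / (2 + (m + 1 : ℕ)) := by
      rw [Finset.sum_Icc_succ_top (by omega)]
    -- induction on the number of steps
    have claim : ∀ j : ℕ, ∀ t : ℝ, t₀ ≤ t → t < T → t ≤ t₀ + j * (c₁ / (2 + (m + 1 : ℕ))) →
        (∀ s ∈ Icc 0 t, ∀ x v, f s x v ≠ 0 → q v ≤ 2 ^ (m + 1)) →
        (∃ s ∈ Icc 0 t, ∃ x v, f s x v ≠ 0 ∧ 2 ^ (m + 1) / 2 ≤ q v) →
        ∑ k ∈ Finset.Icc p₀ (m + 1), c₁ / (2 + k : ℝ) ≤ t - t₀ := by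
      intro j
      induction j with
      | zero =>
        intro t h0t htT hj hP hQ
        have := (hbs (m + 1) (by omega) t h0t htT hP _ le_rfl hQ).1
        simp only [Nat.cast_zero, zero_mul, add_zero] at hj
        linarith only [hd, this, hj]
      | succ j ihj =>
        intro t h0t htT hj hP hQ
        obtain ⟨h1, s, hs, x, v, hne, hv⟩ := hbs (m + 1) (by omega) t h0t htT hP _ le_rfl hQ
        set t' := t - c₁ / (2 + (m + 1 : ℕ)) with ht'
        have htt : t' ≤ t := by linarith only [hd]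
        by_cases hall : ∀ s ∈ Icc 0 t', ∀ x v, f s x v ≠ 0 → q v ≤ 2 ^ m
        · have h2 : (∃ s ∈ Icc 0 t', ∃ x v, f s x v ≠ 0 ∧ 2 ^ m / 2 ≤ q v) := by
            refine ⟨s, hs, x, v, hne, ?_⟩
            have : (0 : ℝ) < 2 ^ m := by positivity
            rw [pow_succ] at hv
            linarith only [hv, this]
          have := ih t' h1 (by linarith only [hd, htT]) hall h2
          rw [hsum]
          linarith only [this]
        · push Not at hall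
          obtain ⟨s', hs', x', v', hne', hv'⟩ := hall
          have := ihj t' h1 (by linarith only [hd, htT]) (by
            push_cast at hj
            push_cast at ht'
            push_cast
            linarith only [hj, ht']) (fun s hs => hP s ⟨hs.1, hs.2.trans htt⟩)
            ⟨s', hs', x', v', hne', by rw [pow_succ]; linarith only [hv']⟩
          linarith only [hd, this]
    intro t h0t htT hP hQ
    obtain ⟨j, hj⟩ := exists_nat_gt ((t - t₀) / (c₁ / (2 + (m + 1 : ℕ))))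
    rw [div_lt_iff₀ hd] at hj
    exact claim j t h0t htT (by linarith only [hj]) hP hQ

/-- Divergence of the harmonic series. -/
lemma exists_sum_gt {c₁ : ℝ} (hc₁ : 0 < c₁) (p₀ : ℕ) (S : ℝ) :
    ∃ m ≥ p₀, S < ∑ k ∈ Finset.Icc p₀ m, c₁ / (2 + k : ℝ) := by
  have h1 : Tendsto (fun n => ∑ i ∈ Finset.range n, (1 / ((i : ℝ) + 1))) atTop atTop :=
    Real.tendsto_sum_range_one_div_nat_succ_atTop
  set D : ℝ := ∑ i ∈ Finset.range (p₀ + 1), (1 / ((i : ℝ) + 1)) with hD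
  obtain ⟨N, hN⟩ := (h1.eventually_gt_atTop (D + S / c₁)).exists_forall_of_atTop
  have hN1 := hN (max N (p₀ + 2)) (le_max_left _ _)
  set n := max N (p₀ + 2) with hn
  have hnp : p₀ + 2 ≤ n := le_max_right _ _
  refine ⟨n, by omega, ?_⟩
  have h2 : ∑ i ∈ Finset.range n, (1 / ((i : ℝ) + 1))
      = D + ∑ i ∈ Finset.Ico (p₀ + 1) n, (1 / ((i : ℝ) + 1)) := by
    rw [hD, Finset.sum_range_add_sum_Ico _ (by omega)]
  have h3 : ∑ i ∈ Finset.Ico (p₀ + 1) n, (1 / ((i : ℝ) + 1))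
      ≤ ∑ k ∈ Finset.Icc p₀ n, 1 / (2 + k : ℝ) := by
    have h4 : ∑ i ∈ Finset.Ico (p₀ + 1) n, (1 / ((i : ℝ) + 1))
        = ∑ k ∈ Finset.Ico p₀ (n - 1), 1 / (2 + k : ℝ) := by
      have : n = (n - 1) + 1 := by omega
      rw [this, ← Finset.sum_Ico_add' (fun i : ℕ => 1 / ((i : ℝ) + 1)) p₀ (n - 1) 1]
      simp only [Nat.add_sub_cancel]
      apply Finset.sum_congr rfl
      intro i _
      push_cast
      congr 1
      ring
    rw [h4]
    apply Finset.sum_le_sum_of_subset_of_nonneg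
    · intro i hi
      rw [Finset.mem_Ico] at hi
      rw [Finset.mem_Icc]
      omega
    · intro i _ _
      (clear * -; positivity)
  have h5 : ∑ k ∈ Finset.Icc p₀ n, c₁ / (2 + k : ℝ)
      = c₁ * ∑ k ∈ Finset.Icc p₀ n, 1 / (2 + k : ℝ) := by
    rw [Finset.mul_sum]
    apply Finset.sum_congr rfl
    intro i _
    ring
  rw [h5]
  have h6 : S / c₁ < ∑ k ∈ Finset.Icc p₀ n, 1 / (2 + k : ℝ) := by linarith only [hN1, h2, h3]
  rw [div_lt_iff₀ hc₁] at h6
  linarith only [h6]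

end GS

/-- M5, from the conclusion of `back_step` for one positive starting time. -/
theorem momentum_bounded_of (h : IsClassicalSolution T f E B) {t₀ : ℝ} (h0 : 0 < t₀)
    (h0T : t₀ < T)
    (hbs : ∃ c₁ : ℝ, 0 < c₁ ∧ ∃ p₀ : ℕ, ∀ p ≥ p₀, ∀ t : ℝ, t₀ ≤ t → t < T →
      (∀ s ∈ Icc 0 t, ∀ x v, f s x v ≠ 0 → q v ≤ 2 ^ p) →
      ∀ Q : ℝ, 2 ^ p / 2 ≤ Q → (∃ s ∈ Icc 0 t, ∃ x v, f s x v ≠ 0 ∧ Q ≤ q v) →
      t₀ ≤ t - c₁ / (2 + p) ∧
        ∃ s ∈ Icc 0 (t - c₁ / (2 + p)), ∃ x v, f s x v ≠ 0 ∧ 7 / 8 * Q ≤ q v) :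
    ∃ Q : ℝ, ∀ t ∈ Ico 0 T, ∀ x v, f t x v ≠ 0 → ‖v‖ ≤ Q := by
  obtain ⟨c₁, hc₁, p₀, hbs⟩ := hbs
  obtain ⟨m₁, hm₁, hsum⟩ := exists_sum_gt hc₁ p₀ T
  refine ⟨2 ^ m₁, fun t ht x v hne => ?_⟩
  by_contra hcon
  push Not at hcon
  have hv : 2 ^ m₁ < q v := hcon.trans (norm_lt_q v)
  set t' := max t t₀ with ht'
  have ht'T : t' < T := max_lt ht.2 h0T
  have ht'0 : t₀ ≤ t' := le_max_right _ _
  obtain ⟨M, hM⟩ := exists_q_bound h (t := t') ⟨h0.le.trans ht'0, ht'T⟩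
  have hex : ∃ m : ℕ, ∀ s ∈ Icc 0 t', ∀ x v, f s x v ≠ 0 → q v ≤ 2 ^ m := by
    obtain ⟨n, hn⟩ := pow_unbounded_of_one_lt M (one_lt_two : (1 : ℝ) < 2)
    exact ⟨n, fun s hs x v hne => (hM s hs x v hne).trans hn.le⟩
  classical
  set m := Nat.find hex with hm
  have hmspec := Nat.find_spec hex
  rw [← hm] at hmspec
  have htI : t ∈ Icc 0 t' := ⟨ht.1, le_max_left _ _⟩
  have hmm : m₁ < m := by
    have h1 := hmspec t htI x v hne
    by_contra h2
    push Not at h2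
    have h3 : (2 : ℝ) ^ m ≤ 2 ^ m₁ := pow_le_pow_right₀ (by norm_num) h2
    linarith only [hv, h1, h3]
  have hmin := Nat.find_min hex (m := m - 1) (by omega)
  push Not at hmin
  obtain ⟨s, hs, x', v', hne', hv'⟩ := hmin
  have h2m : (2 : ℝ) ^ m / 2 = 2 ^ (m - 1) := by
    have : m = (m - 1) + 1 := by omega
    conv_lhs => rw [this, pow_succ]
    ring
  have := time_lower hc₁ hbs m (by omega) t' ht'0 ht'T hmspec
    ⟨s, hs, x', v', hne', by rw [h2m]; exact hv'.le⟩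
  have hmono : ∑ k ∈ Finset.Icc p₀ m₁, c₁ / (2 + k : ℝ)
      ≤ ∑ k ∈ Finset.Icc p₀ m, c₁ / (2 + k : ℝ) := by
    apply Finset.sum_le_sum_of_subset_of_nonneg
    · exact Finset.Icc_subset_Icc le_rfl hmm.le
    · intro i _ _
      (clear * - hc₁; positivity)
  linarith only [h0, hsum, ht'T, this, hmono]

end Vale.Agent.P107
end
end
end

section

section

attribute [-instance] ProperSMul.toContinuousSMul IsTopologicalTorsor.toContinuousSMul
  IdemSemiring.toCanonicallyOrderedAdd IdemSemiring.toMulLeftMono IdemSemiring.toMulRightMono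
  AddQuantale.instAddLeftMono AddQuantale.instAddRightMono Quantale.instMulLeftMono
  Quantale.instMulRightMono FiniteDimensional.rclike_to_real IsScalarTower.complexToReal
  FiniteDimensional.complexToReal

section

/-!
Continuity along the window: the weak hypothesis for all particles implies the strong one.
-/

open MeasureTheory Set Filter Topology
open scoped RealInnerProductSpace ENNReal NNReal

namespace Vale.Agent.P107

open Vale.Agent.P107.Ar

variable {T : ℝ} {f : ℝ → E3 → E3 → ℝ} {E B : ℝ → E3 → E3}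

namespace SoW

/-- `q` is 1-Lipschitz. -/
lemma q_lip (x y : E3) : |q x - q y| ≤ ‖x - y‖ := by
  have hx := one_le_q x
  have hy := one_le_q y
  have h1 : (q x - q y) * (q x + q y) = (‖x‖ - ‖y‖) * (‖x‖ + ‖y‖) := by
    have e1 := q_sq x
    have e2 := q_sq y
    nlinarith only [e1, e2]
  have h2 : |q x - q y| * (q x + q y) = |‖x‖ - ‖y‖| * (‖x‖ + ‖y‖) := by
    have e := congrArg abs h1
    rw [abs_mul, abs_mul] at e
    rwa [abs_of_pos (by linarith only [hx, hy] : 0 < q x + q y),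
      abs_of_nonneg (by positivity : 0 ≤ ‖x‖ + ‖y‖)] at e
  have h3 : |‖x‖ - ‖y‖| ≤ ‖x - y‖ := abs_norm_sub_norm_le x y
  have h4 : ‖x‖ + ‖y‖ ≤ q x + q y := add_le_add (norm_lt_q x).le (norm_lt_q y).le
  have h5 : |q x - q y| * (q x + q y) ≤ ‖x - y‖ * (q x + q y) := by
    rw [h2]
    exact mul_le_mul h3 h4 (by (clear * -; positivity)) (norm_nonneg _)
  exact le_of_mul_le_mul_right h5 (by linarith only [hx, hy])

lemma qq_pos (p i : ℕ) : 0 < qq p i := by unfold qq; positivity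

lemma qq_large {p i : ℕ} (hp : 12 ≤ p) (hi : 12 * i ≤ 5 * p) : 128 ≤ qq p i := by
  have h1 : i + 7 ≤ p := by omega
  unfold qq
  rw [le_div_iff₀ (by positivity)]
  calc (128 : ℝ) * 2 ^ i = 2 ^ (i + 7) := by rw [pow_add]; norm_num; ring
    _ ≤ 2 ^ p := pow_le_pow_right₀ (by norm_num) h1

lemma ee_pos (p i : ℕ) : 0 < Ar.ee p i := by
  unfold Ar.ee
  exact Real.rpow_pos_of_pos (qq_pos p i) _

lemma ee_small {p i : ℕ} (hp : 12 ≤ p) (hi : 12 * i ≤ 5 * p) : Ar.ee p i ≤ 1 / 16 := by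
  have h1 := qq_large hp hi
  have h2 : (16 : ℝ) ≤ qq p i ^ (5 / 8 : ℝ) := by
    have e1 : (16 : ℝ) ≤ (128 : ℝ) ^ (5 / 8 : ℝ) := by
      have e2 : (128 : ℝ) = (2 : ℝ) ^ (7 : ℝ) := by norm_num
      have e3 : (16 : ℝ) = (2 : ℝ) ^ (4 : ℝ) := by norm_num
      rw [e2, e3, ← Real.rpow_mul (by norm_num)]
      exact Real.rpow_le_rpow_of_exponent_le (by norm_num) (by norm_num)
    exact e1.trans (Real.rpow_le_rpow (by norm_num) h1 (by norm_num))
  unfold Ar.ee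
  rw [Real.rpow_neg (qq_pos p i).le, one_div]
  exact inv_anti₀ (by norm_num) h2

lemma isChar_mono {X V : ℝ → E3} {a b a' b' : ℝ} (hc : IsChar E B X V a b) (ha : a ≤ a')
    (hb : b' ≤ b) : IsChar E B X V a' b' where
  hX s hs := (hc.hX s (Icc_subset_Icc ha hb hs)).mono (Icc_subset_Icc ha hb)
  hV s hs := (hc.hV s (Icc_subset_Icc ha hb hs)).mono (Icc_subset_Icc ha hb)

/-- clamping to `[a, b]` -/
noncomputable def cl (a b s : ℝ) : ℝ := max a (min b s)

lemma cl_mem {a b : ℝ} (hab : a ≤ b) (s : ℝ) : cl a b s ∈ Icc a b :=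
  ⟨le_max_left _ _, max_le hab (min_le_left _ _)⟩

lemma cl_mono (a b : ℝ) : Monotone (cl a b) := fun _ _ hst =>
  max_le_max le_rfl (min_le_min le_rfl hst)

lemma cl_dist {a b s r : ℝ} (hr : 0 ≤ r) (h1 : a - r ≤ s) (h2 : s ≤ b + r) (hab : a ≤ b) :
    |s - cl a b s| ≤ r := by
  unfold cl
  rw [abs_le]
  rcases le_total b s with h | h
  · rw [min_eq_left h, max_eq_right hab]
    constructor <;> linarith only [hr, h, h2]
  · rw [min_eq_right h]
    rcases le_total a s with h' | h'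
    · rw [max_eq_right h']; constructor <;> linarith only [s, r, hr]
    · rw [max_eq_left h']; constructor <;> linarith only [a, s, r, h1, hr, h']

/-- extending a quasi-variation bound to a slightly larger interval -/
lemma QV_extend {V : ℝ → E3} {a b a' b' Γ η ν r : ℝ} (hab : a ≤ b)
    (hr : 0 ≤ r) (ha2 : a - r ≤ a') (hb2 : b' ≤ b + r)
    (haa : a' ≤ a) (hbb : b ≤ b')
    (hν : ∀ s ∈ Icc a' b', ∀ s' ∈ Icc a' b', |s - s'| ≤ r → ‖V s - V s'‖ ≤ ν)
    (hQ : QV V a b Γ η) : QV V a' b' Γ (η + 2 * ν) := by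
  obtain ⟨G, hG, hGt, hG2⟩ := hQ
  refine ⟨fun s => G (cl a b s), ?_, ?_, ?_⟩
  · intro s _ s' _ hss
    exact hG (cl_mem hab s) (cl_mem hab s') (cl_mono a b hss)
  · have h1 : G (cl a b b') ≤ G b := hG (cl_mem hab _) (right_mem_Icc.2 hab) (cl_mem hab _).2
    have h2 : G a ≤ G (cl a b a') := hG (left_mem_Icc.2 hab) (cl_mem hab _) (cl_mem hab _).1
    linarith only [hGt, h1, h2]
  · intro s hs s' hs' hss
    have hsub : Icc a b ⊆ Icc a' b' := Icc_subset_Icc haa hbb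
    have d1 : |s - cl a b s| ≤ r := cl_dist hr (by linarith only [ha2, hs.1]) (by linarith only [hb2, hs.2]) hab
    have d2 : |s' - cl a b s'| ≤ r := cl_dist hr (by linarith only [ha2, hs'.1]) (by linarith only [hb2, hs'.2]) hab
    have n1 := hν s hs (cl a b s) (hsub (cl_mem hab s)) d1
    have n2 := hν s' hs' (cl a b s') (hsub (cl_mem hab s')) d2
    have n3 := hG2 _ (cl_mem hab s) _ (cl_mem hab s') (cl_mono a b hss)
    have e : V s' - V s = (V s' - V (cl a b s')) + (V (cl a b s') - V (cl a b s)) -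
        (V s - V (cl a b s)) := by abel
    rw [e]
    calc _ ≤ ‖(V s' - V (cl a b s')) + (V (cl a b s') - V (cl a b s))‖ +
          ‖V s - V (cl a b s)‖ := norm_sub_le _ _
      _ ≤ (‖V s' - V (cl a b s')‖ + ‖V (cl a b s') - V (cl a b s)‖) +
          ‖V s - V (cl a b s)‖ := by gcongr; exact norm_add_le _ _
      _ ≤ (ν + (G (cl a b s') - G (cl a b s) + η)) + ν := by (clear * - n1 n2 n3; gcongr)
      _ = _ := by ring

/-- weakening -/
lemma QV_weaken {V : ℝ → E3} {a b Γ η Γ' η' : ℝ} (hQ : QV V a b Γ η) (h1 : Γ ≤ Γ')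
    (h2 : η ≤ η') : QV V a b Γ' η' := by
  obtain ⟨G, hG, hGt, hG2⟩ := hQ
  exact ⟨G, hG, hGt.trans h1, fun s hs s' hs' hss => (hG2 s hs s' hs' hss).trans (by linarith only [h2])⟩

/-- total displacement under a quasi-variation bound -/
lemma QV_dist {V : ℝ → E3} {a b Γ η : ℝ} (hQ : QV V a b Γ η) {s s' : ℝ} (hs : s ∈ Icc a b)
    (hs' : s' ∈ Icc a b) : ‖V s' - V s‖ ≤ Γ + η := by
  obtain ⟨G, hG, hGt, hG2⟩ := hQ
  have hab : a ≤ b := hs.1.trans hs.2
  have key : ∀ x ∈ Icc a b, ∀ y ∈ Icc a b, x ≤ y → ‖V y - V x‖ ≤ Γ + η := by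
    intro x hx y hy hxy
    have h1 := hG2 x hx y hy hxy
    have h2 : G y ≤ G b := hG hy (right_mem_Icc.2 hab) hy.2
    have h3 : G a ≤ G x := hG (left_mem_Icc.2 hab) hx hx.1
    linarith only [hGt, h1, h2, h3]
  rcases le_total s s' with h | h
  · exact key s hs s' hs' h
  · rw [norm_sub_rev]; exact key s' hs' s hs h

end SoW

open SoW

/-- M4c, with the conclusion of `qv_strong` as hypothesis. -/
theorem strong_of_weak_core (h : IsClassicalSolution T f E B) {t₀ : ℝ} (h0 : 0 < t₀)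
    (hqs : ∃ c₁ : ℝ, 0 < c₁ ∧ c₁ ≤ 1 ∧ ∃ p₀ : ℕ, ∀ p ≥ p₀,
      ∀ (th : ℝ) (j : ℕ) (X V : ℝ → E3) (t₁ t₂ : ℝ), Ctx T f E B t₀ th c₁ p j X V t₁ t₂ →
      QV V t₁ t₂ (qq p j / 32) (Ar.ee p j * qq p j / 2)) :
    ∃ c₁ : ℝ, 0 < c₁ ∧ c₁ ≤ 1 ∧ ∃ p₀ : ℕ, ∀ p ≥ p₀, ∀ th : ℝ, t₀ ≤ th → th < T →
      (∀ s ∈ Icc 0 th, ∀ x v, f s x v ≠ 0 → q v ≤ 2 ^ p) →
      GoodWeak f E B c₁ t₀ th p → GoodStrong f E B c₁ t₀ th p := by
  obtain ⟨c₁, hc1, hc1', p₀, hmain⟩ := hqs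
  refine ⟨c₁, hc1, hc1', max p₀ 12, ?_⟩
  intro p hp th ht0 hthT hP hweak i hi a b hta hab hbth hlen X V hchar hsupp ⟨s₀, hs₀, hq1, hq2⟩
  have hp0 : p₀ ≤ p := (le_max_left _ _).trans hp
  have hp12 : 12 ≤ p := (le_max_right _ _).trans hp
  have hqpos := qq_pos p i
  have hepos := ee_pos p i
  have hesm := ee_small hp12 hi
  -- uniform continuity
  have hVc : ContinuousOn V (Icc a b) := fun s hs => (hchar.hV s hs).continuousWithinAt
  have hVu := isCompact_Icc.uniformContinuousOn_of_continuous hVc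
  set ν : ℝ := Ar.ee p i * qq p i / 8 with hν
  have hνpos : 0 < ν := by (clear * - p i hqpos hepos; positivity)
  obtain ⟨δ, hδ, hδ2⟩ := Metric.uniformContinuousOn_iff.1 hVu ν hνpos
  set r : ℝ := δ / 2 with hr
  have hrpos : 0 < r := by positivity
  have hunif : ∀ s ∈ Icc a b, ∀ s' ∈ Icc a b, |s - s'| ≤ r → ‖V s - V s'‖ ≤ ν := by
    intro s hs s' hs' hss
    have := hδ2 s hs s' hs' (by rw [Real.dist_eq]; linarith only [hr, hrpos, hss])
    rw [dist_eq_norm] at this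
    exact this.le
  -- the induction
  have claim : ∀ n : ℕ, QV V (max a (s₀ - n * r)) (min b (s₀ + n * r)) (qq p i / 32)
      (Ar.ee p i * qq p i / 2) := by
    intro n
    induction n with
    | zero =>
      have e1 : max a (s₀ - (0 : ℕ) * r) = s₀ := by simp [hs₀.1]
      have e2 : min b (s₀ + (0 : ℕ) * r) = s₀ := by simp [hs₀.2]
      rw [e1, e2]
      refine ⟨fun _ => 0, fun _ _ _ _ _ => le_rfl, by simp; positivity, ?_⟩
      intro s hs s' hs' _
      have h1 : s = s₀ := le_antisymm hs.2 hs.1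
      have h2 : s' = s₀ := le_antisymm hs'.2 hs'.1
      rw [h1, h2]
      simp only [sub_self, norm_zero, zero_add]
      (clear * - hqpos hepos; positivity)
    | succ n ih =>
      set an : ℝ := max a (s₀ - n * r) with han
      set bn : ℝ := min b (s₀ + n * r) with hbn
      have hn0 : (0 : ℝ) ≤ n * r := by (clear * - δ hδ; positivity)
      have hs0n : s₀ ∈ Icc an bn :=
        ⟨max_le hs₀.1 (by linarith only [hn0]), le_min hs₀.2 (by linarith only [hn0])⟩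
      have hnn : an ≤ bn := hs0n.1.trans hs0n.2
      set a' : ℝ := max a (s₀ - ((n + 1 : ℕ) : ℝ) * r) with ha'
      set b' : ℝ := min b (s₀ + ((n + 1 : ℕ) : ℝ) * r) with hb'
      have hcast : ((n + 1 : ℕ) : ℝ) * r = n * r + r := by push_cast; ring
      have haa : a ≤ a' := le_max_left _ _
      have hbb : b' ≤ b := min_le_left _ _
      have haa' : a' ≤ an := max_le_max le_rfl (by rw [hcast]; linarith only [hrpos])
      have hbb' : bn ≤ b' := min_le_min le_rfl (by rw [hcast]; linarith only [hrpos])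
      have hA : an - r ≤ a' := by
        rw [han, sub_le_iff_le_add]
        refine max_le (by linarith only [hrpos, haa]) ?_
        have : s₀ - ((n + 1 : ℕ) : ℝ) * r ≤ a' := le_max_right _ _
        rw [hcast] at this
        linarith only [this]
      have hB : b' ≤ bn + r := by
        rw [← sub_le_iff_le_add, hbn]
        refine le_min (by linarith only [hrpos, hbb]) ?_
        have : b' ≤ s₀ + ((n + 1 : ℕ) : ℝ) * r := min_le_right _ _
        rw [hcast] at this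
        linarith only [this]
      have hsub : Icc a' b' ⊆ Icc a b := Icc_subset_Icc haa hbb
      have hs0' : s₀ ∈ Icc a' b' := ⟨haa'.trans hs0n.1, hs0n.2.trans hbb'⟩
      have hext : QV V a' b' (qq p i / 32) (Ar.ee p i * qq p i / 2 + 2 * ν) :=
        QV_extend hnn hrpos.le hA hB haa' hbb'
          (fun s hs s' hs' hss => hunif s (hsub hs) s' (hsub hs') hss) ih
      have hab' : a' ≤ b' := hs0'.1.trans hs0'.2
      refine hmain p hp0 th i X V a' b'
        { hsol := h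
          ht₀ := h0
          ht₁ := hta.trans haa
          h12 := hab'
          h2 := hbb.trans hbth
          hth := hthT
          hc₁ := hc1
          hc₁' := hc1'
          hP := hP
          hlen := by linarith only [hlen, haa, hbb]
          hj := hi
          hchar := isChar_mono hchar haa hbb
          hsupp := ?_
          hq := ?_
          hQV := QV_weaken hext (by linarith only [hqpos]) (by rw [hν]; nlinarith only [hν, hνpos])
          hgood := hweak }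
      · have hbT : b < T := hbth.trans_lt hthT
        rw [h.const_along (h0.trans_le hta) hbT hchar.hX hchar.hV (hsub (left_mem_Icc.2 hab'))
          (left_mem_Icc.2 hab)]
        exact hsupp
      · intro s hs
        have h1 := QV_dist hext hs0' hs
        have h2 := q_lip (V s) (V s₀)
        have h3 : ‖V s - V s₀‖ ≤ qq p i / 8 := by
          refine h1.trans ?_
          rw [hν]
          nlinarith only [hq1, hq2, hesm]
        rw [abs_le] at h2
        constructor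
        · linarith only [hq1, h3, h2.1]
        · linarith only [hq2, h2, h3]
  obtain ⟨n, hn⟩ := exists_nat_gt ((b - a) / r)
  have hn' : b - a ≤ n * r := by
    rw [div_lt_iff₀ hrpos] at hn
    exact hn.le
  have e1 : max a (s₀ - n * r) = a := max_eq_left (by linarith only [hn', hs₀.2])
  have e2 : min b (s₀ + n * r) = b := min_eq_left (by linarith only [hn', hs₀.1])
  have := claim n
  rwa [e1, e2] at this

end Vale.Agent.P107
end
end
end

section

section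

attribute [-instance] ProperSMul.toContinuousSMul IsTopologicalTorsor.toContinuousSMul
  IdemSemiring.toCanonicallyOrderedAdd IdemSemiring.toMulLeftMono IdemSemiring.toMulRightMono
  AddQuantale.instAddLeftMono AddQuantale.instAddRightMono Quantale.instMulLeftMono
  Quantale.instMulRightMono FiniteDimensional.rclike_to_real IsScalarTower.complexToReal
  FiniteDimensional.complexToReal

section

/-!
The end of the proof of the a priori bound: everything after `qv_strong` (M4b).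
-/

open MeasureTheory Set Filter Topology
open scoped RealInnerProductSpace ENNReal NNReal

namespace Vale.Agent.P107

open Vale.Agent.P107.Ar

variable {T : ℝ} {f : ℝ → E3 → E3 → ℝ} {E B : ℝ → E3 → E3}

/-- M4d, with the conclusion of `qv_strong` as hypothesis. -/
theorem good_strong_core (h : IsClassicalSolution T f E B) {t₀ : ℝ} (h0 : 0 < t₀)
    (hqs : ∃ c₁ : ℝ, 0 < c₁ ∧ c₁ ≤ 1 ∧ ∃ p₀ : ℕ, ∀ p ≥ p₀,
      ∀ (th : ℝ) (j : ℕ) (X V : ℝ → E3) (t₁ t₂ : ℝ), Ctx T f E B t₀ th c₁ p j X V t₁ t₂ →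
      QV V t₁ t₂ (qq p j / 32) (Ar.ee p j * qq p j / 2)) :
    ∃ c₁ : ℝ, 0 < c₁ ∧ c₁ ≤ 1 ∧ ∃ p₀ : ℕ, ∀ p ≥ p₀, ∀ th : ℝ, t₀ ≤ th → th < T →
      (∀ s ∈ Icc 0 th, ∀ x v, f s x v ≠ 0 → q v ≤ 2 ^ p) → GoodStrong f E B c₁ t₀ th p := by
  obtain ⟨c₁, hc₁, hc₁', p₀, hsw⟩ := strong_of_weak_core h h0 hqs
  exact ⟨c₁, hc₁, hc₁', p₀, fun p hp th h0th hth hP =>
    good_strong_of h h0 (fun th' h0' hT' hP' hw => hsw p hp th' h0' hT' hP' hw) h0th hth hP⟩

/-- M4e, with the conclusion of `qv_strong` as hypothesis. -/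
theorem back_step_core (h : IsClassicalSolution T f E B) {t₀ : ℝ} (h0 : 0 < t₀) (h0T : t₀ < T)
    (hqs : ∃ c₁ : ℝ, 0 < c₁ ∧ c₁ ≤ 1 ∧ ∃ p₀ : ℕ, ∀ p ≥ p₀,
      ∀ (th : ℝ) (j : ℕ) (X V : ℝ → E3) (t₁ t₂ : ℝ), Ctx T f E B t₀ th c₁ p j X V t₁ t₂ →
      QV V t₁ t₂ (qq p j / 32) (Ar.ee p j * qq p j / 2)) :
    ∃ c₁ : ℝ, 0 < c₁ ∧ ∃ p₀ : ℕ, ∀ p ≥ p₀, ∀ t : ℝ, t₀ ≤ t → t < T →
      (∀ s ∈ Icc 0 t, ∀ x v, f s x v ≠ 0 → q v ≤ 2 ^ p) →
      ∀ Q : ℝ, 2 ^ p / 2 ≤ Q → (∃ s ∈ Icc 0 t, ∃ x v, f s x v ≠ 0 ∧ Q ≤ q v) →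
      t₀ ≤ t - c₁ / (2 + p) ∧
        ∃ s ∈ Icc 0 (t - c₁ / (2 + p)), ∃ x v, f s x v ≠ 0 ∧ 7 / 8 * Q ≤ q v :=
  back_step_of h h0 h0T (good_strong_core h h0 hqs)

/-- M5, with the conclusion of `qv_strong` at `t₀ = T / 2` as hypothesis. -/
theorem momentum_bounded_core (hT : 0 < T) (h : IsClassicalSolution T f E B)
    (hqs : ∃ c₁ : ℝ, 0 < c₁ ∧ c₁ ≤ 1 ∧ ∃ p₀ : ℕ, ∀ p ≥ p₀,
      ∀ (th : ℝ) (j : ℕ) (X V : ℝ → E3) (t₁ t₂ : ℝ), Ctx T f E B (T / 2) th c₁ p j X V t₁ t₂ →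
      QV V t₁ t₂ (qq p j / 32) (Ar.ee p j * qq p j / 2)) :
    ∃ Q : ℝ, ∀ t ∈ Ico 0 T, ∀ x v, f t x v ≠ 0 → ‖v‖ ≤ Q :=
  momentum_bounded_of h (half_pos hT) (half_lt_self hT)
    (back_step_core h (half_pos hT) (half_lt_self hT) hqs)

end Vale.Agent.P107
end
end
end

section

section

attribute [-instance] ProperSMul.toContinuousSMul IsTopologicalTorsor.toContinuousSMul
  IdemSemiring.toCanonicallyOrderedAdd IdemSemiring.toMulLeftMono IdemSemiring.toMulRightMono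
  AddQuantale.instAddLeftMono AddQuantale.instAddRightMono Quantale.instMulLeftMono
  Quantale.instMulRightMono FiniteDimensional.rclike_to_real IsScalarTower.complexToReal
  FiniteDimensional.complexToReal

section

/-!
The a priori bound: the momentum support of a classical solution on `[0,T)`, `T < ∞`, is bounded.
-/

open MeasureTheory Set Filter Topology
open scoped RealInnerProductSpace ENNReal NNReal

namespace Vale.Agent.P107

open Vale.Agent.P107.Ar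

variable {T : ℝ} {f : ℝ → E3 → E3 → ℝ} {E B : ℝ → E3 → E3}

theorem main_estimate (h : IsClassicalSolution T f E B) {t₀ : ℝ} (h0 : 0 < t₀) (h0T : t₀ < T) :
    ∃ C : ℝ, 0 < C ∧ ∀ c₁ : ℝ, 0 < c₁ → c₁ ≤ 1 → ∀ θ : ℝ, 0 < θ → ∃ p₀ : ℕ, ∀ p ≥ p₀,
      ∀ (th : ℝ) (j : ℕ) (X V : ℝ → E3) (t₁ t₂ : ℝ), Ctx T f E B t₀ th c₁ p j X V t₁ t₂ →
      pathInt (t₀ / 2) T f X t₁ t₂ (kerT j (Ar.ee p j) V)
          + pathInt (t₀ / 2) T f X t₁ t₂ (kerS j (Ar.ee p j) E B X V)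
        ≤ ENNReal.ofReal (C * √c₁ * qq p j) ∧
      ∀ s ∈ Icc t₁ t₂, coneInt (t₀ / 2) T f s (X s) (kerB j (Ar.ee p j) V s)
        ≤ ENNReal.ofReal (θ * (Ar.ee p j * qq p j)) :=
  main_estimate_of (decompT h h0 h0T) (decompS h h0 h0T) (decompB h h0 h0T) statT statSg statSb
    statB

theorem qv_strong (h : IsClassicalSolution T f E B) {t₀ : ℝ} (h0 : 0 < t₀) (h0T : t₀ < T) :
    ∃ c₁ : ℝ, 0 < c₁ ∧ c₁ ≤ 1 ∧ ∃ p₀ : ℕ, ∀ p ≥ p₀,
      ∀ (th : ℝ) (j : ℕ) (X V : ℝ → E3) (t₁ t₂ : ℝ), Ctx T f E B t₀ th c₁ p j X V t₁ t₂ →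
      QV V t₁ t₂ (qq p j / 32) (Ar.ee p j * qq p j / 2) :=
  qv_strong_core h h0 h0T (main_estimate h h0 h0T) (fun R₀ => path_bound h h0 h0T R₀)

/-- The full a priori bound. -/
theorem momentum_bounded (hT : 0 < T) (h : IsClassicalSolution T f E B) :
    ∃ Q : ℝ, ∀ t ∈ Ico 0 T, ∀ x v, f t x v ≠ 0 → ‖v‖ ≤ Q :=
  momentum_bounded_core hT h (qv_strong h (half_pos hT) (half_lt_self hT))

end Vale.Agent.P107
end
end
end

section

section

attribute [-instance] ProperSMul.toContinuousSMul IsTopologicalTorsor.toContinuousSMul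
  IdemSemiring.toCanonicallyOrderedAdd IdemSemiring.toMulLeftMono IdemSemiring.toMulRightMono
  AddQuantale.instAddLeftMono AddQuantale.instAddRightMono Quantale.instMulLeftMono
  Quantale.instMulRightMono FiniteDimensional.rclike_to_real IsScalarTower.complexToReal
  FiniteDimensional.complexToReal

section

/-!
Bounded iterated partial derivatives give bounded iterated derivatives.
-/

open MeasureTheory Set
open scoped ContDiff

namespace Vale.Agent.P107.LE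

open RVM (V3)

lemma contDiff_pd {g : V3 → ℝ} (hg : ContDiff ℝ ∞ g) (k : Fin 3) : ContDiff ℝ ∞ (RVM.pd k g) := by
  unfold RVM.pd
  exact (hg.fderiv_right (m := ∞) (by simp)).clm_apply contDiff_const

lemma fderiv_eq_sum_pd {g : V3 → ℝ} (x : V3) :
    fderiv ℝ g x = ∑ k : Fin 3, RVM.pd k g x • (ContinuousLinearMap.proj k : V3 →L[ℝ] ℝ) := by
  refine ContinuousLinearMap.ext fun w => ?_
  have h1 : w = ∑ k : Fin 3, w k • (Pi.single k (1 : ℝ) : V3) := by
    funext j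
    simp [Finset.sum_apply, Pi.single_apply]
  conv_lhs => rw [h1]
  rw [map_sum]
  simp only [map_smul, smul_eq_mul, sum_apply, smul_apply,
    ContinuousLinearMap.proj_apply]
  exact Finset.sum_congr rfl fun k _ => mul_comm _ _

lemma iter_bounded (n : ℕ) : ∀ {g : V3 → ℝ}, ContDiff ℝ ∞ g →
    (∀ s : List (Fin 3), ∃ C, ∀ x, |s.foldr RVM.pd g x| ≤ C) →
    ∃ C, ∀ x, ‖iteratedFDeriv ℝ n g x‖ ≤ C := by
  induction n with
  | zero =>
    intro g _ hb
    obtain ⟨C, hC⟩ := hb []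
    refine ⟨C, fun x => ?_⟩
    rw [norm_iteratedFDeriv_zero]
    exact hC x
  | succ n ih =>
    intro g hg hb
    have h1 : ∀ k : Fin 3, ∃ C, ∀ x, ‖iteratedFDeriv ℝ n (RVM.pd k g) x‖ ≤ C := by
      intro k
      refine ih (contDiff_pd hg k) fun s => ?_
      obtain ⟨C, hC⟩ := hb (s ++ [k])
      refine ⟨C, fun x => ?_⟩
      have := hC x
      rwa [List.foldr_append] at this
    choose C hC using h1
    let L : Fin 3 → ℝ →L[ℝ] (V3 →L[ℝ] ℝ) := fun k =>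
      ContinuousLinearMap.toSpanSingleton ℝ (ContinuousLinearMap.proj k : V3 →L[ℝ] ℝ)
    refine ⟨∑ k, ‖L k‖ * C k, fun x => ?_⟩
    rw [← norm_iteratedFDeriv_fderiv]
    have h2 : fderiv ℝ g = fun x => ∑ k : Fin 3, (L k) (RVM.pd k g x) := by
      funext x
      rw [fderiv_eq_sum_pd]
      rfl
    have hn : ∀ k : Fin 3, ContDiff ℝ n (RVM.pd k g) := fun k =>
      (contDiff_pd hg k).of_le (by exact_mod_cast le_top)
    have h3 : ∀ k ∈ (Finset.univ : Finset (Fin 3)), ContDiff ℝ n fun x => (L k) (RVM.pd k g x) :=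
      fun k _ => (L k).contDiff.comp (hn k)
    rw [h2, iteratedFDeriv_fun_sum_apply fun k hk => (h3 k hk).contDiffAt]

    refine (norm_sum_le _ _).trans (Finset.sum_le_sum fun k _ => ?_)
    refine ((L k).norm_iteratedFDeriv_comp_left (hn k).contDiffAt le_rfl).trans ?_
    exact mul_le_mul_of_nonneg_left (hC k x) (norm_nonneg _)

lemma dataField_contDiff {F : V3 → V3} (h : RVM.IsDataField F) : ContDiff ℝ ∞ F :=
  contDiff_pi.2 h.smooth

lemma dataField_bounded {F : V3 → V3} (h : RVM.IsDataField F) (n : ℕ) :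
    ∃ C : ℝ, ∀ x, ‖iteratedFDeriv ℝ n F x‖ ≤ C := by
  have h1 : ∀ i : Fin 3, ∃ C, ∀ x, ‖iteratedFDeriv ℝ n (fun y => F y i) x‖ ≤ C := fun i =>
    iter_bounded n (h.smooth i) (h.bounded i)
  choose C hC using h1
  let L : Fin 3 → ℝ →L[ℝ] V3 := fun i =>
    ContinuousLinearMap.toSpanSingleton ℝ (Pi.single i (1 : ℝ) : V3)
  refine ⟨∑ i, ‖L i‖ * C i, fun x => ?_⟩
  have h2 : F = fun x => ∑ i : Fin 3, (L i) (F x i) := by
    funext x j
    simp [L, Finset.sum_apply, Pi.single_apply]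
  have hn : ∀ i : Fin 3, ContDiff ℝ n (fun y => F y i) := fun i =>
    (h.smooth i).of_le (by exact_mod_cast le_top)
  have h3 : ∀ i ∈ (Finset.univ : Finset (Fin 3)), ContDiff ℝ n fun x => (L i) (F x i) :=
    fun i _ => (L i).contDiff.comp (hn i)
  rw [h2, iteratedFDeriv_fun_sum_apply fun k hk => (h3 k hk).contDiffAt]
  refine (norm_sum_le _ _).trans (Finset.sum_le_sum fun i _ => ?_)
  refine ((L i).norm_iteratedFDeriv_comp_left (hn i).contDiffAt le_rfl).trans ?_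
  exact mul_le_mul_of_nonneg_left (hC i x) (norm_nonneg _)

end Vale.Agent.P107.LE
end
end
end

section

section

attribute [-instance] ProperSMul.toContinuousSMul IsTopologicalTorsor.toContinuousSMul
  IdemSemiring.toCanonicallyOrderedAdd IdemSemiring.toMulLeftMono IdemSemiring.toMulRightMono
  AddQuantale.instAddLeftMono AddQuantale.instAddRightMono Quantale.instMulLeftMono
  Quantale.instMulRightMono FiniteDimensional.rclike_to_real IsScalarTower.complexToReal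
  FiniteDimensional.complexToReal

section

/-!
Transfer of global existence to Cartesian coordinates.
-/

open MeasureTheory Set Filter Topology
open scoped RealInnerProductSpace ENNReal NNReal ContDiff

namespace Vale.Agent.P107.LE

open RVM (V3)

/-- The coordinates of a vector. -/
noncomputable def co : E3 ≃L[ℝ] V3 := EuclideanSpace.equiv (Fin 3) ℝ

lemma co_apply (x : E3) (i : Fin 3) : co x i = x i := rfl

lemma exists_co (a : V3) : ∃ x : E3, co x = a := ⟨co.symm a, co.apply_symm_apply a⟩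

lemma mp_co : MeasurePreserving (co : E3 → V3) := PiLp.volume_preserving_ofLp (Fin 3)

lemma mp_co_symm : MeasurePreserving (co.symm : V3 → E3) := PiLp.volume_preserving_toLp (Fin 3)

lemma me_co : MeasurableEmbedding (co : E3 → V3) := co.toHomeomorph.measurableEmbedding

lemma integral_co (g : V3 → ℝ) : ∫ x : E3, g (co x) = ∫ x : V3, g x :=
  mp_co.integral_comp me_co g

lemma len_co (x : E3) : RVM.len (co x) = ‖x‖ := by
  unfold RVM.len
  rw [EuclideanSpace.norm_eq]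
  simp only [co_apply, Real.norm_eq_abs, sq_abs]

lemma q_co (x : E3) : RVM.q (co x) = q x := by
  unfold RVM.q q
  rw [len_co]

lemma u_co (v : E3) : RVM.u (co v) = co (u v) := by
  funext i
  unfold RVM.u u
  rw [q_co, co_apply, co_apply, PiLp.smul_apply, smul_eq_mul]
  ring

lemma cross_co (a b : E3) : RVM.cross (co a) (co b) = co (cross a b) := by
  funext i
  unfold RVM.cross cross
  simp only [co_apply]
  fin_cases i <;> simp

lemma fderiv_co {g : V3 → ℝ} {x : E3} (w : E3) :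
    fderiv ℝ (fun y : E3 => g (co y)) x w = fderiv ℝ g (co x) (co w) := by
  have h1 := co.comp_right_fderiv (f := g) (x := x)
  have h2 : fderiv ℝ (g ∘ co) x w = fderiv ℝ g (co x) (co w) := by
    rw [h1]; rfl
  exact h2

lemma pd_co (i : Fin 3) (g : V3 → ℝ) (x : E3) :
    RVM.pd i g (co x) = pd i (fun y : E3 => g (co y)) x := by
  unfold pd RVM.pd
  rw [fderiv_co]
  rfl

lemma sum_pd (g : V3 → ℝ) (x w : V3) :
    ∑ i, w i * RVM.pd i g x = fderiv ℝ g x w := by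
  unfold RVM.pd
  have h1 := (fderiv ℝ g x).toLinearMap.pi_apply_eq_sum_univ w
  simp only [smul_eq_mul] at h1
  refine Eq.trans (Finset.sum_congr rfl fun i _ => ?_) h1.symm
  have h2 : (fun j => if i = j then (1 : ℝ) else 0) = Pi.single i 1 := by
    funext j
    by_cases h : i = j
    · subst h; simp
    · rw [if_neg h, Pi.single_apply, if_neg (fun h' => h h'.symm)]
  rw [h2]
  rfl

/-! ### Transfer of solutions -/

/-- The density in Cartesian coordinates. -/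
noncomputable def gg (f : ℝ → E3 → E3 → ℝ) (t : ℝ) (x v : V3) : ℝ := f t (co.symm x) (co.symm v)

/-- The field in Cartesian coordinates. -/
noncomputable def GG (F : ℝ → E3 → E3) (t : ℝ) (x : V3) : V3 := co (F t (co.symm x))

lemma gg_co (f : ℝ → E3 → E3 → ℝ) (t : ℝ) (x v : E3) : gg f t (co x) (co v) = f t x v := by
  unfold gg
  rw [co.symm_apply_apply, co.symm_apply_apply]

lemma GG_co (F : ℝ → E3 → E3) (t : ℝ) (x : E3) : GG F t (co x) = co (F t x) := by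
  unfold GG
  rw [co.symm_apply_apply]

lemma GG_co_apply (F : ℝ → E3 → E3) (t : ℝ) (x : E3) (i : Fin 3) :
    GG F t (co x) i = F t x i := by
  rw [GG_co, co_apply]

variable {T : ℝ} {f : ℝ → E3 → E3 → ℝ} {E B : ℝ → E3 → E3}

lemma isField_GG {F : ℝ → E3 → E3}
    (hF : ContDiffOn ℝ 1 (fun z : ℝ × E3 => F z.1 z.2) (Ico 0 T ×ˢ univ))
    (h2 : ∀ t ∈ Ico 0 T, MemLp (F t) 2 volume)
    (hc : ∀ t ∈ Ico 0 T,
      Tendsto (fun s => eLpNorm (fun x => F s x - F t x) 2 volume) (𝓝[Ico 0 T] t) (𝓝 0)) :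
    RVM.IsField T (GG F) := by
  have hslice : ∀ t ∈ Ico 0 T, Continuous (F t) := by
    intro t ht
    have h1 : ContinuousOn (fun x : E3 => F t x) univ :=
      hF.continuousOn.comp (f := fun x : E3 => (t, x)) (by fun_prop)
        (fun z _ => ⟨ht, mem_univ _⟩)
    exact continuousOn_univ.1 h1
  refine ⟨?_, ?_, ?_⟩
  · have h1 : ContDiff ℝ 1 fun z : ℝ × V3 => (z.1, co.symm z.2) :=
      contDiff_fst.prodMk (co.symm.contDiff.comp contDiff_snd)
    have h3 : ContDiffOn ℝ 1 (fun z : ℝ × V3 => F z.1 (co.symm z.2)) (Ico 0 T ×ˢ univ) :=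
      hF.comp (f := fun z : ℝ × V3 => (z.1, co.symm z.2)) h1.contDiffOn
        (fun z hz => ⟨hz.1, mem_univ _⟩)
    exact co.contDiff.comp_contDiffOn h3
  · intro t ht
    have h1 : MemLp (fun x : V3 => F t (co.symm x)) 2 volume :=
      (h2 t ht).comp_measurePreserving mp_co_symm
    exact (co : E3 →L[ℝ] V3).comp_memLp' h1
  · intro t ht
    set L : E3 →L[ℝ] V3 := (co : E3 →L[ℝ] V3) with hL
    have h1 : ∀ s ∈ Ico 0 T, eLpNorm (fun x => GG F s x - GG F t x) 2 volume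
        ≤ ‖L‖ₑ * eLpNorm (fun x => F s x - F t x) 2 volume := by
      intro s hs
      have h2 : ∀ x : V3, GG F s x - GG F t x
          = L (F s (co.symm x) - F t (co.symm x)) := by
        intro x
        rw [map_sub]
        rfl
      have h3 : eLpNorm (fun x => F s x - F t x) 2 volume
          = eLpNorm (fun x : V3 => F s (co.symm x) - F t (co.symm x)) 2 volume := by
        have hc : Continuous fun x => F s x - F t x := (hslice s hs).sub (hslice t ht)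
        exact (eLpNorm_comp_measurePreserving (g := fun x => F s x - F t x)
          hc.aestronglyMeasurable mp_co_symm).symm
      simp only [h2]
      rw [h3]
      exact eLpNorm_le_nnreal_smul_eLpNorm_of_ae_le_mul (μ := (volume : Measure V3))
        (f := fun x : V3 => L (F s (co.symm x) - F t (co.symm x)))
        (g := fun x : V3 => F s (co.symm x) - F t (co.symm x)) (c := ‖L‖₊)
        (ae_of_all _ fun x => L.le_opNNNorm _) 2
    have h5 : Tendsto (fun s => ‖L‖ₑ * eLpNorm (fun x => F s x - F t x) 2 volume)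
        (𝓝[Ico 0 T] t) (𝓝 0) := by
      have h6 := ENNReal.Tendsto.const_mul (hc t ht) (Or.inr (enorm_ne_top (x := L)))
      simpa using h6
    refine tendsto_of_tendsto_of_tendsto_of_le_of_le' tendsto_const_nhds h5
      (Eventually.of_forall fun _ => zero_le) ?_
    filter_upwards [self_mem_nhdsWithin] with s hs
    exact h1 s hs

lemma curl_GG (F : ℝ → E3 → E3) (t : ℝ) (x : E3) (i : Fin 3) :
    RVM.curl (GG F t) (co x) i = curl (F t) x i := by
  unfold curl RVM.curl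
  have h1 : ∀ j k : Fin 3, RVM.pd j (fun y => GG F t y k) (co x) = pd j (fun y => F t y k) x := by
    intro j k
    rw [pd_co]
    simp only [GG_co_apply]
  simp only [h1]
  fin_cases i <;> simp

lemma div_GG (F : ℝ → E3 → E3) (t : ℝ) (x : E3) :
    RVM.div (GG F t) (co x) = div (F t) x := by
  unfold div RVM.div
  refine Finset.sum_congr rfl fun i _ => ?_
  rw [pd_co]
  simp only [GG_co_apply]

lemma rho_gg (f : ℝ → E3 → E3 → ℝ) (t : ℝ) (x : E3) :
    RVM.rho (gg f) t (co x) = rho f t x := by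
  unfold rho RVM.rho
  rw [← integral_co]
  simp only [gg_co]

lemma comp_derivWithin {F : ℝ → E3 → E3}
    (hF : ContDiffOn ℝ 1 (fun z : ℝ × E3 => F z.1 z.2) (Ico 0 T ×ˢ univ)) {t : ℝ}
    (ht : t ∈ Ico 0 T) (x : E3) (i : Fin 3) :
    derivWithin (fun s => GG F s (co x) i) (Ico 0 T) t
      = derivWithin (fun s => F s x) (Ico 0 T) t i := by
  have hu : UniqueDiffWithinAt ℝ (Ico 0 T) t :=
    (uniqueDiffOn_Ico 0 T) t ht
  have h1 : DifferentiableWithinAt ℝ (fun s => F s x) (Ico 0 T) t := by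
    have h2 : ContDiffOn ℝ 1 (fun s : ℝ => F s x) (Ico 0 T) :=
      hF.comp (f := fun s : ℝ => (s, x)) (by fun_prop)
        (fun z hz => ⟨hz, mem_univ _⟩)
    exact (h2.differentiableOn (by norm_num)) t ht
  have h3 : HasDerivWithinAt (fun s => (EuclideanSpace.proj i : E3 →L[ℝ] ℝ) (F s x))
      ((EuclideanSpace.proj i : E3 →L[ℝ] ℝ) (derivWithin (fun s => F s x) (Ico 0 T) t))
      (Ico 0 T) t :=
    (EuclideanSpace.proj i : E3 →L[ℝ] ℝ).hasFDerivAt.comp_hasDerivWithinAt t h1.hasDerivWithinAt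
  have h4 : (fun s => GG F s (co x) i) = fun s => (EuclideanSpace.proj i : E3 →L[ℝ] ℝ) (F s x) := by
    funext s
    rw [GG_co_apply]
    rfl
  rw [h4]
  exact h3.derivWithin hu

/-- A classical solution in the Euclidean space is a classical solution in coordinates. -/
theorem isClassicalSolution_gg (h : IsClassicalSolution T f E B) :
    RVM.IsClassicalSolution T (gg f) (GG E) (GG B) := by
  have hE := isField_GG h.E_contDiff h.E_memLp h.E_cont
  have hB := isField_GG h.B_contDiff h.B_memLp h.B_cont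
  refine
    { f_nonneg := fun t ht x v => h.f_nonneg t ht _ _
      f_c1 := ?_
      E_field := hE
      B_field := hB
      vlasov := ?_
      ampere := ?_
      faraday := ?_
      gauss := ?_
      gauss_mag := ?_
      compact_support := ?_ }
  · have h1 : ContDiff ℝ 1 fun z : ℝ × V3 × V3 => (z.1, co.symm z.2.1, co.symm z.2.2) :=
      contDiff_fst.prodMk ((co.symm.contDiff.comp (contDiff_fst.comp contDiff_snd)).prodMk
        (co.symm.contDiff.comp (contDiff_snd.comp contDiff_snd)))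
    exact h.f_contDiff.comp (f := fun z : ℝ × V3 × V3 => (z.1, co.symm z.2.1, co.symm z.2.2))
      h1.contDiffOn (fun z hz => ⟨hz.1, mem_univ _⟩)
  · intro t ht x v
    obtain ⟨x, rfl⟩ := exists_co x
    obtain ⟨v, rfl⟩ := exists_co v
    have h1 := h.vlasov t ht x v
    have h2 : ∑ i, RVM.u (co v) i * RVM.pd i (fun y => gg f t y (co v)) (co x)
        = fderiv ℝ (fun y => f t y v) x (u v) := by
      rw [sum_pd, u_co, ← fderiv_co]
      simp only [gg_co]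
    have h4 : ∑ i, (GG E t (co x) i + RVM.cross (RVM.u (co v)) (GG B t (co x)) i)
          * RVM.pd i (fun w => gg f t (co x) w) (co v)
        = fderiv ℝ (fun w => f t x w) v (E t x + cross (u v) (B t x)) := by
      have h5 : ∀ i, GG E t (co x) i + RVM.cross (RVM.u (co v)) (GG B t (co x)) i
          = co (E t x + cross (u v) (B t x)) i := by
        intro i
        rw [GG_co, GG_co, u_co, cross_co, map_add]
        rfl
      simp only [h5]
      rw [sum_pd, ← fderiv_co]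
      simp only [gg_co]
    rw [h2, h4]
    simp only [gg_co]
    exact h1
  · intro t ht x i
    obtain ⟨x, rfl⟩ := exists_co x
    have h1 := congrArg (fun w : E3 => w i) (h.ampere t ht x)
    simp only [PiLp.sub_apply, PiLp.neg_apply] at h1
    have hcur : RVM.cur (gg f) t (co x) i = cur f t x i := by
      unfold cur RVM.cur
      have hint : Integrable fun v => f t x v • u v := by
        have hc : Continuous fun v => f t x v := by
          have h2 : ContinuousOn (fun v : E3 => f t x v) univ :=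
            h.f_contDiff.continuousOn.comp (f := fun v : E3 => (t, x, v)) (by fun_prop)
              (fun z _ => ⟨ht, mem_univ _⟩)
          exact continuousOn_univ.1 h2
        have hcomp : HasCompactSupport fun v => f t x v := by
          obtain ⟨R, hR⟩ := h.compact_support t ht
          refine HasCompactSupport.intro (isCompact_closedBall (0 : E3) R) ?_
          intro v hv
          by_contra hne
          exact hv (by simpa using (hR t ⟨ht.1, le_rfl⟩ x v hne).2)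
        exact (hc.smul cont_u).integrable_of_hasCompactSupport hcomp.smul_right
      have h3 := (EuclideanSpace.proj i : E3 →L[ℝ] ℝ).integral_comp_comm hint
      refine Eq.trans ?_ h3
      rw [← integral_co]
      refine integral_congr_ae (ae_of_all _ fun v => ?_)
      simp only [u_co, gg_co]
      change _ = (f t x v • u v) i
      rw [PiLp.smul_apply, smul_eq_mul, mul_comm]
      rfl
    rw [curl_GG, comp_derivWithin h.E_contDiff ht, hcur]
    exact h1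
  · intro t ht x i
    obtain ⟨x, rfl⟩ := exists_co x
    have h1 := congrArg (fun w : E3 => w i) (h.faraday t ht x)
    simp only [PiLp.add_apply, PiLp.zero_apply] at h1
    rw [curl_GG, comp_derivWithin h.B_contDiff ht]
    exact h1
  · intro t ht x
    obtain ⟨x, rfl⟩ := exists_co x
    rw [div_GG, rho_gg]
    exact h.gauss t ht x
  · intro t ht x
    obtain ⟨x, rfl⟩ := exists_co x
    rw [div_GG]
    exact h.gauss_mag t ht x
  · intro t ht
    obtain ⟨R, hR⟩ := h.compact_support t ht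
    refine ⟨R, fun s hs x v hne => ?_⟩
    obtain ⟨x, rfl⟩ := exists_co x
    obtain ⟨v, rfl⟩ := exists_co v
    rw [gg_co] at hne
    rw [len_co, len_co]
    exact hR s hs x v hne

/-! ### Transfer of data -/

lemma sb_of_dataField {F : V3 → V3} (h : RVM.IsDataField F) :
    SB (fun x : E3 => co.symm (F (co x))) := by
  have hsm : ContDiff ℝ ∞ F := dataField_contDiff h
  refine ⟨co.symm.contDiff.comp (hsm.comp co.contDiff), fun n => ?_⟩
  obtain ⟨C, hC⟩ := dataField_bounded h n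
  refine ⟨‖(co.symm : V3 →L[ℝ] E3)‖ * (C * ‖(co : E3 →L[ℝ] V3)‖ ^ n), fun x => ?_⟩
  have hs : ContDiff ℝ n F := hsm.of_le (by exact_mod_cast le_top)
  have h1 : ‖iteratedFDeriv ℝ n (F ∘ (co : E3 →L[ℝ] V3)) x‖ ≤ C * ‖(co : E3 →L[ℝ] V3)‖ ^ n := by
    rw [(co : E3 →L[ℝ] V3).iteratedFDeriv_comp_right hs x le_rfl]
    refine (ContinuousMultilinearMap.norm_compContinuousLinearMap_le _ _).trans ?_
    rw [Finset.prod_const, Finset.card_univ, Fintype.card_fin]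
    exact mul_le_mul_of_nonneg_right (hC _) (by positivity)
  have h2 := ContinuousLinearMap.norm_iteratedFDeriv_comp_left (co.symm : V3 →L[ℝ] E3)
    (f := F ∘ (co : E3 →L[ℝ] V3)) (x := x) (n := n)
    (hs.comp (co : E3 →L[ℝ] V3).contDiff).contDiffAt le_rfl
  exact h2.trans (mul_le_mul_of_nonneg_left h1 (norm_nonneg _))

/-- A smooth admissible datum in coordinates gives a datum in the Euclidean space. -/
theorem dat_of_isAdmissible {f₀ : V3 → V3 → ℝ} {E₀ B₀ : V3 → V3}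
    (h : RVM.IsAdmissible f₀ E₀ B₀) :
    Dat (fun z => f₀ (co z.1) (co z.2)) (fun x => co.symm (E₀ (co x)))
      (fun x => co.symm (B₀ (co x))) := by
  have hmem : ∀ {F : V3 → V3}, MemLp F 2 volume →
      MemLp (fun x : E3 => co.symm (F (co x))) 2 volume := by
    intro F hF
    have h1 : MemLp (fun x : E3 => F (co x)) 2 volume := hF.comp_measurePreserving mp_co
    exact (co.symm : V3 →L[ℝ] E3).comp_memLp' h1
  have hdiv : ∀ (F : V3 → V3) (x : E3),
      div (fun y : E3 => co.symm (F (co y))) x = RVM.div F (co x) := by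
    intro F x
    unfold div RVM.div
    refine Finset.sum_congr rfl fun i _ => ?_
    rw [pd_co]
    rfl
  refine
    { f_smooth := ?_
      f_supp := ?_
      f_nonneg := fun z => h.f_nonneg _ _
      sE := sb_of_dataField h.E_field
      sB := sb_of_dataField h.B_field
      E_L2 := hmem h.E_field.mem_l2
      B_L2 := hmem h.B_field.mem_l2
      gauss := ?_
      gaussm := ?_ }
  · exact h.f_smooth.comp ((co.contDiff.comp contDiff_fst).prodMk (co.contDiff.comp contDiff_snd))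
  · have h1 : (fun z : E3 × E3 => f₀ (co z.1) (co z.2))
        = (fun z : V3 × V3 => f₀ z.1 z.2) ∘ (co.toHomeomorph.prodCongr co.toHomeomorph) := rfl
    rw [h1]
    exact h.f_supp.comp_homeomorph _
  · intro x
    rw [hdiv, h.gauss, ← integral_co]
  · intro x
    rw [hdiv, h.gauss_mag]

/-- Global existence in coordinates from global existence in the Euclidean space (apply it with
`hG := fun hD => global_existence hA hD`). -/
theorem rvm_global_of
    (hG : ∀ {f₀ : E3 × E3 → ℝ} {E₀ B₀ : E3 → E3}, Dat f₀ E₀ B₀ →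
      ∃ (f : ℝ → E3 → E3 → ℝ) (E B : ℝ → E3 → E3),
        (∀ T, 0 < T → IsClassicalSolution T f E B) ∧ (∀ x v, f 0 x v = f₀ (x, v)) ∧
          E 0 = E₀ ∧ B 0 = B₀)
    {f₀ : V3 → V3 → ℝ} {E₀ B₀ : V3 → V3} (h : RVM.IsAdmissible f₀ E₀ B₀) :
    ∃ (f : ℝ → V3 → V3 → ℝ) (E B : ℝ → V3 → V3),
      (∀ T, 0 < T → RVM.IsClassicalSolution T f E B) ∧ (∀ x v, f 0 x v = f₀ x v) ∧
        (∀ x, E 0 x = E₀ x) ∧ ∀ x, B 0 x = B₀ x := by
  obtain ⟨f, E, B, h1, h2, h3, h4⟩ := hG (dat_of_isAdmissible h)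
  refine ⟨gg f, GG E, GG B, fun T hT => isClassicalSolution_gg (h1 T hT), ?_, ?_, ?_⟩
  · intro x v
    unfold gg
    rw [h2, co.apply_symm_apply, co.apply_symm_apply]
  · intro x
    unfold GG
    rw [h3]
    simp only [co.apply_symm_apply]
  · intro x
    unfold GG
    rw [h4]
    simp only [co.apply_symm_apply]

end Vale.Agent.P107.LE
end
end
end

section

section

attribute [-instance] ProperSMul.toContinuousSMul IsTopologicalTorsor.toContinuousSMul
  IdemSemiring.toCanonicallyOrderedAdd IdemSemiring.toMulLeftMono IdemSemiring.toMulRightMono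
  AddQuantale.instAddLeftMono AddQuantale.instAddRightMono Quantale.instMulLeftMono
  Quantale.instMulRightMono FiniteDimensional.rclike_to_real IsScalarTower.complexToReal
  FiniteDimensional.complexToReal

section

/-!
Transfer of the results to coordinates.
-/

open MeasureTheory Set Filter Topology
open scoped RealInnerProductSpace ENNReal NNReal

namespace Vale.Agent.P107

open RVM (V3)

/-- The coordinates of a vector. -/
noncomputable def coo : E3 ≃L[ℝ] V3 := EuclideanSpace.equiv (Fin 3) ℝ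

lemma coo_apply (x : E3) (i : Fin 3) : coo x i = x i := rfl

/-- The density in the Euclidean space. -/
noncomputable def ff (f : ℝ → V3 → V3 → ℝ) (t : ℝ) (x v : E3) : ℝ := f t (coo x) (coo v)

/-- The field in the Euclidean space. -/
noncomputable def FF (F : ℝ → V3 → V3) (t : ℝ) (x : E3) : E3 := coo.symm (F t (coo x))

lemma mp_coo : MeasurePreserving (coo : E3 → V3) := PiLp.volume_preserving_ofLp (Fin 3)

lemma me_coo : MeasurableEmbedding (coo : E3 → V3) := coo.toHomeomorph.measurableEmbedding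

lemma integral_coo (g : V3 → ℝ) : ∫ x : E3, g (coo x) = ∫ x : V3, g x :=
  mp_coo.integral_comp me_coo g

lemma len_coo (x : E3) : RVM.len (coo x) = ‖x‖ := by
  unfold RVM.len
  rw [EuclideanSpace.norm_eq]
  simp only [coo_apply, Real.norm_eq_abs, sq_abs]

lemma q_coo (x : E3) : RVM.q (coo x) = q x := by
  unfold RVM.q q
  rw [len_coo]

lemma u_coo (v : E3) (i : Fin 3) : RVM.u (coo v) i = u v i := by
  unfold RVM.u u
  rw [q_coo, coo_apply, PiLp.smul_apply, smul_eq_mul]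
  ring

lemma cross_coo (a b : E3) (i : Fin 3) : RVM.cross (coo a) (coo b) i = cross a b i := by
  unfold RVM.cross cross
  simp only [coo_apply]
  fin_cases i <;> simp

lemma coo_FF (F : ℝ → V3 → V3) (t : ℝ) (x : E3) : coo (FF F t x) = F t (coo x) := by
  unfold FF
  exact coo.apply_symm_apply _

lemma fderiv_coo {g : V3 → ℝ} {x : E3} (w : E3) :
    fderiv ℝ (fun y : E3 => g (coo y)) x w = fderiv ℝ g (coo x) (coo w) := by
  have h1 := coo.comp_right_fderiv (f := g) (x := x)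
  have h2 : fderiv ℝ (g ∘ coo) x w = fderiv ℝ g (coo x) (coo w) := by
    rw [h1]; rfl
  exact h2

lemma pd_coo (i : Fin 3) (g : V3 → ℝ) (x : E3) :
    pd i (fun y : E3 => g (coo y)) x = RVM.pd i g (coo x) := by
  unfold pd RVM.pd
  rw [fderiv_coo]
  rfl

lemma fderiv_eq_sum (g : V3 → ℝ) (x w : V3) :
    fderiv ℝ g x w = ∑ i, w i * RVM.pd i g x := by
  unfold RVM.pd
  have h1 := (fderiv ℝ g x).toLinearMap.pi_apply_eq_sum_univ w
  simp only [smul_eq_mul] at h1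
  refine Eq.trans h1 ?_
  refine Finset.sum_congr rfl fun i _ => ?_
  have h2 : (fun j => if i = j then (1 : ℝ) else 0) = Pi.single i 1 := by
    funext j
    by_cases h : i = j
    · subst h; simp
    · rw [if_neg h, Pi.single_apply, if_neg (fun h' => h h'.symm)]
  rw [h2]
  rfl

variable {T : ℝ} {f : ℝ → V3 → V3 → ℝ} {E B : ℝ → V3 → V3}

lemma field_slab {F : ℝ → V3 → V3} (h : RVM.IsField T F) :
    ContDiffOn ℝ 1 (fun z : ℝ × E3 => FF F z.1 z.2) (Ico 0 T ×ˢ univ) := by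
  have h1 : ContDiff ℝ 1 fun z : ℝ × E3 => (z.1, coo z.2) :=
    contDiff_fst.prodMk (coo.contDiff.comp contDiff_snd)
  have h2 : ContDiffOn ℝ 1 (fun z : ℝ × E3 => F z.1 (coo z.2)) (Ico 0 T ×ˢ univ) :=
    h.c1.comp (f := fun z : ℝ × E3 => (z.1, coo z.2)) h1.contDiffOn
      (fun z hz => ⟨hz.1, mem_univ _⟩)
  exact coo.symm.contDiff.comp_contDiffOn h2

lemma field_derivWithin {F : ℝ → V3 → V3} (h : RVM.IsField T F) {t : ℝ} (ht : t ∈ Ico 0 T)
    (x : E3) (i : Fin 3) :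
    derivWithin (fun s => FF F s x) (Ico 0 T) t i
      = derivWithin (fun s => F s (coo x) i) (Ico 0 T) t := by
  have hu : UniqueDiffWithinAt ℝ (Ico 0 T) t :=
    (uniqueDiffOn_Ico 0 T) t ht
  have h1 : DifferentiableWithinAt ℝ (fun s => FF F s x) (Ico 0 T) t := by
    have h2 : ContDiffOn ℝ 1 (fun s : ℝ => FF F s x) (Ico 0 T) :=
      (field_slab h).comp (f := fun s : ℝ => (s, x)) (by fun_prop)
        (fun z hz => ⟨hz, mem_univ _⟩)
    exact (h2.differentiableOn (by norm_num)) t ht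
  have h3 : HasDerivWithinAt (fun s => (EuclideanSpace.proj i : E3 →L[ℝ] ℝ) (FF F s x))
      ((EuclideanSpace.proj i : E3 →L[ℝ] ℝ) (derivWithin (fun s => FF F s x) (Ico 0 T) t))
      (Ico 0 T) t :=
    (EuclideanSpace.proj i : E3 →L[ℝ] ℝ).hasFDerivAt.comp_hasDerivWithinAt t h1.hasDerivWithinAt
  exact (h3.derivWithin hu).symm

lemma field_memLp {F : ℝ → V3 → V3} (h : RVM.IsField T F) {t : ℝ} (ht : t ∈ Ico 0 T) :
    MemLp (FF F t) 2 volume := by
  have h1 : MemLp (fun x : E3 => F t (coo x)) 2 volume :=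
    (h.mem_l2 t ht).comp_measurePreserving mp_coo
  exact (coo.symm : V3 →L[ℝ] E3).comp_memLp' h1

lemma field_slice_cont {F : ℝ → V3 → V3} (h : RVM.IsField T F) {t : ℝ} (ht : t ∈ Ico 0 T) :
    Continuous (F t) := by
  have h1 : ContinuousOn (fun x : V3 => F t x) univ :=
    h.c1.continuousOn.comp (f := fun x : V3 => (t, x)) (by fun_prop)
      (fun z _ => ⟨ht, mem_univ _⟩)
  exact continuousOn_univ.1 h1

lemma field_cont {F : ℝ → V3 → V3} (h : RVM.IsField T F) {t : ℝ} (ht : t ∈ Ico 0 T) :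
    Tendsto (fun s => eLpNorm (fun x => FF F s x - FF F t x) 2 volume)
      (𝓝[Ico 0 T] t) (𝓝 0) := by
  set L : V3 →L[ℝ] E3 := (coo.symm : V3 →L[ℝ] E3) with hL
  have h1 : ∀ s ∈ Ico 0 T, eLpNorm (fun x => FF F s x - FF F t x) 2 volume
      ≤ ‖L‖ₑ * eLpNorm (fun x => F s x - F t x) 2 volume := by
    intro s hs
    have h2 : ∀ x : E3, FF F s x - FF F t x = L (F s (coo x) - F t (coo x)) := by
      intro x
      rw [map_sub]
      rfl
    have h3 : eLpNorm (fun x => F s x - F t x) 2 volume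
        = eLpNorm (fun x : E3 => F s (coo x) - F t (coo x)) 2 volume := by
      have hc : Continuous fun x => F s x - F t x :=
        (field_slice_cont h hs).sub (field_slice_cont h ht)
      exact (eLpNorm_comp_measurePreserving (g := fun x => F s x - F t x)
        hc.aestronglyMeasurable mp_coo).symm
    simp only [h2]
    rw [h3]
    have h4 := eLpNorm_le_nnreal_smul_eLpNorm_of_ae_le_mul (μ := (volume : Measure E3))
      (f := fun x : E3 => L (F s (coo x) - F t (coo x)))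
      (g := fun x : E3 => F s (coo x) - F t (coo x)) (c := ‖L‖₊)
      (ae_of_all _ fun x => L.le_opNNNorm _) 2
    exact h4
  have h5 : Tendsto (fun s => ‖L‖ₑ * eLpNorm (fun x => F s x - F t x) 2 volume)
      (𝓝[Ico 0 T] t) (𝓝 0) := by
    have h6 := ENNReal.Tendsto.const_mul (h.cont_l2 t ht) (Or.inr (enorm_ne_top (x := L)))
    simpa using h6
  refine tendsto_of_tendsto_of_tendsto_of_le_of_le' tendsto_const_nhds h5
    (Eventually.of_forall fun _ => zero_le) ?_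
  filter_upwards [self_mem_nhdsWithin] with s hs
  exact h1 s hs

lemma curl_FF (F : ℝ → V3 → V3) (t : ℝ) (x : E3) (i : Fin 3) :
    curl (FF F t) x i = RVM.curl (F t) (coo x) i := by
  unfold curl RVM.curl
  have h1 : ∀ j k : Fin 3, pd j (fun y => FF F t y k) x = RVM.pd j (fun y => F t y k) (coo x) :=
    fun j k => pd_coo j (fun y => F t y k) x
  simp only [h1]
  fin_cases i <;> simp

lemma div_FF (F : ℝ → V3 → V3) (t : ℝ) (x : E3) :
    div (FF F t) x = RVM.div (F t) (coo x) := by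
  unfold div RVM.div
  refine Finset.sum_congr rfl fun i _ => ?_
  exact pd_coo i (fun y => F t y i) x

lemma rho_ff (f : ℝ → V3 → V3 → ℝ) (t : ℝ) (x : E3) :
    rho (ff f) t x = RVM.rho f t (coo x) := by
  unfold rho RVM.rho ff
  exact integral_coo (fun v => f t (coo x) v)

/-- A classical solution in coordinates is a classical solution in the Euclidean space. -/
theorem isClassicalSolution_ff (h : RVM.IsClassicalSolution T f E B) :
    IsClassicalSolution T (ff f) (FF E) (FF B) := by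
  have hfc : ContDiffOn ℝ 1 (fun z : ℝ × E3 × E3 => ff f z.1 z.2.1 z.2.2)
      (Ico 0 T ×ˢ univ) := by
    have h1 : ContDiff ℝ 1 fun z : ℝ × E3 × E3 => (z.1, coo z.2.1, coo z.2.2) :=
      contDiff_fst.prodMk ((coo.contDiff.comp (contDiff_fst.comp contDiff_snd)).prodMk
        (coo.contDiff.comp (contDiff_snd.comp contDiff_snd)))
    exact h.f_c1.comp (f := fun z : ℝ × E3 × E3 => (z.1, coo z.2.1, coo z.2.2)) h1.contDiffOn
      (fun z hz => ⟨hz.1, mem_univ _⟩)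
  have hcs : ∀ t ∈ Ico 0 T, ∃ R : ℝ, ∀ s ∈ Icc 0 t, ∀ x v,
      ff f s x v ≠ 0 → ‖x‖ ≤ R ∧ ‖v‖ ≤ R := by
    intro t ht
    obtain ⟨R, hR⟩ := h.compact_support t ht
    refine ⟨R, fun s hs x v hne => ?_⟩
    have := hR s hs (coo x) (coo v) hne
    rwa [len_coo, len_coo] at this
  refine
    { f_nonneg := fun t ht x v => h.f_nonneg t ht _ _
      f_contDiff := hfc
      E_contDiff := field_slab h.E_field
      B_contDiff := field_slab h.B_field
      vlasov := ?_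
      ampere := ?_
      faraday := ?_
      gauss := ?_
      gauss_mag := ?_
      E_memLp := fun t ht => field_memLp h.E_field ht
      B_memLp := fun t ht => field_memLp h.B_field ht
      E_cont := fun t ht => field_cont h.E_field ht
      B_cont := fun t ht => field_cont h.B_field ht
      compact_support := hcs }
  · intro t ht x v
    have h1 := h.vlasov t ht (coo x) (coo v)
    have h2 : fderiv ℝ (fun y => ff f t y v) x (u v)
        = ∑ i, RVM.u (coo v) i * RVM.pd i (fun y => f t y (coo v)) (coo x) := by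
      have h3 := fderiv_coo (g := fun y => f t y (coo v)) (x := x) (u v)
      refine h3.trans ?_
      rw [fderiv_eq_sum]
      refine Finset.sum_congr rfl fun i _ => ?_
      rw [u_coo, coo_apply]
    have h4 : fderiv ℝ (fun w => ff f t x w) v (FF E t x + cross (u v) (FF B t x))
        = ∑ i, (E t (coo x) i + RVM.cross (RVM.u (coo v)) (B t (coo x)) i)
          * RVM.pd i (fun w => f t (coo x) w) (coo v) := by
      have h5 := fderiv_coo (g := fun w => f t (coo x) w) (x := v)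
        (FF E t x + cross (u v) (FF B t x))
      refine h5.trans ?_
      rw [fderiv_eq_sum]
      refine Finset.sum_congr rfl fun i _ => ?_
      congr 1
      rw [coo_apply, PiLp.add_apply, ← cross_coo, coo_FF]
      have h6 : coo (u v) = RVM.u (coo v) := by
        funext j
        rw [u_coo, coo_apply]
      rw [h6]
      rfl
    rw [h2, h4]
    exact h1
  · intro t ht x
    ext i
    have h1 := h.ampere t ht (coo x) i
    have hcur : cur (ff f) t x i = RVM.cur f t (coo x) i := by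
      unfold cur RVM.cur
      have hint : Integrable fun v => ff f t x v • u v := by
        have hc : Continuous fun v => ff f t x v := by
          have h2 : ContinuousOn (fun v : E3 => ff f t x v) univ :=
            hfc.continuousOn.comp (f := fun v : E3 => (t, x, v)) (by fun_prop)
              (fun z _ => ⟨ht, mem_univ _⟩)
          exact continuousOn_univ.1 h2
        have hcomp : HasCompactSupport fun v => ff f t x v := by
          obtain ⟨R, hR⟩ := hcs t ht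
          refine HasCompactSupport.intro (isCompact_closedBall (0 : E3) R) ?_
          intro v hv
          by_contra hne
          exact hv (by simpa using (hR t ⟨ht.1, le_rfl⟩ x v hne).2)
        exact (hc.smul cont_u).integrable_of_hasCompactSupport hcomp.smul_right
      have h3 := (EuclideanSpace.proj i : E3 →L[ℝ] ℝ).integral_comp_comm hint
      refine h3.symm.trans ?_
      rw [← integral_coo]
      refine integral_congr_ae (ae_of_all _ fun v => ?_)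
      simp only [u_coo]
      change (ff f t x v • u v) i = _
      rw [PiLp.smul_apply, smul_eq_mul, mul_comm]
      rfl
    rw [PiLp.sub_apply, PiLp.neg_apply, curl_FF, field_derivWithin h.E_field ht, hcur]
    exact h1
  · intro t ht x
    ext i
    have h1 := h.faraday t ht (coo x) i
    rw [PiLp.add_apply, curl_FF, field_derivWithin h.B_field ht]
    exact h1
  · intro t ht x
    rw [div_FF, rho_ff]
    exact h.gauss t ht (coo x)
  · intro t ht x
    rw [div_FF]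
    exact h.gauss_mag t ht (coo x)

lemma boundedMomenta_of {f : ℝ → V3 → V3 → ℝ}
    (h : ∃ R : ℝ, ∀ t ∈ Ico 0 T, ∀ x v, ff f t x v ≠ 0 → ‖v‖ ≤ R) :
    RVM.BoundedMomenta T f := by
  obtain ⟨R, hR⟩ := h
  refine ⟨R, fun t ht x v hne => ?_⟩
  have h1 := hR t ht (coo.symm x) (coo.symm v) (by
    unfold ff
    rw [coo.apply_symm_apply, coo.apply_symm_apply]
    exact hne)
  rwa [← len_coo, coo.apply_symm_apply] at h1

end Vale.Agent.P107
end
end
end
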