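import Mathlib
import Vale.Agent.P107.Bdl.B3

set_option linter.all false

section

section

attribute [-instance] ProperSMul.toContinuousSMul IsTopologicalTorsor.toContinuousSMul
  IdemSemiring.toCanonicallyOrderedAdd IdemSemiring.toMulLeftMono IdemSemiring.toMulRightMono
  AddQuantale.instAddLeftMono AddQuantale.instAddRightMono Quantale.instMulLeftMono
  Quantale.instMulRightMono FiniteDimensional.rclike_to_real IsScalarTower.complexToReal
  FiniteDimensional.complexToReal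

section

/-!
The first term of the logarithmic estimate: a kernel of order two against a spatial derivative
of the density.
-/

open MeasureTheory Set Filter Topology
open scoped RealInnerProductSpace ENNReal NNReal ContDiff

namespace Vale.Agent.P107.LE

namespace T1

/-! ### Phase space functions -/

/-- Functions with locally bounded velocity support that vanish for early times. -/
lemma lateV_of {Φ : ℝ × E3 × E3 → ℝ} (hc : Continuous Φ)
    (hs : ∀ T : ℝ, ∃ R : ℝ, ∀ (t : ℝ) (x v : E3), |t| ≤ T → Φ (t, x, v) ≠ 0 → ‖v‖ ≤ R)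
    (h0 : ∀ t ≤ 0, ∀ z, Φ (t, z) = 0) (T : ℝ) : LateV T (fun p v => Φ (p.1, p.2, v)) := by
  refine ⟨?_, fun p hp v => h0 p.1 hp _, fun t _ => ?_⟩
  · exact (hc.comp (by fun_prop : Continuous fun z : (ℝ × E3) × E3 => (z.1.1, z.1.2, z.2))).continuousOn
  · obtain ⟨R, hR⟩ := hs |t|
    refine ⟨R, fun p hp v hv => ?_⟩
    by_contra hne
    by_cases hp0 : p.1 ≤ 0
    · exact hne (h0 p.1 hp0 _)
    · push Not at hp0
      have h1 : |p.1| ≤ |t| := by
        rw [abs_of_pos hp0]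
        exact hp.trans (le_abs_self t)
      exact absurd (hR p.1 p.2 v h1 hne) (not_le.2 hv)

/-- A derivative of a function vanishing nearby along a line. -/
lemma fderiv_eq_zero_of_line {X : Type*} [NormedAddCommGroup X] [NormedSpace ℝ X] {F : Type*}
    [NormedAddCommGroup F] [NormedSpace ℝ F] {g : X → F} {p d : X} (hg : DifferentiableAt ℝ g p)
    (h : ∀ r : ℝ, g (p + r • d) = 0) : fderiv ℝ g p d = 0 := by
  have h1 : HasDerivAt (fun r : ℝ => g (p + r • d)) (fderiv ℝ g p d) 0 := by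
    have h2 : HasDerivAt (fun r : ℝ => p + r • d) d 0 := by
      simpa using ((hasDerivAt_id (0 : ℝ)).smul_const d).const_add p
    have h3 : HasFDerivAt g (fderiv ℝ g p) (p + (0 : ℝ) • d) := by
      simpa using hg.hasFDerivAt
    exact h3.comp_hasDerivAt (0 : ℝ) h2
  have h2 : (fun r : ℝ => g (p + r • d)) = fun _ => 0 := funext h
  rw [h2] at h1
  exact (h1.unique (hasDerivAt_const (0 : ℝ) (0 : F)))

lemma fderiv_supp {F : Type*} [NormedAddCommGroup F] [NormedSpace ℝ F] {g : ℝ × E3 × E3 → F}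
    (hg : SD g) (T : ℝ) : ∃ R : ℝ, ∀ (t : ℝ) (x v : E3), |t| ≤ T →
      fderiv ℝ g (t, x, v) ≠ 0 → ‖v‖ ≤ R := by
  obtain ⟨R, hR⟩ := hg.supp (T + 1)
  refine ⟨R, fun t x v ht hne => ?_⟩
  by_contra hv
  push Not at hv
  apply hne
  have hmem : {y : ℝ × E3 × E3 | |y.1| < T + 1 ∧ R < ‖y.2.2‖} ∈ 𝓝 ((t, x, v) : ℝ × E3 × E3) := by
    have c1 : Continuous fun y : ℝ × E3 × E3 => |y.1| := by fun_prop
    have c2 : Continuous fun y : ℝ × E3 × E3 => ‖y.2.2‖ := by fun_prop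
    refine IsOpen.mem_nhds ?_ ⟨by simp only; linarith only [ht], hv⟩
    exact (isOpen_lt c1 continuous_const).inter (isOpen_lt continuous_const c2)
  have h1 : g =ᶠ[𝓝 ((t, x, v) : ℝ × E3 × E3)] fun _ => 0 := by
    filter_upwards [hmem] with y hy
    by_contra hy0
    exact absurd (hR y.1 y.2.1 y.2.2 hy.1.le hy0).2 (not_le.2 hy.2)
  rw [h1.fderiv_eq]
  simp

lemma fderiv_early {F : Type*} [NormedAddCommGroup F] [NormedSpace ℝ F] {g : ℝ × E3 × E3 → F}
    {η : ℝ} (hη : 0 < η) (h : ∀ t ≤ η, ∀ z, g (t, z) = 0) {t : ℝ} (ht : t ≤ 0) (z : E3 × E3) :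
    fderiv ℝ g (t, z) = 0 := by
  have hmem : {y : ℝ × E3 × E3 | y.1 < η} ∈ 𝓝 ((t, z) : ℝ × E3 × E3) :=
    (isOpen_lt (by fun_prop) continuous_const).mem_nhds (lt_of_le_of_lt ht hη)
  have h1 : g =ᶠ[𝓝 ((t, z) : ℝ × E3 × E3)] fun _ => 0 := by
    filter_upwards [hmem] with y hy
    exact h y.1 (le_of_lt hy) y.2
  rw [h1.fderiv_eq]
  simp

lemma cont_fderiv {F : Type*} [NormedAddCommGroup F] [NormedSpace ℝ F] {g : ℝ × E3 × E3 → F}
    (hg : SD g) : Continuous (fderiv ℝ g) := hg.smooth.continuous_fderiv (by simp)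

lemma lateV_fd {g : ℝ × E3 × E3 → ℝ} (hg : SD g) {η : ℝ} (hη : 0 < η)
    (h : ∀ t ≤ η, ∀ z, g (t, z) = 0) {d : E3 → ℝ × E3 × E3} (hd : Continuous d) (T : ℝ) :
    LateV T (fun p v => fderiv ℝ g (p.1, p.2, v) (d v)) := by
  refine lateV_of (Φ := fun y => fderiv ℝ g y (d y.2.2)) ?_ (fun T => ?_) (fun t ht z => ?_) T
  · exact (cont_fderiv hg).clm_apply (hd.comp (by fun_prop))
  · obtain ⟨R, hR⟩ := fderiv_supp hg T
    refine ⟨R, fun t x v ht hne => hR t x v ht fun h0 => hne ?_⟩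
    simp [h0]
  · simp only
    rw [fderiv_early hη h ht]
    simp

lemma late_g {g : ℝ × E3 × E3 → ℝ} (hg : SD g) {η : ℝ} (hη : 0 < η)
    (h : ∀ t ≤ η, ∀ z, g (t, z) = 0) (v : E3) (T : ℝ) : Late T (fun p => g (p.1, p.2, v)) := by
  refine ⟨?_, η, hη, fun p hp => h p.1 hp _⟩
  have h1 : ContDiff ℝ 1 fun p : ℝ × E3 => g (p.1, p.2, v) :=
    (hg.smooth.of_le (by simp)).comp (by fun_prop)
  exact h1.contDiffOn

lemma fderiv_slice {g : ℝ × E3 × E3 → ℝ} (hg : SD g) (v : E3) (p d : ℝ × E3) :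
    fderiv ℝ (fun p : ℝ × E3 => g (p.1, p.2, v)) p d = fderiv ℝ g (p.1, p.2, v) (d.1, d.2, 0) := by
  have h1 : HasFDerivAt g (fderiv ℝ g (p.1, p.2, v)) (p.1, p.2, v) :=
    (hg.smooth.differentiable (by simp) _).hasFDerivAt
  have h2 : HasFDerivAt (fun p : ℝ × E3 => ((p.1, p.2, v) : ℝ × E3 × E3))
      ((ContinuousLinearMap.fst ℝ ℝ E3).prod ((ContinuousLinearMap.snd ℝ ℝ E3).prod 0)) p :=
    hasFDerivAt_fst.prodMk (hasFDerivAt_snd.prodMk (hasFDerivAt_const v p))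
  have h3 := HasFDerivAt.comp p h1 h2
  have h4 : fderiv ℝ (fun p : ℝ × E3 => g (p.1, p.2, v)) p = _ := h3.fderiv
  rw [h4]
  simp

/-! ### Radial integrals -/

/-- The constant in front of radial integrals. -/
noncomputable def om : ℝ := 3 * (volume : Measure E3).real (Metric.ball 0 1)

lemma om_nonneg : 0 ≤ om := by unfold om; positivity

lemma integral_radial (φ : ℝ → ℝ) :
    ∫ z : E3, φ ‖z‖ = om * ∫ r in Ioi (0 : ℝ), r ^ 2 * φ r := by
  rw [integral_fun_norm_addHaar (volume : Measure E3) φ, finrank_E3]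
  simp only [nsmul_eq_mul, smul_eq_mul, om]
  push_cast
  ring

/-- The profile `r⁻ᵏ` on `[α, ρ]`. -/
noncomputable def prof (k : ℕ) (α ρ r : ℝ) : ℝ :=
  (Icc α ρ).indicator (fun r => (r⁻¹) ^ k) r

lemma prof_nonneg (k : ℕ) (α ρ : ℝ) {r : ℝ} (hr : 0 ≤ r) : 0 ≤ prof k α ρ r := by
  unfold prof
  refine indicator_apply_nonneg fun _ => ?_
  positivity

lemma measurable_prof (k : ℕ) (α ρ : ℝ) : Measurable (prof k α ρ) := by
  unfold prof
  exact Measurable.indicator (by fun_prop) measurableSet_Icc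

lemma prof_eq (k : ℕ) {α ρ r : ℝ} (h1 : α ≤ r) (h2 : r ≤ ρ) : prof k α ρ r = (r⁻¹) ^ k := by
  unfold prof
  exact indicator_of_mem (show r ∈ Icc α ρ from ⟨h1, h2⟩) _

lemma integrable_prof_two (ρ : ℝ) : Integrable fun z : E3 => prof 2 0 ρ ‖z‖ := by
  refine integrable_kernel (R := ρ) (C := 1) ?_ ?_ ?_
  · exact ((measurable_prof 2 0 ρ).comp measurable_norm).aestronglyMeasurable
  · intro z
    rw [abs_of_nonneg (prof_nonneg _ _ _ (norm_nonneg z))]
    unfold prof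
    by_cases h : ‖z‖ ∈ Icc 0 ρ
    · rw [indicator_of_mem h, one_mul]
    · rw [indicator_of_notMem h]
      positivity
  · intro z hz
    unfold prof
    rw [indicator_of_notMem]
    intro h
    exact absurd h.2 (not_le.2 hz)

lemma integral_prof_two {ρ : ℝ} (hρ : 0 ≤ ρ) : ∫ z : E3, prof 2 0 ρ ‖z‖ = om * ρ := by
  rw [integral_radial]
  congr 1
  have h1 : ∀ r ∈ Ioi (0 : ℝ), r ^ 2 * prof 2 0 ρ r = (Icc (0 : ℝ) ρ).indicator (fun _ => 1) r := by
    intro r hr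
    have hr0 : r ≠ 0 := ne_of_gt hr
    unfold prof
    by_cases h : r ∈ Icc (0 : ℝ) ρ
    · rw [indicator_of_mem h, indicator_of_mem h]
      field_simp
    · rw [indicator_of_notMem h, indicator_of_notMem h, mul_zero]
  rw [setIntegral_congr_fun measurableSet_Ioi h1, setIntegral_indicator measurableSet_Icc]
  have h2 : Ioi (0 : ℝ) ∩ Icc 0 ρ = Ioc 0 ρ := by
    ext r
    simp only [mem_inter_iff, mem_Ioi, mem_Icc, mem_Ioc]
    constructor
    · rintro ⟨h1, _, h3⟩; exact ⟨h1, h3⟩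
    · rintro ⟨h1, h3⟩; exact ⟨h1, h1.le, h3⟩
  rw [h2]
  simp [hρ]

lemma integrable_prof_three {α : ℝ} (hα : 0 < α) (ρ : ℝ) :
    Integrable fun z : E3 => prof 3 α ρ ‖z‖ := by
  refine integrable_kernel (R := ρ) (C := α⁻¹) ?_ ?_ ?_
  · exact ((measurable_prof 3 α ρ).comp measurable_norm).aestronglyMeasurable
  · intro z
    rw [abs_of_nonneg (prof_nonneg _ _ _ (norm_nonneg z))]
    unfold prof
    by_cases h : ‖z‖ ∈ Icc α ρ
    · rw [indicator_of_mem h]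
      have hpos : 0 < ‖z‖ := hα.trans_le h.1
      have h1 : ‖z‖⁻¹ ≤ α⁻¹ := inv_anti₀ hα h.1
      calc (‖z‖⁻¹) ^ 3 = ‖z‖⁻¹ * (‖z‖⁻¹) ^ 2 := by ring
        _ ≤ _ := by gcongr
    · rw [indicator_of_notMem h]
      (clear * - hα; positivity)
  · intro z hz
    unfold prof
    rw [indicator_of_notMem]
    intro h
    exact absurd h.2 (not_le.2 hz)

lemma integral_prof_three {α ρ : ℝ} (hα : 0 < α) (hρ : α ≤ ρ) :
    ∫ z : E3, prof 3 α ρ ‖z‖ = om * Real.log (ρ / α) := by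
  rw [integral_radial]
  congr 1
  have h1 : ∀ r ∈ Ioi (0 : ℝ), r ^ 2 * prof 3 α ρ r
      = (Icc α ρ).indicator (fun r => r⁻¹) r := by
    intro r hr
    have hr0 : r ≠ 0 := ne_of_gt hr
    unfold prof
    by_cases h : r ∈ Icc α ρ
    · rw [indicator_of_mem h, indicator_of_mem h]
      field_simp
    · rw [indicator_of_notMem h, indicator_of_notMem h, mul_zero]
  rw [setIntegral_congr_fun measurableSet_Ioi h1, setIntegral_indicator measurableSet_Icc]
  have h2 : Ioi (0 : ℝ) ∩ Icc α ρ = Icc α ρ := by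
    ext r
    simp only [mem_inter_iff, mem_Ioi, mem_Icc]
    constructor
    · rintro ⟨_, h2⟩; exact h2
    · rintro h; exact ⟨hα.trans_le h.1, h⟩
  rw [h2, integral_Icc_eq_integral_Ioc, ← intervalIntegral.integral_of_le hρ,
    integral_inv_of_pos hα (hα.trans_le hρ)]

/-! ### Bounds of iterated integrals -/

lemma abs_integral_ball_le {P c : ℝ} {f : E3 → ℝ} (hc : ∀ v, ‖v‖ ≤ P → |f v| ≤ c)
    (hs : ∀ v, P < ‖v‖ → f v = 0) :
    |∫ v, f v| ≤ (volume : Measure E3).real (Metric.closedBall 0 P) * c := by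
  have h1 : Integrable ((Metric.closedBall (0 : E3) P).indicator (fun _ => c)) := by
    rw [integrable_indicator_iff measurableSet_closedBall]
    exact integrableOn_const measure_closedBall_lt_top.ne
  have h2 := norm_integral_le_of_norm_le (f := f) h1 (ae_of_all _ fun v => ?_)
  · rw [integral_indicator measurableSet_closedBall, setIntegral_const] at h2
    simpa using h2
  · by_cases hv : ‖v‖ ≤ P
    · rw [indicator_of_mem (by simpa using hv)]
      exact hc v hv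
    · push Not at hv
      rw [indicator_of_notMem (by simpa using hv), hs v hv, norm_zero]

lemma abs_integral_zv_le {P : ℝ} {F : E3 → E3 → ℝ} {b : E3 → ℝ} (hb : Integrable b)
    (h : ∀ z, z ≠ 0 → ∀ v, ‖v‖ ≤ P → |F z v| ≤ b z)
    (hs : ∀ z, z ≠ 0 → ∀ v, P < ‖v‖ → F z v = 0) :
    |∫ z, ∫ v, F z v| ≤ (volume : Measure E3).real (Metric.closedBall 0 P) * ∫ z, b z := by
  rw [← integral_const_mul, ← Real.norm_eq_abs]
  refine norm_integral_le_of_norm_le (hb.const_mul _) ?_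
  filter_upwards [ae_ne_zero] with z hz
  exact abs_integral_ball_le (h z hz) (hs z hz)

lemma abs_integral_vz_le {P : ℝ} {F : E3 → E3 → ℝ} {b : E3 → ℝ} (hb : Integrable b)
    (h : ∀ v, ‖v‖ ≤ P → ∀ z, z ≠ 0 → |F v z| ≤ b z)
    (hs : ∀ v, P < ‖v‖ → ∀ z, z ≠ 0 → F v z = 0) :
    |∫ v, ∫ z, F v z| ≤ (volume : Measure E3).real (Metric.closedBall 0 P) * ∫ z, b z := by
  refine abs_integral_ball_le (fun v hv => ?_) (fun v hv => ?_)
  · rw [← Real.norm_eq_abs]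
    refine norm_integral_le_of_norm_le hb ?_
    filter_upwards [ae_ne_zero] with z hz
    exact h v hv z hz
  · have h1 : (fun z => F v z) =ᵐ[volume] fun _ => 0 := by
      filter_upwards [ae_ne_zero] with z hz
      exact hs v hv z hz
    rw [integral_congr_ae h1]
    simp

/-! ### Kernels -/

lemma isOpen_off : IsOpen {y : E3 × E3 | y.2 ≠ 0} :=
  isOpen_ne.preimage continuous_snd

lemma contDiff_q_inf : ContDiff ℝ ∞ q := by
  unfold q
  refine ContDiff.sqrt ?_ (fun v => by positivity)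
  exact contDiff_const.add (contDiff_norm_sq ℝ)

lemma contDiff_u_inf : ContDiff ℝ ∞ u := by
  unfold u
  exact (contDiff_q_inf.inv (fun v => (q_pos v).ne')).smul contDiff_id

/-- The kernel `κ mk`. -/
noncomputable def km (κ : E3 × E3 → ℝ) (k : Fin 3) (y : E3 × E3) : ℝ :=
  κ y * mk k (u y.1) y.2

lemma contDiffOn_mk (k : Fin 3) :
    ContDiffOn ℝ ∞ (fun y : E3 × E3 => mk k (u y.1) y.2) {y | y.2 ≠ 0} := by
  unfold mk
  have h1 : ContDiffOn ℝ ∞ (fun y : E3 × E3 => y.2 k) {y | y.2 ≠ 0} :=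
    ((EuclideanSpace.proj k : E3 →L[ℝ] ℝ).contDiff.comp contDiff_snd).contDiffOn
  have h2 : ContDiffOn ℝ ∞ (fun y : E3 × E3 => ‖y.2‖) {y | y.2 ≠ 0} :=
    contDiffOn_snd.norm ℝ (fun y hy => hy)
  have h3 : ContDiffOn ℝ ∞ (fun y : E3 × E3 => ⟪u y.1, y.2⟫) {y | y.2 ≠ 0} :=
    ((contDiff_u_inf.comp contDiff_fst).inner ℝ contDiff_snd).contDiffOn
  exact h1.mul ((h2.add h3).inv fun y hy => (denom_pos (norm_u_lt_one _) hy).ne')

lemma contDiffOn_km {κ : E3 × E3 → ℝ} (hκ : ContDiffOn ℝ ∞ κ {y | y.2 ≠ 0}) (k : Fin 3) :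
    ContDiffOn ℝ ∞ (km κ k) {y | y.2 ≠ 0} := hκ.mul (contDiffOn_mk k)

lemma hom_km {κ : E3 × E3 → ℝ}
    (hh : ∀ (v z : E3) (c : ℝ), 0 < c → z ≠ 0 → κ (v, c • z) = (c⁻¹) ^ 2 * κ (v, z)) (k : Fin 3)
    (v z : E3) (c : ℝ) (hc : 0 < c) (hz : z ≠ 0) :
    km κ k (v, c • z) = (c⁻¹) ^ 2 * km κ k (v, z) := by
  unfold km mk
  simp only
  rw [hh v z c hc hz, norm_smul, real_inner_smul_right, Real.norm_of_nonneg hc.le]
  have hD := denom_pos (norm_u_lt_one v) hz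
  have h1 : (c • z) k = c * z k := by simp
  rw [h1, ← mul_add, mul_inv]
  (clear * - hc hD; field_simp)

lemma hasFDerivAt_off {κ : E3 × E3 → ℝ} (hκ : ContDiffOn ℝ ∞ κ {y | y.2 ≠ 0}) (v : E3) {z : E3}
    (hz : z ≠ 0) : HasFDerivAt κ (fderiv ℝ κ (v, z)) (v, z) :=
  ((hκ.contDiffAt (isOpen_off.mem_nhds hz)).differentiableAt (by simp)).hasFDerivAt

lemma hasFDerivAt_z {κ : E3 × E3 → ℝ} (hκ : ContDiffOn ℝ ∞ κ {y | y.2 ≠ 0}) (v : E3) {z : E3}
    (hz : z ≠ 0) : HasFDerivAt (fun z => κ (v, z))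
      ((fderiv ℝ κ (v, z)).comp (ContinuousLinearMap.inr ℝ E3 E3)) z :=
  (hasFDerivAt_off hκ v hz).comp z (hasFDerivAt_prodMk_right v z)

lemma hasFDerivAt_v {κ : E3 × E3 → ℝ} (hκ : ContDiffOn ℝ ∞ κ {y | y.2 ≠ 0}) (v : E3) {z : E3}
    (hz : z ≠ 0) : HasFDerivAt (fun v => κ (v, z))
      ((fderiv ℝ κ (v, z)).comp (ContinuousLinearMap.inl ℝ E3 E3)) v :=
  (hasFDerivAt_off hκ v hz).comp v (hasFDerivAt_prodMk_left v z)

lemma contDiff_v {κ : E3 × E3 → ℝ} (hκ : ContDiffOn ℝ ∞ κ {y | y.2 ≠ 0}) {z : E3}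
    (hz : z ≠ 0) : ContDiff ℝ 1 (fun v => κ (v, z)) := by
  rw [← contDiffOn_univ]
  exact (hκ.of_le (by simp)).comp (by fun_prop : ContDiffOn ℝ 1 (fun v : E3 => (v, z)) univ)
    (fun v _ => hz)

/-- The kernel with the value at the origin removed. -/
noncomputable def off (κ : E3 × E3 → ℝ) (v z : E3) : ℝ :=
  ({y : E3 × E3 | y.2 ≠ 0}.indicator κ) (v, z)

lemma off_eq {κ : E3 × E3 → ℝ} {v z : E3} (hz : z ≠ 0) : off κ v z = κ (v, z) :=
  indicator_of_mem (show (v, z) ∈ {y : E3 × E3 | y.2 ≠ 0} from hz) _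

lemma off_zero {κ : E3 × E3 → ℝ} (v : E3) : off κ v 0 = 0 :=
  indicator_of_notMem (by simp) _

lemma measurable_off {κ : E3 × E3 → ℝ} (hκ : ContinuousOn κ {y | y.2 ≠ 0}) :
    Measurable fun w : E3 × E3 => off κ w.1 w.2 := by
  classical
  have h1 : (fun w : E3 × E3 => off κ w.1 w.2) = {y : E3 × E3 | y.2 ≠ 0}.indicator κ := rfl
  rw [h1, ← Set.piecewise_eq_indicator]
  exact ContinuousOn.measurable_piecewise hκ continuousOn_const isOpen_off.measurableSet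

lemma kerV_off {κ : E3 × E3 → ℝ} (hκ : ContDiffOn ℝ ∞ κ {y | y.2 ≠ 0})
    (hh : ∀ (v z : E3) (c : ℝ), 0 < c → z ≠ 0 → κ (v, c • z) = (c⁻¹) ^ 2 * κ (v, z)) :
    KerV (off κ) := by
  refine ⟨measurable_off hκ.continuousOn, fun R => ?_⟩
  obtain ⟨C, hC0, hC⟩ := hom_bound hκ 2 hh R
  refine ⟨C, fun v hv z => ?_⟩
  rcases eq_or_ne z 0 with rfl | hz
  · rw [off_zero]; simp
  · rw [off_eq hz]
    refine (hC v z hv hz).1.trans ?_
    gcongr
    have : 0 ≤ ‖z‖⁻¹ := by positivity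
    linarith only [this]

lemma kerV_cut {κ : E3 → E3 → ℝ} (h : KerV κ) (N : ℕ) : KerV (fun v z => cut N z * κ v z) := by
  refine ⟨?_, fun R => ?_⟩
  · exact (((cut_contDiff N).continuous.measurable).comp measurable_snd).mul h.measurable
  · obtain ⟨C, hC⟩ := h.bound R
    refine ⟨C, fun v hv z => ?_⟩
    rw [abs_mul, abs_of_nonneg (cut_nonneg N z)]
    calc cut N z * |κ v z| ≤ 1 * |κ v z| := by
          gcongr
          exact cut_le_one N z
      _ ≤ _ := by rw [one_mul]; exact hC v hv z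

/-- The velocity integral of a kernel against a divergence. -/
lemma ibp_div {φ : E3 → ℝ} {W : E3 → E3} (hφ : ContDiff ℝ 1 φ) (hW : ContDiff ℝ 1 W)
    (hWs : HasCompactSupport W) :
    ∫ v, φ v * div W v = - ∫ v, fderiv ℝ φ v (W v) := by
  have hWk : ∀ k : Fin 3, ContDiff ℝ 1 (fun v => W v k) := fun k =>
    (EuclideanSpace.proj k : E3 →L[ℝ] ℝ).contDiff.comp hW
  have hφd : ∀ k : Fin 3, Continuous fun v => fderiv ℝ φ v (ee k) := fun k =>
    (hφ.continuous_fderiv (by norm_num)).clm_apply continuous_const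
  have hWd : ∀ k : Fin 3, Continuous fun v => fderiv ℝ (fun v => W v k) v (ee k) := fun k =>
    ((hWk k).continuous_fderiv (by norm_num)).clm_apply continuous_const
  have hWks : ∀ k : Fin 3, HasCompactSupport fun v => W v k := fun k =>
    hWs.comp_left (g := fun w : E3 => w k) (by simp)
  have hWds : ∀ k : Fin 3, HasCompactSupport fun v => fderiv ℝ (fun v => W v k) v (ee k) :=
    fun k => (hWks k).fderiv_apply (𝕜 := ℝ) _
  have i1 : ∀ k : Fin 3, Integrable fun v => φ v * fderiv ℝ (fun v => W v k) v (ee k) := fun k =>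
    (hφ.continuous.mul (hWd k)).integrable_of_hasCompactSupport (hWds k).mul_left
  have i2 : ∀ k : Fin 3, Integrable fun v => fderiv ℝ φ v (ee k) * W v k := fun k =>
    ((hφd k).mul (hWk k).continuous).integrable_of_hasCompactSupport (hWks k).mul_left
  have key : ∀ k : Fin 3, ∫ v, φ v * fderiv ℝ (fun v => W v k) v (ee k)
      = - ∫ v, fderiv ℝ φ v (ee k) * W v k := by
    intro k
    refine integral_mul_fderiv_eq_neg_fderiv_mul_of_integrable (i2 k) (i1 k) ?_ ?_ ?_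
    · exact (hφ.continuous.mul (hWk k).continuous).integrable_of_hasCompactSupport (hWks k).mul_left
    · intro v _; exact hφ.differentiable (by norm_num) v
    · intro v _; exact (hWk k).differentiable (by norm_num) v
  have e1 : ∫ v, φ v * div W v = ∑ k, ∫ v, φ v * fderiv ℝ (fun v => W v k) v (ee k) := by
    rw [← integral_finsetSum _ (fun k _ => i1 k)]
    congr 1
    ext v
    unfold div pd
    rw [Finset.mul_sum]
  have e2 : ∫ v, fderiv ℝ φ v (W v) = ∑ k, ∫ v, fderiv ℝ φ v (ee k) * W v k := by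
    rw [← integral_finsetSum _ (fun k _ => i2 k)]
    congr 1
    ext v
    rw [clm_apply_eq_sum (fderiv ℝ φ v) (W v)]
    exact Finset.sum_congr rfl fun k _ => mul_comm _ _
  rw [e1, e2, ← Finset.sum_neg_distrib]
  exact Finset.sum_congr rfl fun k _ => key k

/-! ### The cutoff -/

lemma cut_eq_zero' (N : ℕ) {z : E3} (hz : ‖z‖ < ((N : ℝ) + 1)⁻¹) : cut N z = 0 := by
  apply cut_eq_zero
  have h : (0 : ℝ) < (N : ℝ) + 1 := by positivity
  calc ‖z‖ * ((N : ℝ) + 1) ≤ ((N : ℝ) + 1)⁻¹ * ((N : ℝ) + 1) := by gcongr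
    _ = 1 := inv_mul_cancel₀ h.ne'

lemma fderiv_cut_mul_eq_zero (N : ℕ) (κ : E3 → ℝ) {z : E3} (hz : ‖z‖ < ((N : ℝ) + 1)⁻¹) :
    fderiv ℝ (fun y => cut N y * κ y) z = 0 := by
  have h1 : (fun y => cut N y * κ y) =ᶠ[𝓝 z] fun _ => 0 := by
    filter_upwards [(isOpen_lt continuous_norm continuous_const).mem_nhds hz] with y hy
    rw [cut_eq_zero' N hy, zero_mul]
  rw [h1.fderiv_eq]
  simp

lemma cut_eq_one (N : ℕ) {z : E3} (hz : 2 * ((N : ℝ) + 1)⁻¹ ≤ ‖z‖) : cut N z = 1 := by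
  unfold cut
  apply Real.smoothTransition.one_of_one_le
  have h : (0 : ℝ) < (N : ℝ) + 1 := by positivity
  have h1 : 2 ≤ ‖z‖ * ((N : ℝ) + 1) := by
    calc (2 : ℝ) = 2 * ((N : ℝ) + 1)⁻¹ * ((N : ℝ) + 1) := by field_simp
      _ ≤ _ := by gcongr
  nlinarith only [h1]

lemma abs_fderiv_cut_mul_le {L : ℝ} (hL0 : 0 ≤ L)
    (hL : ∀ (n : ℕ) (z e : E3), |fderiv ℝ (cut n) z e| ≤ L * ‖e‖ * ‖z‖⁻¹)
    (N : ℕ) {κ : E3 → ℝ} {z : E3} {c : ℝ} (hd : DifferentiableAt ℝ κ z)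
    (h0 : |κ z| ≤ c * (‖z‖⁻¹) ^ 2) (h1 : ∀ e, |fderiv ℝ κ z e| ≤ c * (‖z‖⁻¹) ^ 3 * ‖e‖) (e : E3) :
    |fderiv ℝ (fun y => cut N y * κ y) z e| ≤ (L + 1) * c * (‖z‖⁻¹) ^ 3 * ‖e‖ := by
  have h2 : DifferentiableAt ℝ (cut N) z := ((cut_contDiff N).differentiable (by norm_num)) z
  have h3 : fderiv ℝ (fun y => cut N y * κ y) z e
      = cut N z * fderiv ℝ κ z e + fderiv ℝ (cut N) z e * κ z := by
    rw [fderiv_fun_mul h2 hd]
    simp
    ring
  rw [h3]
  refine (abs_add_le _ _).trans ?_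
  rw [abs_mul, abs_mul, abs_of_nonneg (cut_nonneg N z)]
  have h4 : cut N z * |fderiv ℝ κ z e| ≤ 1 * (c * (‖z‖⁻¹) ^ 3 * ‖e‖) := by
    gcongr
    · exact cut_le_one N z
    · exact h1 e
  have h5 : |fderiv ℝ (cut N) z e| * |κ z| ≤ (L * ‖e‖ * ‖z‖⁻¹) * (c * (‖z‖⁻¹) ^ 2) := by
    gcongr
    exact hL N z e
  calc _ ≤ 1 * (c * (‖z‖⁻¹) ^ 3 * ‖e‖) + (L * ‖e‖ * ‖z‖⁻¹) * (c * (‖z‖⁻¹) ^ 2) := add_le_add h4 h5
    _ = _ := by ring

/-- The identity `ret_pxd` for a cut kernel of order two. -/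
lemma far_identity {κ : E3 × E3 → ℝ} (hκ : ContDiffOn ℝ ∞ κ {y | y.2 ≠ 0})
    (hh : ∀ (v z : E3) (c : ℝ), 0 < c → z ≠ 0 → κ (v, c • z) = (c⁻¹) ^ 2 * κ (v, z))
    (N : ℕ) {T : ℝ} {G : ℝ × E3 → ℝ} (h : Late T G) {t : ℝ} (ht : t < T) (x v : E3) (k : Fin 3) :
    ∫ z, (cut N z * κ (v, z)) * pxd (ee k) G (rp t x z)
      = (∫ z, (fderiv ℝ (fun y => cut N y * km κ k (v, y)) z (u v)
          - fderiv ℝ (fun y => cut N y * κ (v, y)) z (ee k)) * G (rp t x z))
        + ∫ z, (cut N z * km κ k (v, z)) * (ptd G (rp t x z) + pxd (u v) G (rp t x z)) := by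
  obtain ⟨L, hL0, hL⟩ := exists_bound_fderiv_cut
  obtain ⟨C, hC0, hC⟩ := hom_bound hκ 2 hh ‖v‖
  have hN : (0 : ℝ) < (N : ℝ) + 1 := by positivity
  have hinv : ∀ z : E3, ((N : ℝ) + 1)⁻¹ ≤ ‖z‖ → ‖z‖⁻¹ ≤ (N : ℝ) + 1 := by
    intro z hz
    rw [inv_le_comm₀ ((inv_pos.2 hN).trans_le hz) hN]
    exact hz
  have hd : ∀ z ≠ 0, DifferentiableAt ℝ (fun y => κ (v, y)) z := fun z hz =>
    (hasFDerivAt_z hκ v hz).differentiableAt
  have hfd : ∀ z ≠ 0, ∀ e, |fderiv ℝ (fun y => κ (v, y)) z e| ≤ C * (‖z‖⁻¹) ^ 3 * ‖e‖ := by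
    intro z hz e
    rw [(hasFDerivAt_z hκ v hz).fderiv]
    exact (hC v z le_rfl hz).2.2 e
  have key := ret_pxd h ht x (norm_u_lt_one v) k (κ := fun z => cut N z * κ (v, z))
    (C := C * ((N : ℝ) + 1)) (C' := (L + 1) * C * ((N : ℝ) + 1)) ?_ ?_ ?_
  · have e1 : (fun y => cut N y * κ (v, y) * mk k (u v) y) = fun y => cut N y * km κ k (v, y) := by
      ext y
      simp only [km]
      ring
    rw [e1] at key
    rw [key]
    congr 2
    ext z
    simp only [km]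
    ring
  · intro z hz
    exact (((cut_contDiff N).differentiable (by norm_num)) z).mul (hd z hz)
  · intro z hz
    rcases lt_or_ge ‖z‖ ((N : ℝ) + 1)⁻¹ with hlt | hge
    · rw [cut_eq_zero' N hlt, zero_mul, abs_zero]
      (clear * - hC0 hz; positivity)
    · rw [abs_mul, abs_of_nonneg (cut_nonneg N z)]
      calc cut N z * |κ (v, z)| ≤ 1 * (C * (‖z‖⁻¹) ^ 2) := by
            gcongr
            · exact cut_le_one N z
            · exact (hC v z le_rfl hz).1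
        _ = C * ‖z‖⁻¹ * ‖z‖⁻¹ := by ring
        _ ≤ C * ((N : ℝ) + 1) * ‖z‖⁻¹ := by
            gcongr
            exact hinv z hge
  · intro z hz
    rcases lt_or_ge ‖z‖ ((N : ℝ) + 1)⁻¹ with hlt | hge
    · rw [fderiv_cut_mul_eq_zero N _ hlt, norm_zero]
      (clear * - hL0 hC0 hz; positivity)
    · refine ContinuousLinearMap.opNorm_le_bound _ (by (clear * - hL0 hC0 hz; positivity)) fun e => ?_
      rw [Real.norm_eq_abs]
      refine (abs_fderiv_cut_mul_le hL0 hL N (hd z hz) (hC v z le_rfl hz).1 (hfd z hz) e).trans ?_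
      calc (L + 1) * C * (‖z‖⁻¹) ^ 3 * ‖e‖ = (L + 1) * C * ‖z‖⁻¹ * (‖z‖⁻¹) ^ 2 * ‖e‖ := by ring
        _ ≤ (L + 1) * C * ((N : ℝ) + 1) * (‖z‖⁻¹) ^ 2 * ‖e‖ := by
            gcongr
            exact hinv z hge

/-- The three parts of the first term. -/
lemma parts {κ : E3 × E3 → ℝ} (hκ : ContDiffOn ℝ ∞ κ {y | y.2 ≠ 0})
    (hh : ∀ (v z : E3) (c : ℝ), 0 < c → z ≠ 0 → κ (v, c • z) = (c⁻¹) ^ 2 * κ (v, z))
    {g : ℝ × E3 × E3 → ℝ} {H : ℝ × E3 × E3 → E3} (sg : SD g) (tr : Tr g H) {η : ℝ} (hη : 0 < η)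
    (hg : ∀ t ≤ η, ∀ z, g (t, z) = 0) (k : Fin 3) (N : ℕ) (t : ℝ) (x : E3) :
    ∫ z, ∫ v, κ (v, z) * fderiv ℝ g (t - ‖z‖, x + z, v) (0, ee k, 0)
      = (∫ z, ∫ v, (1 - cut N z) * (κ (v, z) * fderiv ℝ g (t - ‖z‖, x + z, v) (0, ee k, 0)))
        + (∫ v, ∫ z, (fderiv ℝ (fun y => cut N y * km κ k (v, y)) z (u v)
          - fderiv ℝ (fun y => cut N y * κ (v, y)) z (ee k)) * g (t - ‖z‖, x + z, v))
        + ∫ z, ∫ v, cut N z * (km κ k (v, z) * - div (fun w => H (t - ‖z‖, x + z, w)) v) := by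
  have htb : t < t + 1 := by linarith only []
  have LVk := lateV_fd sg hη hg (d := fun _ => (0, ee k, 0)) continuous_const (t + 1)
  have LVS := lateV_fd sg hη hg (d := fun v => (1, u v, 0))
    (continuous_const.prodMk (cont_u.prodMk continuous_const)) (t + 1)
  have K0 := kerV_off hκ hh
  have Km := kerV_off (contDiffOn_km hκ k) (hom_km hh k)
  have KC := kerV_cut K0 N
  have KmC := kerV_cut Km N
  -- the first splitting
  have hA : Integrable fun z => ∫ v, off κ v z * fderiv ℝ g (t - ‖z‖, x + z, v) (0, ee k, 0) :=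
    (K0.integrable LVk htb x).integral_prod_right
  have hAC : Integrable fun z => ∫ v, cut N z * off κ v z
      * fderiv ℝ g (t - ‖z‖, x + z, v) (0, ee k, 0) :=
    (KC.integrable LVk htb x).integral_prod_right
  have e1 : ∫ z, ∫ v, κ (v, z) * fderiv ℝ g (t - ‖z‖, x + z, v) (0, ee k, 0)
      = ∫ z, ∫ v, off κ v z * fderiv ℝ g (t - ‖z‖, x + z, v) (0, ee k, 0) := by
    refine integral_congr_ae ?_
    filter_upwards [ae_ne_zero] with z hz
    simp only [off_eq hz]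
  have e2 : ∫ z, ∫ v, (1 - cut N z) * (κ (v, z) * fderiv ℝ g (t - ‖z‖, x + z, v) (0, ee k, 0))
      = ∫ z, ((∫ v, off κ v z * fderiv ℝ g (t - ‖z‖, x + z, v) (0, ee k, 0))
        - ∫ v, cut N z * off κ v z * fderiv ℝ g (t - ‖z‖, x + z, v) (0, ee k, 0)) := by
    refine integral_congr_ae ?_
    filter_upwards [ae_ne_zero] with z hz
    simp only [off_eq hz]
    rw [integral_const_mul]
    have : ∀ v, cut N z * κ (v, z) * fderiv ℝ g (t - ‖z‖, x + z, v) (0, ee k, 0)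
        = cut N z * (κ (v, z) * fderiv ℝ g (t - ‖z‖, x + z, v) (0, ee k, 0)) := fun v => by ring
    simp only [this]
    rw [integral_const_mul]
    ring
  rw [e1, e2, integral_sub hA hAC]
  -- the far part
  have e3 : ∫ z, ∫ v, cut N z * off κ v z * fderiv ℝ g (t - ‖z‖, x + z, v) (0, ee k, 0)
      = ∫ v, br t x (fun z => cut N z * off κ v z) (fun p => fderiv ℝ g (p.1, p.2, v) (0, ee k, 0)) :=
    (KC.swap LVk htb x).symm
  have e4 : ∫ z, ∫ v, cut N z * (km κ k (v, z) * - div (fun w => H (t - ‖z‖, x + z, w)) v)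
      = ∫ v, br t x (fun z => cut N z * off (km κ k) v z)
        (fun p => fderiv ℝ g (p.1, p.2, v) (1, u v, 0)) := by
    rw [KmC.swap LVS htb x]
    refine integral_congr_ae ?_
    filter_upwards [ae_ne_zero] with z hz
    simp only [off_eq hz]
    congr 1
    ext v
    rw [← tr]
    simp only [rp]
    ring
  have hL : Integrable fun v => br t x (fun z => cut N z * off κ v z)
      (fun p => fderiv ℝ g (p.1, p.2, v) (0, ee k, 0)) :=
    (KC.integrable LVk htb x).integral_prod_left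
  have hJ2 : Integrable fun v => br t x (fun z => cut N z * off (km κ k) v z)
      (fun p => fderiv ℝ g (p.1, p.2, v) (1, u v, 0)) :=
    (KmC.integrable LVS htb x).integral_prod_left
  have key : ∀ v, (∫ z, (fderiv ℝ (fun y => cut N y * km κ k (v, y)) z (u v)
          - fderiv ℝ (fun y => cut N y * κ (v, y)) z (ee k)) * g (t - ‖z‖, x + z, v))
      = br t x (fun z => cut N z * off κ v z) (fun p => fderiv ℝ g (p.1, p.2, v) (0, ee k, 0))
        - br t x (fun z => cut N z * off (km κ k) v z)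
          (fun p => fderiv ℝ g (p.1, p.2, v) (1, u v, 0)) := by
    intro v
    have h1 := far_identity hκ hh N (late_g sg hη hg v (t + 1)) htb x v k
    have h2 : br t x (fun z => cut N z * off κ v z)
        (fun p => fderiv ℝ g (p.1, p.2, v) (0, ee k, 0))
        = ∫ z, (cut N z * κ (v, z)) * pxd (ee k) (fun p => g (p.1, p.2, v)) (rp t x z) := by
      unfold br
      refine integral_congr_ae ?_
      filter_upwards [ae_ne_zero] with z hz
      simp only [off_eq hz, pxd, fderiv_slice sg]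
    have h3 : br t x (fun z => cut N z * off (km κ k) v z)
        (fun p => fderiv ℝ g (p.1, p.2, v) (1, u v, 0))
        = ∫ z, (cut N z * km κ k (v, z)) * (ptd (fun p => g (p.1, p.2, v)) (rp t x z)
          + pxd (u v) (fun p => g (p.1, p.2, v)) (rp t x z)) := by
      unfold br
      refine integral_congr_ae ?_
      filter_upwards [ae_ne_zero] with z hz
      simp only [off_eq hz, pxd, ptd, fderiv_slice sg]
      rw [← map_add]
      simp
    rw [h2, h3, h1]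
    simp only [rp]
    ring
  rw [e3, e4]
  simp only [key]
  rw [integral_sub hL hJ2]
  ring

lemma compact_slice {H : ℝ × E3 × E3 → E3} (hH : SD H) (s : ℝ) (y : E3) :
    HasCompactSupport fun w => H (s, y, w) := by
  obtain ⟨R, hR⟩ := hH.supp |s|
  refine HasCompactSupport.of_support_subset_isCompact (isCompact_closedBall (0 : E3) R) ?_
  intro w hw
  have := (hR s y w le_rfl hw).2
  simpa using this

/-- The near part. -/
lemma near_bound {κ : E3 × E3 → ℝ} {P' D n V : ℝ} (hD0 : 0 ≤ D) (hn0 : 0 ≤ n)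
    (hV : (volume : Measure E3).real (Metric.closedBall 0 P') = V)
    (hC : ∀ v z : E3, ‖v‖ ≤ P' → z ≠ 0 → |κ (v, z)| ≤ D * (‖z‖⁻¹) ^ 2) {Φ : E3 → E3 → ℝ}
    (hs : ∀ z v, P' < ‖v‖ → Φ z v = 0) (hb : ∀ z v, |Φ z v| ≤ n) (N : ℕ) {δ : ℝ}
    (hN1 : ((N : ℝ) + 1)⁻¹ ≤ δ) :
    |∫ z, ∫ v, (1 - cut N z) * (κ (v, z) * Φ z v)| ≤ V * (2 * D * om) * (δ * n) := by
  have hom0 := om_nonneg
  have hV0 : 0 ≤ V := hV ▸ measureReal_nonneg
  have h1 := abs_integral_zv_le (P := P')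
    (F := fun z v => (1 - cut N z) * (κ (v, z) * Φ z v))
    (b := fun z => (D * n) * prof 2 0 (2 * ((N : ℝ) + 1)⁻¹) ‖z‖)
    ((integrable_prof_two _).const_mul _) ?_ ?_
  · refine h1.trans ?_
    rw [integral_const_mul, integral_prof_two (by positivity), hV]
    calc V * (D * n * (om * (2 * ((N : ℝ) + 1)⁻¹))) ≤ V * (D * n * (om * (2 * δ))) := by (clear * - hD0 hn0 hN1 hom0 hV0; gcongr)
      _ = _ := by ring
  · intro z hz v hv
    rcases le_or_gt ‖z‖ (2 * ((N : ℝ) + 1)⁻¹) with hle | hgt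
    · rw [prof_eq 2 (norm_nonneg z) hle, abs_mul, abs_mul,
        abs_of_nonneg (by linarith only [cut_le_one N z])]
      calc (1 - cut N z) * (|κ (v, z)| * |Φ z v|)
          ≤ 1 * ((D * (‖z‖⁻¹) ^ 2) * n) := by
            gcongr
            · linarith only [cut_nonneg N z]
            · exact hC v z hv hz
            · exact hb z v
        _ = _ := by ring
    · rw [cut_eq_one N hgt.le, sub_self, zero_mul, abs_zero]
      exact mul_nonneg (by positivity) (prof_nonneg _ _ _ (norm_nonneg z))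
  · intro z hz v hv
    simp only [hs z v hv, mul_zero]

/-- The logarithmic part. -/
lemma mid_bound {κ κ' : E3 × E3 → ℝ} {P' D a V L ρ : ℝ} (hL0 : 0 ≤ L)
    (hL : ∀ (n : ℕ) (z e : E3), |fderiv ℝ (cut n) z e| ≤ L * ‖e‖ * ‖z‖⁻¹)
    (hD0 : 0 ≤ D) (ha0 : 0 ≤ a)
    (hV : (volume : Measure E3).real (Metric.closedBall 0 P') = V)
    (hκ : ContDiffOn ℝ ∞ κ {y | y.2 ≠ 0}) (hκ' : ContDiffOn ℝ ∞ κ' {y | y.2 ≠ 0})
    (hC : ∀ v z : E3, ‖v‖ ≤ P' → z ≠ 0 → |κ (v, z)| ≤ D * (‖z‖⁻¹) ^ 2 ∧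
      ∀ e : E3, |fderiv ℝ κ (v, z) (0, e)| ≤ D * (‖z‖⁻¹) ^ 3 * ‖e‖)
    (hC' : ∀ v z : E3, ‖v‖ ≤ P' → z ≠ 0 → |κ' (v, z)| ≤ D * (‖z‖⁻¹) ^ 2 ∧
      ∀ e : E3, |fderiv ℝ κ' (v, z) (0, e)| ≤ D * (‖z‖⁻¹) ^ 3 * ‖e‖)
    {Φ : E3 → E3 → ℝ} (hs : ∀ z v, P' < ‖v‖ → Φ z v = 0) (hb : ∀ z v, |Φ z v| ≤ a)
    (hfar : ∀ z v, ρ < ‖z‖ → Φ z v = 0) (N : ℕ) (hρ : ((N : ℝ) + 1)⁻¹ ≤ ρ) {e : E3}
    (he : ‖e‖ ≤ 1) :
    |∫ v, ∫ z, (fderiv ℝ (fun y => cut N y * κ' (v, y)) z (u v)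
      - fderiv ℝ (fun y => cut N y * κ (v, y)) z e) * Φ z v|
      ≤ V * (2 * ((L + 1) * D) * a * (om * Real.log (ρ / ((N : ℝ) + 1)⁻¹))) := by
  have hom0 := om_nonneg
  have h1 := abs_integral_vz_le (P := P')
    (F := fun v z => (fderiv ℝ (fun y => cut N y * κ' (v, y)) z (u v)
      - fderiv ℝ (fun y => cut N y * κ (v, y)) z e) * Φ z v)
    (b := fun z => (2 * ((L + 1) * D) * a) * prof 3 ((N : ℝ) + 1)⁻¹ ρ ‖z‖)
    ((integrable_prof_three (by positivity) _).const_mul _) ?_ ?_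
  · refine h1.trans ?_
    rw [integral_const_mul, integral_prof_three (by positivity) hρ, hV]
  · intro v hv z hz
    have hp0 : 0 ≤ prof 3 ((N : ℝ) + 1)⁻¹ ρ ‖z‖ := prof_nonneg _ _ _ (norm_nonneg z)
    rcases lt_or_ge ‖z‖ ((N : ℝ) + 1)⁻¹ with hlt | hge
    · rw [fderiv_cut_mul_eq_zero N _ hlt, fderiv_cut_mul_eq_zero N _ hlt]
      simp only [zero_apply, sub_self, zero_mul, abs_zero]
      (clear * - hL0 hD0 ha0 hp0; positivity)
    · rcases lt_or_ge ρ ‖z‖ with hρz | hzρ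
      · rw [hfar z v hρz, mul_zero, abs_zero]
        (clear * - hL0 hD0 ha0 hp0; positivity)
      · rw [prof_eq 3 hge hzρ, abs_mul]
        have d1 : |fderiv ℝ (fun y => cut N y * κ' (v, y)) z (u v)|
            ≤ (L + 1) * D * (‖z‖⁻¹) ^ 3 * ‖u v‖ := by
          refine abs_fderiv_cut_mul_le hL0 hL N
            (hasFDerivAt_z hκ' v hz).differentiableAt (hC' v z hv hz).1 ?_ _
          intro e
          rw [(hasFDerivAt_z hκ' v hz).fderiv]
          exact (hC' v z hv hz).2 e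
        have d2 : |fderiv ℝ (fun y => cut N y * κ (v, y)) z e|
            ≤ (L + 1) * D * (‖z‖⁻¹) ^ 3 * ‖e‖ := by
          refine abs_fderiv_cut_mul_le hL0 hL N
            (hasFDerivAt_z hκ v hz).differentiableAt (hC v z hv hz).1 ?_ _
          intro e
          rw [(hasFDerivAt_z hκ v hz).fderiv]
          exact (hC v z hv hz).2 e
        have d3 : ‖u v‖ ≤ 1 := (norm_u_lt_one v).le
        have d5 : |fderiv ℝ (fun y => cut N y * κ' (v, y)) z (u v)|
            ≤ (L + 1) * D * (‖z‖⁻¹) ^ 3 * 1 := d1.trans (by (clear * - hL0 hD0 hz d3; gcongr))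
        have d6 : |fderiv ℝ (fun y => cut N y * κ (v, y)) z e|
            ≤ (L + 1) * D * (‖z‖⁻¹) ^ 3 * 1 := d2.trans (by (clear * - hL0 hD0 he hz; gcongr))
        calc |fderiv ℝ (fun y => cut N y * κ' (v, y)) z (u v)
              - fderiv ℝ (fun y => cut N y * κ (v, y)) z e| * |Φ z v|
            ≤ ((L + 1) * D * (‖z‖⁻¹) ^ 3 * 1 + (L + 1) * D * (‖z‖⁻¹) ^ 3 * 1) * a := by
              gcongr
              · exact (abs_sub _ _).trans (add_le_add d5 d6)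
              · exact hb z v
          _ = _ := by ring
  · intro v hv z hz
    simp only [hs z v hv, mul_zero]

/-- The part with the source. -/
lemma last_bound {κ : E3 × E3 → ℝ} {P' D a V ρ : ℝ} (hD0 : 0 ≤ D) (ha0 : 0 ≤ a)
    (hV : (volume : Measure E3).real (Metric.closedBall 0 P') = V)
    (hκ : ContDiffOn ℝ ∞ κ {y | y.2 ≠ 0})
    (hC : ∀ v z : E3, ‖v‖ ≤ P' → z ≠ 0 →
      ∀ w : E3, |fderiv ℝ κ (v, z) (w, 0)| ≤ D * (‖z‖⁻¹) ^ 2 * ‖w‖)
    {H : ℝ × E3 × E3 → E3} (hH : SD H) {t : ℝ} {x : E3}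
    (hs : ∀ z v, P' < ‖v‖ → H (t - ‖z‖, x + z, v) = 0)
    (hb : ∀ z v, ‖H (t - ‖z‖, x + z, v)‖ ≤ a)
    (hfar : ∀ z v, ρ < ‖z‖ → H (t - ‖z‖, x + z, v) = 0) (N : ℕ) (hρ : 0 ≤ ρ) :
    |∫ z, ∫ v, cut N z * (κ (v, z) * - div (fun w => H (t - ‖z‖, x + z, w)) v)|
      ≤ V * D * om * ρ * a := by
  have hom0 := om_nonneg
  have hz0 : ((0 : E3), (0 : E3)) = 0 := rfl
  have e1 : ∫ z, ∫ v, cut N z * (κ (v, z) * - div (fun w => H (t - ‖z‖, x + z, w)) v)
      = ∫ z, ∫ v, cut N z * fderiv ℝ κ (v, z) (H (t - ‖z‖, x + z, v), 0) := by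
    refine integral_congr_ae ?_
    filter_upwards [ae_ne_zero] with z hz
    rw [integral_const_mul, integral_const_mul]
    congr 1
    have h1 := ibp_div (φ := fun v => κ (v, z)) (W := fun w => H (t - ‖z‖, x + z, w))
      (contDiff_v hκ hz) ((hH.smooth.of_le (by simp)).comp (by fun_prop)) (compact_slice hH _ _)
    simp only [mul_neg]
    rw [integral_neg, h1, neg_neg]
    congr 1
    ext v
    rw [(hasFDerivAt_v hκ v hz).fderiv]
    simp
  rw [e1]
  have h1 := abs_integral_zv_le (P := P')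
    (F := fun z v => cut N z * fderiv ℝ κ (v, z) (H (t - ‖z‖, x + z, v), 0))
    (b := fun z => (D * a) * prof 2 0 ρ ‖z‖)
    ((integrable_prof_two _).const_mul _) ?_ ?_
  · refine h1.trans (le_of_eq ?_)
    rw [integral_const_mul, integral_prof_two hρ, hV]
    ring
  · intro z hz v hv
    have hp0 : 0 ≤ prof 2 0 ρ ‖z‖ := prof_nonneg _ _ _ (norm_nonneg z)
    rcases lt_or_ge ρ ‖z‖ with hρz | hzρ
    · rw [hfar z v hρz, hz0, map_zero, mul_zero, abs_zero]
      positivity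
    · rw [prof_eq 2 (norm_nonneg z) hzρ, abs_mul, abs_of_nonneg (cut_nonneg N z)]
      calc cut N z * |fderiv ℝ κ (v, z) (H (t - ‖z‖, x + z, v), 0)|
          ≤ 1 * (D * (‖z‖⁻¹) ^ 2 * a) := by
            gcongr
            · exact cut_le_one N z
            · refine (hC v z hv hz _).trans ?_
              gcongr
              exact hb z v
        _ = _ := by ring
  · intro z hz v hv
    simp only [hs z v hv, hz0, map_zero, mul_zero]

lemma log_step {δ ρ : ℝ} (hδ : 0 < δ) (hδ1 : δ ≤ 1) (hρ : 1 ≤ ρ) :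
    Real.log (ρ / ((⌊δ⁻¹⌋₊ : ℝ) + 1)⁻¹) ≤ (Real.log ρ + 1) * (1 + Real.log δ⁻¹) := by
  have hδinv : 1 ≤ δ⁻¹ := (one_le_inv₀ hδ).2 hδ1
  have hNpos : (0 : ℝ) < (⌊δ⁻¹⌋₊ : ℝ) + 1 := by positivity
  have hN2 : (⌊δ⁻¹⌋₊ : ℝ) + 1 ≤ 2 * δ⁻¹ := by
    have := Nat.floor_le (by positivity : 0 ≤ δ⁻¹)
    linarith only [hδinv, this]
  rw [div_inv_eq_mul, Real.log_mul (by positivity) (by positivity)]
  have h1 : Real.log ((⌊δ⁻¹⌋₊ : ℝ) + 1) ≤ Real.log 2 + Real.log δ⁻¹ := by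
    rw [← Real.log_mul (by norm_num) (by positivity)]
    exact Real.log_le_log hNpos hN2
  have h2 : Real.log 2 ≤ 1 := by
    have := Real.log_two_lt_d9
    linarith only [this]
  have h3 : 0 ≤ Real.log δ⁻¹ := Real.log_nonneg hδinv
  have hlogρ : 0 ≤ Real.log ρ := Real.log_nonneg hρ
  nlinarith only [h1, h2, mul_nonneg hlogρ h3]

lemma final_step {X Y Z p q : ℝ} (hX : 0 ≤ X) (hY : 0 ≤ Y) (hZ : 0 ≤ Z) (hp : 0 ≤ p)
    (hq : 0 ≤ q) : X * p + Y * q + Z * q ≤ (X + Y + Z) * (p + q) := by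
  nlinarith only [mul_nonneg hX hq, mul_nonneg hY hp, mul_nonneg hZ hp]

end T1

open T1 in
/-- L3. The first term: kernel of order two against a spatial derivative of `g`. `κ` is
`kT (u v) i z` or `kTB i v z`. -/
theorem term1_bound {κ : E3 × E3 → ℝ} (hκ : ContDiffOn ℝ ∞ κ {y | y.2 ≠ 0})
    (hh : ∀ (v z : E3) (c : ℝ), 0 < c → z ≠ 0 → κ (v, c • z) = (c⁻¹) ^ 2 * κ (v, z))
    (T P : ℝ) : ∃ C : ℝ, 0 ≤ C ∧ ∀ g H E B, LateSys g H E B →
    ∀ T' ≤ T, (∀ t x v, t ≤ T' → P < ‖v‖ → g (t, x, v) = 0 ∧ H (t, x, v) = 0) →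
    ∀ a n : ℝ, (∀ s z, s ≤ T' → |g (s, z)| + ‖H (s, z)‖ ≤ a) →
    ∀ k : Fin 3, (∀ s z, s ≤ T' → |fderiv ℝ g (s, z) (0, ee k, 0)| ≤ n) →
    ∀ δ : ℝ, 0 < δ → δ ≤ 1 → ∀ t x, 0 ≤ t → t ≤ T' →
      |∫ z, ∫ v, κ (v, z) * fderiv ℝ g (t - ‖z‖, x + z, v) (0, ee k, 0)|
        ≤ C * (δ * n + (1 + Real.log δ⁻¹) * a) := by
  obtain ⟨L, hL0, hL⟩ := exists_bound_fderiv_cut
  set P' : ℝ := max P 0 with hP'
  obtain ⟨C₀, hC₀0, hC₀⟩ := hom_bound hκ 2 hh P'
  choose C₁ hC₁0 hC₁ using fun k => hom_bound (contDiffOn_km hκ k) 2 (hom_km hh k) P'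
  obtain ⟨V, hV⟩ : ∃ V : ℝ, (volume : Measure E3).real (Metric.closedBall 0 P') = V := ⟨_, rfl⟩
  have hV0 : 0 ≤ V := hV ▸ measureReal_nonneg
  obtain ⟨ρ, hρ1, hTρ⟩ : ∃ ρ : ℝ, 1 ≤ ρ ∧ T ≤ ρ := ⟨max 1 T, le_max_left _ _, le_max_right _ _⟩
  obtain ⟨D, hD0, hC₀D, hC₁D⟩ : ∃ D : ℝ, 0 ≤ D ∧ C₀ ≤ D ∧ ∀ k, C₁ k ≤ D :=
    ⟨C₀ + ∑ k, C₁ k, add_nonneg hC₀0 (Finset.sum_nonneg fun k _ => hC₁0 k),
      le_add_of_nonneg_right (Finset.sum_nonneg fun k _ => hC₁0 k), fun k =>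
      (Finset.single_le_sum (f := C₁) (fun k _ => hC₁0 k) (Finset.mem_univ k)).trans
        (le_add_of_nonneg_left hC₀0)⟩
  have hom0 := om_nonneg
  have hlogρ : 0 ≤ Real.log ρ := Real.log_nonneg hρ1
  have q1 : 0 ≤ V * (2 * D * om) := by (clear * - hV0 hD0 hom0; positivity)
  have q2 : 0 ≤ V * (2 * ((L + 1) * D) * om) * (Real.log ρ + 1) := by (clear * - hL0 hV0 hD0 hom0 hlogρ; positivity)
  have q3 : 0 ≤ V * D * om * ρ := by (clear * - hV0 hρ1 hD0 hom0; positivity)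
  refine ⟨V * (2 * D * om) + V * (2 * ((L + 1) * D) * om) * (Real.log ρ + 1) + V * D * om * ρ,
    by (clear * - hL0 hV0 hρ1 hD0 hom0 hlogρ; positivity), ?_⟩
  intro g H E B hS T' hT' hsupp a n ha k hn δ hδ hδ1 t x ht0 htT'
  obtain ⟨η, hη, hlate⟩ := hS.late
  have hg0 : ∀ t ≤ η, ∀ z, g (t, z) = 0 := fun t ht z => ((hlate t ht).1 z).1
  have hH0 : ∀ t ≤ η, ∀ z, H (t, z) = 0 := fun t ht z => ((hlate t ht).1 z).2
  have ha0 : 0 ≤ a := le_trans (by (clear * -; positivity)) (ha T' 0 le_rfl)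
  have hn0 : 0 ≤ n := (abs_nonneg _).trans (hn T' 0 le_rfl)
  have htρ : t ≤ ρ := (htT'.trans hT').trans hTρ
  have hNpos : (0 : ℝ) < (⌊δ⁻¹⌋₊ : ℝ) + 1 := by (clear * -; positivity)
  have hδinv : 1 ≤ δ⁻¹ := (one_le_inv₀ hδ).2 hδ1
  have hN1 : ((⌊δ⁻¹⌋₊ : ℝ) + 1)⁻¹ ≤ δ := by
    rw [inv_le_comm₀ hNpos hδ]
    exact (Nat.lt_floor_add_one δ⁻¹).le
  have h3 : 0 ≤ Real.log δ⁻¹ := Real.log_nonneg hδinv
  rw [parts hκ hh hS.sg hS.tr hη hg0 k ⌊δ⁻¹⌋₊ t x]
  have near := near_bound (κ := κ) (D := D) (n := n) hD0 hn0 hV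
    (fun v z hv hz => ((hC₀ v z hv hz).1).trans (by (clear * - hC₀D hz; gcongr)))
    (Φ := fun z v => fderiv ℝ g (t - ‖z‖, x + z, v) (0, ee k, 0)) ?_ ?_ ⌊δ⁻¹⌋₊ hN1
  · have mid := mid_bound (κ := κ) (κ' := km κ k) (D := D) (a := a) (ρ := ρ) hL0 hL hD0 ha0 hV hκ
      (contDiffOn_km hκ k) ?_ ?_ (Φ := fun z v => g (t - ‖z‖, x + z, v)) ?_ ?_ ?_ ⌊δ⁻¹⌋₊
      (hN1.trans (hδ1.trans hρ1)) (norm_single k).le
    · have last := last_bound (κ := km κ k) (D := D) (a := a) (ρ := ρ) hD0 ha0 hV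
        (contDiffOn_km hκ k) ?_ hS.sH (t := t) (x := x) ?_ ?_ ?_ ⌊δ⁻¹⌋₊ (by positivity)
      · refine (abs_add_three _ _ _).trans ?_
        refine (add_le_add (add_le_add near mid) last).trans ?_
        have p1 : 0 ≤ δ * n := by (clear * - hδ hn0; positivity)
        have p2 : 0 ≤ (1 + Real.log δ⁻¹) * a := by (clear * - ha0 h3; positivity)
        refine le_trans ?_ (final_step q1 q2 q3 p1 p2)
        refine add_le_add (add_le_add le_rfl ?_) ?_
        · calc V * (2 * ((L + 1) * D) * a * (om * Real.log (ρ / ((⌊δ⁻¹⌋₊ : ℝ) + 1)⁻¹)))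
              ≤ V * (2 * ((L + 1) * D) * a * (om * ((Real.log ρ + 1) * (1 + Real.log δ⁻¹)))) := by
                gcongr
                exact log_step hδ hδ1 hρ1
            _ = _ := by ring
        · calc V * D * om * ρ * a = V * D * om * ρ * (1 * a) := by ring
            _ ≤ V * D * om * ρ * ((1 + Real.log δ⁻¹) * a) := by
                gcongr
                linarith only [h3]
      · intro v z hv hz w
        refine ((hC₁ k v z hv hz).2.1 w).trans ?_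
        gcongr
        exact hC₁D k
      · intro z v hv
        exact (hsupp _ _ _ (by linarith only [htT', norm_nonneg z]) ((le_max_left _ _).trans_lt hv)).2
      · intro z v
        exact (le_add_of_nonneg_left (abs_nonneg _)).trans (ha _ _ (by linarith only [htT', norm_nonneg z]))
      · intro z v hz
        exact hH0 (t - ‖z‖) (by linarith only [hTρ, hT', htT', hη, hz]) (x + z, v)
    · intro v z hv hz
      refine ⟨(hC₀ v z hv hz).1.trans (by (clear * - hC₀D hz; gcongr)), fun e => ?_⟩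
      exact ((hC₀ v z hv hz).2.2 e).trans (by (clear * - hC₀D hz; gcongr))
    · intro v z hv hz
      refine ⟨(hC₁ k v z hv hz).1.trans (by gcongr; exact hC₁D k), fun e => ?_⟩
      exact ((hC₁ k v z hv hz).2.2 e).trans (by gcongr; exact hC₁D k)
    · intro z v hv
      exact (hsupp _ _ _ (by linarith only [htT', norm_nonneg z]) ((le_max_left _ _).trans_lt hv)).1
    · intro z v
      exact (le_add_of_nonneg_right (norm_nonneg _)).trans (ha _ _ (by linarith only [htT', norm_nonneg z]))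
    · intro z v hz
      exact hg0 (t - ‖z‖) (by linarith only [hTρ, hT', htT', hη, hz]) (x + z, v)
  · intro z v hv
    refine fderiv_eq_zero_of_line (hS.sg.smooth.differentiable (by simp) _) fun r => ?_
    have h1 : ((t - ‖z‖, x + z, v) : ℝ × E3 × E3) + r • ((0, ee k, 0) : ℝ × E3 × E3)
        = (t - ‖z‖, x + z + r • ee k, v) := by simp
    rw [h1]
    exact (hsupp _ _ _ (by linarith only [htT', norm_nonneg z]) ((le_max_left _ _).trans_lt hv)).1
  · intro z v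
    exact hn _ _ (by linarith only [htT', norm_nonneg z])

end Vale.Agent.P107.LE
end
end
end

section

section

attribute [-instance] ProperSMul.toContinuousSMul IsTopologicalTorsor.toContinuousSMul
  IdemSemiring.toCanonicallyOrderedAdd IdemSemiring.toMulLeftMono IdemSemiring.toMulRightMono
  AddQuantale.instAddLeftMono AddQuantale.instAddRightMono Quantale.instMulLeftMono
  Quantale.instMulRightMono FiniteDimensional.rclike_to_real IsScalarTower.complexToReal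
  FiniteDimensional.complexToReal

section

/-!
The second term of the logarithmic estimate: kernels of order one against a spatial derivative of
the momentum flux.
-/

open MeasureTheory Set Filter Topology
open scoped RealInnerProductSpace ENNReal NNReal ContDiff

namespace Vale.Agent.P107.LE

namespace LogC

lemma contDiff_q : ContDiff ℝ ∞ q := by
  unfold q
  refine ContDiff.sqrt ?_ (fun v => by positivity)
  exact contDiff_const.add (contDiff_norm_sq ℝ)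

lemma contDiff_u : ContDiff ℝ ∞ u := by
  unfold u
  exact (contDiff_q.inv (fun v => (q_pos v).ne')).smul contDiff_id

/-- The kernel `κ w_k / (1 + u·w)`. -/
noncomputable def kk (κ : E3 × E3 → ℝ) (k : Fin 3) (y : E3 × E3) : ℝ := κ y * mk k (u y.1) y.2

lemma isOpen_ne : IsOpen {y : E3 × E3 | y.2 ≠ 0} := isOpen_ne_fun continuous_snd continuous_const

lemma contDiffOn_kk {κ : E3 × E3 → ℝ} (hκ : ContDiffOn ℝ ∞ κ {y | y.2 ≠ 0}) (k : Fin 3) :
    ContDiffOn ℝ ∞ (kk κ k) {y | y.2 ≠ 0} := by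
  unfold kk mk
  refine hκ.mul ?_
  have h1 : ContDiffOn ℝ ∞ (fun y : E3 × E3 => ‖y.2‖) {y | y.2 ≠ 0} :=
    contDiffOn_snd.norm ℝ (fun y hy => hy)
  have h2 : ContDiffOn ℝ ∞ (fun y : E3 × E3 => u y.1) {y | y.2 ≠ 0} :=
    (contDiff_u.comp contDiff_fst).contDiffOn
  have h3 : ContDiffOn ℝ ∞ (fun y : E3 × E3 => ⟪u y.1, y.2⟫) {y | y.2 ≠ 0} :=
    h2.inner ℝ contDiffOn_snd
  have h4 : ContDiffOn ℝ ∞ (fun y : E3 × E3 => y.2 k) {y | y.2 ≠ 0} :=
    ((EuclideanSpace.proj k : E3 →L[ℝ] ℝ).contDiff.comp contDiff_snd).contDiffOn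
  exact h4.mul ((h1.add h3).inv (fun y hy => (denom_pos (norm_u_lt_one _) hy).ne'))

lemma mk_smul (k : Fin 3) {a z : E3} {c : ℝ} (hc : 0 < c) :
    mk k a (c • z) = mk k a z := by
  unfold mk
  rw [norm_smul, Real.norm_of_nonneg hc.le, real_inner_smul_right, PiLp.smul_apply, smul_eq_mul,
    ← mul_add, mul_inv]
  field_simp

lemma kk_hom {κ : E3 × E3 → ℝ}
    (hh : ∀ (v z : E3) (c : ℝ), 0 < c → z ≠ 0 → κ (v, c • z) = (c⁻¹) ^ 1 * κ (v, z)) (k : Fin 3)
    (v z : E3) (c : ℝ) (hc : 0 < c) (hz : z ≠ 0) :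
    kk κ k (v, c • z) = (c⁻¹) ^ 1 * kk κ k (v, z) := by
  simp only [kk]
  rw [hh v z c hc hz, mk_smul k hc]
  ring

section slices

variable {K : E3 × E3 → ℝ}

lemma differentiableAt_of (hK : ContDiffOn ℝ ∞ K {y | y.2 ≠ 0}) (v : E3) {z : E3} (hz : z ≠ 0) :
    DifferentiableAt ℝ K (v, z) :=
  (hK.contDiffAt (isOpen_ne.mem_nhds hz)).differentiableAt (by simp)

lemma hasFDerivAt_snd_slice (hK : ContDiffOn ℝ ∞ K {y | y.2 ≠ 0}) (v : E3) {z : E3} (hz : z ≠ 0) :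
    HasFDerivAt (fun y => K (v, y))
      ((fderiv ℝ K (v, z)).comp ((0 : E3 →L[ℝ] E3).prod (ContinuousLinearMap.id ℝ E3))) z := by
  have h2 : HasFDerivAt (fun y : E3 => (v, y))
      ((0 : E3 →L[ℝ] E3).prod (ContinuousLinearMap.id ℝ E3)) z :=
    (hasFDerivAt_const _ _).prodMk (hasFDerivAt_id _)
  exact HasFDerivAt.comp (g := K) z (differentiableAt_of hK v hz).hasFDerivAt h2

lemma fderiv_snd_slice (hK : ContDiffOn ℝ ∞ K {y | y.2 ≠ 0}) (v : E3) {z : E3} (hz : z ≠ 0)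
    (e : E3) : fderiv ℝ (fun y => K (v, y)) z e = fderiv ℝ K (v, z) (0, e) := by
  rw [(hasFDerivAt_snd_slice hK v hz).fderiv]
  simp

lemma hasFDerivAt_fst_slice (hK : ContDiffOn ℝ ∞ K {y | y.2 ≠ 0}) (v : E3) {z : E3} (hz : z ≠ 0) :
    HasFDerivAt (fun w => K (w, z))
      ((fderiv ℝ K (v, z)).comp ((ContinuousLinearMap.id ℝ E3).prod (0 : E3 →L[ℝ] E3))) v := by
  have h2 : HasFDerivAt (fun w : E3 => (w, z))
      ((ContinuousLinearMap.id ℝ E3).prod (0 : E3 →L[ℝ] E3)) v :=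
    (hasFDerivAt_id _).prodMk (hasFDerivAt_const _ _)
  exact HasFDerivAt.comp (g := K) v (differentiableAt_of hK v hz).hasFDerivAt h2

lemma fderiv_fst_slice (hK : ContDiffOn ℝ ∞ K {y | y.2 ≠ 0}) (v : E3) {z : E3} (hz : z ≠ 0)
    (e : E3) : fderiv ℝ (fun w => K (w, z)) v e = fderiv ℝ K (v, z) (e, 0) := by
  rw [(hasFDerivAt_fst_slice hK v hz).fderiv]
  simp

lemma contDiff_fst_slice (hK : ContDiffOn ℝ ∞ K {y | y.2 ≠ 0}) {z : E3} (hz : z ≠ 0) :
    ContDiff ℝ ∞ (fun w => K (w, z)) := by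
  rw [← contDiffOn_univ]
  have h2 : ContDiffOn ℝ ∞ (fun w : E3 => (w, z)) univ := by fun_prop
  exact hK.comp h2 (fun w _ => hz)

lemma kerV_ext (hc : ContinuousOn K {y | y.2 ≠ 0}) {n : ℕ} (hn : n = 1 ∨ n = 2)
    (hb : ∀ P : ℝ, ∃ C, 0 ≤ C ∧ ∀ v z : E3, ‖v‖ ≤ P → z ≠ 0 → |K (v, z)| ≤ C * (‖z‖⁻¹) ^ n) :
    KerV (fun v z => if z = 0 then 0 else K (v, z)) := by
  refine ⟨?_, fun R => ?_⟩
  · have h1 : Measurable (({y | y.2 ≠ 0} : Set (E3 × E3)).piecewise K (fun _ => 0)) :=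
      hc.measurable_piecewise continuousOn_const isOpen_ne.measurableSet
    have h2 : (fun w : E3 × E3 => if w.2 = 0 then 0 else K (w.1, w.2))
        = ({y | y.2 ≠ 0} : Set (E3 × E3)).piecewise K (fun _ => 0) := by
      ext w
      by_cases hw : w.2 = 0
      · rw [piecewise_eq_of_notMem _ _ _ (by simpa using hw), if_pos hw]
      · rw [piecewise_eq_of_mem _ _ _ (by simpa using hw), if_neg hw]
    rw [h2]
    exact h1
  · obtain ⟨C, hC0, hC⟩ := hb R
    refine ⟨C, fun v hv z => ?_⟩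
    by_cases hz : z = 0
    · simp [hz]
    · simp only [hz, if_false]
      refine (hC v z hv hz).trans ?_
      have hpos : 0 ≤ ‖z‖⁻¹ := by positivity
      rcases hn with rfl | rfl
      · gcongr
        rw [pow_one]
        nlinarith only []
      · gcongr
        linarith only [hpos]

lemma swap_ext (hc : ContinuousOn K {y | y.2 ≠ 0}) {n : ℕ} (hn : n = 1 ∨ n = 2)
    (hb : ∀ P : ℝ, ∃ C, 0 ≤ C ∧ ∀ v z : E3, ‖v‖ ≤ P → z ≠ 0 → |K (v, z)| ≤ C * (‖z‖⁻¹) ^ n)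
    {T : ℝ} {H : ℝ × E3 → E3 → ℝ} (h : LateV T H) {t : ℝ} (ht : t < T) (x : E3) :
    Integrable (fun v => ∫ z, K (v, z) * H (rp t x z) v) ∧
    ∫ z, ∫ v, K (v, z) * H (rp t x z) v = ∫ v, ∫ z, K (v, z) * H (rp t x z) v := by
  have hk := kerV_ext hc hn hb
  have e1 : ∀ v, ∫ z, (if z = 0 then 0 else K (v, z)) * H (rp t x z) v
      = ∫ z, K (v, z) * H (rp t x z) v := by
    intro v
    refine integral_congr_ae ?_
    filter_upwards [ae_ne_zero] with z hz
    rw [if_neg hz]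
  have e2 : ∫ z, ∫ v, (if z = 0 then 0 else K (v, z)) * H (rp t x z) v
      = ∫ z, ∫ v, K (v, z) * H (rp t x z) v := by
    refine integral_congr_ae ?_
    filter_upwards [ae_ne_zero] with z hz
    simp only [if_neg hz]
  have h1 := (hk.integrable h ht x).integral_prod_left
  have h2 := hk.swap h ht x
  unfold br at h2
  simp only [e1] at h1 h2
  exact ⟨h1, by rw [h2, e2]⟩

end slices

section late

variable {H : ℝ × E3 × E3 → ℝ}

lemma lateV_fun (h : SD H) (hl : ∃ η > 0, ∀ t ≤ η, ∀ z, H (t, z) = 0) (T : ℝ) :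
    LateV T (fun p v => H (p.1, p.2, v)) := by
  obtain ⟨η, hη, hv⟩ := hl
  refine ⟨?_, fun p hp v => hv _ (hp.trans hη.le) _, fun t ht => ?_⟩
  · have h1 : Continuous fun z : (ℝ × E3) × E3 => H (z.1.1, z.1.2, z.2) :=
      h.smooth.continuous.comp (by fun_prop)
    exact h1.continuousOn
  · obtain ⟨R, hR⟩ := h.supp |t|
    refine ⟨R, fun p hp v hRv => ?_⟩
    by_contra hne
    have h0 : 0 < p.1 := by
      by_contra h0
      push Not at h0
      exact hne (hv _ (h0.trans hη.le) _)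
    have := (hR p.1 p.2 v (by rw [abs_of_pos h0]; exact hp.trans (le_abs_self t)) hne).2
    linarith only [hRv, this]

lemma lateV_der (h : SD H) (hl : ∃ η > 0, ∀ t ≤ η, ∀ z, H (t, z) = 0) (T : ℝ)
    {d : E3 → ℝ × E3 × E3} (hd : Continuous d) :
    LateV T (fun p v => fderiv ℝ H (p.1, p.2, v) (d v)) := by
  obtain ⟨η, hη, hv⟩ := hl
  have hz : ∀ p : ℝ × E3, p.1 ≤ 0 → ∀ v, fderiv ℝ H (p.1, p.2, v) = 0 := by
    intro p hp v
    have : H =ᶠ[𝓝 (p.1, p.2, v)] fun _ => 0 := by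
      have hmem : {y : ℝ × E3 × E3 | y.1 < η} ∈ 𝓝 (p.1, p.2, v) :=
        (isOpen_lt continuous_fst continuous_const).mem_nhds (hp.trans_lt hη)
      filter_upwards [hmem] with y hy
      exact hv y.1 (le_of_lt hy) y.2
    rw [this.fderiv_eq]; simp
  refine ⟨?_, fun p hp v => by rw [hz p hp v]; simp, fun t ht => ?_⟩
  · have h1 : Continuous fun z : (ℝ × E3) × E3 => fderiv ℝ H (z.1.1, z.1.2, z.2) (d z.2) := by
      have h2 : Continuous (fderiv ℝ H) := h.smooth.continuous_fderiv (by simp)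
      exact (h2.comp (by fun_prop)).clm_apply (hd.comp continuous_snd)
    exact h1.continuousOn
  · obtain ⟨R, hR⟩ := h.supp (|t| + 1)
    refine ⟨R, fun p hp v hRv => ?_⟩
    by_cases h0 : p.1 ≤ 0
    · rw [hz p h0 v]; simp
    push Not at h0
    have : H =ᶠ[𝓝 (p.1, p.2, v)] fun _ => 0 := by
      have hm1 : {y : ℝ × E3 × E3 | |y.1| < |t| + 1} ∈ 𝓝 (p.1, p.2, v) :=
        (isOpen_lt (by fun_prop) continuous_const).mem_nhds (by
          have := le_abs_self t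
          simp only [mem_ofPred_eq, abs_of_pos h0]; linarith only [hp, this])
      have hm2 : {y : ℝ × E3 × E3 | R < ‖y.2.2‖} ∈ 𝓝 (p.1, p.2, v) :=
        (isOpen_lt continuous_const (by fun_prop)).mem_nhds hRv
      filter_upwards [hm1, hm2] with y hy1 hy2
      by_contra hne
      have := (hR y.1 y.2.1 y.2.2 (le_of_lt hy1) hne).2
      have hy2' : R < ‖y.2.2‖ := hy2
      linarith only [hy2, this]
    rw [this.fderiv_eq]; simp

lemma late_slice (h : SD H) (hl : ∃ η > 0, ∀ t ≤ η, ∀ z, H (t, z) = 0) (T : ℝ) (v : E3) :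
    Late T (fun p => H (p.1, p.2, v)) := by
  obtain ⟨η, hη, hv⟩ := hl
  refine ⟨?_, η, hη, fun p hp => hv _ hp _⟩
  have h1 : ContDiff ℝ ∞ (fun p : ℝ × E3 => H (p.1, p.2, v)) := h.smooth.comp (by fun_prop)
  exact (h1.of_le (by simp)).contDiffOn

lemma fderiv_slice (h : ContDiff ℝ ∞ H) (p : ℝ × E3) (v : E3) (d : ℝ × E3) :
    fderiv ℝ (fun p : ℝ × E3 => H (p.1, p.2, v)) p d = fderiv ℝ H (p.1, p.2, v) (d.1, d.2, 0) := by
  have h1 : DifferentiableAt ℝ H (p.1, p.2, v) := h.differentiable (by simp) _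
  have h2 : HasFDerivAt (fun p : ℝ × E3 => (p.1, p.2, v))
      ((ContinuousLinearMap.fst ℝ ℝ E3).prod ((ContinuousLinearMap.snd ℝ ℝ E3).prod 0)) p :=
    hasFDerivAt_fst.prodMk (hasFDerivAt_snd.prodMk (hasFDerivAt_const _ _))
  have h3 := HasFDerivAt.comp (g := H) p h1.hasFDerivAt h2
  have h4 : HasFDerivAt (fun p : ℝ × E3 => H (p.1, p.2, v)) _ p := h3
  rw [h4.fderiv]
  rfl

end late

/-- Removal of the spatial derivative under the velocity integral. -/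
theorem key_identity {κ : E3 × E3 → ℝ} (hκ : ContDiffOn ℝ ∞ κ {y | y.2 ≠ 0})
    (hh : ∀ (v z : E3) (c : ℝ), 0 < c → z ≠ 0 → κ (v, c • z) = (c⁻¹) ^ 1 * κ (v, z))
    {H : ℝ × E3 × E3 → ℝ} (h : SD H) (hl : ∃ η > 0, ∀ t ≤ η, ∀ z, H (t, z) = 0) (k : Fin 3)
    (t : ℝ) (x : E3) :
    ∫ z, ∫ v, κ (v, z) * fderiv ℝ H (t - ‖z‖, x + z, v) (0, ee k, 0)
      = (∫ z, ∫ v, (fderiv ℝ (kk κ k) (v, z) (0, u v) - fderiv ℝ κ (v, z) (0, ee k))
          * H (t - ‖z‖, x + z, v))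
        + ∫ z, ∫ v, kk κ k (v, z) * fderiv ℝ H (t - ‖z‖, x + z, v) (1, u v, 0) := by
  have hκ' := contDiffOn_kk hκ k
  have hh' := kk_hom hh k
  have ht : t < t + 1 := by linarith only []
  have hb1 : ∀ P : ℝ, ∃ C, 0 ≤ C ∧ ∀ v z : E3, ‖v‖ ≤ P → z ≠ 0 →
      |κ (v, z)| ≤ C * (‖z‖⁻¹) ^ 1 := by
    intro P
    obtain ⟨C, hC0, hC⟩ := hom_bound hκ 1 hh P
    exact ⟨C, hC0, fun v z hv hz => (hC v z hv hz).1⟩
  have hb2 : ∀ P : ℝ, ∃ C, 0 ≤ C ∧ ∀ v z : E3, ‖v‖ ≤ P → z ≠ 0 →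
      |kk κ k (v, z)| ≤ C * (‖z‖⁻¹) ^ 1 := by
    intro P
    obtain ⟨C, hC0, hC⟩ := hom_bound hκ' 1 hh' P
    exact ⟨C, hC0, fun v z hv hz => (hC v z hv hz).1⟩
  have hb3 : ∀ P : ℝ, ∃ C, 0 ≤ C ∧ ∀ v z : E3, ‖v‖ ≤ P → z ≠ 0 →
      |fderiv ℝ (kk κ k) (v, z) (0, u v) - fderiv ℝ κ (v, z) (0, ee k)| ≤ C * (‖z‖⁻¹) ^ 2 := by
    intro P
    obtain ⟨C, hC0, hC⟩ := hom_bound hκ 1 hh P
    obtain ⟨C', hC0', hC'⟩ := hom_bound hκ' 1 hh' P
    refine ⟨C' + C, by positivity, fun v z hv hz => ?_⟩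
    have h1 := (hC v z hv hz).2.2 (ee k)
    have h2 := (hC' v z hv hz).2.2 (u v)
    rw [norm_single, mul_one] at h1
    have h3 := (norm_u_lt_one v).le
    refine (abs_sub _ _).trans ?_
    have h4 : C' * (‖z‖⁻¹) ^ (1 + 1) * ‖u v‖ ≤ C' * (‖z‖⁻¹) ^ (1 + 1) * 1 := by (clear * - hC0' hz h3; gcongr)
    calc _ ≤ C' * (‖z‖⁻¹) ^ (1 + 1) * 1 + C * (‖z‖⁻¹) ^ (1 + 1) := add_le_add (h2.trans h4) h1
      _ = _ := by ring
  have hc3 : ContinuousOn (fun y : E3 × E3 => fderiv ℝ (kk κ k) y (0, u y.1)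
      - fderiv ℝ κ y (0, ee k)) {y | y.2 ≠ 0} := by
    refine ContinuousOn.sub ?_ ?_
    · refine (hκ'.continuousOn_fderiv_of_isOpen isOpen_ne (by simp)).clm_apply ?_
      exact (continuous_const.prodMk (cont_u.comp continuous_fst)).continuousOn
    · exact (hκ.continuousOn_fderiv_of_isOpen isOpen_ne (by simp)).clm_apply continuousOn_const
  have V0 := lateV_fun h hl (t + 1)
  have Vk := lateV_der h hl (t + 1) (d := fun _ => (0, ee k, 0)) continuous_const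
  have VS := lateV_der h hl (t + 1) (d := fun v => (1, u v, 0))
    (continuous_const.prodMk (cont_u.prodMk continuous_const))
  obtain ⟨-, s1⟩ := swap_ext hκ.continuousOn (Or.inl rfl) hb1 Vk ht x
  obtain ⟨i2, s2⟩ := swap_ext hκ'.continuousOn (Or.inl rfl) hb2 VS ht x
  obtain ⟨i3, s3⟩ := swap_ext hc3 (Or.inr rfl) hb3 V0 ht x
  simp only [rp] at s1 s2 s3 i2 i3
  rw [s1, s2, s3, ← integral_add i3 i2]
  refine integral_congr_ae (ae_of_all _ fun v => ?_)
  obtain ⟨C, hC0, hC⟩ := hom_bound hκ 1 hh ‖v‖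
  have hr := ret_pxd (late_slice h hl (t + 1) v) ht x (norm_u_lt_one v) k
    (κ := fun z => κ (v, z)) (C := C) (C' := C)
    (fun z hz => (hasFDerivAt_snd_slice hκ v hz).differentiableAt)
    (fun z hz => by simpa using (hC v z le_rfl hz).1)
    (fun z hz => by
      refine ContinuousLinearMap.opNorm_le_bound _ (by (clear * - hC0 hz; positivity)) fun e => ?_
      rw [fderiv_snd_slice hκ v hz]
      exact (hC v z le_rfl hz).2.2 e)
  have e1 : ∀ p : ℝ × E3, pxd (ee k) (fun p : ℝ × E3 => H (p.1, p.2, v)) p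
      = fderiv ℝ H (p.1, p.2, v) (0, ee k, 0) := fun p => fderiv_slice h.smooth p v _
  have e2 : ∀ p : ℝ × E3, ptd (fun p : ℝ × E3 => H (p.1, p.2, v)) p
      + pxd (u v) (fun p : ℝ × E3 => H (p.1, p.2, v)) p
      = fderiv ℝ H (p.1, p.2, v) (1, u v, 0) := by
    intro p
    unfold ptd pxd
    rw [fderiv_slice h.smooth, fderiv_slice h.smooth, ← map_add]
    simp
  simp only [e1, e2] at hr
  simp only [rp] at hr
  beta_reduce
  rw [hr]
  congr 1
  refine integral_congr_ae ?_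
  filter_upwards [ae_ne_zero] with z hz
  rw [fderiv_snd_slice hκ v hz, ← fderiv_snd_slice hκ' v hz]
  rfl

/-- Integration by parts in `v` along the Lorentz force. -/
theorem ibp_term {g Λ : E3 → ℝ} (hg : ContDiff ℝ 1 g) (hgs : HasCompactSupport g)
    (hΛ : ContDiff ℝ 1 Λ) (E₀ B₀ : E3) :
    ∫ v, Λ v * fderiv ℝ g v (lor E₀ B₀ v) = - ∫ v, g v * fderiv ℝ Λ v (lor E₀ B₀ v) := by
  have hF := contDiff_lor E₀ B₀
  have h1 := ibp_vector (W := fun v => Λ v • lor E₀ B₀ v) hg hgs (hΛ.smul hF)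
  have h2 : ∀ v, div (fun v => Λ v • lor E₀ B₀ v) v = fderiv ℝ Λ v (lor E₀ B₀ v) := by
    intro v
    have hΛd := hΛ.differentiable (by norm_num) v
    have hFk : ∀ k : Fin 3, DifferentiableAt ℝ (fun v => lor E₀ B₀ v k) v := fun k =>
      ((EuclideanSpace.proj k : E3 →L[ℝ] ℝ).contDiff.comp hF).differentiable (by norm_num) v
    have e1 : ∀ k : Fin 3, pd k (fun y => (Λ y • lor E₀ B₀ y) k) v
        = Λ v * pd k (fun y => lor E₀ B₀ y k) v + lor E₀ B₀ v k * fderiv ℝ Λ v (ee k) := by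
      intro k
      unfold pd
      have : (fun y => (Λ y • lor E₀ B₀ y) k) = fun y => Λ y * lor E₀ B₀ y k := by
        ext y; simp
      rw [this, fderiv_fun_mul hΛd (hFk k)]
      simp
    unfold div
    rw [Finset.sum_congr rfl fun k _ => e1 k, Finset.sum_add_distrib, ← Finset.mul_sum]
    have e2 : ∑ k, pd k (fun y => lor E₀ B₀ y k) v = 0 := div_lor E₀ B₀ v
    rw [e2, mul_zero, zero_add, ← clm_apply_eq_sum]
  have h3 : ∀ v, fderiv ℝ g v (Λ v • lor E₀ B₀ v) = Λ v * fderiv ℝ g v (lor E₀ B₀ v) := by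
    intro v
    rw [map_smul, smul_eq_mul]
  rw [← integral_congr_ae (ae_of_all _ h3), h1]
  congr 1
  refine integral_congr_ae (ae_of_all _ fun v => ?_)
  simp only [h2]

lemma norm_lor (E₀ B₀ v : E3) : ‖lor E₀ B₀ v‖ ≤ ‖E₀‖ + ‖B₀‖ := by
  unfold lor
  refine (norm_add_le _ _).trans ?_
  have h1 := norm_cross_le (u v) B₀
  have h2 := (norm_u_lt_one v).le
  have h3 : ‖u v‖ * ‖B₀‖ ≤ 1 * ‖B₀‖ := by gcongr
  linarith only [h1, h3]

lemma lor_apply (E₀ B₀ v : E3) (l : Fin 3) : lor E₀ B₀ v l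
    = E₀ l + ((u v) (l + 1) * B₀ (l + 2) - (u v) (l + 2) * B₀ (l + 1)) := by
  simp only [lor, PiLp.add_apply, cross_apply]

/-- The derivative of a component of the Lorentz force in `v`. -/
lemma hasFDerivAt_lor_v (E₀ B₀ v : E3) (l : Fin 3) : HasFDerivAt (fun v => lor E₀ B₀ v l)
    (B₀ (l + 2) • ((EuclideanSpace.proj (l + 1) : E3 →L[ℝ] ℝ).comp (fderiv ℝ u v))
          - B₀ (l + 1) • ((EuclideanSpace.proj (l + 2) : E3 →L[ℝ] ℝ).comp (fderiv ℝ u v))) v := by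
  have hul : ∀ l : Fin 3, HasFDerivAt (fun v => (u v) l)
      ((EuclideanSpace.proj l : E3 →L[ℝ] ℝ).comp (fderiv ℝ u v)) v := by
    intro l
    have h1 : HasFDerivAt u (fderiv ℝ u v) v :=
      (contDiff_uu.differentiable (by norm_num) v).hasFDerivAt
    exact (EuclideanSpace.proj l : E3 →L[ℝ] ℝ).hasFDerivAt.comp v h1
  simp only [lor_apply]
  exact (((hul (l + 1)).mul_const (B₀ (l + 2))).sub
    ((hul (l + 2)).mul_const (B₀ (l + 1)))).const_add (E₀ l)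

lemma abs_fderiv_lor_v (E₀ B₀ v w : E3) (l : Fin 3) :
    |fderiv ℝ (fun v => lor E₀ B₀ v l) v w| ≤ ‖w‖ * ‖B₀‖ := by
  rw [(hasFDerivAt_lor_v E₀ B₀ v l).fderiv]
  simp only [sub_apply, smul_apply, ContinuousLinearMap.comp_apply, smul_eq_mul,
    fderiv_u_apply, PiLp.proj_apply]
  have h1 : B₀ (l + 2) * (acc v w) (l + 1) - B₀ (l + 1) * (acc v w) (l + 2)
      = (cross (acc v w) B₀) l := by
    rw [cross_apply]; ring
  rw [h1]
  refine (abs_component_le _ _).trans ((norm_cross_le _ _).trans ?_)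
  gcongr
  refine (norm_acc_le v w).trans ?_
  have h2 : (q v)⁻¹ ≤ 1 := inv_le_one_of_one_le₀ (one_le_q v)
  calc (q v)⁻¹ * ‖w‖ ≤ 1 * ‖w‖ := by gcongr
    _ = _ := one_mul _

/-- The free transport derivative of a component of the Lorentz force. -/
lemma fderiv_lor_S {E B : ℝ × E3 → E3} (hE : ContDiff ℝ ∞ E) (hB : ContDiff ℝ ∞ B) (s : ℝ)
    (y v : E3) (l : Fin 3) :
    fderiv ℝ (fun y : ℝ × E3 × E3 => lor (E (y.1, y.2.1)) (B (y.1, y.2.1)) y.2.2 l) (s, y, v)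
        (1, u v, 0)
      = lor (fderiv ℝ E (s, y) (1, u v)) (fderiv ℝ B (s, y) (1, u v)) v l := by
  have hp : HasFDerivAt (fun y : ℝ × E3 × E3 => (y.1, y.2.1))
      ((ContinuousLinearMap.fst ℝ ℝ (E3 × E3)).prod
        ((ContinuousLinearMap.fst ℝ E3 E3).comp (ContinuousLinearMap.snd ℝ ℝ (E3 × E3))))
      (s, y, v) := hasFDerivAt_fst.prodMk (hasFDerivAt_fst.comp _ hasFDerivAt_snd)
  have hEd : HasFDerivAt (fun y : ℝ × E3 × E3 => E (y.1, y.2.1)) _ (s, y, v) :=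
    HasFDerivAt.comp (g := E) ((s, y, v) : ℝ × E3 × E3)
      (hE.differentiable (by simp) (s, y)).hasFDerivAt hp
  have hBd : HasFDerivAt (fun y : ℝ × E3 × E3 => B (y.1, y.2.1)) _ (s, y, v) :=
    HasFDerivAt.comp (g := B) ((s, y, v) : ℝ × E3 × E3)
      (hB.differentiable (by simp) (s, y)).hasFDerivAt hp
  have hud : HasFDerivAt (fun y : ℝ × E3 × E3 => u y.2.2) _ (s, y, v) :=
    HasFDerivAt.comp (g := u) ((s, y, v) : ℝ × E3 × E3)
      (contDiff_u.differentiable (by simp) v).hasFDerivAt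
      (hasFDerivAt_snd.comp (g := Prod.snd) _ hasFDerivAt_snd)
  have hEl : ∀ l : Fin 3, HasFDerivAt (fun y : ℝ × E3 × E3 => (E (y.1, y.2.1)) l) _ (s, y, v) :=
    fun l => (EuclideanSpace.proj l : E3 →L[ℝ] ℝ).hasFDerivAt.comp _ hEd
  have hBl : ∀ l : Fin 3, HasFDerivAt (fun y : ℝ × E3 × E3 => (B (y.1, y.2.1)) l) _ (s, y, v) :=
    fun l => (EuclideanSpace.proj l : E3 →L[ℝ] ℝ).hasFDerivAt.comp _ hBd
  have hul : ∀ l : Fin 3, HasFDerivAt (fun y : ℝ × E3 × E3 => (u y.2.2) l) _ (s, y, v) :=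
    fun l => (EuclideanSpace.proj l : E3 →L[ℝ] ℝ).hasFDerivAt.comp _ hud
  have key : HasFDerivAt (fun y : ℝ × E3 × E3 => (E (y.1, y.2.1)) l
      + ((u y.2.2) (l + 1) * (B (y.1, y.2.1)) (l + 2)
        - (u y.2.2) (l + 2) * (B (y.1, y.2.1)) (l + 1))) _ (s, y, v) :=
    (hEl l).add (((hul (l + 1)).mul (hBl (l + 2))).sub ((hul (l + 2)).mul (hBl (l + 1))))
  have e1 : (fun y : ℝ × E3 × E3 => lor (E (y.1, y.2.1)) (B (y.1, y.2.1)) y.2.2 l)
      = fun y => (E (y.1, y.2.1)) l + ((u y.2.2) (l + 1) * (B (y.1, y.2.1)) (l + 2)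
        - (u y.2.2) (l + 2) * (B (y.1, y.2.1)) (l + 1)) := by
    ext y
    rw [lor_apply]
  rw [e1, key.fderiv, lor_apply]
  simp only [add_apply, sub_apply, smul_apply, ContinuousLinearMap.comp_apply, smul_eq_mul,
    PiLp.proj_apply, ContinuousLinearMap.prod_apply, ContinuousLinearMap.coe_fst',
    ContinuousLinearMap.coe_snd', map_zero]
  simp

lemma contDiff_lor_full {E B : ℝ × E3 → E3} (hE : ContDiff ℝ ∞ E) (hB : ContDiff ℝ ∞ B)
    (l : Fin 3) :
    ContDiff ℝ ∞ (fun y : ℝ × E3 × E3 => lor (E (y.1, y.2.1)) (B (y.1, y.2.1)) y.2.2 l) := by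
  have hp : ContDiff ℝ ∞ (fun y : ℝ × E3 × E3 => (y.1, y.2.1)) := by fun_prop
  have hEl : ∀ l : Fin 3, ContDiff ℝ ∞ (fun y : ℝ × E3 × E3 => (E (y.1, y.2.1)) l) := fun l =>
    (EuclideanSpace.proj l : E3 →L[ℝ] ℝ).contDiff.comp (hE.comp hp)
  have hBl : ∀ l : Fin 3, ContDiff ℝ ∞ (fun y : ℝ × E3 × E3 => (B (y.1, y.2.1)) l) := fun l =>
    (EuclideanSpace.proj l : E3 →L[ℝ] ℝ).contDiff.comp (hB.comp hp)
  have hp2 : ContDiff ℝ ∞ (fun y : ℝ × E3 × E3 => y.2.2) := by fun_prop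
  have hul : ∀ l : Fin 3, ContDiff ℝ ∞ (fun y : ℝ × E3 × E3 => (u y.2.2) l) := fun l =>
    (EuclideanSpace.proj l : E3 →L[ℝ] ℝ).contDiff.comp (contDiff_u.comp hp2)
  simp only [lor_apply]
  exact (hEl l).add (((hul (l + 1)).mul (hBl (l + 2))).sub ((hul (l + 2)).mul (hBl (l + 1))))

lemma flx_eq (E B : ℝ × E3 → E3) (f : ℝ × E3 × E3 → ℝ) (l : Fin 3) :
    (fun y => flx E B f y l)
      = fun y => f y * lor (E (y.1, y.2.1)) (B (y.1, y.2.1)) y.2.2 l := by
  ext y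
  simp [flx]

/-- The free transport derivative of the flux. -/
lemma fderiv_flx {E B : ℝ × E3 → E3} (hE : ContDiff ℝ ∞ E) (hB : ContDiff ℝ ∞ B)
    {f : ℝ × E3 × E3 → ℝ} (hf : ContDiff ℝ ∞ f) (hV : Vl E B f) (s : ℝ) (y v : E3) (l : Fin 3) :
    fderiv ℝ (fun y => flx E B f y l) (s, y, v) (1, u v, 0)
      = f (s, y, v) * lor (fderiv ℝ E (s, y) (1, u v)) (fderiv ℝ B (s, y) (1, u v)) v l
        - lor (E (s, y)) (B (s, y)) v l
          * fderiv ℝ (fun w => f (s, y, w)) v (lor (E (s, y)) (B (s, y)) v) := by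
  have hfd : DifferentiableAt ℝ f (s, y, v) := hf.differentiable (by simp) _
  have hld := (contDiff_lor_full hE hB l).differentiable (by simp) (s, y, v)
  rw [flx_eq, fderiv_fun_mul hfd hld]
  simp only [add_apply, smul_apply, smul_eq_mul, fderiv_lor_S hE hB]
  have h1 : HasFDerivAt (fun w => f (s, y, w)) ((fderiv ℝ f (s, y, v)).comp
      ((0 : E3 →L[ℝ] ℝ).prod ((0 : E3 →L[ℝ] E3).prod (ContinuousLinearMap.id ℝ E3)))) v := by
    have h2 : HasFDerivAt (fun w : E3 => (s, y, w))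
        ((0 : E3 →L[ℝ] ℝ).prod ((0 : E3 →L[ℝ] E3).prod (ContinuousLinearMap.id ℝ E3))) v :=
      (hasFDerivAt_const _ _).prodMk ((hasFDerivAt_const _ _).prodMk (hasFDerivAt_id _))
    exact HasFDerivAt.comp (g := f) v hfd.hasFDerivAt h2
  have h3 := hV s y v
  have h4 : ((1 : ℝ), u v, lor (E (s, y)) (B (s, y)) v)
      = ((1 : ℝ), u v, (0 : E3)) + ((0 : ℝ), (0 : E3), lor (E (s, y)) (B (s, y)) v) := by simp
  rw [h4, map_add] at h3
  rw [h1.fderiv]
  simp only [ContinuousLinearMap.comp_apply, ContinuousLinearMap.prod_apply,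
    ContinuousLinearMap.id_apply, zero_apply]
  have h5 : fderiv ℝ f (s, y, v) (1, u v, 0)
      = - fderiv ℝ f (s, y, v) (0, 0, lor (E (s, y)) (B (s, y)) v) := by linarith only [h3]
  rw [h5]
  ring

/-- The bound of the velocity integral for one density. -/
theorem one_bound {K : E3 × E3 → ℝ} (hK : ContDiffOn ℝ ∞ K {y | y.2 ≠ 0}) {C P : ℝ}
    (hC0 : 0 ≤ C)
    (hC : ∀ v z : E3, ‖v‖ ≤ P → z ≠ 0 → |K (v, z)| ≤ C * (‖z‖⁻¹) ^ 1 ∧
      (∀ w : E3, |fderiv ℝ K (v, z) (w, 0)| ≤ C * (‖z‖⁻¹) ^ 1 * ‖w‖))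
    {E B : ℝ × E3 → E3} (hE : ContDiff ℝ ∞ E) (hB : ContDiff ℝ ∞ B)
    {f : ℝ × E3 × E3 → ℝ} (hf : ContDiff ℝ ∞ f) (hV : Vl E B f) {s a A : ℝ} (y : E3)
    (hs : ∀ v, f (s, y, v) ≠ 0 → ‖v‖ ≤ P) (ha : ∀ v, |f (s, y, v)| ≤ a)
    (hEB : ‖E (s, y)‖ + ‖B (s, y)‖ ≤ a)
    (hA : ‖fderiv ℝ E (s, y)‖ + ‖fderiv ℝ B (s, y)‖ ≤ A) {z : E3} (hz : z ≠ 0) (l : Fin 3) :
    Integrable (fun v => K (v, z) * fderiv ℝ (fun y => flx E B f y l) (s, y, v) (1, u v, 0)) ∧
    |∫ v, K (v, z) * fderiv ℝ (fun y => flx E B f y l) (s, y, v) (1, u v, 0)|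
      ≤ volume.real (Metric.closedBall (0 : E3) P) * (C * ‖z‖⁻¹ * a * (2 * a ^ 2 + A)) := by
  set e := E (s, y) with he
  set b := B (s, y) with hb
  have ha0 : 0 ≤ a := (abs_nonneg _).trans (ha 0)
  have hA0 : 0 ≤ A := le_trans (by (clear * -; positivity)) hA
  have hg : ContDiff ℝ 1 (fun w => f (s, y, w)) :=
    (hf.comp (by fun_prop : ContDiff ℝ ∞ (fun w : E3 => (s, y, w)))).of_le (by simp)
  have hgs : HasCompactSupport (fun w => f (s, y, w)) := by
    refine HasCompactSupport.intro (isCompact_closedBall (0 : E3) P) fun v hv => ?_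
    by_contra hne
    rw [Metric.mem_closedBall, dist_zero_right, not_le] at hv
    linarith only [P, hs, v, hv, hne, hs v hne]
  have hKs : ContDiff ℝ 1 (fun w => K (w, z)) := (contDiff_fst_slice hK hz).of_le (by simp)
  have hll : ContDiff ℝ 1 (fun w => lor e b w l) :=
    (EuclideanSpace.proj l : E3 →L[ℝ] ℝ).contDiff.comp (contDiff_lor e b)
  have hΛ : ContDiff ℝ 1 (fun w => K (w, z) * lor e b w l) := hKs.mul hll
  have hlc : Continuous (fun v => lor (fderiv ℝ E (s, y) (1, u v)) (fderiv ℝ B (s, y) (1, u v)) v l) := by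
    simp only [lor_apply]
    have h1 : Continuous u := cont_u
    have h2 : ∀ (L : (ℝ × E3) →L[ℝ] E3) (l : Fin 3), Continuous fun v => (L (1, u v)) l :=
      fun L l => (EuclideanSpace.proj l : E3 →L[ℝ] ℝ).continuous.comp
        (L.continuous.comp (continuous_const.prodMk h1))
    have h3 : ∀ l : Fin 3, Continuous fun v => (u v) l := fun l =>
      (EuclideanSpace.proj l : E3 →L[ℝ] ℝ).continuous.comp h1
    exact (h2 _ _).add (((h3 _).mul (h2 _ _)).sub ((h3 _).mul (h2 _ _)))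
  -- the two parts
  have i1 : Integrable (fun v => f (s, y, v)
      * (K (v, z) * lor (fderiv ℝ E (s, y) (1, u v)) (fderiv ℝ B (s, y) (1, u v)) v l)) :=
    (hg.continuous.mul (hKs.continuous.mul hlc)).integrable_of_hasCompactSupport hgs.mul_right
  have i2 : Integrable (fun v => (K (v, z) * lor e b v l)
      * fderiv ℝ (fun w => f (s, y, w)) v (lor e b v)) := by
    refine (hΛ.continuous.mul ((hg.continuous_fderiv (by norm_num)).clm_apply
      (contDiff_lor e b).continuous)).integrable_of_hasCompactSupport ?_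
    refine HasCompactSupport.mul_left ?_
    refine HasCompactSupport.intro (hgs.fderiv (𝕜 := ℝ)).isCompact fun v hv => ?_
    rw [image_eq_zero_of_notMem_tsupport hv]; simp
  have i3 : Integrable (fun v => f (s, y, v)
      * fderiv ℝ (fun w => K (w, z) * lor e b w l) v (lor e b v)) :=
    (hg.continuous.mul ((hΛ.continuous_fderiv (by norm_num)).clm_apply
      (contDiff_lor e b).continuous)).integrable_of_hasCompactSupport hgs.mul_right
  have e0 : (fun v => K (v, z) * fderiv ℝ (fun y => flx E B f y l) (s, y, v) (1, u v, 0))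
      = fun v => f (s, y, v)
      * (K (v, z) * lor (fderiv ℝ E (s, y) (1, u v)) (fderiv ℝ B (s, y) (1, u v)) v l)
      - (K (v, z) * lor e b v l) * fderiv ℝ (fun w => f (s, y, w)) v (lor e b v) := by
    ext v
    rw [fderiv_flx hE hB hf hV]
    ring
  rw [e0]
  refine ⟨i1.sub i2, ?_⟩
  rw [integral_sub i1 i2, ibp_term hg hgs hΛ, sub_neg_eq_add, ← integral_add i1 i3]
  have hbd : ∀ v, ‖f (s, y, v)
      * (K (v, z) * lor (fderiv ℝ E (s, y) (1, u v)) (fderiv ℝ B (s, y) (1, u v)) v l)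
      + f (s, y, v) * fderiv ℝ (fun w => K (w, z) * lor e b w l) v (lor e b v)‖
      ≤ (Metric.closedBall (0 : E3) P).indicator
        (fun _ => C * ‖z‖⁻¹ * a * (2 * a ^ 2 + A)) v := by
    intro v
    by_cases hv : ‖v‖ ≤ P
    · rw [indicator_of_mem (by simpa using hv), ← mul_add, norm_mul, Real.norm_eq_abs,
        Real.norm_eq_abs]
      obtain ⟨hK1, hK2⟩ := hC v z hv hz
      rw [pow_one] at hK1 hK2
      have hn : ‖((1 : ℝ), u v)‖ ≤ 1 := by
        rw [Prod.norm_def]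
        simp only [norm_one]
        exact max_le le_rfl (norm_u_lt_one v).le
      have hL : ∀ L : (ℝ × E3) →L[ℝ] E3, ‖L (1, u v)‖ ≤ ‖L‖ := by
        intro L
        refine (L.le_opNorm _).trans ?_
        calc ‖L‖ * ‖((1 : ℝ), u v)‖ ≤ ‖L‖ * 1 := by (clear * - hn; gcongr)
          _ = _ := mul_one _
      have h1 : |lor (fderiv ℝ E (s, y) (1, u v)) (fderiv ℝ B (s, y) (1, u v)) v l| ≤ A := by
        refine (abs_component_le _ _).trans ((norm_lor _ _ _).trans ?_)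
        exact (add_le_add (hL _) (hL _)).trans hA
      have hlor : ‖lor e b v‖ ≤ a := (norm_lor _ _ _).trans hEB
      have hba : ‖b‖ ≤ a := by linarith only [hEB, norm_nonneg e]
      have h2 : |fderiv ℝ (fun w => K (w, z) * lor e b w l) v (lor e b v)|
          ≤ C * ‖z‖⁻¹ * (2 * a ^ 2) := by
        have hKd := hKs.differentiable (by norm_num) v
        have hld := hll.differentiable (by norm_num) v
        rw [fderiv_fun_mul hKd hld]
        simp only [add_apply, smul_apply, smul_eq_mul]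
        rw [fderiv_fst_slice hK v hz]
        have h3 := abs_fderiv_lor_v e b v (lor e b v) l
        have h4 : |lor e b v l| ≤ a := (abs_component_le _ _).trans hlor
        have h5 := hK2 (lor e b v)
        have hzz : 0 ≤ ‖z‖⁻¹ := by positivity
        calc _ ≤ |K (v, z) * fderiv ℝ (fun w => lor e b w l) v (lor e b v)|
              + |lor e b v l * fderiv ℝ K (v, z) (lor e b v, 0)| := abs_add_le _ _
          _ = |K (v, z)| * |fderiv ℝ (fun w => lor e b w l) v (lor e b v)|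
              + |lor e b v l| * |fderiv ℝ K (v, z) (lor e b v, 0)| := by rw [abs_mul, abs_mul]
          _ ≤ (C * ‖z‖⁻¹) * (‖lor e b v‖ * ‖b‖) + a * (C * ‖z‖⁻¹ * ‖lor e b v‖) := by
              (clear * - hC0 hz ha0 hK1 h3 h4 h5; gcongr)
          _ ≤ (C * ‖z‖⁻¹) * (a * a) + a * (C * ‖z‖⁻¹ * a) := by (clear * - hC0 hz ha0 hlor hba; gcongr)
          _ = _ := by ring
      have hzz : 0 ≤ ‖z‖⁻¹ := by positivity
      calc |f (s, y, v)| * |K (v, z)
            * lor (fderiv ℝ E (s, y) (1, u v)) (fderiv ℝ B (s, y) (1, u v)) v l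
            + fderiv ℝ (fun w => K (w, z) * lor e b w l) v (lor e b v)|
          ≤ a * (|K (v, z)
            * lor (fderiv ℝ E (s, y) (1, u v)) (fderiv ℝ B (s, y) (1, u v)) v l|
            + |fderiv ℝ (fun w => K (w, z) * lor e b w l) v (lor e b v)|) := by
            gcongr
            · exact ha v
            · exact abs_add_le _ _
        _ ≤ a * ((C * ‖z‖⁻¹) * A + C * ‖z‖⁻¹ * (2 * a ^ 2)) := by
            rw [abs_mul]
            (clear * - hC0 hz ha0 hK1 h1 h2; gcongr)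
        _ = _ := by ring
    · have h0 : f (s, y, v) = 0 := by
        by_contra hne
        exact hv (hs v hne)
      rw [indicator_of_notMem (by simpa using hv), h0]
      simp
  have hint : Integrable ((Metric.closedBall (0 : E3) P).indicator
      (fun _ => C * ‖z‖⁻¹ * a * (2 * a ^ 2 + A))) := by
    rw [integrable_indicator_iff measurableSet_closedBall]
    exact integrableOn_const measure_closedBall_lt_top.ne
  have := norm_integral_le_of_norm_le hint (ae_of_all _ hbd)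
  rw [integral_indicator measurableSet_closedBall, setIntegral_const, smul_eq_mul] at this
  rwa [Real.norm_eq_abs] at this

/-- Integrals of radially bounded functions. -/
theorem radial_bound {F : E3 → ℝ} {a : ℝ → ℝ} {t : ℝ} (ht : 0 ≤ t) (ha : Monotone a)
    (h1 : ∀ z, z ≠ 0 → ‖z‖ ≤ t → |F z| ≤ (‖z‖⁻¹) ^ 2 * a (t - ‖z‖))
    (h2 : ∀ z, t < ‖z‖ → F z = 0) :
    |∫ z, F z| ≤ 3 * volume.real (Metric.ball (0 : E3) 1) * ∫ s in (0 : ℝ)..t, a s := by
  set φ : ℝ → ℝ := (Iic t).indicator (fun r => (r⁻¹) ^ 2 * a (t - r)) with hφ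
  have hI : IntervalIntegrable (fun r => a (t - r)) volume 0 t := by
    refine AntitoneOn.intervalIntegrable ?_
    intro r _ r' _ hrr
    exact ha (by linarith only [hrr])
  have hcongr : ∀ r ∈ Ioi (0 : ℝ), r ^ (Module.finrank ℝ E3 - 1) • φ r
      = (Iic t).indicator (fun r => a (t - r)) r := by
    intro r hr
    have hr0 : r ≠ 0 := ne_of_gt hr
    rw [finrank_E3]
    by_cases hrt : r ∈ Iic t
    · simp only [hφ, indicator_of_mem hrt, smul_eq_mul]
      (clear * - hr0; field_simp)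
    · simp only [hφ, indicator_of_notMem hrt, smul_zero]
  have hset : Ioi (0 : ℝ) ∩ Iic t = Ioc 0 t := Ioi_inter_Iic
  have hφi : Integrable (fun z : E3 => φ ‖z‖) := by
    rw [integrable_fun_norm_addHaar (volume : Measure E3)]
    refine IntegrableOn.congr_fun ?_ (fun r hr => (hcongr r hr).symm) measurableSet_Ioi
    rw [IntegrableOn, integrable_indicator_iff measurableSet_Iic, IntegrableOn,
      Measure.restrict_restrict measurableSet_Iic, inter_comm, hset]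
    exact (intervalIntegrable_iff_integrableOn_Ioc_of_le ht).1 hI
  have hval : ∫ z : E3, φ ‖z‖ = 3 * volume.real (Metric.ball (0 : E3) 1)
      * ∫ s in (0 : ℝ)..t, a s := by
    rw [integral_fun_norm_addHaar, setIntegral_congr_fun measurableSet_Ioi hcongr, finrank_E3,
      setIntegral_indicator measurableSet_Iic, hset, ← intervalIntegral.integral_of_le ht]
    simp
    ring
  rw [← hval, ← Real.norm_eq_abs]
  refine norm_integral_le_of_norm_le hφi ?_
  filter_upwards [ae_ne_zero] with z hz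
  rw [Real.norm_eq_abs]
  by_cases hzt : ‖z‖ ≤ t
  · simp only [hφ]
    rw [indicator_of_mem (by simpa using hzt)]
    exact h1 z hz hzt
  · push Not at hzt
    rw [h2 z hzt, abs_zero]
    simp only [hφ]
    rw [indicator_of_notMem (by simpa using hzt)]

lemma sd_flx {E B : ℝ × E3 → E3} (hE : ContDiff ℝ ∞ E) (hB : ContDiff ℝ ∞ B)
    {f : ℝ × E3 × E3 → ℝ} (hf : SD f) (l : Fin 3) : SD (fun y => flx E B f y l) := by
  rw [flx_eq]
  refine ⟨hf.smooth.mul (contDiff_lor_full hE hB l), fun T => ?_⟩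
  obtain ⟨R, hR⟩ := hf.supp T
  exact ⟨R, fun t x v ht hne => hR t x v ht (left_ne_zero_of_mul hne)⟩

section pointwise

variable {κ : E3 × E3 → ℝ} {f₁ f₂ : ℝ × E3 × E3 → ℝ} {E₁ B₁ E₂ B₂ : ℝ × E3 → E3}

lemma sd_diff (hf₁ : SD f₁) (hf₂ : SD f₂) (hE₁ : SF E₁) (hB₁ : SF B₁) (hE₂ : SF E₂)
    (hB₂ : SF B₂) (l : Fin 3) :
    SD (fun y => flx E₁ B₁ f₁ y l - flx E₂ B₂ f₂ y l) := by
  have S₁ := sd_flx hE₁.smooth hB₁.smooth hf₁ l
  have S₂ := sd_flx hE₂.smooth hB₂.smooth hf₂ l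
  refine ⟨S₁.smooth.sub S₂.smooth, fun T => ?_⟩
  obtain ⟨R₁, hR₁⟩ := S₁.supp T
  obtain ⟨R₂, hR₂⟩ := S₂.supp T
  refine ⟨max R₁ R₂, fun t x v ht hne => ?_⟩
  by_cases h1 : flx E₁ B₁ f₁ (t, x, v) l = 0
  · have h2 : flx E₂ B₂ f₂ (t, x, v) l ≠ 0 := by
      intro h2
      exact hne (by simp only [h1, h2, sub_zero])
    obtain ⟨h3, h4⟩ := hR₂ t x v ht h2
    exact ⟨h3.trans (le_max_right _ _), h4.trans (le_max_right _ _)⟩
  · obtain ⟨h3, h4⟩ := hR₁ t x v ht h1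
    exact ⟨h3.trans (le_max_left _ _), h4.trans (le_max_left _ _)⟩

lemma abs_flx_le {f : ℝ × E3 × E3 → ℝ} {E B : ℝ × E3 → E3} {a s : ℝ} {y : E3} (v : E3)
    (hf : |f (s, y, v)| ≤ a) (hEB : ‖E (s, y)‖ + ‖B (s, y)‖ ≤ a) (l : Fin 3) :
    |flx E B f (s, y, v) l| ≤ a * a := by
  have h1 : flx E B f (s, y, v) l = f (s, y, v) * lor (E (s, y)) (B (s, y)) v l := by simp [flx]
  rw [h1, abs_mul]
  have h2 := (abs_component_le (lor (E (s, y)) (B (s, y)) v) l).trans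
    ((norm_lor _ _ _).trans hEB)
  have ha0 : 0 ≤ a := (abs_nonneg _).trans hf
  (clear * - hf h2 ha0; gcongr)

lemma pt_bound1 {C₀ C₁ C₁' P a s : ℝ} {y : E3} {k l : Fin 3} (hC₀ : 0 ≤ C₀) (hC₁' : 0 ≤ C₁')
    (hle : C₁' ≤ C₁)
    (hC : ∀ v z : E3, ‖v‖ ≤ P → z ≠ 0 →
      (∀ e : E3, |fderiv ℝ κ (v, z) (0, e)| ≤ C₀ * (‖z‖⁻¹) ^ (1 + 1) * ‖e‖))
    (hCk : ∀ v z : E3, ‖v‖ ≤ P → z ≠ 0 →
      (∀ e : E3, |fderiv ℝ (kk κ k) (v, z) (0, e)| ≤ C₁' * (‖z‖⁻¹) ^ (1 + 1) * ‖e‖))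
    (hP₁ : ∀ v, f₁ (s, y, v) ≠ 0 → ‖v‖ ≤ P) (hP₂ : ∀ v, f₂ (s, y, v) ≠ 0 → ‖v‖ ≤ P)
    (ha₁ : ∀ v, |f₁ (s, y, v)| ≤ a) (ha₂ : ∀ v, |f₂ (s, y, v)| ≤ a)
    (hEB₁ : ‖E₁ (s, y)‖ + ‖B₁ (s, y)‖ ≤ a) (hEB₂ : ‖E₂ (s, y)‖ + ‖B₂ (s, y)‖ ≤ a)
    {z : E3} (hz : z ≠ 0) :
    |∫ v, (fderiv ℝ (kk κ k) (v, z) (0, u v) - fderiv ℝ κ (v, z) (0, ee k))
      * (flx E₁ B₁ f₁ (s, y, v) l - flx E₂ B₂ f₂ (s, y, v) l)|
      ≤ volume.real (Metric.closedBall (0 : E3) P) * (((C₀ + C₁) * (‖z‖⁻¹) ^ 2) * (2 * a ^ 2)) := by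
  have hC₁ : 0 ≤ C₁ := hC₁'.trans hle
  have hbd : ∀ v, ‖(fderiv ℝ (kk κ k) (v, z) (0, u v) - fderiv ℝ κ (v, z) (0, ee k))
      * (flx E₁ B₁ f₁ (s, y, v) l - flx E₂ B₂ f₂ (s, y, v) l)‖
      ≤ (Metric.closedBall (0 : E3) P).indicator
      (fun _ => ((C₀ + C₁) * (‖z‖⁻¹) ^ 2) * (2 * a ^ 2)) v := by
    intro v
    by_cases hv : ‖v‖ ≤ P
    · rw [indicator_of_mem (by simpa using hv), norm_mul, Real.norm_eq_abs, Real.norm_eq_abs]
      have h1 := hC v z hv hz (ee k)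
      have h2 := hCk v z hv hz (u v)
      rw [norm_single, mul_one] at h1
      have h3 := (norm_u_lt_one v).le
      have h4 : C₁' * (‖z‖⁻¹) ^ (1 + 1) * ‖u v‖ ≤ C₁ * (‖z‖⁻¹) ^ (1 + 1) * 1 := by
        (clear * - hle hz hC₁ h3; gcongr)
      have h5 : |fderiv ℝ (kk κ k) (v, z) (0, u v) - fderiv ℝ κ (v, z) (0, ee k)|
          ≤ (C₀ + C₁) * (‖z‖⁻¹) ^ 2 := by
        refine (abs_sub _ _).trans ?_
        calc _ ≤ C₁ * (‖z‖⁻¹) ^ (1 + 1) * 1 + C₀ * (‖z‖⁻¹) ^ (1 + 1) :=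
              add_le_add (h2.trans h4) h1
          _ = _ := by ring
      have h6 : |flx E₁ B₁ f₁ (s, y, v) l - flx E₂ B₂ f₂ (s, y, v) l| ≤ 2 * a ^ 2 := by
        have h7 := abs_flx_le v (ha₁ v) hEB₁ l
        have h8 := abs_flx_le v (ha₂ v) hEB₂ l
        calc _ ≤ _ := abs_sub _ _
          _ ≤ a * a + a * a := add_le_add h7 h8
          _ = _ := by ring
      (clear * - hC₀ hz hC₁ h5 h6; gcongr)
    · have h1 : f₁ (s, y, v) = 0 := by
        by_contra hne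
        exact hv (hP₁ _ hne)
      have h2 : f₂ (s, y, v) = 0 := by
        by_contra hne
        exact hv (hP₂ _ hne)
      have h0 : flx E₁ B₁ f₁ (s, y, v) l - flx E₂ B₂ f₂ (s, y, v) l = 0 := by
        simp [flx, h1, h2]
      rw [indicator_of_notMem (by simpa using hv), h0]
      simp
  have hint' : Integrable ((Metric.closedBall (0 : E3) P).indicator
      (fun _ => ((C₀ + C₁) * (‖z‖⁻¹) ^ 2) * (2 * a ^ 2))) := by
    rw [integrable_indicator_iff measurableSet_closedBall]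
    exact integrableOn_const measure_closedBall_lt_top.ne
  have h9 := norm_integral_le_of_norm_le hint' (ae_of_all _ hbd)
  rwa [integral_indicator measurableSet_closedBall, setIntegral_const, smul_eq_mul,
    Real.norm_eq_abs] at h9

lemma pt_bound2 {C P a s A : ℝ} {y : E3} {k l : Fin 3} (hκ : ContDiffOn ℝ ∞ κ {y | y.2 ≠ 0})
    (hC0 : 0 ≤ C)
    (hC : ∀ v z : E3, ‖v‖ ≤ P → z ≠ 0 → |kk κ k (v, z)| ≤ C * (‖z‖⁻¹) ^ 1 ∧
      (∀ w : E3, |fderiv ℝ (kk κ k) (v, z) (w, 0)| ≤ C * (‖z‖⁻¹) ^ 1 * ‖w‖))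
    (hf₁ : SD f₁) (hf₂ : SD f₂) (hE₁ : SF E₁) (hB₁ : SF B₁) (hE₂ : SF E₂) (hB₂ : SF B₂)
    (hV₁ : Vl E₁ B₁ f₁) (hV₂ : Vl E₂ B₂ f₂)
    (hP₁ : ∀ v, f₁ (s, y, v) ≠ 0 → ‖v‖ ≤ P) (hP₂ : ∀ v, f₂ (s, y, v) ≠ 0 → ‖v‖ ≤ P)
    (ha₁ : ∀ v, |f₁ (s, y, v)| ≤ a) (ha₂ : ∀ v, |f₂ (s, y, v)| ≤ a)
    (hEB₁ : ‖E₁ (s, y)‖ + ‖B₁ (s, y)‖ ≤ a) (hEB₂ : ‖E₂ (s, y)‖ + ‖B₂ (s, y)‖ ≤ a)
    (hA₁ : ‖fderiv ℝ E₁ (s, y)‖ + ‖fderiv ℝ B₁ (s, y)‖ ≤ A)
    (hA₂ : ‖fderiv ℝ E₂ (s, y)‖ + ‖fderiv ℝ B₂ (s, y)‖ ≤ A)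
    {z : E3} (hz : z ≠ 0) :
    |∫ v, kk κ k (v, z) * fderiv ℝ (fun y => flx E₁ B₁ f₁ y l - flx E₂ B₂ f₂ y l) (s, y, v)
        (1, u v, 0)|
      ≤ 2 * (volume.real (Metric.closedBall (0 : E3) P)
        * (C * ‖z‖⁻¹ * a * (2 * a ^ 2 + A))) := by
  have hKc := contDiffOn_kk hκ k
  obtain ⟨i1, c1⟩ := one_bound hKc hC0 hC hE₁.smooth hB₁.smooth hf₁.smooth hV₁ y hP₁ ha₁ hEB₁ hA₁
    hz l
  obtain ⟨i2, c2⟩ := one_bound hKc hC0 hC hE₂.smooth hB₂.smooth hf₂.smooth hV₂ y hP₂ ha₂ hEB₂ hA₂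
    hz l
  have e1 : (fun v => kk κ k (v, z)
      * fderiv ℝ (fun y => flx E₁ B₁ f₁ y l - flx E₂ B₂ f₂ y l) (s, y, v) (1, u v, 0))
      = fun v => kk κ k (v, z) * fderiv ℝ (fun y => flx E₁ B₁ f₁ y l) (s, y, v) (1, u v, 0)
        - kk κ k (v, z) * fderiv ℝ (fun y => flx E₂ B₂ f₂ y l) (s, y, v) (1, u v, 0) := by
    ext v
    have d1 : DifferentiableAt ℝ (fun y => flx E₁ B₁ f₁ y l) (s, y, v) :=
      (sd_flx hE₁.smooth hB₁.smooth hf₁ l).smooth.differentiable (by simp) _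
    have d2 : DifferentiableAt ℝ (fun y => flx E₂ B₂ f₂ y l) (s, y, v) :=
      (sd_flx hE₂.smooth hB₂.smooth hf₂ l).smooth.differentiable (by simp) _
    rw [fderiv_fun_sub d1 d2, sub_apply]
    ring
  rw [e1, integral_sub i1 i2]
  refine (abs_sub _ _).trans ((add_le_add c1 c2).trans (le_of_eq ?_))
  ring

end pointwise

/-- Elementary inequality for the constants (order two). -/
lemma alg1 {V C₀ C₁ T a A r M : ℝ} (hV : 0 ≤ V) (hC₁ : 0 ≤ C₁) (ha : 0 ≤ a)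
    (hA : 0 ≤ A) (hM0 : 0 ≤ M)
    (hM : M = V * ((C₀ + C₁) * (2 * a ^ 2)) + V * (2 * (C₁ * |T| * a)) * (2 * a ^ 2 + 1)) :
    V * (((C₀ + C₁) * r ^ 2) * (2 * a ^ 2)) ≤ r ^ 2 * (M * (1 + A)) := by
  have h11 : V * ((C₀ + C₁) * (2 * a ^ 2)) ≤ M := by
    rw [hM]
    have : 0 ≤ V * (2 * (C₁ * |T| * a)) * (2 * a ^ 2 + 1) := by positivity
    linarith only [this]
  have h12 : M ≤ M * (1 + A) := by nlinarith only [hA, hM0]
  calc V * (((C₀ + C₁) * r ^ 2) * (2 * a ^ 2)) = r ^ 2 * (V * ((C₀ + C₁) * (2 * a ^ 2))) := by ring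
    _ ≤ r ^ 2 * (M * (1 + A)) := mul_le_mul_of_nonneg_left (h11.trans h12) (sq_nonneg r)

/-- Elementary inequality for the constants (order one). -/
lemma alg2 {V C₀ C₁ C₁' T a A r M : ℝ} (hV : 0 ≤ V) (hC₀ : 0 ≤ C₀) (hC₁' : 0 ≤ C₁')
    (hle : C₁' ≤ C₁) (ha : 0 ≤ a) (hA : 0 ≤ A)
    (hM : M = V * ((C₀ + C₁) * (2 * a ^ 2)) + V * (2 * (C₁ * |T| * a)) * (2 * a ^ 2 + 1))
    (hr0 : 0 ≤ r) (hr : r ≤ |T| * r ^ 2) :
    2 * (V * (C₁' * r * a * (2 * a ^ 2 + A))) ≤ r ^ 2 * (M * (1 + A)) := by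
  have hC₁ : 0 ≤ C₁ := hC₁'.trans hle
  have h13 : 2 * a ^ 2 + A ≤ (2 * a ^ 2 + 1) * (1 + A) := by
    nlinarith only [mul_nonneg (sq_nonneg a) hA]
  have h11 : V * (2 * (C₁ * |T| * a)) * (2 * a ^ 2 + 1) ≤ M := by
    rw [hM]
    have : 0 ≤ V * ((C₀ + C₁) * (2 * a ^ 2)) := by positivity
    linarith only [this]
  calc 2 * (V * (C₁' * r * a * (2 * a ^ 2 + A)))
      ≤ 2 * (V * (C₁ * (|T| * r ^ 2) * a * ((2 * a ^ 2 + 1) * (1 + A)))) := by (clear * - hV hle ha hA hr0 hr hC₁ h13; gcongr)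
    _ = r ^ 2 * ((V * (2 * (C₁ * |T| * a)) * (2 * a ^ 2 + 1)) * (1 + A)) := by ring
    _ ≤ r ^ 2 * (M * (1 + A)) := by (clear * - hA h11; gcongr)

lemma alg3 {D M T t I : ℝ} (hD : 0 ≤ D) (hM : 0 ≤ M) (hI : 0 ≤ I) (hTT : t ≤ |T|) :
    D * (M * (t + I)) ≤ D * M * (|T| + 1) * (1 + I) := by
  have h1 : t + I ≤ (|T| + 1) * (1 + I) := by nlinarith only [hTT, mul_nonneg (abs_nonneg T) hI]
  calc D * (M * (t + I)) = D * M * (t + I) := by ring
    _ ≤ D * M * ((|T| + 1) * (1 + I)) := by gcongr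
    _ = _ := by ring

end LogC

open LogC in
/-- L4. The second term: kernel of order one against a spatial derivative of the flux. `κ` is
`dkS i v z (ee l)` or the corresponding magnetic kernel. -/
theorem term2_bound {κ : E3 × E3 → ℝ} (hκ : ContDiffOn ℝ ∞ κ {y | y.2 ≠ 0})
    (hh : ∀ (v z : E3) (c : ℝ), 0 < c → z ≠ 0 → κ (v, c • z) = (c⁻¹) ^ 1 * κ (v, z))
    (T P a : ℝ) : ∃ C : ℝ, 0 ≤ C ∧ ∀ (f₁ f₂ : ℝ × E3 × E3 → ℝ) (E₁ B₁ E₂ B₂ : ℝ × E3 → E3),
    SD f₁ → SD f₂ → SF E₁ → SF B₁ → SF E₂ → SF B₂ → Vl E₁ B₁ f₁ → Vl E₂ B₂ f₂ →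
    (∃ η > 0, ∀ t ≤ η, (∀ z, f₁ (t, z) = f₂ (t, z)) ∧
      ∀ x, E₁ (t, x) = E₂ (t, x) ∧ B₁ (t, x) = B₂ (t, x)) →
    ∀ T' ≤ T, MB P T' f₁ → MB P T' f₂ → (∀ p, |f₁ p| ≤ a) → (∀ p, |f₂ p| ≤ a) →
    (∀ p : ℝ × E3, 0 ≤ p.1 → p.1 ≤ T' → ‖E₁ p‖ + ‖B₁ p‖ ≤ a ∧ ‖E₂ p‖ + ‖B₂ p‖ ≤ a) →
    ∀ A : ℝ → ℝ, Monotone A → (∀ p : ℝ × E3, 0 ≤ p.1 → p.1 ≤ T' →
      ‖fderiv ℝ E₁ p‖ + ‖fderiv ℝ B₁ p‖ ≤ A p.1 ∧ ‖fderiv ℝ E₂ p‖ + ‖fderiv ℝ B₂ p‖ ≤ A p.1) →
    ∀ (k l : Fin 3) (t : ℝ) (x : E3), 0 ≤ t → t ≤ T' →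
      |∫ z, ∫ v, κ (v, z) * fderiv ℝ (fun y => flx E₁ B₁ f₁ y l - flx E₂ B₂ f₂ y l)
          (t - ‖z‖, x + z, v) (0, ee k, 0)| ≤ C * (1 + ∫ s in (0 : ℝ)..t, A s) := by
  -- constants, uniformly in `k`
  obtain ⟨C₀, hC₀, hC⟩ := hom_bound hκ 1 hh P
  have hC' := fun k : Fin 3 => hom_bound (contDiffOn_kk hκ k) 1 (kk_hom hh k) P
  choose C₁' hC₁' hCk using hC'
  set C₁ : ℝ := ∑ k, C₁' k with hC₁
  have hC₁0 : 0 ≤ C₁ := Finset.sum_nonneg fun k _ => hC₁' k
  have hle : ∀ k, C₁' k ≤ C₁ := fun k =>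
    Finset.single_le_sum (fun k _ => hC₁' k) (Finset.mem_univ k)
  set V : ℝ := volume.real (Metric.closedBall (0 : E3) P) with hV
  have hV0 : 0 ≤ V := measureReal_nonneg
  set M : ℝ := V * ((C₀ + C₁) * (2 * |a| ^ 2)) + V * (2 * (C₁ * |T| * |a|)) * (2 * |a| ^ 2 + 1)
    with hM
  have hM0 : 0 ≤ M := by (clear * - T P a C₀ hC₀ C₁ hC₁0 V; positivity)
  set D : ℝ := 3 * volume.real (Metric.ball (0 : E3) 1) with hD
  have hD0 : 0 ≤ D := by positivity
  refine ⟨D * M * (|T| + 1) + D * M * (|T| + 1), by (clear * - P a C₀ hC₀ C₁ hC₁0 V; positivity), ?_⟩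
  intro f₁ f₂ E₁ B₁ E₂ B₂ hf₁ hf₂ hE₁ hB₁ hE₂ hB₂ hV₁ hV₂ hlate T' hT' hP₁ hP₂ ha₁ ha₂ hEB A hA
    hAb k l t x ht0 htT
  have ha0 : 0 ≤ a := (abs_nonneg _).trans (ha₁ 0)
  rw [abs_of_nonneg ha0] at hM
  have hTT : t ≤ |T| := htT.trans (hT'.trans (le_abs_self T))
  have hHs : SD (fun y => flx E₁ B₁ f₁ y l - flx E₂ B₂ f₂ y l) :=
    sd_diff hf₁ hf₂ hE₁ hB₁ hE₂ hB₂ l
  have hHl : ∃ η > 0, ∀ t ≤ η, ∀ z,
      (fun y => flx E₁ B₁ f₁ y l - flx E₂ B₂ f₂ y l) (t, z) = 0 := by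
    obtain ⟨η, hη, hl⟩ := hlate
    refine ⟨η, hη, fun t ht z => ?_⟩
    obtain ⟨h1, h2⟩ := hl t ht
    simp only [flx, h1 z, (h2 z.1).1, (h2 z.1).2, sub_self]
  have hH0 := fun (p : ℝ × E3) (hp : p.1 ≤ 0) v => (lateV_fun hHs hHl 1).vanish p hp v
  have hHS0 := fun (p : ℝ × E3) (hp : p.1 ≤ 0) v =>
    (lateV_der hHs hHl 1 (d := fun v => (1, u v, 0))
      (continuous_const.prodMk (cont_u.prodMk continuous_const))).vanish p hp v
  have hA0 : ∀ s, 0 ≤ s → s ≤ t → 0 ≤ A s := fun s h0 h1 =>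
    le_trans (by (clear * -; positivity)) (hAb (s, 0) h0 (h1.trans htT)).1
  have hmono : Monotone (fun s => M * (1 + A s)) := fun s s' hs => by
    have := hA hs
    dsimp only
    (clear * - T P a C₀ hC₀ C₁ hC₁0 V this; gcongr)
  have hAi : IntervalIntegrable A volume 0 t := hA.intervalIntegrable
  have hint : ∫ s in (0 : ℝ)..t, M * (1 + A s) = M * (t + ∫ s in (0 : ℝ)..t, A s) := by
    rw [intervalIntegral.integral_const_mul, intervalIntegral.integral_add (by simp) hAi]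
    simp
  have hAI0 : 0 ≤ ∫ s in (0 : ℝ)..t, A s :=
    intervalIntegral.integral_nonneg ht0 fun s hs => hA0 s hs.1 hs.2
  -- the kernel of order two
  have b1 : |∫ z, ∫ v, (fderiv ℝ (kk κ k) (v, z) (0, u v) - fderiv ℝ κ (v, z) (0, ee k))
      * (flx E₁ B₁ f₁ (t - ‖z‖, x + z, v) l - flx E₂ B₂ f₂ (t - ‖z‖, x + z, v) l)|
      ≤ D * ∫ s in (0 : ℝ)..t, M * (1 + A s) := by
    refine radial_bound ht0 hmono (fun z hz hzt => ?_) (fun z hz => ?_)
    · have hs0 : 0 ≤ t - ‖z‖ := by linarith only [hzt]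
      have hs1 : t - ‖z‖ ≤ T' := by linarith only [htT, norm_nonneg z]
      have h10 : 0 ≤ A (t - ‖z‖) := hA0 _ hs0 (by linarith only [t, z, norm_nonneg z])
      refine (pt_bound1 hC₀ (hC₁' k) (hle k) (fun v z hv hz => (hC v z hv hz).2.2)
        (fun v z hv hz => (hCk k v z hv hz).2.2) (fun v => hP₁ _ _ _ hs0 hs1)
        (fun v => hP₂ _ _ _ hs0 hs1) (fun v => ha₁ _) (fun v => ha₂ _)
        (hEB (t - ‖z‖, x + z) hs0 hs1).1 (hEB (t - ‖z‖, x + z) hs0 hs1).2 hz).trans ?_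
      exact alg1 hV0 hC₁0 ha0 h10 hM0 hM
    · have : ∀ v, flx E₁ B₁ f₁ (t - ‖z‖, x + z, v) l - flx E₂ B₂ f₂ (t - ‖z‖, x + z, v) l = 0 :=
        fun v => hH0 (t - ‖z‖, x + z) (by simp only; linarith only [t, z, hz]) v
      simp [this]
  -- the kernel of order one
  have b2 : |∫ z, ∫ v, kk κ k (v, z) * fderiv ℝ (fun y => flx E₁ B₁ f₁ y l - flx E₂ B₂ f₂ y l)
      (t - ‖z‖, x + z, v) (1, u v, 0)| ≤ D * ∫ s in (0 : ℝ)..t, M * (1 + A s) := by
    refine radial_bound ht0 hmono (fun z hz hzt => ?_) (fun z hz => ?_)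
    · have hs0 : 0 ≤ t - ‖z‖ := by linarith only [hzt]
      have hs1 : t - ‖z‖ ≤ T' := by linarith only [htT, norm_nonneg z]
      have h10 : 0 ≤ A (t - ‖z‖) := hA0 _ hs0 (by linarith only [t, z, norm_nonneg z])
      have hzp : 0 < ‖z‖ := norm_pos_iff.2 hz
      have h12 : ‖z‖⁻¹ ≤ |T| * (‖z‖⁻¹) ^ 2 := by
        calc ‖z‖⁻¹ = ‖z‖ * (‖z‖⁻¹) ^ 2 := by field_simp
          _ ≤ |T| * (‖z‖⁻¹) ^ 2 := by
            gcongr
            exact hzt.trans hTT
      refine (pt_bound2 hκ (hC₁' k) (fun v z hv hz => ⟨(hCk k v z hv hz).1, (hCk k v z hv hz).2.1⟩)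
        hf₁ hf₂ hE₁ hB₁ hE₂ hB₂ hV₁ hV₂ (fun v => hP₁ _ _ _ hs0 hs1)
        (fun v => hP₂ _ _ _ hs0 hs1) (fun v => ha₁ _) (fun v => ha₂ _)
        (hEB (t - ‖z‖, x + z) hs0 hs1).1 (hEB (t - ‖z‖, x + z) hs0 hs1).2
        (hAb (t - ‖z‖, x + z) hs0 hs1).1 (hAb (t - ‖z‖, x + z) hs0 hs1).2 hz).trans ?_
      exact alg2 hV0 hC₀ (hC₁' k) (hle k) ha0 h10 hM (by positivity) h12
    · have : ∀ v, fderiv ℝ (fun y => flx E₁ B₁ f₁ y l - flx E₂ B₂ f₂ y l) (t - ‖z‖, x + z, v)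
          (1, u v, 0) = 0 := fun v =>
        hHS0 (t - ‖z‖, x + z) (by simp only; linarith only [hz]) v
      simp [this]
  rw [key_identity hκ hh hHs hHl k t x]
  refine (abs_add_le _ _).trans ((add_le_add b1 b2).trans ?_)
  rw [hint]
  have hfin := alg3 hD0 hM0 hAI0 hTT
  calc _ ≤ D * M * (|T| + 1) * (1 + ∫ s in (0 : ℝ)..t, A s)
        + D * M * (|T| + 1) * (1 + ∫ s in (0 : ℝ)..t, A s) := add_le_add hfin hfin
    _ = _ := by ring

end Vale.Agent.P107.LE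
end
end
end

section

section

attribute [-instance] ProperSMul.toContinuousSMul IsTopologicalTorsor.toContinuousSMul
  IdemSemiring.toCanonicallyOrderedAdd IdemSemiring.toMulLeftMono IdemSemiring.toMulRightMono
  AddQuantale.instAddLeftMono AddQuantale.instAddRightMono Quantale.instMulLeftMono
  Quantale.instMulRightMono FiniteDimensional.rclike_to_real IsScalarTower.complexToReal
  FiniteDimensional.complexToReal

section

/-!
Preparations for the logarithmic estimate.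
-/

open MeasureTheory Set Filter Topology
open scoped RealInnerProductSpace ENNReal NNReal ContDiff

namespace Vale.Agent.P107.LE

/-- Densities are bounded on bounded time intervals. -/
lemma SD.exists_bound_lg {F : Type*} [NormedAddCommGroup F] [NormedSpace ℝ F] {g : ℝ × E3 × E3 → F}
    (h : SD g) (T : ℝ) : ∃ C : ℝ, 0 ≤ C ∧ ∀ (t : ℝ) (z : E3 × E3), |t| ≤ T → ‖g (t, z)‖ ≤ C := by
  obtain ⟨R, hR⟩ := h.supp T
  have hcomp : IsCompact (Icc (-T) T ×ˢ (Metric.closedBall (0 : E3) R ×ˢ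
      Metric.closedBall (0 : E3) R)) :=
    isCompact_Icc.prod ((isCompact_closedBall _ _).prod (isCompact_closedBall _ _))
  obtain ⟨C, hC⟩ := hcomp.exists_bound_of_continuousOn (f := g) h.smooth.continuous.continuousOn
  refine ⟨max C 0, le_max_right _ _, fun t z ht => ?_⟩
  obtain ⟨x, v⟩ := z
  by_cases h0 : g (t, x, v) = 0
  · rw [h0, norm_zero]; exact le_max_right _ _
  · obtain ⟨hx, hv⟩ := hR t x v ht h0
    refine (hC (t, x, v) ⟨abs_le.1 ht, ?_, ?_⟩).trans (le_max_left _ _)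
    · simpa using hx
    · simpa using hv

/-- Static fields. -/
lemma SB.static_lg {F : Type*} [NormedAddCommGroup F] [NormedSpace ℝ F] {W : E3 → F} (h : SB W) :
    SF (fun p : ℝ × E3 => W p.2) := by
  refine ⟨h.smooth.comp contDiff_snd, fun n T => ?_⟩
  obtain ⟨C, hC⟩ := h.bdd n
  refine ⟨C, fun p _ => ?_⟩
  have h1 : iteratedFDeriv ℝ n (fun p : ℝ × E3 => W p.2) p
      = (iteratedFDeriv ℝ n W p.2).compContinuousLinearMap
        (fun _ => ContinuousLinearMap.snd ℝ ℝ E3) :=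
    (ContinuousLinearMap.snd ℝ ℝ E3).iteratedFDeriv_comp_right h.smooth p
      (by exact_mod_cast le_top)
  rw [h1]
  refine (ContinuousMultilinearMap.norm_compContinuousLinearMap_le _ _).trans ?_
  have h2 : ∏ _i : Fin n, ‖ContinuousLinearMap.snd ℝ ℝ E3‖ ≤ 1 := by
    refine Finset.prod_le_one (fun _ _ => norm_nonneg _) fun _ _ => ?_
    exact ContinuousLinearMap.norm_snd_le ℝ ℝ E3
  calc _ ≤ ‖iteratedFDeriv ℝ n W p.2‖ * 1 := by (clear * - h2; gcongr)
    _ ≤ C := by rw [mul_one]; exact hC p.2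

lemma SF.bdd_fderiv_lg {F : Type*} [NormedAddCommGroup F] [NormedSpace ℝ F] {W : ℝ × E3 → F}
    (h : SF W) (T : ℝ) : ∃ C : ℝ, 0 ≤ C ∧ ∀ p : ℝ × E3, |p.1| ≤ T → ‖fderiv ℝ W p‖ ≤ C := by
  obtain ⟨C, hC⟩ := h.bdd 1 T
  refine ⟨max C 0, le_max_right _ _, fun p hp => ?_⟩
  rw [← norm_iteratedFDeriv_one]
  exact (hC p hp).trans (le_max_left _ _)

lemma SF.bdd_zero_lg {F : Type*} [NormedAddCommGroup F] [NormedSpace ℝ F] {W : ℝ × E3 → F}
    (h : SF W) (T : ℝ) : ∃ C : ℝ, 0 ≤ C ∧ ∀ p : ℝ × E3, |p.1| ≤ T → ‖W p‖ ≤ C := by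
  obtain ⟨C, hC⟩ := h.bdd 0 T
  refine ⟨max C 0, le_max_right _ _, fun p hp => ?_⟩
  rw [← norm_iteratedFDeriv_zero (𝕜 := ℝ)]
  exact (hC p hp).trans (le_max_left _ _)

lemma norm_lor_le_lg (e b v : E3) : ‖lor e b v‖ ≤ ‖e‖ + ‖b‖ := by
  unfold lor
  refine (norm_add_le _ _).trans ?_
  gcongr
  refine (norm_cross_le _ _).trans ?_
  have := (norm_u_lt_one v).le
  nlinarith only [this, norm_nonneg b]

/-- Truncated homogeneous kernels are velocity dependent kernels. -/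
lemma HK.kerV {n : ℕ} (hn : n = 1 ∨ n = 2) {κ : E3 × E3 → ℝ} (h : HK n κ) :
    KerV (fun v z => {y : E3 × E3 | y.2 ≠ 0}.indicator κ (v, z)) := by
  constructor
  · have h1 : Measurable ({y : E3 × E3 | y.2 ≠ 0}.indicator κ) := by
      classical
      have : {y : E3 × E3 | y.2 ≠ 0}.indicator κ
          = {y : E3 × E3 | y.2 ≠ 0}.piecewise κ (fun _ => 0) := by
        ext y; simp [indicator, piecewise]
      rw [this]
      exact h.smooth.continuousOn.measurable_piecewise continuousOn_const isOpen_nz_lg.measurableSet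
    exact h1.comp (by fun_prop : Measurable fun w : E3 × E3 => (w.1, w.2))
  · intro R
    obtain ⟨C, hC0, hC⟩ := hom_bound h.smooth n h.hom R
    refine ⟨C, fun v hv z => ?_⟩
    by_cases hz : z = 0
    · rw [indicator_of_notMem (by simp [hz]), abs_zero]; (clear * - hC0; positivity)
    · rw [indicator_of_mem (by simpa using hz)]
      refine ((hC v z hv hz).1).trans ?_
      gcongr
      have h2 : 0 ≤ ‖z‖⁻¹ := by positivity
      have h3 : 0 ≤ (‖z‖⁻¹) ^ 2 := by positivity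
      rcases hn with rfl | rfl
      · rw [pow_one]; linarith only [h3]
      · linarith only [h2]

lemma lateV_of_SD_lg {g : ℝ × E3 × E3 → ℝ} (hg : SD g) (hv : ∀ t ≤ 0, ∀ z, g (t, z) = 0) (T : ℝ) :
    LateV T (fun p v => g (p.1, p.2, v)) := by
  refine ⟨?_, fun p hp v => hv p.1 hp (p.2, v), fun t _ => ?_⟩
  · exact (hg.smooth.continuous.comp (by fun_prop :
      Continuous fun z : (ℝ × E3) × E3 => (z.1.1, z.1.2, z.2))).continuousOn
  · obtain ⟨R, hR⟩ := hg.supp |t|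
    refine ⟨R, fun p hp v hv' => ?_⟩
    by_contra h0
    have hp0 : 0 ≤ p.1 := by
      by_contra hneg
      exact h0 (hv p.1 (by linarith only [hneg]) (p.2, v))
    have := (hR p.1 p.2 v (by rw [abs_of_nonneg hp0]; exact hp.trans (le_abs_self t)) h0).2
    linarith only [hv', this]

lemma ae_ne_zero_lg : ∀ᵐ z : E3, z ≠ 0 := by
  rw [ae_iff]
  simp

/-- Double integrals against homogeneous kernels, over late densities, can be summed. -/
lemma double_integral_sum_lg {κ : Fin 3 → E3 × E3 → ℝ} (h : ∀ l, HK 1 (κ l))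
    {g : Fin 3 → ℝ × E3 × E3 → ℝ} (hg : ∀ l, SD (g l)) (hv : ∀ l, ∀ t ≤ 0, ∀ z, g l (t, z) = 0)
    (t : ℝ) (x : E3) :
    ∫ z, ∫ v, ∑ l, κ l (v, z) * g l (t - ‖z‖, x + z, v)
      = ∑ l, ∫ z, ∫ v, κ l (v, z) * g l (t - ‖z‖, x + z, v) := by
  have hint : ∀ l, Integrable (fun w : E3 × E3 =>
      {y : E3 × E3 | y.2 ≠ 0}.indicator (κ l) (w.1, w.2) * g l (t - ‖w.2‖, x + w.2, w.1))
      (volume.prod volume) := fun l =>
    ((h l).kerV (Or.inl rfl)).integrable (lateV_of_SD_lg (hg l) (hv l) (t + 1)) (by linarith) x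
  have hi1 : ∀ l, ∀ᵐ z : E3, Integrable (fun v : E3 =>
      κ l (v, z) * g l (t - ‖z‖, x + z, v)) := by
    intro l
    filter_upwards [(hint l).prod_left_ae, ae_ne_zero_lg] with z hz hz0
    refine hz.congr (ae_of_all _ fun v => ?_)
    simp only
    rw [indicator_of_mem (by simpa using hz0)]
  have hi2 : ∀ l, Integrable (fun z : E3 => ∫ v, κ l (v, z) * g l (t - ‖z‖, x + z, v)) := by
    intro l
    refine ((hint l).integral_prod_right).congr ?_
    filter_upwards [ae_ne_zero_lg] with z hz0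
    refine integral_congr_ae (ae_of_all _ fun v => ?_)
    simp only
    rw [indicator_of_mem (by simpa using hz0)]
  rw [← integral_finsetSum _ fun l _ => hi2 l]
  refine integral_congr_ae ?_
  have hall : ∀ᵐ z : E3, ∀ l, Integrable (fun v : E3 =>
      κ l (v, z) * g l (t - ‖z‖, x + z, v)) := ae_all_iff.2 hi1
  filter_upwards [hall] with z hz
  exact integral_finsetSum _ fun l _ => hz l

/-- The second term of the representation. -/
lemma second_term_lg {K : E3 × E3 → ℝ} (hK : HK 1 K) (T P a : ℝ) : ∃ C : ℝ, 0 ≤ C ∧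
    ∀ (f₁ f₂ : ℝ × E3 × E3 → ℝ) (E₁ B₁ E₂ B₂ : ℝ × E3 → E3),
    SD f₁ → SD f₂ → SF E₁ → SF B₁ → SF E₂ → SF B₂ → Vl E₁ B₁ f₁ → Vl E₂ B₂ f₂ →
    (∃ η > 0, ∀ t ≤ η, (∀ z, f₁ (t, z) = f₂ (t, z)) ∧
      ∀ x, E₁ (t, x) = E₂ (t, x) ∧ B₁ (t, x) = B₂ (t, x)) →
    ∀ T' ≤ T, MB P T' f₁ → MB P T' f₂ → (∀ p, |f₁ p| ≤ a) → (∀ p, |f₂ p| ≤ a) →
    (∀ p : ℝ × E3, 0 ≤ p.1 → p.1 ≤ T' → ‖E₁ p‖ + ‖B₁ p‖ ≤ a ∧ ‖E₂ p‖ + ‖B₂ p‖ ≤ a) →
    ∀ A : ℝ → ℝ, Monotone A → (∀ p : ℝ × E3, 0 ≤ p.1 → p.1 ≤ T' →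
      ‖fderiv ℝ E₁ p‖ + ‖fderiv ℝ B₁ p‖ ≤ A p.1 ∧ ‖fderiv ℝ E₂ p‖ + ‖fderiv ℝ B₂ p‖ ≤ A p.1) →
    ∀ (k : Fin 3) (t : ℝ) (x : E3), 0 ≤ t → t ≤ T' →
      |∫ z, ∫ v, fderiv ℝ (fun w => K (w, z)) v
          (fderiv ℝ (fun y => flx E₁ B₁ f₁ y - flx E₂ B₂ f₂ y) (t - ‖z‖, x + z, v) (0, ee k, 0))|
        ≤ C * (1 + ∫ s in (0 : ℝ)..t, A s) := by
  have hκ : ∀ l : Fin 3, HK 1 (fun y => fderiv ℝ (fun w => K (w, y.2)) y.1 (ee l)) :=
    fun l => hK.vderiv (ee l)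
  choose C hC0 hC using fun l => term2_bound (hκ l).smooth (hκ l).hom T P a
  refine ⟨∑ l, C l, Finset.sum_nonneg fun l _ => hC0 l, ?_⟩
  intro f₁ f₂ E₁ B₁ E₂ B₂ hf₁ hf₂ hE₁ hB₁ hE₂ hB₂ hV₁ hV₂ hη T' hT' hM₁ hM₂ ha₁ ha₂ ha A hA hAb
    k t x ht htT
  have hH : SD (fun y => flx E₁ B₁ f₁ y - flx E₂ B₂ f₂ y) := by
    have h1 := SD.flx hE₁ hB₁ hf₁
    have h2 := SD.flx hE₂ hB₂ hf₂
    refine ⟨h1.smooth.sub h2.smooth, fun T => ?_⟩
    obtain ⟨R1, hR1⟩ := h1.supp T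
    obtain ⟨R2, hR2⟩ := h2.supp T
    refine ⟨max R1 R2, fun t x v ht h0 => ?_⟩
    by_cases h3 : flx E₁ B₁ f₁ (t, x, v) = 0
    · have h4 : flx E₂ B₂ f₂ (t, x, v) ≠ 0 := by
        intro h5; exact h0 (by simp only [h3, h5, sub_zero])
      obtain ⟨h6, h7⟩ := hR2 t x v ht h4
      exact ⟨h6.trans (le_max_right _ _), h7.trans (le_max_right _ _)⟩
    · obtain ⟨h6, h7⟩ := hR1 t x v ht h3
      exact ⟨h6.trans (le_max_left _ _), h7.trans (le_max_left _ _)⟩
  set H : ℝ × E3 × E3 → E3 := fun y => flx E₁ B₁ f₁ y - flx E₂ B₂ f₂ y with hHdef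
  have hHl : ∀ l : Fin 3, ∀ y d, (fderiv ℝ H y d) l
      = fderiv ℝ (fun y => flx E₁ B₁ f₁ y l - flx E₂ B₂ f₂ y l) y d := by
    intro l y d
    have h1 : HasFDerivAt H (fderiv ℝ H y) y := (hH.smooth.differentiable (by simp) y).hasFDerivAt
    have h2 := (EuclideanSpace.proj l : E3 →L[ℝ] ℝ).hasFDerivAt.comp y h1
    have h3 : fderiv ℝ (fun y => flx E₁ B₁ f₁ y l - flx E₂ B₂ f₂ y l) y
        = (EuclideanSpace.proj l : E3 →L[ℝ] ℝ).comp (fderiv ℝ H y) := h2.fderiv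
    rw [h3]
    rfl
  have hHs : ∀ l : Fin 3, SD (fun y => flx E₁ B₁ f₁ y l - flx E₂ B₂ f₂ y l) := by
    intro l
    refine ⟨(EuclideanSpace.proj l : E3 →L[ℝ] ℝ).contDiff.comp hH.smooth, fun T => ?_⟩
    obtain ⟨R, hR⟩ := hH.supp T
    refine ⟨R, fun t x v ht h0 => hR t x v ht fun h1 => h0 ?_⟩
    have : (H (t, x, v)) l = 0 := by rw [h1]; rfl
    exact this
  obtain ⟨η, hη0, hη1⟩ := hη
  have hlate : ∀ l : Fin 3, ∀ s ≤ 0, ∀ z,
      fderiv ℝ (fun y => flx E₁ B₁ f₁ y l - flx E₂ B₂ f₂ y l) (s, z) (0, ee k, 0) = 0 := by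
    intro l s hs z
    have h1 : (fun y => flx E₁ B₁ f₁ y l - flx E₂ B₂ f₂ y l) =ᶠ[𝓝 (s, z)] fun _ => 0 := by
      have h2 : {y : ℝ × E3 × E3 | y.1 < η} ∈ 𝓝 (s, z) :=
        (isOpen_lt continuous_fst continuous_const).mem_nhds (by simp; linarith only [hη0, hs])
      filter_upwards [h2] with y hy
      obtain ⟨h3, h4⟩ := hη1 y.1 (le_of_lt hy)
      have h5 : f₁ y = f₂ y := h3 y.2
      have h6 := h4 y.2.1
      simp only [flx, h5, h6.1, h6.2, sub_self]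
    rw [h1.fderiv_eq]
    simp
  have key : ∫ z, ∫ v, fderiv ℝ (fun w => K (w, z)) v (fderiv ℝ H (t - ‖z‖, x + z, v) (0, ee k, 0))
      = ∑ l, ∫ z, ∫ v, fderiv ℝ (fun w => K (w, z)) v (ee l)
        * fderiv ℝ (fun y => flx E₁ B₁ f₁ y l - flx E₂ B₂ f₂ y l)
          (t - ‖z‖, x + z, v) (0, ee k, 0) := by
    have h1 := double_integral_sum_lg hκ (fun l => SD.dir (hHs l) (0, ee k, 0)) hlate t x
    rw [← h1]
    congr 1
    ext z
    congr 1
    ext v
    rw [clm_apply_eq_sum]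
    refine Finset.sum_congr rfl fun l _ => ?_
    rw [hHl, mul_comm]
  rw [key]
  refine (Finset.abs_sum_le_sum_abs _ _).trans ?_
  rw [Finset.sum_mul]
  refine Finset.sum_le_sum fun l _ => ?_
  exact hC l f₁ f₂ E₁ B₁ E₂ B₂ hf₁ hf₂ hE₁ hB₁ hE₂ hB₂ hV₁ hV₂ ⟨η, hη0, hη1⟩ T' hT' hM₁ hM₂ ha₁ ha₂
    ha A hA hAb k l t x ht htT

end Vale.Agent.P107.LE
end
end
end

section

section

attribute [-instance] ProperSMul.toContinuousSMul IsTopologicalTorsor.toContinuousSMul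
  IdemSemiring.toCanonicallyOrderedAdd IdemSemiring.toMulLeftMono IdemSemiring.toMulRightMono
  AddQuantale.instAddLeftMono AddQuantale.instAddRightMono Quantale.instMulLeftMono
  Quantale.instMulRightMono FiniteDimensional.rclike_to_real IsScalarTower.complexToReal
  FiniteDimensional.complexToReal

section

/-!
Module LE: directional derivatives of late systems.
-/

open MeasureTheory Set Filter Topology
open scoped RealInnerProductSpace ENNReal NNReal ContDiff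

namespace Vale.Agent.P107.LE

theorem LateSys.dir {g : ℝ × E3 × E3 → ℝ} {H : ℝ × E3 × E3 → E3} {E B : ℝ × E3 → E3}
    (h : LateSys g H E B) (e : E3) :
    LateSys (fun y => fderiv ℝ g y (0, e, 0)) (fun y => fderiv ℝ H y (0, e, 0))
      (fun p => fderiv ℝ E p (0, e)) (fun p => fderiv ℝ B p (0, e)) := by
  refine ⟨h.sg.dir _, h.sH.dir _, h.sE.dir _, h.sB.dir _, ?_, h.tr.dir h.sg h.sH e, ?_⟩
  · have h1 := h.mx.dir h.sE h.sB h.sg.rhoD h.sg.curD e
    have h2 : (fun p => fderiv ℝ (LE.rhoD g) p (0, e))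
        = LE.rhoD (fun y => fderiv ℝ g y (0, e, 0)) := by
      funext p
      exact pxd_rhoD h.sg e p
    have h3 : (fun p => fderiv ℝ (LE.curD g) p (0, e))
        = LE.curD (fun y => fderiv ℝ g y (0, e, 0)) := by
      funext p
      ext i
      rw [← pxd_curD h.sg e i p]
      exact (alg_comp (alg_diff h.sg.curD.smooth p) i (0, e)).symm
    rw [h2, h3] at h1
    exact h1
  · obtain ⟨η, hη, hv⟩ := h.late
    refine ⟨η / 2, half_pos hη, fun t ht => ⟨fun z => ⟨?_, ?_⟩, fun x => ⟨?_, ?_⟩⟩⟩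
    · exact alg_zero (alg_early (g := g) (η := η) (fun p hp => ((hv p.1 hp).1 p.2).1)
        (show ((t, z) : ℝ × E3 × E3).1 < η by simp only; linarith only [hη, ht])) _
    · exact alg_zero (alg_early (g := H) (η := η) (fun p hp => ((hv p.1 hp).1 p.2).2)
        (show ((t, z) : ℝ × E3 × E3).1 < η by simp only; linarith only [hη, ht])) _
    · exact alg_zero (alg_early (g := E) (η := η) (fun p hp => ((hv p.1 hp).2 p.2).1)
        (show ((t, x) : ℝ × E3).1 < η by simp only; linarith only [hη, ht])) _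
    · exact alg_zero (alg_early (g := B) (η := η) (fun p hp => ((hv p.1 hp).2 p.2).2)
        (show ((t, x) : ℝ × E3).1 < η by simp only; linarith only [hη, ht])) _

end Vale.Agent.P107.LE
end
end
end

section

section

attribute [-instance] ProperSMul.toContinuousSMul IsTopologicalTorsor.toContinuousSMul
  IdemSemiring.toCanonicallyOrderedAdd IdemSemiring.toMulLeftMono IdemSemiring.toMulRightMono
  AddQuantale.instAddLeftMono AddQuantale.instAddRightMono Quantale.instMulLeftMono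
  Quantale.instMulRightMono FiniteDimensional.rclike_to_real IsScalarTower.complexToReal
  FiniteDimensional.complexToReal

section

/-!
The logarithmic estimate for the gradients of the fields.
-/

open MeasureTheory Set Filter Topology
open scoped RealInnerProductSpace ENNReal NNReal ContDiff

namespace Vale.Agent.P107.LE

lemma norm_E3_le_sum_lg (w : E3) : ‖w‖ ≤ ∑ i : Fin 3, |w i| := by
  have h1 : w = ∑ i : Fin 3, w i • ee i := by
    ext j
    fin_cases j <;> simp [Fin.sum_univ_three]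
  calc ‖w‖ = ‖∑ i : Fin 3, w i • ee i‖ := by rw [← h1]
    _ ≤ ∑ i : Fin 3, ‖w i • ee i‖ := norm_sum_le _ _
    _ = ∑ i : Fin 3, |w i| := by
        refine Finset.sum_congr rfl fun i _ => ?_
        rw [norm_smul, Real.norm_eq_abs]
        simp

/-- Norm of a linear map on `ℝ × E3` by its values on the basis. -/
lemma opNorm_le_basis_lg (L : ℝ × E3 →L[ℝ] E3) :
    ‖L‖ ≤ ‖L (1, 0)‖ + ∑ k : Fin 3, ‖L (0, ee k)‖ := by
  refine L.opNorm_le_bound (by positivity) fun p => ?_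
  have h1 : p.2 = ∑ i : Fin 3, p.2 i • ee i := by
    ext j
    fin_cases j <;> simp [Fin.sum_univ_three]
  have h2 : p = p.1 • ((1, 0) : ℝ × E3) + ∑ i : Fin 3, p.2 i • ((0, ee i) : ℝ × E3) := by
    ext1
    · simp [Prod.fst_sum]
    · simp only [Prod.snd_add, Prod.smul_snd, smul_zero, zero_add, Prod.snd_sum]
      exact h1
  calc ‖L p‖ = ‖p.1 • L (1, 0) + ∑ i : Fin 3, p.2 i • L (0, ee i)‖ := by
        conv_lhs => rw [h2, map_add, map_smul, map_sum]
        simp only [map_smul]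
    _ ≤ ‖p.1 • L (1, 0)‖ + ∑ i : Fin 3, ‖p.2 i • L (0, ee i)‖ :=
        (norm_add_le _ _).trans (by gcongr; exact norm_sum_le _ _)
    _ ≤ ‖p‖ * ‖L (1, 0)‖ + ∑ i : Fin 3, ‖p‖ * ‖L (0, ee i)‖ := by
        gcongr with i
        · rw [norm_smul]; gcongr; exact norm_fst_le p
        · rw [norm_smul]; gcongr
          exact (abs_component_le p.2 i).trans (norm_snd_le p)
    _ = _ := by rw [← Finset.mul_sum]; ring

/-- Bound of the current. -/
lemma curD_bound_lg {f : ℝ × E3 × E3 → ℝ} {P T' C : ℝ} (hM : MB P T' f) (hC0 : 0 ≤ C)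
    (hC : ∀ p, |f p| ≤ C) {t : ℝ} (ht : 0 ≤ t) (htT : t ≤ T') (x : E3) :
    ‖curD f (t, x)‖ ≤ C * volume.real (Metric.closedBall (0 : E3) P) := by
  unfold curD
  have h1 : Integrable ((Metric.closedBall (0 : E3) P).indicator (fun _ => C)) := by
    rw [integrable_indicator_iff measurableSet_closedBall]
    exact integrableOn_const measure_closedBall_lt_top.ne
  refine (norm_integral_le_of_norm_le h1 (ae_of_all _ fun v => ?_)).trans ?_
  · by_cases hv : v ∈ Metric.closedBall (0 : E3) P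
    · rw [indicator_of_mem hv, norm_smul]
      calc ‖f (t, x, v)‖ * ‖u v‖ ≤ C * 1 := by
            gcongr
            · exact hC _
            · exact (norm_u_lt_one v).le
        _ = C := mul_one _
    · rw [indicator_of_notMem hv]
      have : f (t, x, v) = 0 := by
        by_contra h0
        exact hv (by simpa using hM t x v ht htT h0)
      simp [this]
  · rw [integral_indicator measurableSet_closedBall, setIntegral_const, smul_eq_mul, mul_comm]

/-- The time derivative by the Maxwell equations. -/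
lemma time_bound_lg {E B : ℝ × E3 → E3} (hE : SF E) (hB : SF B) {ρ : ℝ × E3 → ℝ}
    {j : ℝ × E3 → E3} (hM : Mx (Ici 0) E B ρ j) {p : ℝ × E3} (hp : 0 ≤ p.1) {M J : ℝ}
    (hEk : ∀ k : Fin 3, ‖fderiv ℝ E p (0, ee k)‖ ≤ M)
    (hBk : ∀ k : Fin 3, ‖fderiv ℝ B p (0, ee k)‖ ≤ M) (hj : ‖j p‖ ≤ J) :
    ‖fderiv ℝ E p (1, 0)‖ ≤ 3 * (2 * M + J) ∧ ‖fderiv ℝ B p (1, 0)‖ ≤ 3 * (2 * M + J) := by
  have hJ : 0 ≤ J := (norm_nonneg _).trans hj
  have comp : ∀ {W : ℝ × E3 → E3}, SF W → ∀ (i : Fin 3) (d : ℝ × E3),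
      fderiv ℝ (fun y => W y i) p d = (fderiv ℝ W p d) i := by
    intro W hW i d
    have h1 : HasFDerivAt W (fderiv ℝ W p) p := (hW.smooth.differentiable (by simp) p).hasFDerivAt
    have h2 := (EuclideanSpace.proj i : E3 →L[ℝ] ℝ).hasFDerivAt.comp p h1
    have h3 : fderiv ℝ (fun y => W y i) p
        = (EuclideanSpace.proj i : E3 →L[ℝ] ℝ).comp (fderiv ℝ W p) := h2.fderiv
    rw [h3]; rfl
  constructor
  · refine (norm_E3_le_sum_lg _).trans ?_
    have : ∀ i : Fin 3, |(fderiv ℝ E p (1, 0)) i| ≤ 2 * M + J := by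
      intro i
      have h1 := hM.ampere p hp i
      unfold ptd pxd at h1
      rw [comp hE, comp hB, comp hB] at h1
      rw [h1]
      have h2 := (abs_component_le (fderiv ℝ B p (0, ee (i + 1))) (i + 2)).trans (hBk (i + 1))
      have h3 := (abs_component_le (fderiv ℝ B p (0, ee (i + 2))) (i + 1)).trans (hBk (i + 2))
      have h4 := (abs_component_le (j p) i).trans hj
      rw [abs_le] at *
      constructor <;> linarith only [h2.1, h3.2, h4.2, h2.2, h3.1, h4.1]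
    calc ∑ i : Fin 3, |(fderiv ℝ E p (1, 0)) i| ≤ ∑ _i : Fin 3, (2 * M + J) :=
          Finset.sum_le_sum fun i _ => this i
      _ = _ := by simp; ring
  · refine (norm_E3_le_sum_lg _).trans ?_
    have : ∀ i : Fin 3, |(fderiv ℝ B p (1, 0)) i| ≤ 2 * M + J := by
      intro i
      have h1 := hM.faraday p hp i
      unfold ptd pxd at h1
      rw [comp hB, comp hE, comp hE] at h1
      rw [h1]
      have h2 := (abs_component_le (fderiv ℝ E p (0, ee (i + 1))) (i + 2)).trans (hEk (i + 1))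
      have h3 := (abs_component_le (fderiv ℝ E p (0, ee (i + 2))) (i + 1)).trans (hEk (i + 2))
      rw [abs_le] at *
      constructor <;> linarith only [hJ, h2, h3, E, p, M, J, i, h2.1, h3.2]
    calc ∑ i : Fin 3, |(fderiv ℝ B p (1, 0)) i| ≤ ∑ _i : Fin 3, (2 * M + J) :=
          Finset.sum_le_sum fun i _ => this i
      _ = _ := by simp; ring

variable {f₀ : E3 × E3 → ℝ} {E₀ B₀ : E3 → E3} {fL : ℝ × E3 × E3 → ℝ} {EL BL : ℝ × E3 → E3}

section Facts

variable {ε t : ℝ} {f : ℝ × E3 × E3 → ℝ} {E B : ℝ × E3 → E3}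

lemma dl_bounds_lg (hε : 0 < ε) (h : EpsSol fL EL BL ε f E B) {C : ℝ}
    (hfb : ∀ s x, 0 ≤ s → s ≤ t → ‖E (s, x)‖ + ‖B (s, x)‖ ≤ C) (p : ℝ × E3) (h0 : 0 ≤ p.1)
    (h1 : p.1 ≤ t) : ‖dl ε E p‖ ≤ C ∧ ‖dl ε B p‖ ≤ C := by
  constructor
  · refine dl_bound hε h.sE fun r hr0 hr1 => ?_
    rw [max_eq_left h0] at hr1
    have := hfb r.1 r.2 hr0 (hr1.trans h1)
    have h2 := norm_nonneg (B (r.1, r.2))
    change ‖E (r.1, r.2)‖ ≤ C
    linarith
  · refine dl_bound hε h.sB fun r hr0 hr1 => ?_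
    rw [max_eq_left h0] at hr1
    have := hfb r.1 r.2 hr0 (hr1.trans h1)
    have h2 := norm_nonneg (E (r.1, r.2))
    change ‖B (r.1, r.2)‖ ≤ C
    linarith only [E, B, C, r, this, h2]

lemma dl_fderiv_bounds_lg (hε : 0 < ε) (h : EpsSol fL EL BL ε f E B) {A : ℝ → ℝ} (hA : Monotone A)
    (hAb : ∀ p : ℝ × E3, 0 ≤ p.1 → p.1 ≤ t → ‖fderiv ℝ E p‖ + ‖fderiv ℝ B p‖ ≤ A p.1)
    (p : ℝ × E3) (h0 : 0 ≤ p.1) (h1 : p.1 ≤ t) :
    ‖fderiv ℝ (dl ε E) p‖ ≤ A p.1 ∧ ‖fderiv ℝ (dl ε B) p‖ ≤ A p.1 := by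
  constructor
  · refine dl_fderiv_bound hε h.sE fun r hr0 hr1 => ?_
    rw [max_eq_left h0] at hr1
    have := hAb r hr0 (hr1.trans h1)
    have h2 := norm_nonneg (fderiv ℝ B r)
    have h3 := hA hr1
    linarith only [this, h2, h3]
  · refine dl_fderiv_bound hε h.sB fun r hr0 hr1 => ?_
    rw [max_eq_left h0] at hr1
    have := hAb r hr0 (hr1.trans h1)
    have h2 := norm_nonneg (fderiv ℝ E r)
    have h3 := hA hr1
    linarith only [this, h2, h3]

lemma eps_early_lg (hL : Layer f₀ E₀ B₀ fL EL BL) (hε : 0 < ε) (h : EpsSol fL EL BL ε f E B) :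
    ∀ s ≤ ε, (∀ z, f (s, z) = fL (s, z)) ∧ ∀ x, dl ε E (s, x) = E₀ x ∧ dl ε B (s, x) = B₀ x := by
  intro s hs
  refine ⟨h.agf s hs, fun x => ⟨?_, ?_⟩⟩
  · rw [dl_early hε h.sE (p := (s, x)) hs, h.agE 0 hε.le, hL.E0]
  · rw [dl_early hε h.sB (p := (s, x)) hs, h.agB 0 hε.le, hL.B0]

lemma eps_zero_lg (hL : Layer f₀ E₀ B₀ fL EL BL) (hε : 0 < ε) (h : EpsSol fL EL BL ε f E B) :
    ∀ s ≤ ε, ∀ z, (fun y => f y - fL y) (s, z) = 0 ∧
      (fun y => flx (dl ε E) (dl ε B) f y - flx (fun p => E₀ p.2) (fun p => B₀ p.2) fL y) (s, z)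
        = 0 := by
  intro s hs z
  obtain ⟨h1, h2⟩ := eps_early_lg hL hε h s hs
  refine ⟨by simp only [h1, sub_self], ?_⟩
  obtain ⟨x, v⟩ := z
  simp only [flx, h1, (h2 x).1, (h2 x).2, sub_self]

lemma eps_supp_lg (hL : Layer f₀ E₀ B₀ fL EL BL) (hε : 0 < ε) (h : EpsSol fL EL BL ε f E B)
    {P : ℝ} (hMf : MB P t f) (hML : MB P t fL) :
    ∀ s x v, s ≤ t → P < ‖v‖ → (fun y => f y - fL y) (s, x, v) = 0 ∧
      (fun y => flx (dl ε E) (dl ε B) f y - flx (fun p => E₀ p.2) (fun p => B₀ p.2) fL y) (s, x, v)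
        = 0 := by
  intro s x v hs hv
  rcases le_total s 0 with h0 | h0
  · exact eps_zero_lg hL hε h s (h0.trans hε.le) (x, v)
  · have h1 : f (s, x, v) = 0 := by
      by_contra h2; exact absurd (hMf s x v h0 hs h2) (not_le.2 hv)
    have h3 : fL (s, x, v) = 0 := by
      by_contra h2; exact absurd (hML s x v h0 hs h2) (not_le.2 hv)
    exact ⟨by simp only [h1, h3, sub_self], by simp only [flx, h1, h3, zero_smul, sub_self]⟩

lemma eps_gH_lg (hL : Layer f₀ E₀ B₀ fL EL BL) (hε : 0 < ε) (h : EpsSol fL EL BL ε f E B)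
    {C1 C2 K : ℝ} (hC10 : 0 ≤ C1) (hC20 : 0 ≤ C2) (hK0 : 0 ≤ K)
    (hdl : ∀ p : ℝ × E3, 0 ≤ p.1 → p.1 ≤ t → ‖dl ε E p‖ ≤ C1 ∧ ‖dl ε B p‖ ≤ C1)
    (hf : ∀ p, |f p| ≤ C2) (hfL : ∀ p, |fL p| ≤ C2) (h0b : ∀ x, ‖E₀ x‖ + ‖B₀ x‖ ≤ K) :
    ∀ s z, s ≤ t → |(fun y => f y - fL y) (s, z)| +
      ‖(fun y => flx (dl ε E) (dl ε B) f y - flx (fun p => E₀ p.2) (fun p => B₀ p.2) fL y) (s, z)‖
        ≤ 2 * C2 + C2 * (2 * C1 + K) := by
  intro s z hs
  rcases le_total s 0 with h0 | h0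
  · obtain ⟨h1, h2⟩ := eps_zero_lg hL hε h s (h0.trans hε.le) z
    rw [h1, h2, abs_zero, norm_zero, add_zero]
    (clear * - hC10 hC20 hK0; positivity)
  · obtain ⟨x, v⟩ := z
    have b3 : |f (s, x, v) - fL (s, x, v)| ≤ 2 * C2 := by
      refine (abs_sub _ _).trans ?_
      linarith [hf (s, x, v), hfL (s, x, v)]
    have b4 : ‖flx (dl ε E) (dl ε B) f (s, x, v)‖ ≤ C2 * (2 * C1) := by
      simp only [flx]
      rw [norm_smul, Real.norm_eq_abs]
      gcongr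
      · exact hf _
      · refine (norm_lor_le_lg _ _ _).trans ?_
        have e1 := hdl (s, x) h0 hs
        linarith only [e1.1, e1.2]
    have b5 : ‖flx (fun p => E₀ p.2) (fun p => B₀ p.2) fL (s, x, v)‖ ≤ C2 * K := by
      simp only [flx]
      rw [norm_smul, Real.norm_eq_abs]
      gcongr
      · exact hfL _
      · exact (norm_lor_le_lg _ _ _).trans (h0b x)
    have b6 := (norm_sub_le (flx (dl ε E) (dl ε B) f (s, x, v))
      (flx (fun p => E₀ p.2) (fun p => B₀ p.2) fL (s, x, v))).trans (add_le_add b4 b5)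
    have b7 := add_le_add b3 b6
    refine b7.trans (le_of_eq ?_)
    ring

lemma eps_gn_lg (hL : Layer f₀ E₀ B₀ fL EL BL) (hε : 0 < ε) (h : EpsSol fL EL BL ε f E B)
    {N : ℝ → ℝ} (hN : Monotone N) (ht : 0 ≤ t)
    (hNb : ∀ s z, 0 ≤ s → s ≤ t → ‖fderiv ℝ (fun z => f (s, z)) z‖ ≤ N s) {n : ℝ} (hn : 0 ≤ n)
    (k : Fin 3) (hnL : ∀ s z, 0 ≤ s → s ≤ t → |fderiv ℝ fL (s, z) (0, ee k, 0)| ≤ n) :
    ∀ s z, s ≤ t → |fderiv ℝ (fun y => f y - fL y) (s, z) (0, ee k, 0)| ≤ N t + n := by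
  have hN0 : 0 ≤ N t := (norm_nonneg _).trans (hNb t (0, 0) ht le_rfl)
  intro s z hs
  rcases lt_or_ge s ε with h0 | h0
  · have h1 : (fun y => f y - fL y) =ᶠ[𝓝 (s, z)] fun _ => 0 := by
      have h2 : {y : ℝ × E3 × E3 | y.1 < ε} ∈ 𝓝 (s, z) :=
        (isOpen_lt continuous_fst continuous_const).mem_nhds h0
      filter_upwards [h2] with y hy
      exact (eps_zero_lg hL hε h y.1 (le_of_lt hy) y.2).1
    rw [h1.fderiv_eq]
    simp only [fderiv_fun_const, Pi.zero_apply, zero_apply, abs_zero]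
    positivity
  · have hs0 : 0 ≤ s := hε.le.trans h0
    have h1 : HasFDerivAt f (fderiv ℝ f (s, z)) (s, z) :=
      (h.sd.smooth.differentiable (by simp) _).hasFDerivAt
    have h2 : HasFDerivAt fL (fderiv ℝ fL (s, z)) (s, z) :=
      (hL.sd.smooth.differentiable (by simp) _).hasFDerivAt
    have h3 : fderiv ℝ (fun y => f y - fL y) (s, z) = fderiv ℝ f (s, z) - fderiv ℝ fL (s, z) :=
      (h1.sub h2).fderiv
    have h4 : HasFDerivAt (fun z : E3 × E3 => (s, z)) (ContinuousLinearMap.inr ℝ ℝ (E3 × E3)) z :=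
      (hasFDerivAt_const s z).prodMk (hasFDerivAt_id z)
    have h5 : fderiv ℝ (fun z => f (s, z)) z
        = (fderiv ℝ f (s, z)).comp (ContinuousLinearMap.inr ℝ ℝ (E3 × E3)) :=
      (h1.comp z h4).fderiv
    have h6 : fderiv ℝ f (s, z) (0, ee k, 0) = fderiv ℝ (fun z => f (s, z)) z (ee k, 0) := by
      rw [h5]; rfl
    have h7 : |fderiv ℝ f (s, z) (0, ee k, 0)| ≤ N t := by
      rw [h6]
      have e1 := (fderiv ℝ (fun z => f (s, z)) z).le_opNorm (ee k, 0)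
      have e2 : ‖((ee k, 0) : E3 × E3)‖ = 1 := by
        rw [Prod.norm_def]; simp
      rw [e2, mul_one, Real.norm_eq_abs] at e1
      exact e1.trans ((hNb s z hs0 hs).trans (hN hs))
    rw [h3]
    exact (abs_sub _ _).trans (add_le_add h7 (hnL s z hs0 hs))

/-- All the data needed for the bounds of the two terms. -/
structure Fct (f₀ : E3 × E3 → ℝ) (E₀ B₀ : E3 → E3) (fL : ℝ × E3 × E3 → ℝ) (EL BL : ℝ × E3 → E3)
    (P a1 a2 nl l ε t : ℝ) (A : ℝ → ℝ) (n : ℝ)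
    (f : ℝ × E3 × E3 → ℝ) (E B : ℝ × E3 → E3) : Prop where
  supp : ∀ s x v, s ≤ t → P < ‖v‖ → (fun y => f y - fL y) (s, x, v) = 0 ∧
      (fun y => flx (dl ε E) (dl ε B) f y - flx (fun p => E₀ p.2) (fun p => B₀ p.2) fL y) (s, x, v)
        = 0
  gH : ∀ s z, s ≤ t → |(fun y => f y - fL y) (s, z)| +
      ‖(fun y => flx (dl ε E) (dl ε B) f y - flx (fun p => E₀ p.2) (fun p => B₀ p.2) fL y) (s, z)‖
        ≤ a1
  gn : ∀ (k : Fin 3) s z, s ≤ t →
    |fderiv ℝ (fun y => f y - fL y) (s, z) (0, ee k, 0)| ≤ n + nl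
  MBf : MB P t f
  MBL : MB P t fL
  f_le : ∀ p, |f p| ≤ a2
  fL_le : ∀ p, |fL p| ≤ a2
  fields : ∀ p : ℝ × E3, 0 ≤ p.1 → p.1 ≤ t → ‖dl ε E p‖ + ‖dl ε B p‖ ≤ a2 ∧
      ‖(fun p : ℝ × E3 => E₀ p.2) p‖ + ‖(fun p : ℝ × E3 => B₀ p.2) p‖ ≤ a2
  grads : ∀ p : ℝ × E3, 0 ≤ p.1 → p.1 ≤ t →
      ‖fderiv ℝ (dl ε E) p‖ + ‖fderiv ℝ (dl ε B) p‖ ≤ 2 * A p.1 + l ∧
      ‖fderiv ℝ (fun p : ℝ × E3 => E₀ p.2) p‖ + ‖fderiv ℝ (fun p : ℝ × E3 => B₀ p.2) p‖
        ≤ 2 * A p.1 + l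
  early : ∀ s ≤ ε, (∀ z, f (s, z) = fL (s, z)) ∧ ∀ x, dl ε E (s, x) = E₀ x ∧ dl ε B (s, x) = B₀ x
  A_nonneg : ∀ s, 0 ≤ s → s ≤ t → 0 ≤ A s

end Facts

lemma exists_fct_lg (hD : Dat f₀ E₀ B₀) (hL : Layer f₀ E₀ B₀ fL EL BL) (T P : ℝ) :
    ∃ P2 a1 a2 nl l : ℝ, 0 ≤ a1 ∧ 0 ≤ nl ∧ 0 ≤ l ∧ ∀ ε f E B, 0 < ε → EpsSol fL EL BL ε f E B →
      ∀ t, 0 ≤ t → t ≤ T → MB P t f →
      ∀ A N : ℝ → ℝ, Monotone A → Monotone N →
      (∀ p : ℝ × E3, 0 ≤ p.1 → p.1 ≤ t → ‖fderiv ℝ E p‖ + ‖fderiv ℝ B p‖ ≤ A p.1) →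
      (∀ s z, 0 ≤ s → s ≤ t → ‖fderiv ℝ (fun z => f (s, z)) z‖ ≤ N s) →
      Fct f₀ E₀ B₀ fL EL BL P2 a1 a2 nl l ε t A (N t) f E B := by
  obtain ⟨C1, hC10, hC1⟩ := sup_bound hD hL T P
  obtain ⟨C2, hC20, hfL, hC2⟩ := EpsSol.sup_f hD hL
  obtain ⟨R, hR⟩ := hL.sd.supp |T|
  obtain ⟨Ke, hKe0, hKe⟩ := (SB.static_lg hD.sE).bdd_zero_lg |T|
  obtain ⟨Kb, hKb0, hKb⟩ := (SB.static_lg hD.sB).bdd_zero_lg |T|
  obtain ⟨Le, hLe0, hLe⟩ := (SB.static_lg hD.sE).bdd_fderiv_lg |T|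
  obtain ⟨Lb, hLb0, hLb⟩ := (SB.static_lg hD.sB).bdd_fderiv_lg |T|
  choose nL hnL0 hnL using fun k : Fin 3 => (SD.dir hL.sd (0, ee k, 0)).exists_bound_lg |T|
  have hnl0 : 0 ≤ ∑ k, nL k := Finset.sum_nonneg fun k _ => hnL0 k
  refine ⟨max P R, 2 * C2 + C2 * (2 * C1 + (Ke + Kb)), C2 + 2 * C1 + (Ke + Kb), ∑ k, nL k,
    Le + Lb, by (clear * - hC10 hC20 hKe0 hKb0; positivity), hnl0, by positivity, ?_⟩
  intro ε f E B hε h t ht htT hM A N hA hN hAb hNb
  have habsT : ∀ s, 0 ≤ s → s ≤ t → |s| ≤ |T| := by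
    intro s h0 h1
    rw [abs_of_nonneg h0]
    exact (h1.trans htT).trans (le_abs_self T)
  have hdl := dl_bounds_lg hε h (fun s x h0 h1 => hC1 ε f E B hε h t htT hM s x h0 h1)
  have hdl' := dl_fderiv_bounds_lg hε h hA hAb
  have hE0b : ∀ x : E3, ‖E₀ x‖ ≤ Ke := fun x => hKe (0, x) (by simp)
  have hB0b : ∀ x : E3, ‖B₀ x‖ ≤ Kb := fun x => hKb (0, x) (by simp)
  have hML : MB (max P R) t fL := fun s x v h0 h1 h2 =>
    ((hR s x v (habsT s h0 h1) h2).2).trans (le_max_right _ _)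
  have hMf : MB (max P R) t f := fun s x v h0 h1 h2 =>
    (hM s x v h0 h1 h2).trans (le_max_left _ _)
  have hA0 : ∀ s, 0 ≤ s → s ≤ t → 0 ≤ A s := fun s h0 h1 =>
    (by (clear * -; positivity) : (0 : ℝ) ≤ ‖fderiv ℝ E (s, 0)‖ + ‖fderiv ℝ B (s, 0)‖).trans (hAb (s, 0) h0 h1)
  constructor
  · exact eps_supp_lg hL hε h hMf hML
  · exact eps_gH_lg hL hε h hC10 hC20 (by (clear * - hKe0 hKb0; positivity)) hdl (hC2 ε f E B hε h) hfL
      (fun x => add_le_add (hE0b x) (hB0b x))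
  · intro k
    refine eps_gn_lg hL hε h hN ht hNb hnl0 k fun s z h0 h1 => ?_
    have e1 := hnL k s z (habsT s h0 h1)
    rw [Real.norm_eq_abs] at e1
    refine e1.trans ?_
    exact Finset.single_le_sum (f := nL) (fun j _ => hnL0 j) (Finset.mem_univ k)
  · exact hMf
  · exact hML
  · intro p
    have := hC2 ε f E B hε h p
    linarith only [hC10, hKe0, hKb0, this]
  · intro p
    have := hfL p
    linarith only [hC10, hKe0, hKb0, this]
  · intro p h0 h1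
    have e1 := hdl p h0 h1
    have e3 := hE0b p.2
    have e4 := hB0b p.2
    constructor
    · linarith only [hC20, hKe0, hKb0, e1.1, e1.2]
    · simp only; linarith only [hC10, hC20, e3, e4]
  · intro p h0 h1
    have e1 := hdl' p h0 h1
    have e3 := hLe p (habsT p.1 h0 h1)
    have e4 := hLb p (habsT p.1 h0 h1)
    have e5 := hA0 p.1 h0 h1
    constructor
    · linarith only [hLe0, hLb0, e1.1, e1.2]
    · linarith only [e3, e4, e5]
  · exact eps_early_lg hL hε h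
  · exact hA0

/-- The first term. -/
lemma first_part_lg {κ : E3 × E3 → ℝ} (hκ : HK 2 κ) (T P a1 nl : ℝ) (ha1 : 0 ≤ a1) (hnl : 0 ≤ nl) :
    ∃ C : ℝ, 0 ≤ C ∧ ∀ g H E B, LateSys g H E B →
    ∀ t, 0 ≤ t → t ≤ T → (∀ s x v, s ≤ t → P < ‖v‖ → g (s, x, v) = 0 ∧ H (s, x, v) = 0) →
    (∀ s z, s ≤ t → |g (s, z)| + ‖H (s, z)‖ ≤ a1) → ∀ n : ℝ, 0 ≤ n →
    ∀ k : Fin 3, (∀ s z, s ≤ t → |fderiv ℝ g (s, z) (0, ee k, 0)| ≤ n + nl) →
    ∀ x, |∫ z, ∫ v, κ (v, z) * fderiv ℝ g (t - ‖z‖, x + z, v) (0, ee k, 0)|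
        ≤ C * (1 + Real.log (1 + n)) := by
  obtain ⟨D, hD0, hD⟩ := term1_bound hκ.smooth hκ.hom T P
  refine ⟨D * (1 + nl + a1), by positivity, ?_⟩
  intro g H E B hl t ht htT hsupp hgH n hn k hgn x
  have hδ0 : 0 < (1 + n)⁻¹ := by positivity
  have hδ1 : (1 + n)⁻¹ ≤ 1 := inv_le_one_of_one_le₀ (by linarith only [hn])
  have h1 := hD g H E B hl t htT hsupp a1 (n + nl) hgH k hgn (1 + n)⁻¹ hδ0 hδ1 t x ht le_rfl
  refine h1.trans ?_
  rw [mul_assoc, inv_inv]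
  gcongr
  have hlog0 : 0 ≤ Real.log (1 + n) := Real.log_nonneg (by linarith only [hn])
  have e1 : (1 + n)⁻¹ * (n + nl) ≤ 1 + nl := by
    rw [inv_mul_le_iff₀ (by positivity)]
    nlinarith only [hnl, hn]
  have e4 : 1 + nl ≤ (1 + nl) * (1 + Real.log (1 + n)) := by nlinarith only [hnl, hlog0]
  nlinarith only [e1, e4]

/-- The second term. -/
lemma second_part_lg {K : E3 × E3 → ℝ} (hK : HK 1 K) (T P a2 l : ℝ) (hl : 0 ≤ l)
    (hD : Dat f₀ E₀ B₀) (hL : Layer f₀ E₀ B₀ fL EL BL) :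
    ∃ C : ℝ, 0 ≤ C ∧ ∀ a1 nl ε t A n f E B, 0 < ε → EpsSol fL EL BL ε f E B → 0 ≤ t → t ≤ T →
      Monotone A → Fct f₀ E₀ B₀ fL EL BL P a1 a2 nl l ε t A n f E B → ∀ (k : Fin 3) x,
      |∫ z, ∫ v, fderiv ℝ (fun w => K (w, z)) v
          (fderiv ℝ (fun y => flx (dl ε E) (dl ε B) f y
            - flx (fun p => E₀ p.2) (fun p => B₀ p.2) fL y) (t - ‖z‖, x + z, v) (0, ee k, 0))|
        ≤ C * (1 + ∫ s in (0 : ℝ)..t, A s) := by
  obtain ⟨D, hD0, hD2⟩ := second_term_lg hK T P a2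
  refine ⟨D * (2 + l * |T|), by (clear * - hl hD0; positivity), ?_⟩
  intro a1 nl ε t A n f E B hε h ht htT hA hF k x
  have hA'm : Monotone fun s => 2 * A s + l := fun s s' hs => by
    simp only
    have := hA hs
    linarith only [this]
  have h2 := hD2 f fL _ _ _ _ h.sd hL.sd (dl_SF hε h.sE) (dl_SF hε h.sB) (SB.static_lg hD.sE)
    (SB.static_lg hD.sB) h.vl hL.vl ⟨ε, hε, fun s hs => hF.early s hs⟩ t htT hF.MBf hF.MBL hF.f_le
    hF.fL_le hF.fields (fun s => 2 * A s + l) hA'm hF.grads k t x ht le_rfl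
  refine h2.trans ?_
  rw [mul_assoc]
  gcongr
  have hAi : IntervalIntegrable A volume 0 t := hA.intervalIntegrable
  have hint0 : 0 ≤ ∫ s in (0 : ℝ)..t, A s :=
    intervalIntegral.integral_nonneg ht fun s hs => hF.A_nonneg s hs.1 hs.2
  rw [intervalIntegral.integral_add (hAi.const_mul 2) intervalIntegrable_const,
    intervalIntegral.integral_const_mul, intervalIntegral.integral_const, smul_eq_mul, sub_zero]
  have e1 : t ≤ |T| := htT.trans (le_abs_self T)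
  have e2 : t * l ≤ |T| * l := by (clear * - hl e1; gcongr)
  have e3 : 0 ≤ l * |T| := by (clear * - hl; positivity)
  nlinarith only [hint0, e2, e3]

lemma combine_lg {c W I1 I2 D1 D2 a b : ℝ} (hc : 0 < c) (h : c * |W| ≤ |I1| + |I2|)
    (h1 : |I1| ≤ D1 * (1 + a)) (h2 : |I2| ≤ D2 * (1 + b)) (hD1 : 0 ≤ D1) (hD2 : 0 ≤ D2)
    (ha : 0 ≤ a) (hb : 0 ≤ b) : |W| ≤ c⁻¹ * (D1 + D2) * (1 + a + b) := by
  rw [mul_assoc, ← div_eq_inv_mul, le_div_iff₀' hc]
  refine h.trans ?_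
  nlinarith only [h1, h2, mul_nonneg hD1 hb, mul_nonneg hD2 ha]

/-- Spatial derivatives of the difference fields. -/
lemma spatial_bound_lg (hD : Dat f₀ E₀ B₀) (hL : Layer f₀ E₀ B₀ fL EL BL) (T P : ℝ) :
    ∃ C : ℝ, 0 ≤ C ∧ ∀ ε f E B, 0 < ε → EpsSol fL EL BL ε f E B → ∀ t, 0 ≤ t → t ≤ T → MB P t f →
      ∀ A N : ℝ → ℝ, Monotone A → Monotone N →
      (∀ p : ℝ × E3, 0 ≤ p.1 → p.1 ≤ t → ‖fderiv ℝ E p‖ + ‖fderiv ℝ B p‖ ≤ A p.1) →
      (∀ s z, 0 ≤ s → s ≤ t → ‖fderiv ℝ (fun z => f (s, z)) z‖ ≤ N s) →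
      ∀ x (k i : Fin 3),
        |(fderiv ℝ (fun p => E p - EL p) (t, x) (0, ee k)) i|
          ≤ C * (1 + Real.log (1 + N t) + ∫ s in (0 : ℝ)..t, A s) ∧
        |(fderiv ℝ (fun p => B p - BL p) (t, x) (0, ee k)) i|
          ≤ C * (1 + Real.log (1 + N t) + ∫ s in (0 : ℝ)..t, A s) := by
  obtain ⟨P2, a1, a2, nl, l, ha1, hnl, hl, hF⟩ := exists_fct_lg hD hL T P
  choose D1 hD10 hD1 using fun i : Fin 3 => first_part_lg (HK.kT i) T P2 a1 nl ha1 hnl
  choose D1B hD1B0 hD1B using fun i : Fin 3 => first_part_lg (HK.kTB i) T P2 a1 nl ha1 hnl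
  choose D2 hD20 hD2 using fun i : Fin 3 => second_part_lg (HK.kS i) T P2 a2 l hl hD hL
  choose D2B hD2B0 hD2B using fun i : Fin 3 => second_part_lg (HK.kSB i) T P2 a2 l hl hD hL
  set c := sph.real univ with hc
  have hc0 : 0 < c := sph_pos
  set DD : ℝ := ∑ i, (c⁻¹ * (D1 i + D2 i) + c⁻¹ * (D1B i + D2B i)) with hDD
  have hterm : ∀ i, 0 ≤ c⁻¹ * (D1 i + D2 i) + c⁻¹ * (D1B i + D2B i) := fun i => by
    have := hD10 i
    have := hD1B0 i
    have := hD20 i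
    have := hD2B0 i
    positivity
  refine ⟨DD, Finset.sum_nonneg fun i _ => hterm i, ?_⟩
  intro ε f E B hε h t ht htT hM A N hA hN hAb hNb x k i
  have hFt := hF ε f E B hε h t ht htT hM A N hA hN hAb hNb
  have hlate := EpsSol.lateSys hD hL hε h
  have hdir := LateSys.dir hlate (ee k)
  have hN0 : 0 ≤ N t := (norm_nonneg _).trans (hNb t (0, 0) ht le_rfl)
  have hlog0 : 0 ≤ Real.log (1 + N t) := Real.log_nonneg (by linarith only [hN0])
  have hint0 : 0 ≤ ∫ s in (0 : ℝ)..t, A s :=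
    intervalIntegral.integral_nonneg ht fun s hs => hFt.A_nonneg s hs.1 hs.2
  have hle1 : c⁻¹ * (D1 i + D2 i) ≤ DD := by
    have h1 := Finset.single_le_sum (f := fun i => c⁻¹ * (D1 i + D2 i) + c⁻¹ * (D1B i + D2B i))
      (fun j _ => hterm j) (Finset.mem_univ i)
    have h2 : 0 ≤ c⁻¹ * (D1B i + D2B i) := by
      have := hD1B0 i
      have := hD2B0 i
      positivity
    linarith only [h1, h2]
  have hle2 : c⁻¹ * (D1B i + D2B i) ≤ DD := by
    have h1 := Finset.single_le_sum (f := fun i => c⁻¹ * (D1 i + D2 i) + c⁻¹ * (D1B i + D2B i))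
      (fun j _ => hterm j) (Finset.mem_univ i)
    have h2 : 0 ≤ c⁻¹ * (D1 i + D2 i) := by
      have := hD10 i
      have := hD20 i
      positivity
    linarith only [h1, h2]
  constructor
  · have hrep := rep_E hdir t x i
    have h1 := hD1 i _ _ _ _ hlate t ht htT hFt.supp hFt.gH (N t) hN0 k (hFt.gn k) x
    have h2 := hD2 i a1 nl ε t A (N t) f E B hε h ht htT hA hFt k x
    have h3 : ∫ z, ∫ v, dkS i v z (fderiv ℝ (fun y => flx (dl ε E) (dl ε B) f y
            - flx (fun p => E₀ p.2) (fun p => B₀ p.2) fL y) (t - ‖z‖, x + z, v) (0, ee k, 0))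
        = ∫ z, ∫ v, fderiv ℝ (fun w => P107.kS (u w) i z) v
          (fderiv ℝ (fun y => flx (dl ε E) (dl ε B) f y
            - flx (fun p => E₀ p.2) (fun p => B₀ p.2) fL y) (t - ‖z‖, x + z, v) (0, ee k, 0)) := by
      refine integral_congr_ae ?_
      filter_upwards [ae_ne_zero_lg] with z hz
      refine integral_congr_ae (ae_of_all _ fun v => ?_)
      exact (fderiv_kS_u i hz v _).symm
    rw [h3] at hrep
    have e1 : c * |(fderiv ℝ (fun p => E p - EL p) (t, x) (0, ee k)) i|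
        = |-(c * (fderiv ℝ (fun p => E p - EL p) (t, x) (0, ee k)) i)| := by
      rw [abs_neg, abs_mul, abs_of_pos hc0]
    have h6 := (le_of_eq (e1.trans (congrArg abs hrep))).trans (abs_add_le _ _)
    refine (combine_lg hc0 h6 h1 h2 (hD10 i) (hD20 i) hlog0 hint0).trans ?_
    (clear * - hlog0 hint0 hle1; gcongr)
  · have hrep := rep_B hdir t x i
    have h1 := hD1B i _ _ _ _ hlate t ht htT hFt.supp hFt.gH (N t) hN0 k (hFt.gn k) x
    have h2 := hD2B i a1 nl ε t A (N t) f E B hε h ht htT hA hFt k x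
    have e1 : c * |(fderiv ℝ (fun p => B p - BL p) (t, x) (0, ee k)) i|
        = |c * (fderiv ℝ (fun p => B p - BL p) (t, x) (0, ee k)) i| := by
      rw [abs_mul, abs_of_pos hc0]
    have h6 := (le_of_eq (e1.trans (congrArg abs hrep))).trans (abs_add_le _ _)
    refine (combine_lg hc0 h6 h1 h2 (hD1B0 i) (hD2B0 i) hlog0 hint0).trans ?_
    (clear * - hlog0 hint0 hle2; gcongr)

/-- L5. The logarithmic estimate. -/
theorem log_bound (hD : Dat f₀ E₀ B₀) (hL : Layer f₀ E₀ B₀ fL EL BL) (T P : ℝ) :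
    ∃ C : ℝ, 0 ≤ C ∧ ∀ ε f E B, 0 < ε → EpsSol fL EL BL ε f E B → ∀ T' ≤ T, MB P T' f →
      ∀ A N : ℝ → ℝ, Monotone A → Monotone N →
      (∀ p : ℝ × E3, 0 ≤ p.1 → p.1 ≤ T' → ‖fderiv ℝ E p‖ + ‖fderiv ℝ B p‖ ≤ A p.1) →
      (∀ t z, 0 ≤ t → t ≤ T' → ‖fderiv ℝ (fun z => f (t, z)) z‖ ≤ N t) →
      ∀ t x, 0 ≤ t → t ≤ T' → ‖fderiv ℝ E (t, x)‖ + ‖fderiv ℝ B (t, x)‖
        ≤ C * (1 + Real.log (1 + N t) + ∫ s in (0 : ℝ)..t, A s) := by
  obtain ⟨C1, hC10, hC1⟩ := spatial_bound_lg hD hL T P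
  obtain ⟨C2, hC20, hfL, hC2⟩ := EpsSol.sup_f hD hL
  obtain ⟨Le, hLe0, hLe⟩ := hL.sE.bdd_fderiv_lg |T|
  obtain ⟨Lb, hLb0, hLb⟩ := hL.sB.bdd_fderiv_lg |T|
  set J : ℝ := C2 * volume.real (Metric.closedBall (0 : E3) P) with hJ
  have hJ0 : 0 ≤ J := by positivity
  set M : ℝ := 3 * C1 + (Le + Lb) with hM
  have hM0 : 0 ≤ M := by positivity
  refine ⟨2 * (3 * (2 * M + J) + 3 * M), by (clear * - P C1 hC10 C2 hC20 Le hLe0 Lb hLb0; positivity), ?_⟩
  intro ε f E B hε h T' hT' hMB A N hA hN hAb hNb t x ht htT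
  have hMt : MB P t f := fun s x v h0 h1 h2 => hMB s x v h0 (h1.trans htT) h2
  have hsp := hC1 ε f E B hε h t ht (htT.trans hT') hMt A N hA hN
    (fun p h0 h1 => hAb p h0 (h1.trans htT)) (fun s z h0 h1 => hNb s z h0 (h1.trans htT)) x
  set S : ℝ := 1 + Real.log (1 + N t) + ∫ s in (0 : ℝ)..t, A s with hS
  have hN0 : 0 ≤ N t := (norm_nonneg _).trans (hNb t (0, 0) ht htT)
  have hlog0 : 0 ≤ Real.log (1 + N t) := Real.log_nonneg (by linarith only [hN0])
  have hint0 : 0 ≤ ∫ s in (0 : ℝ)..t, A s := by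
    refine intervalIntegral.integral_nonneg ht fun s hs => ?_
    exact (by (clear * -; positivity) : (0 : ℝ) ≤ ‖fderiv ℝ E (s, x)‖ + ‖fderiv ℝ B (s, x)‖).trans
      (hAb (s, x) hs.1 (hs.2.trans htT))
  have hS1 : 1 ≤ S := by rw [hS]; linarith only [hlog0, hint0]
  have habs : |t| ≤ |T| := by
    rw [abs_of_nonneg ht]; exact (htT.trans hT').trans (le_abs_self T)
  have hnk : ∀ k : Fin 3, ‖((0, ee k) : ℝ × E3)‖ = 1 := fun k => by rw [Prod.norm_def]; simp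
  have hEk : ∀ k : Fin 3, ‖fderiv ℝ E (t, x) (0, ee k)‖ ≤ M * S := by
    intro k
    have h1 : HasFDerivAt E (fderiv ℝ E (t, x)) (t, x) :=
      (h.sE.smooth.differentiable (by simp) _).hasFDerivAt
    have h2 : HasFDerivAt EL (fderiv ℝ EL (t, x)) (t, x) :=
      (hL.sE.smooth.differentiable (by simp) _).hasFDerivAt
    have h3 : fderiv ℝ (fun p => E p - EL p) (t, x) = fderiv ℝ E (t, x) - fderiv ℝ EL (t, x) :=
      (h1.sub h2).fderiv
    have h4 : fderiv ℝ E (t, x) (0, ee k)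
        = fderiv ℝ (fun p => E p - EL p) (t, x) (0, ee k) + fderiv ℝ EL (t, x) (0, ee k) := by
      rw [h3]; simp
    have h5 : ‖fderiv ℝ (fun p => E p - EL p) (t, x) (0, ee k)‖ ≤ 3 * C1 * S := by
      refine (norm_E3_le_sum_lg _).trans ?_
      calc _ ≤ ∑ _i : Fin 3, C1 * S := Finset.sum_le_sum fun i _ => (hsp k i).1
        _ = _ := by simp; ring
    have h6 : ‖fderiv ℝ EL (t, x) (0, ee k)‖ ≤ Le := by
      have := (fderiv ℝ EL (t, x)).le_opNorm (0, ee k)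
      rw [hnk, mul_one] at this
      exact this.trans (hLe (t, x) habs)
    rw [h4]
    refine (norm_add_le _ _).trans ?_
    rw [hM]
    nlinarith only [hLe0, hLb0, hlog0, hint0, h5, h6]
  have hBk : ∀ k : Fin 3, ‖fderiv ℝ B (t, x) (0, ee k)‖ ≤ M * S := by
    intro k
    have h1 : HasFDerivAt B (fderiv ℝ B (t, x)) (t, x) :=
      (h.sB.smooth.differentiable (by simp) _).hasFDerivAt
    have h2 : HasFDerivAt BL (fderiv ℝ BL (t, x)) (t, x) :=
      (hL.sB.smooth.differentiable (by simp) _).hasFDerivAt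
    have h3 : fderiv ℝ (fun p => B p - BL p) (t, x) = fderiv ℝ B (t, x) - fderiv ℝ BL (t, x) :=
      (h1.sub h2).fderiv
    have h4 : fderiv ℝ B (t, x) (0, ee k)
        = fderiv ℝ (fun p => B p - BL p) (t, x) (0, ee k) + fderiv ℝ BL (t, x) (0, ee k) := by
      rw [h3]; simp
    have h5 : ‖fderiv ℝ (fun p => B p - BL p) (t, x) (0, ee k)‖ ≤ 3 * C1 * S := by
      refine (norm_E3_le_sum_lg _).trans ?_
      calc _ ≤ ∑ _i : Fin 3, C1 * S := Finset.sum_le_sum fun i _ => (hsp k i).2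
        _ = _ := by simp; ring
    have h6 : ‖fderiv ℝ BL (t, x) (0, ee k)‖ ≤ Lb := by
      have := (fderiv ℝ BL (t, x)).le_opNorm (0, ee k)
      rw [hnk, mul_one] at this
      exact this.trans (hLb (t, x) habs)
    rw [h4]
    refine (norm_add_le _ _).trans ?_
    rw [hM]
    nlinarith only [hLe0, hLb0, hlog0, hint0, h5, h6]
  have hj := curD_bound_lg hMt hC20 (hC2 ε f E B hε h) ht le_rfl x
  have hj' : ‖curD f (t, x)‖ ≤ J * S := hj.trans (by nlinarith only [hJ0, hlog0, hint0])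
  obtain ⟨ht1, ht2⟩ := time_bound_lg h.sE h.sB h.mx (p := (t, x)) ht hEk hBk hj'
  have hE' : ‖fderiv ℝ E (t, x)‖ ≤ (3 * (2 * M + J) + 3 * M) * S := by
    refine (opNorm_le_basis_lg _).trans ?_
    calc _ ≤ 3 * (2 * (M * S) + J * S) + ∑ _k : Fin 3, M * S := by
          gcongr with k
          exact hEk k
      _ = _ := by simp; ring
  have hB' : ‖fderiv ℝ B (t, x)‖ ≤ (3 * (2 * M + J) + 3 * M) * S := by
    refine (opNorm_le_basis_lg _).trans ?_
    calc _ ≤ 3 * (2 * (M * S) + J * S) + ∑ _k : Fin 3, M * S := by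
          gcongr with k
          exact hBk k
      _ = _ := by simp; ring
  linarith only [hE', hB']

end Vale.Agent.P107.LE
end
end
end

section

section

attribute [-instance] ProperSMul.toContinuousSMul IsTopologicalTorsor.toContinuousSMul
  IdemSemiring.toCanonicallyOrderedAdd IdemSemiring.toMulLeftMono IdemSemiring.toMulRightMono
  AddQuantale.instAddLeftMono AddQuantale.instAddRightMono Quantale.instMulLeftMono
  Quantale.instMulRightMono FiniteDimensional.rclike_to_real IsScalarTower.complexToReal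
  FiniteDimensional.complexToReal

section

/-!
Growth of the phase space gradient and uniform first order bounds.
-/

open MeasureTheory Set Filter Topology
open scoped RealInnerProductSpace ENNReal NNReal ContDiff

namespace Vale.Agent.P107.LE

/-! ### Monotone suprema -/

/-- Supremum of `F` over the times in `[0, s]`. -/
noncomputable def grad_ms {X : Type*} (F : ℝ → X → ℝ) (s : ℝ) : ℝ :=
  sSup (insert 0 {r | ∃ s' x, 0 ≤ s' ∧ s' ≤ s ∧ r = F s' x})

section grad_ms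

variable {X : Type*} {F : ℝ → X → ℝ}

theorem grad_ms_bddAbove (hF : ∀ T : ℝ, ∃ C : ℝ, ∀ s x, 0 ≤ s → s ≤ T → F s x ≤ C) (s : ℝ) :
    BddAbove (insert 0 {r | ∃ s' x, 0 ≤ s' ∧ s' ≤ s ∧ r = F s' x}) := by
  obtain ⟨C, hC⟩ := hF s
  refine BddAbove.insert 0 ⟨C, ?_⟩
  rintro _ ⟨s', x, h0, h1, rfl⟩
  exact hC s' x h0 h1

theorem grad_ms_mono (hF : ∀ T : ℝ, ∃ C : ℝ, ∀ s x, 0 ≤ s → s ≤ T → F s x ≤ C) :
    Monotone (grad_ms F) := by
  intro s t hst
  refine csSup_le_csSup (grad_ms_bddAbove hF t) (insert_nonempty _ _) (insert_subset_insert ?_)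
  rintro _ ⟨s', x, h0, h1, rfl⟩
  exact ⟨s', x, h0, h1.trans hst, rfl⟩

theorem grad_ms_nonneg (hF : ∀ T : ℝ, ∃ C : ℝ, ∀ s x, 0 ≤ s → s ≤ T → F s x ≤ C) (s : ℝ) :
    0 ≤ grad_ms F s := le_csSup (grad_ms_bddAbove hF s) (mem_insert _ _)

theorem grad_le_ms (hF : ∀ T : ℝ, ∃ C : ℝ, ∀ s x, 0 ≤ s → s ≤ T → F s x ≤ C) {s' s : ℝ} (x : X)
    (h0 : 0 ≤ s') (h1 : s' ≤ s) : F s' x ≤ grad_ms F s :=
  le_csSup (grad_ms_bddAbove hF s) (mem_insert_of_mem _ ⟨s', x, h0, h1, rfl⟩)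

theorem grad_ms_le {s C : ℝ} (hC : 0 ≤ C) (h : ∀ s' x, 0 ≤ s' → s' ≤ s → F s' x ≤ C) :
    grad_ms F s ≤ C := by
  refine csSup_le (insert_nonempty _ _) ?_
  rintro r (rfl | ⟨s', x, h0, h1, rfl⟩)
  · exact hC
  · exact h s' x h0 h1

end grad_ms

/-! ### Gronwall with a monotone kernel -/

theorem grad_primitive_mono {k : ℝ → ℝ} (hk : Monotone k) (hk0 : ∀ t, 0 ≤ k t) :
    Monotone fun t => ∫ s in (0 : ℝ)..t, k s := by
  intro s t hst
  have h := intervalIntegral.integral_add_adjacent_intervals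
    (hk.intervalIntegrable (μ := volume) (a := 0) (b := s))
    (hk.intervalIntegrable (μ := volume) (a := s) (b := t))
  have h2 : 0 ≤ ∫ r in s..t, k r :=
    intervalIntegral.integral_nonneg hst fun r _ => hk0 r
  simp only
  linarith only [h, h2]

theorem grad_gronwall_kernel {N k : ℝ → ℝ} {a T : ℝ} (hN : Monotone N)
    (hN0 : ∀ t, 0 ≤ N t) (hk : Monotone k) (hk0 : ∀ t, 0 ≤ k t)
    (h : ∀ t, 0 ≤ t → t ≤ T → N t ≤ a + ∫ s in (0 : ℝ)..t, N s * k s) :
    ∀ t, 0 ≤ t → t ≤ T → N t ≤ a * Real.exp (2 * ∫ s in (0 : ℝ)..t, k s) := by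
  have hNk : Monotone fun s => N s * k s := fun s t hst =>
    mul_le_mul (hN hst) (hk hst) (hk0 s) (hN0 t)
  set K : ℝ → ℝ := fun t => ∫ s in (0 : ℝ)..t, k s with hK
  set Φ : ℝ → ℝ := fun t => a + ∫ s in (0 : ℝ)..t, N s * k s with hΦ
  have hKmono : Monotone K := grad_primitive_mono hk hk0
  have hK0 : K 0 = 0 := by simp [hK]
  have hKc : Continuous K :=
    intervalIntegral.continuous_primitive (fun x y => hk.intervalIntegrable) 0
  have hΦ0 : Φ 0 = a := by simp [hΦ]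
  have hstep : ∀ s t, 0 ≤ s → s ≤ t → t ≤ T → Φ t * (1 - (K t - K s)) ≤ Φ s := by
    intro s t hs hst ht
    have h1 : Φ t - Φ s = ∫ r in s..t, N r * k r := by
      have := intervalIntegral.integral_add_adjacent_intervals
        (hNk.intervalIntegrable (μ := volume) (a := 0) (b := s))
        (hNk.intervalIntegrable (μ := volume) (a := s) (b := t))
      simp only [hΦ]
      linarith only [this]
    have h2 : K t - K s = ∫ r in s..t, k r := by
      have := intervalIntegral.integral_add_adjacent_intervals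
        (hk.intervalIntegrable (μ := volume) (a := 0) (b := s))
        (hk.intervalIntegrable (μ := volume) (a := s) (b := t))
      simp only [hK]
      linarith only [this]
    have h3 : ∫ r in s..t, N r * k r ≤ ∫ r in s..t, N t * k r := by
      refine intervalIntegral.integral_mono_on hst hNk.intervalIntegrable
        (hk.intervalIntegrable.const_mul _) fun r hr => ?_
      exact mul_le_mul_of_nonneg_right (hN hr.2) (hk0 r)
    rw [intervalIntegral.integral_const_mul, ← h2, ← h1] at h3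
    have h4 : N t ≤ Φ t := h t (hs.trans hst) ht
    have h5 : 0 ≤ K t - K s := sub_nonneg.2 (hKmono hst)
    nlinarith only [h3, mul_le_mul_of_nonneg_right h4 h5]
  have hΦnn : ∀ t, 0 ≤ t → t ≤ T → 0 ≤ Φ t := fun t h0 h1 => (hN0 t).trans (h t h0 h1)
  have hexp : ∀ x : ℝ, 0 ≤ x → x ≤ 1 / 2 → 1 ≤ (1 - x) * Real.exp (2 * x) := by
    intro x h0 h1
    have h2 := Real.add_one_le_exp (2 * x)
    nlinarith only [h0, h1, h2]
  have hstep2 : ∀ s t, 0 ≤ s → s ≤ t → t ≤ T → K t - K s ≤ 1 / 2 →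
      Φ t ≤ Φ s * Real.exp (2 * (K t - K s)) := by
    intro s t hs hst ht hle
    have h1 := hstep s t hs hst ht
    have h2 := hexp (K t - K s) (sub_nonneg.2 (hKmono hst)) hle
    have h3 := hΦnn t (hs.trans hst) ht
    calc Φ t ≤ Φ t * ((1 - (K t - K s)) * Real.exp (2 * (K t - K s))) :=
          le_mul_of_one_le_right h3 h2
      _ = Φ t * (1 - (K t - K s)) * Real.exp (2 * (K t - K s)) := by ring
      _ ≤ Φ s * Real.exp (2 * (K t - K s)) :=
          mul_le_mul_of_nonneg_right h1 (Real.exp_nonneg _)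
  have hind : ∀ n : ℕ, ∀ t, 0 ≤ t → t ≤ T → K t ≤ n / 2 → Φ t ≤ a * Real.exp (2 * K t) := by
    intro n
    induction n with
    | zero =>
      intro t h0 h1 h2
      have h3 := hstep2 0 t le_rfl h0 h1 (by rw [hK0]; simp at h2; linarith only [h2])
      rwa [hΦ0, hK0, sub_zero] at h3
    | succ n ih =>
      intro t h0 h1 h2
      by_cases hle : K t ≤ 1 / 2
      · have h3 := hstep2 0 t le_rfl h0 h1 (by rw [hK0]; linarith only [hle])
        rwa [hΦ0, hK0, sub_zero] at h3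
      · push Not at hle
        obtain ⟨s, hs, hKs⟩ : ∃ s ∈ Icc 0 t, K s = K t - 1 / 2 := by
          have := intermediate_value_Icc h0 hKc.continuousOn
          exact this ⟨by rw [hK0]; linarith only [hle], by linarith only []⟩
        have h3 := ih s hs.1 (hs.2.trans h1) (by rw [hKs]; push_cast at h2; linarith only [h2])
        have h4 := hstep2 s t hs.1 hs.2 h1 (by rw [hKs]; linarith only [])
        refine h4.trans ((mul_le_mul_of_nonneg_right h3 (Real.exp_nonneg _)).trans ?_)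
        rw [mul_assoc, ← Real.exp_add]
        refine le_of_eq ?_
        congr 2
        ring
  intro t h0 h1
  obtain ⟨n, hn⟩ := exists_nat_ge (2 * K t)
  exact (h t h0 h1).trans (hind n t h0 h1 (by linarith only [hn]))

/-! ### The cross product and the vector field of the Vlasov equation -/

/-- The cross product as a continuous bilinear map. -/
noncomputable def grad_crossL : E3 →L[ℝ] E3 →L[ℝ] E3 :=
  LinearMap.mkContinuous₂ (LinearMap.mk₂ ℝ cross
    (fun a a' b => by ext k; simp only [cross_apply, PiLp.add_apply]; ring)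
    (fun c a b => by ext k; simp only [cross_apply, PiLp.smul_apply, smul_eq_mul]; ring)
    (fun a b b' => by ext k; simp only [cross_apply, PiLp.add_apply]; ring)
    (fun c a b => by ext k; simp only [cross_apply, PiLp.smul_apply, smul_eq_mul]; ring)) 1
    (fun a b => by rw [LinearMap.mk₂_apply, one_mul]; exact norm_cross_le a b)

theorem grad_crossL_apply (a b : E3) : grad_crossL a b = cross a b := rfl

/-- The vector field of the Vlasov equation. -/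
noncomputable def gradV (E B : ℝ × E3 → E3) (y : ℝ × E3 × E3) : ℝ × E3 × E3 :=
  (1, u y.2.2, lor (E (y.1, y.2.1)) (B (y.1, y.2.1)) y.2.2)

/-- The derivative of the vector field in a phase space direction. -/
noncomputable def gradDV (E B : ℝ × E3 → E3) (y : ℝ × E3 × E3) (e : E3 × E3) : E3 × E3 :=
  (acc y.2.2 e.2, fderiv ℝ E (y.1, y.2.1) (0, e.1)
    + (cross (u y.2.2) (fderiv ℝ B (y.1, y.2.1) (0, e.1))
      + cross (acc y.2.2 e.2) (B (y.1, y.2.1))))

theorem grad_hasFDerivAt_V {E B : ℝ × E3 → E3} (hE : ContDiff ℝ 1 E) (hB : ContDiff ℝ 1 B)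
    (y : ℝ × E3 × E3) : ∃ D : ℝ × E3 × E3 →L[ℝ] ℝ × E3 × E3, HasFDerivAt (gradV E B) D y ∧
      ∀ e : E3 × E3, D (0, e) = (0, gradDV E B y e) := by
  have hv : HasFDerivAt (fun y : ℝ × E3 × E3 => y.2.2)
      ((ContinuousLinearMap.snd ℝ E3 E3).comp (ContinuousLinearMap.snd ℝ ℝ (E3 × E3))) y :=
    ((ContinuousLinearMap.snd ℝ E3 E3).comp (ContinuousLinearMap.snd ℝ ℝ (E3 × E3))).hasFDerivAt
  have hx : HasFDerivAt (fun y : ℝ × E3 × E3 => (y.1, y.2.1))
      ((ContinuousLinearMap.fst ℝ ℝ (E3 × E3)).prod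
        ((ContinuousLinearMap.fst ℝ E3 E3).comp (ContinuousLinearMap.snd ℝ ℝ (E3 × E3)))) y :=
    ((ContinuousLinearMap.fst ℝ ℝ (E3 × E3)).prod
        ((ContinuousLinearMap.fst ℝ E3 E3).comp
          (ContinuousLinearMap.snd ℝ ℝ (E3 × E3)))).hasFDerivAt
  have hu : HasFDerivAt u (fderiv ℝ u y.2.2) y.2.2 :=
    (contDiff_uu.differentiable (by norm_num) _).hasFDerivAt
  have hu' := hu.comp y hv
  have hE' := ((hE.differentiable (by norm_num) (y.1, y.2.1)).hasFDerivAt).comp y hx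
  have hB' := ((hB.differentiable (by norm_num) (y.1, y.2.1)).hasFDerivAt).comp y hx
  have hc := (grad_crossL.hasFDerivAt.comp y hu').clm_apply hB'
  have hall := (hasFDerivAt_const (1 : ℝ) y).prodMk (hu'.prodMk (hE'.add hc))
  refine ⟨_, hall, ?_⟩
  rintro ⟨e₁, e₂⟩
  simp [gradDV, fderiv_u_apply, grad_crossL_apply]

theorem grad_norm_DV_le (E B : ℝ × E3 → E3) (y : ℝ × E3 × E3) (e : E3 × E3) :
    ‖gradDV E B y e‖ ≤ (1 + ‖fderiv ℝ E (y.1, y.2.1)‖ + ‖fderiv ℝ B (y.1, y.2.1)‖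
      + ‖B (y.1, y.2.1)‖) * ‖e‖ := by
  have h1 : ‖acc y.2.2 e.2‖ ≤ ‖e‖ := by
    refine (norm_acc_le _ _).trans ?_
    have h2 : (q y.2.2)⁻¹ ≤ 1 := inv_le_one_of_one_le₀ (one_le_q _)
    calc (q y.2.2)⁻¹ * ‖e.2‖ ≤ 1 * ‖e‖ :=
          mul_le_mul h2 (norm_snd_le e) (norm_nonneg _) zero_le_one
      _ = ‖e‖ := one_mul _
  have he : ‖((0 : ℝ), e.1)‖ ≤ ‖e‖ := by
    rw [Prod.norm_def]
    simp only [norm_zero]
    exact max_le (norm_nonneg _) (norm_fst_le e)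
  have h2 : ‖fderiv ℝ E (y.1, y.2.1) (0, e.1)‖ ≤ ‖fderiv ℝ E (y.1, y.2.1)‖ * ‖e‖ :=
    (ContinuousLinearMap.le_opNorm _ _).trans (mul_le_mul_of_nonneg_left he (norm_nonneg _))
  have h3 : ‖fderiv ℝ B (y.1, y.2.1) (0, e.1)‖ ≤ ‖fderiv ℝ B (y.1, y.2.1)‖ * ‖e‖ :=
    (ContinuousLinearMap.le_opNorm _ _).trans (mul_le_mul_of_nonneg_left he (norm_nonneg _))
  have h4 : ‖cross (u y.2.2) (fderiv ℝ B (y.1, y.2.1) (0, e.1))‖
      ≤ ‖fderiv ℝ B (y.1, y.2.1)‖ * ‖e‖ := by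
    refine (norm_cross_le _ _).trans ?_
    calc ‖u y.2.2‖ * ‖fderiv ℝ B (y.1, y.2.1) (0, e.1)‖
        ≤ 1 * (‖fderiv ℝ B (y.1, y.2.1)‖ * ‖e‖) :=
          mul_le_mul (norm_u_lt_one _).le h3 (norm_nonneg _) zero_le_one
      _ = _ := one_mul _
  have h5 : ‖cross (acc y.2.2 e.2) (B (y.1, y.2.1))‖ ≤ ‖B (y.1, y.2.1)‖ * ‖e‖ := by
    refine (norm_cross_le _ _).trans ?_
    rw [mul_comm]
    exact mul_le_mul_of_nonneg_left h1 (norm_nonneg _)
  have h6 : ‖(gradDV E B y e).2‖ ≤ (‖fderiv ℝ E (y.1, y.2.1)‖ + ‖fderiv ℝ B (y.1, y.2.1)‖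
      + ‖B (y.1, y.2.1)‖) * ‖e‖ := by
    refine (norm_add_le _ _).trans ?_
    have := norm_add_le (cross (u y.2.2) (fderiv ℝ B (y.1, y.2.1) (0, e.1)))
      (cross (acc y.2.2 e.2) (B (y.1, y.2.1)))
    linarith only [h2, h4, h5, this]
  rw [Prod.norm_def]
  refine max_le ?_ ?_
  · refine h1.trans ?_
    have : 0 ≤ (‖fderiv ℝ E (y.1, y.2.1)‖ + ‖fderiv ℝ B (y.1, y.2.1)‖
      + ‖B (y.1, y.2.1)‖) * ‖e‖ := by (clear * -; positivity)
    linarith only [this]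
  · refine h6.trans ?_
    have := norm_nonneg e
    linarith only [this]

/-- The equation for the phase space derivatives. -/
theorem grad_fderiv_dir {E B : ℝ × E3 → E3} (hE : ContDiff ℝ 1 E) (hB : ContDiff ℝ 1 B)
    {f : ℝ × E3 × E3 → ℝ} (hf : ContDiff ℝ 2 f) (h : Vl E B f) (y : ℝ × E3 × E3)
    (e : E3 × E3) :
    fderiv ℝ (fun y => fderiv ℝ f y (0, e)) y (gradV E B y)
      = - fderiv ℝ f y (0, gradDV E B y e) := by
  obtain ⟨D, hD, hDe⟩ := grad_hasFDerivAt_V hE hB y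
  have hf1 : ContDiff ℝ 1 (fderiv ℝ f) := hf.fderiv_right (by norm_num)
  have hf2 : HasFDerivAt (fderiv ℝ f) (fderiv ℝ (fderiv ℝ f) y) y :=
    (hf1.differentiable (by norm_num) y).hasFDerivAt
  have h0 : (fun y => fderiv ℝ f y (gradV E B y)) = fun _ => 0 := by
    funext y
    exact h y.1 y.2.1 y.2.2
  have h1 := hf2.clm_apply hD
  rw [h0] at h1
  have h2 := h1.unique (hasFDerivAt_const (0 : ℝ) y)
  have h3 := congrArg (fun L : ℝ × E3 × E3 →L[ℝ] ℝ => L (0, e)) h2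
  simp only [add_apply, ContinuousLinearMap.comp_apply, ContinuousLinearMap.flip_apply,
    zero_apply, hDe] at h3
  have hsym : fderiv ℝ (fderiv ℝ f) y (0, e) (gradV E B y)
      = fderiv ℝ (fderiv ℝ f) y (gradV E B y) (0, e) :=
    (hf.contDiffAt.isSymmSndFDerivAt (by simp)) _ _
  have h4 : fderiv ℝ (fun y => fderiv ℝ f y (0, e)) y (gradV E B y)
      = fderiv ℝ (fderiv ℝ f) y (gradV E B y) (0, e) := by
    have := (hf2.clm_apply (hasFDerivAt_const ((0, e) : ℝ × E3 × E3) y)).fderiv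
    rw [this]
    simp
  rw [h4, ← hsym]
  linarith only [h3]

/-! ### Slices -/

theorem grad_fderiv_slice {f : ℝ × E3 × E3 → ℝ} (hf : ContDiff ℝ 1 f) (t : ℝ) (z e : E3 × E3) :
    fderiv ℝ (fun z => f (t, z)) z e = fderiv ℝ f (t, z) (0, e) := by
  have h1 : HasFDerivAt f (fderiv ℝ f (t, z)) (t, z) :=
    (hf.differentiable (by norm_num) _).hasFDerivAt
  have h2 := h1.comp z (hasFDerivAt_prodMk_right t z)
  have h3 : HasFDerivAt (fun z => f (t, z))
      ((fderiv ℝ f (t, z)).comp (ContinuousLinearMap.inr ℝ ℝ (E3 × E3))) z := h2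
  rw [h3.fderiv]
  simp

theorem grad_norm_slice_le {f : ℝ × E3 × E3 → ℝ} (hf : ContDiff ℝ 1 f) (t : ℝ) (z : E3 × E3) :
    ‖fderiv ℝ (fun z => f (t, z)) z‖ ≤ ‖fderiv ℝ f (t, z)‖ := by
  refine ContinuousLinearMap.opNorm_le_bound _ (norm_nonneg _) fun e => ?_
  rw [grad_fderiv_slice hf]
  refine (ContinuousLinearMap.le_opNorm _ _).trans ?_
  refine mul_le_mul_of_nonneg_left ?_ (norm_nonneg _)
  rw [Prod.norm_def]
  simp only [norm_zero]
  exact max_le (norm_nonneg _) le_rfl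

theorem grad_abs_fderiv_zero_le {f : ℝ × E3 × E3 → ℝ} (hf : ContDiff ℝ 1 f) (t : ℝ)
    (z e : E3 × E3) :
    |fderiv ℝ f (t, z) (0, e)| ≤ ‖fderiv ℝ (fun z => f (t, z)) z‖ * ‖e‖ := by
  rw [← grad_fderiv_slice hf, ← Real.norm_eq_abs]
  exact (fderiv ℝ (fun z => f (t, z)) z).le_opNorm e

theorem SD.grad_bdd_slice {f : ℝ × E3 × E3 → ℝ} (hf : SD f) (T : ℝ) :
    ∃ C : ℝ, ∀ (s : ℝ) (z : E3 × E3), 0 ≤ s → s ≤ T → ‖fderiv ℝ (fun z => f (s, z)) z‖ ≤ C := by
  obtain ⟨R, hR⟩ := hf.supp T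
  have hf1 : ContDiff ℝ 1 f := hf.smooth.of_le (by exact_mod_cast le_top)
  have hc : Continuous fun y => ‖fderiv ℝ f y‖ := (hf1.continuous_fderiv (by norm_num)).norm
  have hK : IsCompact (Icc (0 : ℝ) T ×ˢ Metric.closedBall (0 : E3 × E3) R) :=
    isCompact_Icc.prod (isCompact_closedBall _ _)
  obtain ⟨C, hC⟩ := hK.bddAbove_image hc.continuousOn
  refine ⟨max C 0, fun s z h0 h1 => ?_⟩
  by_cases hz : z ∈ Metric.closedBall (0 : E3 × E3) R
  · refine (grad_norm_slice_le hf1 s z).trans (le_max_of_le_left ?_)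
    exact hC ⟨(s, z), ⟨⟨h0, h1⟩, hz⟩, rfl⟩
  · have hev : (fun z => f (s, z)) =ᶠ[𝓝 z] fun _ => 0 := by
      have ho : (Metric.closedBall (0 : E3 × E3) R)ᶜ ∈ 𝓝 z :=
        Metric.isClosed_closedBall.isOpen_compl.mem_nhds hz
      filter_upwards [ho] with z' hz'
      by_contra hne
      apply hz'
      obtain ⟨h2, h3⟩ := hR s z'.1 z'.2 (by rw [abs_of_nonneg h0]; exact h1) hne
      rw [mem_closedBall_zero_iff, Prod.norm_def]
      exact max_le h2 h3
    rw [hev.fderiv_eq]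
    simp

theorem SF.grad_bdd_fderiv {F : Type*} [NormedAddCommGroup F] [NormedSpace ℝ F] {W : ℝ × E3 → F}
    (hW : SF W) (T : ℝ) :
    ∃ C : ℝ, ∀ p : ℝ × E3, 0 ≤ p.1 → p.1 ≤ T → ‖fderiv ℝ W p‖ ≤ C := by
  obtain ⟨C, hC⟩ := hW.bdd 1 T
  refine ⟨C, fun p h0 h1 => ?_⟩
  have h := hC p (by rw [abs_of_nonneg h0]; exact h1)
  rwa [norm_iteratedFDeriv_one] at h

section Eps

variable {f₀ : E3 × E3 → ℝ} {E₀ B₀ : E3 → E3} {fL : ℝ × E3 × E3 → ℝ} {EL BL : ℝ × E3 → E3}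

/-- G1. Growth of the phase space gradient. -/
theorem grad_transport (hD : Dat f₀ E₀ B₀) (hL : Layer f₀ E₀ B₀ fL EL BL) (T P : ℝ) :
    ∃ C : ℝ, 0 ≤ C ∧ ∀ ε f E B, 0 < ε → EpsSol fL EL BL ε f E B → ∀ T' ≤ T, MB P T' f →
      ∀ A : ℝ → ℝ, Monotone A →
      (∀ p : ℝ × E3, 0 ≤ p.1 → p.1 ≤ T' → ‖fderiv ℝ E p‖ + ‖fderiv ℝ B p‖ ≤ A p.1) →
      ∀ t z, 0 ≤ t → t ≤ T' → ‖fderiv ℝ (fun z => f (t, z)) z‖
        ≤ C * Real.exp (C * ∫ s in (0 : ℝ)..t, (1 + A s)) := by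
  obtain ⟨Cs, hCs0, hCs⟩ := sup_bound hD hL T P
  obtain ⟨C₀, hC₀⟩ : ∃ C, ∀ z, ‖fderiv ℝ f₀ z‖ ≤ C :=
    (hD.f_smooth.continuous_fderiv (by simp)).bounded_above_of_compact_support
      (hD.f_supp.fderiv ℝ)
  have hC₀0 : 0 ≤ C₀ := (norm_nonneg _).trans (hC₀ 0)
  refine ⟨C₀ + 2 * (2 + Cs), by positivity, ?_⟩
  intro ε f E B hε hs T' hT' hMB A hA hAb t z ht0 htT
  have hf1 : ContDiff ℝ 1 f := hs.sd.smooth.of_le (by exact_mod_cast le_top)
  have hf2 : ContDiff ℝ 2 f := by exact_mod_cast contDiff_infty.1 hs.sd.smooth 2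
  have hE' : SF (dl ε E) := dl_SF hε hs.sE
  have hB' : SF (dl ε B) := dl_SF hε hs.sB
  have hE1 : ContDiff ℝ 1 (dl ε E) := hE'.smooth.of_le (by exact_mod_cast le_top)
  have hB1 : ContDiff ℝ 1 (dl ε B) := hB'.smooth.of_le (by exact_mod_cast le_top)
  set N : ℝ → ℝ := grad_ms (fun s z => ‖fderiv ℝ (fun z => f (s, z)) z‖) with hN
  have hNb := hs.sd.grad_bdd_slice
  have hNm : Monotone N := grad_ms_mono hNb
  have hN0 : ∀ s, 0 ≤ N s := grad_ms_nonneg hNb
  set k : ℝ → ℝ := fun s => 1 + Cs + 2 * max (A s) 0 with hk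
  have hkm : Monotone k := by
    intro s s' hss
    have : max (A s) 0 ≤ max (A s') 0 := max_le_max_right 0 (hA hss)
    simp only [hk]
    linarith only [this]
  have hk0 : ∀ s, 0 ≤ k s := by
    intro s
    have : 0 ≤ max (A s) 0 := le_max_right _ _
    simp only [hk]
    linarith only [Cs, hCs0, A, s, this]
  have hA0 : ∀ s, 0 ≤ s → s ≤ T' → 0 ≤ A s := by
    intro s h0 h1
    refine le_trans ?_ (hAb (s, 0) h0 h1)
    (clear * -; positivity)
  have hDE : ∀ s x, 0 ≤ s → s ≤ T' → ‖fderiv ℝ (dl ε E) (s, x)‖ ≤ A s := by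
    intro s x h0 h1
    refine dl_fderiv_bound hε hs.sE fun r hr0 hr1 => ?_
    have hr2 : r.1 ≤ s := by simpa [max_eq_left h0] using hr1
    have h2 := hAb r hr0 (hr2.trans h1)
    have h3 := hA hr2
    have h4 := norm_nonneg (fderiv ℝ B r)
    linarith only [E, B, A, s, r, h2, h3, h4]
  have hDB : ∀ s x, 0 ≤ s → s ≤ T' → ‖fderiv ℝ (dl ε B) (s, x)‖ ≤ A s := by
    intro s x h0 h1
    refine dl_fderiv_bound hε hs.sB fun r hr0 hr1 => ?_
    have hr2 : r.1 ≤ s := by simpa [max_eq_left h0] using hr1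
    have h2 := hAb r hr0 (hr2.trans h1)
    have h3 := hA hr2
    have h4 := norm_nonneg (fderiv ℝ E r)
    linarith only [h2, h3, h4]
  have hBs : ∀ s x, 0 ≤ s → s ≤ T' → ‖dl ε B (s, x)‖ ≤ Cs := by
    intro s x h0 h1
    refine dl_bound hε hs.sB fun r hr0 hr1 => ?_
    have hr2 : r.1 ≤ s := by simpa [max_eq_left h0] using hr1
    have h2 := hCs ε f E B hε hs T' hT' hMB r.1 r.2 hr0 (hr2.trans h1)
    have h4 := norm_nonneg (E r)
    have h5 : ‖E r‖ + ‖B r‖ ≤ Cs := h2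
    linarith only [Cs, E, B, r, h2, h4]
  have hNk : Monotone fun s => N s * k s := fun s t hst =>
    mul_le_mul (hNm hst) (hkm hst) (hk0 s) (hN0 t)
  -- the bound for one slice
  have hslice : ∀ s z, 0 ≤ s → s ≤ T' →
      ‖fderiv ℝ (fun z => f (s, z)) z‖ ≤ C₀ + ∫ r in (0 : ℝ)..s, N r * k r := by
    intro s z h0 h1
    have hint : 0 ≤ ∫ r in (0 : ℝ)..s, N r * k r :=
      intervalIntegral.integral_nonneg h0 fun r _ => mul_nonneg (hN0 r) (hk0 r)
    refine ContinuousLinearMap.opNorm_le_bound _ (by positivity) fun e => ?_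
    rw [grad_fderiv_slice hf1]
    have hg : ContDiff ℝ 1 (fun y => fderiv ℝ f y (0, e)) :=
      (hf2.fderiv_right (by norm_num)).clm_apply contDiff_const
    have hbm : Monotone fun r => N r * k r * ‖e‖ := fun r r' hr =>
      mul_le_mul_of_nonneg_right (hNk hr) (norm_nonneg _)
    have h2 := transport_bound (T := T') (a := C₀ * ‖e‖) hE' hB' hg hbm
      (h := fun y => - fderiv ℝ f y (0, gradDV (dl ε E) (dl ε B) y e))
      (fun t x v _ _ => grad_fderiv_dir hE1 hB1 hf2 hs.vl (t, x, v) e) ?_ ?_ s h0 h1 z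
    · rw [intervalIntegral.integral_mul_const, ← add_mul] at h2
      exact h2
    · intro z
      have h3 := grad_fderiv_slice hf1 0 z e
      have h4 : (fun z => f (0, z)) = f₀ := by
        funext z
        rw [hs.agf 0 hε.le, hL.f0]
      rw [h4] at h3
      rw [← h3]
      exact (ContinuousLinearMap.le_opNorm _ _).trans
        (mul_le_mul_of_nonneg_right (hC₀ z) (norm_nonneg _))
    · intro r z hr0 hr1
      rw [abs_neg]
      refine (grad_abs_fderiv_zero_le hf1 r z _).trans ?_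
      rw [mul_assoc]
      refine mul_le_mul (grad_le_ms hNb z hr0 le_rfl) ?_ (norm_nonneg _) (hN0 r)
      refine (grad_norm_DV_le _ _ _ _).trans (mul_le_mul_of_nonneg_right ?_ (norm_nonneg _))
      have h5 := hDE r z.1 hr0 hr1
      have h6 := hDB r z.1 hr0 hr1
      have h7 := hBs r z.1 hr0 hr1
      have h8 := le_max_left (A r) 0
      simp only [hk]
      linarith only [h5, h6, h7, h8]
  have hgron := grad_gronwall_kernel (a := C₀) (T := T') hNm hN0 hkm hk0 (fun s h0 h1 => by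
    refine grad_ms_le ?_ fun s' z h0' h1' => ?_
    · have : 0 ≤ ∫ r in (0 : ℝ)..s, N r * k r :=
        intervalIntegral.integral_nonneg h0 fun r _ => mul_nonneg (hN0 r) (hk0 r)
      linarith
    · refine (hslice s' z h0' (h1'.trans h1)).trans ?_
      have := grad_primitive_mono hNk (fun r => mul_nonneg (hN0 r) (hk0 r)) h1'
      simp only at this
      linarith only [C₀, N, k, s, s', this]) t ht0 htT
  have hle : ‖fderiv ℝ (fun z => f (t, z)) z‖ ≤ N t := grad_le_ms hNb z ht0 le_rfl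
  refine hle.trans (hgron.trans ?_)
  have hintA : ∫ s in (0 : ℝ)..t, k s ≤ (2 + Cs) * ∫ s in (0 : ℝ)..t, (1 + A s) := by
    rw [← intervalIntegral.integral_const_mul]
    have h1A : Monotone fun s => 1 + A s := fun s s' hss => by
      simp only
      linarith only [A, hA, s, s', hss, hA hss]
    refine intervalIntegral.integral_mono_on ht0 hkm.intervalIntegrable
      (h1A.intervalIntegrable.const_mul _) fun r hr => ?_
    have h2 := hA0 r hr.1 (hr.2.trans htT)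
    simp only [hk, max_eq_left h2]
    nlinarith only [hCs0, h2]
  have hI0 : 0 ≤ ∫ s in (0 : ℝ)..t, (1 + A s) :=
    intervalIntegral.integral_nonneg ht0 fun r hr => by
      have := hA0 r hr.1 (hr.2.trans htT)
      linarith only [A, r, this]
  refine mul_le_mul (by linarith only [Cs, hCs0, C₀]) (Real.exp_le_exp.2 ?_) (Real.exp_nonneg _) (by positivity)
  nlinarith only [hC₀0, hintA, hI0]

/-- G2. Uniform first order bounds. -/
theorem grad_bound (hD : Dat f₀ E₀ B₀) (hL : Layer f₀ E₀ B₀ fL EL BL) (T P : ℝ) :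
    ∃ C : ℝ, 0 ≤ C ∧ ∀ ε f E B, 0 < ε → EpsSol fL EL BL ε f E B → ∀ T' ≤ T, MB P T' f →
      ∀ t, 0 ≤ t → t ≤ T' → (∀ x, ‖fderiv ℝ E (t, x)‖ + ‖fderiv ℝ B (t, x)‖ ≤ C) ∧
        ∀ z, ‖fderiv ℝ f (t, z)‖ ≤ C := by
  obtain ⟨Cs, hCs0, hCs⟩ := sup_bound hD hL T P
  obtain ⟨C₁, hC₁0, hC₁⟩ := grad_transport hD hL T P
  obtain ⟨C₂, hC₂0, hC₂⟩ := log_bound hD hL T P
  set C₃ : ℝ := C₂ * ((1 + C₁) * (1 + |T|)) with hC₃
  have hC₃0 : 0 ≤ C₃ := by positivity
  set C₄ : ℝ := C₃ * Real.exp (C₃ * |T|) with hC₄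
  have hC₄0 : 0 ≤ C₄ := by (clear * - T C₁ hC₁0 C₂ hC₂0 C₃; positivity)
  set C₅ : ℝ := C₁ * Real.exp (C₁ * (|T| * (1 + C₄))) with hC₅
  have hC₅0 : 0 ≤ C₅ := by positivity
  refine ⟨C₄ + C₅ * (2 + 2 * Cs), by (clear * - T hCs0 C₁ hC₁0 C₂ hC₂0 C₃; positivity), ?_⟩
  intro ε f E B hε hs T' hT' hMB
  have hf1 : ContDiff ℝ 1 f := hs.sd.smooth.of_le (by exact_mod_cast le_top)
  have hAb : ∀ T : ℝ, ∃ C : ℝ, ∀ (s : ℝ) (x : E3), 0 ≤ s → s ≤ T →
      ‖fderiv ℝ E (s, x)‖ + ‖fderiv ℝ B (s, x)‖ ≤ C := by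
    intro T
    obtain ⟨C, hC⟩ := hs.sE.grad_bdd_fderiv T
    obtain ⟨C', hC'⟩ := hs.sB.grad_bdd_fderiv T
    exact ⟨C + C', fun s x h0 h1 => add_le_add (hC (s, x) h0 h1) (hC' (s, x) h0 h1)⟩
  set A : ℝ → ℝ := grad_ms (fun s (x : E3) => ‖fderiv ℝ E (s, x)‖ + ‖fderiv ℝ B (s, x)‖) with hA
  have hAm : Monotone A := grad_ms_mono hAb
  have hA0 : ∀ s, 0 ≤ A s := grad_ms_nonneg hAb
  have hAle : ∀ p : ℝ × E3, 0 ≤ p.1 → p.1 ≤ T' → ‖fderiv ℝ E p‖ + ‖fderiv ℝ B p‖ ≤ A p.1 :=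
    fun p h0 _ => grad_le_ms hAb p.2 h0 le_rfl
  have h1Am : Monotone fun s => 1 + A s := fun s s' hss => by
    simp only
    linarith only [hAm hss]
  have hIm : Monotone fun t => ∫ s in (0 : ℝ)..t, (1 + A s) :=
    grad_primitive_mono h1Am fun s => by linarith only [hA0 s]
  set N : ℝ → ℝ := fun t => C₁ * Real.exp (C₁ * ∫ s in (0 : ℝ)..t, (1 + A s)) with hN
  have hNm : Monotone N := fun s s' hss =>
    mul_le_mul_of_nonneg_left
      (Real.exp_le_exp.2 (mul_le_mul_of_nonneg_left (hIm hss) hC₁0)) hC₁0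
  have hNle : ∀ t z, 0 ≤ t → t ≤ T' → ‖fderiv ℝ (fun z => f (t, z)) z‖ ≤ N t :=
    fun t z h0 h1 => hC₁ ε f E B hε hs T' hT' hMB A hAm hAle t z h0 h1
  have hlog := hC₂ ε f E B hε hs T' hT' hMB A N hAm hNm hAle hNle
  have hIeq : ∀ t, ∫ s in (0 : ℝ)..t, (1 + A s) = t + ∫ s in (0 : ℝ)..t, A s := by
    intro t
    rw [intervalIntegral.integral_add intervalIntegrable_const hAm.intervalIntegrable]
    simp
  have hIA : Monotone fun t => ∫ s in (0 : ℝ)..t, A s := grad_primitive_mono hAm hA0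
  have hIA0 : ∀ t, 0 ≤ t → 0 ≤ ∫ s in (0 : ℝ)..t, A s := fun t ht =>
    intervalIntegral.integral_nonneg ht fun r _ => hA0 r
  have hpt : ∀ t x, 0 ≤ t → t ≤ T' → ‖fderiv ℝ E (t, x)‖ + ‖fderiv ℝ B (t, x)‖
      ≤ C₃ + C₃ * ∫ s in (0 : ℝ)..t, A s := by
    intro t x h0 h1
    refine (hlog t x h0 h1).trans ?_
    have hI0 := hIA0 t h0
    have htT : t ≤ |T| := (h1.trans hT').trans (le_abs_self T)
    have h2 : Real.log (1 + N t) ≤ C₁ + C₁ * (t + ∫ s in (0 : ℝ)..t, A s) := by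
      rw [← hIeq t]
      have hx : 0 ≤ C₁ * ∫ s in (0 : ℝ)..t, (1 + A s) := by
        rw [hIeq t]; (clear * - hC₁0 h0 hI0; positivity)
      have h3 : 1 + N t ≤ Real.exp (C₁ + C₁ * ∫ s in (0 : ℝ)..t, (1 + A s)) := by
        rw [Real.exp_add]
        have h4 := Real.add_one_le_exp C₁
        have h5 := Real.one_le_exp hx
        simp only [hN]
        nlinarith only [h5, mul_le_mul_of_nonneg_right h4
          (Real.exp_nonneg (C₁ * ∫ s in (0 : ℝ)..t, (1 + A s)))]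
      calc Real.log (1 + N t)
          ≤ Real.log (Real.exp (C₁ + C₁ * ∫ s in (0 : ℝ)..t, (1 + A s))) :=
            Real.log_le_log (by simp only [hN]; positivity) h3
        _ = _ := Real.log_exp _
    have h3 : 1 + Real.log (1 + N t) + ∫ s in (0 : ℝ)..t, A s
        ≤ ((1 + C₁) * (1 + |T|)) * (1 + ∫ s in (0 : ℝ)..t, A s) := by
      have h4 : C₁ * t ≤ C₁ * |T| := mul_le_mul_of_nonneg_left htT hC₁0
      have h5 : 0 ≤ |T| := abs_nonneg T
      nlinarith only [h2, h4, h5, mul_nonneg h5 hI0, mul_nonneg (mul_nonneg hC₁0 h5) hI0]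
    calc C₂ * (1 + Real.log (1 + N t) + ∫ s in (0 : ℝ)..t, A s)
        ≤ C₂ * (((1 + C₁) * (1 + |T|)) * (1 + ∫ s in (0 : ℝ)..t, A s)) :=
          mul_le_mul_of_nonneg_left h3 hC₂0
      _ = C₃ + C₃ * ∫ s in (0 : ℝ)..t, A s := by rw [hC₃]; ring
  have hA1 : ∀ t ∈ Icc (0 : ℝ) T', A t ≤ C₃ + C₃ * ∫ s in (0 : ℝ)..t, A s := by
    rintro t ⟨h0, h1⟩
    have hI0 := hIA0 t h0
    refine grad_ms_le (by (clear * - T C₁ hC₁0 C₂ hC₂0 hI0; positivity)) fun s x hs0 hs1 => ?_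
    refine (hpt s x hs0 (hs1.trans h1)).trans ?_
    have := hIA hs1
    simp only at this
    have h2 := mul_le_mul_of_nonneg_left this hC₃0
    linarith only [h2]
  have hA2 := gronwall_monotone hC₃0 (hAm.monotoneOn _) (fun t _ => hA0 t) hA1
  have hA3 : ∀ t, 0 ≤ t → t ≤ T' → A t ≤ C₄ := by
    intro t h0 h1
    refine (hA2 t ⟨h0, h1⟩).trans ?_
    have htT : t ≤ |T| := (h1.trans hT').trans (le_abs_self T)
    exact mul_le_mul_of_nonneg_left
      (Real.exp_le_exp.2 (mul_le_mul_of_nonneg_left htT hC₃0)) hC₃0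
  have hN3 : ∀ t, 0 ≤ t → t ≤ T' → N t ≤ C₅ := by
    intro t h0 h1
    have htT : t ≤ |T| := (h1.trans hT').trans (le_abs_self T)
    refine mul_le_mul_of_nonneg_left (Real.exp_le_exp.2
      (mul_le_mul_of_nonneg_left ?_ hC₁0)) hC₁0
    have h2 : ∫ s in (0 : ℝ)..t, (1 + A s) ≤ ∫ s in (0 : ℝ)..t, (1 + C₄) := by
      refine intervalIntegral.integral_mono_on h0 h1Am.intervalIntegrable
        intervalIntegrable_const fun r hr => ?_
      have := hA3 r hr.1 (hr.2.trans h1)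
      linarith only [T, C₁, C₂, C₃, C₄, A, r, this]
    refine h2.trans ?_
    rw [intervalIntegral.integral_const, smul_eq_mul, sub_zero]
    exact mul_le_mul_of_nonneg_right htT (by (clear * - T C₁ hC₁0 C₂ hC₂0 C₃; positivity))
  intro t h0 h1
  have hres : 0 ≤ C₅ * (2 + 2 * Cs) := by (clear * - T hCs0 C₁ hC₁0 C₄; positivity)
  refine ⟨fun x => ?_, fun z => ?_⟩
  · have h2 : ‖fderiv ℝ E (t, x)‖ + ‖fderiv ℝ B (t, x)‖ ≤ A t := hAle (t, x) h0 h1
    have h3 := hA3 t h0 h1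
    linarith only [hres, h2, h3]
  · have hNz : ‖fderiv ℝ (fun z => f (t, z)) z‖ ≤ C₅ := (hNle t z h0 h1).trans (hN3 t h0 h1)
    have hEs : ‖dl ε E (t, z.1)‖ ≤ Cs := by
      refine dl_bound hε hs.sE fun r hr0 hr1 => ?_
      have hr2 : r.1 ≤ t := by simpa [max_eq_left h0] using hr1
      have h2 : ‖E r‖ + ‖B r‖ ≤ Cs := hCs ε f E B hε hs T' hT' hMB r.1 r.2 hr0 (hr2.trans h1)
      have h4 := norm_nonneg (B r)
      linarith only [Cs, E, B, r, h2, h4]
    have hBs : ‖dl ε B (t, z.1)‖ ≤ Cs := by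
      refine dl_bound hε hs.sB fun r hr0 hr1 => ?_
      have hr2 : r.1 ≤ t := by simpa [max_eq_left h0] using hr1
      have h2 : ‖E r‖ + ‖B r‖ ≤ Cs := hCs ε f E B hε hs T' hT' hMB r.1 r.2 hr0 (hr2.trans h1)
      have h4 := norm_nonneg (E r)
      linarith only [Cs, E, B, r, h2, h4]
    have hlor : ‖lor (dl ε E (t, z.1)) (dl ε B (t, z.1)) z.2‖ ≤ 2 * Cs := by
      unfold lor
      refine (norm_add_le _ _).trans ?_
      have h2 : ‖cross (u z.2) (dl ε B (t, z.1))‖ ≤ Cs := by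
        refine (norm_cross_le _ _).trans ?_
        calc ‖u z.2‖ * ‖dl ε B (t, z.1)‖ ≤ 1 * Cs :=
              mul_le_mul (norm_u_lt_one _).le hBs (norm_nonneg _) zero_le_one
          _ = Cs := one_mul _
      linarith only [Cs, ε, E, B, t, z, hEs, h2]
    have hw : ‖((u z.2, lor (dl ε E (t, z.1)) (dl ε B (t, z.1)) z.2) : E3 × E3)‖
        ≤ 1 + 2 * Cs := by
      rw [Prod.norm_def]
      refine max_le ?_ ?_
      · have := (norm_u_lt_one z.2).le
        simp only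
        linarith only [hCs0, this]
      · simp only
        linarith only [Cs, ε, E, B, t, z, hlor]
    have htime : |fderiv ℝ f (t, z) (1, 0)| ≤ C₅ * (1 + 2 * Cs) := by
      have hv : fderiv ℝ f (t, z)
          (1, u z.2, lor (dl ε E (t, z.1)) (dl ε B (t, z.1)) z.2) = 0 := hs.vl t z.1 z.2
      have hsplit : ((1, u z.2, lor (dl ε E (t, z.1)) (dl ε B (t, z.1)) z.2) : ℝ × E3 × E3)
          = (1, 0) + (0, (u z.2, lor (dl ε E (t, z.1)) (dl ε B (t, z.1)) z.2)) := by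
        simp
      rw [hsplit, map_add] at hv
      have h2 : fderiv ℝ f (t, z) (1, 0) = - fderiv ℝ f (t, z)
          (0, (u z.2, lor (dl ε E (t, z.1)) (dl ε B (t, z.1)) z.2)) := by linarith only [hv]
      rw [h2, abs_neg]
      refine (grad_abs_fderiv_zero_le hf1 t z _).trans ?_
      exact mul_le_mul hNz hw (norm_nonneg _) hC₅0
    have hfull : ‖fderiv ℝ f (t, z)‖ ≤ C₅ * (2 + 2 * Cs) := by
      refine ContinuousLinearMap.opNorm_le_bound _ hres fun w => ?_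
      obtain ⟨τ, w⟩ := w
      have hsplit : ((τ, w) : ℝ × E3 × E3) = τ • (1, 0) + (0, w) := by
        simp
      rw [hsplit, map_add, map_smul, ← hsplit]
      have h2 : ‖τ‖ ≤ ‖((τ, w) : ℝ × E3 × E3)‖ := norm_fst_le (τ, w)
      have h3 : ‖w‖ ≤ ‖((τ, w) : ℝ × E3 × E3)‖ := norm_snd_le (τ, w)
      refine (norm_add_le _ _).trans ?_
      rw [norm_smul]
      have h4 : ‖fderiv ℝ f (t, z) (0, w)‖ ≤ C₅ * ‖((τ, w) : ℝ × E3 × E3)‖ :=
        (grad_abs_fderiv_zero_le hf1 t z w).trans (mul_le_mul hNz h3 (norm_nonneg _) hC₅0)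
      have h5 : ‖τ‖ * ‖fderiv ℝ f (t, z) (1, 0)‖
          ≤ ‖((τ, w) : ℝ × E3 × E3)‖ * (C₅ * (1 + 2 * Cs)) :=
        mul_le_mul h2 htime (norm_nonneg _) (norm_nonneg _)
      calc _ ≤ ‖((τ, w) : ℝ × E3 × E3)‖ * (C₅ * (1 + 2 * Cs))
            + C₅ * ‖((τ, w) : ℝ × E3 × E3)‖ := add_le_add h5 h4
        _ = C₅ * (2 + 2 * Cs) * ‖((τ, w) : ℝ × E3 × E3)‖ := by ring
    linarith only [hC₄0, hfull]

end Eps

end Vale.Agent.P107.LE
end
end
end

section

section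

attribute [-instance] ProperSMul.toContinuousSMul IsTopologicalTorsor.toContinuousSMul
  IdemSemiring.toCanonicallyOrderedAdd IdemSemiring.toMulLeftMono IdemSemiring.toMulRightMono
  AddQuantale.instAddLeftMono AddQuantale.instAddRightMono Quantale.instMulLeftMono
  Quantale.instMulRightMono FiniteDimensional.rclike_to_real IsScalarTower.complexToReal
  FiniteDimensional.complexToReal

section

/-!
Second order directional derivatives: calculus used for the Hessian bounds.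
-/

open MeasureTheory Set Filter Topology
open scoped RealInnerProductSpace ENNReal NNReal ContDiff

namespace Vale.Agent.P107.LE.Hess

section Generic

variable {Z F : Type*} [NormedAddCommGroup Z] [NormedSpace ℝ Z] [NormedAddCommGroup F]
  [NormedSpace ℝ F]

/-- The derivative in a spatial direction. -/
noncomputable def dz (e : Z) (g : ℝ × Z → F) (p : ℝ × Z) : F := fderiv ℝ g p (0, e)

lemma contDiff_dz {g : ℝ × Z → F} (hg : ContDiff ℝ ∞ g) (e : Z) : ContDiff ℝ ∞ (dz e g) := by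
  have h : ContDiff ℝ ∞ (fderiv ℝ g) := hg.fderiv_right (m := ∞) (by simp)
  exact h.clm_apply contDiff_const

lemma diff_of {X : Type*} [NormedAddCommGroup X] [NormedSpace ℝ X] {g : X → F}
    (hg : ContDiff ℝ ∞ g) : Differentiable ℝ g := hg.differentiable (by simp)

omit [NormedSpace ℝ Z] in
lemma norm_zero_prod (e : Z) : ‖((0, e) : ℝ × Z)‖ = ‖e‖ := by
  simp [Prod.norm_mk]

lemma norm_dz_le (g : ℝ × Z → F) (e : Z) (p : ℝ × Z) : ‖dz e g p‖ ≤ ‖fderiv ℝ g p‖ * ‖e‖ := by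
  have := (fderiv ℝ g p).le_opNorm (0, e)
  rwa [norm_zero_prod] at this

lemma hasFDerivAt_slice {g : ℝ × Z → F} (hg : ContDiff ℝ ∞ g) (t : ℝ) (z : Z) :
    HasFDerivAt (fun y => g (t, y)) ((fderiv ℝ g (t, z)).comp (ContinuousLinearMap.inr ℝ ℝ Z))
      z := by
  have h1 : HasFDerivAt g (fderiv ℝ g (t, z)) (t, z) := (diff_of hg (t, z)).hasFDerivAt
  exact h1.comp z (hasFDerivAt_prodMk_right t z)

lemma fderiv_slice {g : ℝ × Z → F} (hg : ContDiff ℝ ∞ g) (t : ℝ) (z e : Z) :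
    fderiv ℝ (fun y => g (t, y)) z e = dz e g (t, z) := by
  rw [(hasFDerivAt_slice hg t z).fderiv]
  rfl

lemma fderiv_fderiv_slice {g : ℝ × Z → F} (hg : ContDiff ℝ ∞ g) (t : ℝ) (z e e' : Z) :
    fderiv ℝ (fderiv ℝ (fun y => g (t, y))) z e' e = dz e' (dz e g) (t, z) := by
  have hs : ContDiff ℝ ∞ (fun y => g (t, y)) := hg.comp (contDiff_const.prodMk contDiff_id)
  have hs' : ContDiff ℝ ∞ (fderiv ℝ (fun y => g (t, y))) := hs.fderiv_right (m := ∞) (by simp)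
  have h2 : fderiv ℝ (fun y => fderiv ℝ (fun y => g (t, y)) y e) z e'
      = fderiv ℝ (fderiv ℝ (fun y => g (t, y))) z e' e := by
    have h3 : HasFDerivAt (fun y => fderiv ℝ (fun y => g (t, y)) y e)
        ((ContinuousLinearMap.apply ℝ F e).comp (fderiv ℝ (fderiv ℝ (fun y => g (t, y))) z)) z :=
      (ContinuousLinearMap.apply ℝ F e).hasFDerivAt.comp z ((diff_of hs') z).hasFDerivAt
    rw [h3.fderiv]
    rfl
  rw [← h2]
  have h4 : (fun y => fderiv ℝ (fun y => g (t, y)) y e) = fun y => dz e g (t, y) := by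
    ext y
    exact fderiv_slice hg t y e
  rw [h4]
  exact fderiv_slice (contDiff_dz hg e) t z e'

lemma norm_hess (h : Z → F) (z : Z) :
    ‖iteratedFDeriv ℝ 2 h z‖ = ‖fderiv ℝ (fderiv ℝ h) z‖ := by
  rw [← norm_iteratedFDeriv_fderiv (n := 1), norm_iteratedFDeriv_one]

lemma norm_dz_dz_le {g : ℝ × Z → F} (hg : ContDiff ℝ ∞ g) (t : ℝ) (z e e' : Z) :
    ‖dz e' (dz e g) (t, z)‖ ≤ ‖iteratedFDeriv ℝ 2 (fun y => g (t, y)) z‖ * ‖e'‖ * ‖e‖ := by
  rw [← fderiv_fderiv_slice hg, norm_hess]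
  refine (ContinuousLinearMap.le_opNorm _ e).trans ?_
  exact mul_le_mul_of_nonneg_right (ContinuousLinearMap.le_opNorm _ e') (norm_nonneg _)

lemma norm_hess_le {g : ℝ × Z → F} (hg : ContDiff ℝ ∞ g) (t : ℝ) (z : Z) {C : ℝ} (hC : 0 ≤ C)
    (h : ∀ e e' : Z, ‖e‖ = 1 → ‖e'‖ = 1 → ‖dz e' (dz e g) (t, z)‖ ≤ C) :
    ‖iteratedFDeriv ℝ 2 (fun y => g (t, y)) z‖ ≤ C := by
  rw [norm_hess]
  refine ContinuousLinearMap.opNorm_le_of_unit_norm hC fun e' he' => ?_
  refine ContinuousLinearMap.opNorm_le_of_unit_norm hC fun e he => ?_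
  rw [fderiv_fderiv_slice hg]
  exact h e e' he he'

lemma norm_hess_slice_le {g : ℝ × Z → F} (hg : ContDiff ℝ ∞ g) (t : ℝ) (z : Z) :
    ‖iteratedFDeriv ℝ 2 (fun y => g (t, y)) z‖ ≤ ‖fderiv ℝ (fderiv ℝ g) (t, z)‖ := by
  have h0 : 0 ≤ ‖fderiv ℝ (fderiv ℝ g) (t, z)‖ := by (clear * -; positivity)
  refine norm_hess_le hg t z h0 fun e e' he he' => ?_
  have hs' : ContDiff ℝ ∞ (fderiv ℝ g) := hg.fderiv_right (m := ∞) (by simp)
  have h3 : HasFDerivAt (fun y => fderiv ℝ g y (0, e))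
      ((ContinuousLinearMap.apply ℝ F ((0, e) : ℝ × Z)).comp (fderiv ℝ (fderiv ℝ g) (t, z)))
      (t, z) :=
    (ContinuousLinearMap.apply ℝ F ((0, e) : ℝ × Z)).hasFDerivAt.comp (t, z)
      ((diff_of hs') (t, z)).hasFDerivAt
  have h4 : dz e' (dz e g) (t, z) = fderiv ℝ (fderiv ℝ g) (t, z) (0, e') (0, e) := by
    change fderiv ℝ (fun y => fderiv ℝ g y (0, e)) (t, z) (0, e') = _
    rw [h3.fderiv]
    rfl
  rw [h4]
  refine (ContinuousLinearMap.le_opNorm _ _).trans ?_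
  rw [norm_zero_prod, he, mul_one]
  refine (ContinuousLinearMap.le_opNorm _ _).trans ?_
  rw [norm_zero_prod, he', mul_one]

lemma dz_eq_zero {g : ℝ × Z → F} (hg : ContDiff ℝ ∞ g) {t : ℝ} {U : Set Z} (hU : IsOpen U)
    (h : ∀ z ∈ U, g (t, z) = 0) (e : Z) : ∀ z ∈ U, dz e g (t, z) = 0 := by
  intro z hz
  rw [← fderiv_slice hg]
  have h1 : (fun y => g (t, y)) =ᶠ[𝓝 z] fun _ => (0 : F) := by
    filter_upwards [hU.mem_nhds hz] with y hy
    exact h y hy
  rw [h1.fderiv_eq]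
  simp

lemma dz_add {g g' : ℝ × Z → F} (hg : ContDiff ℝ ∞ g) (hg' : ContDiff ℝ ∞ g') (e : Z) :
    dz e (fun p => g p + g' p) = fun p => dz e g p + dz e g' p := by
  ext p
  unfold dz
  rw [fderiv_fun_add (diff_of hg p) (diff_of hg' p)]
  rfl

lemma dz_sub {g g' : ℝ × Z → F} (hg : ContDiff ℝ ∞ g) (hg' : ContDiff ℝ ∞ g') (e : Z) :
    dz e (fun p => g p - g' p) = fun p => dz e g p - dz e g' p := by
  ext p
  unfold dz
  rw [fderiv_fun_sub (diff_of hg p) (diff_of hg' p)]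
  rfl

variable {F₁ F₂ : Type*} [NormedAddCommGroup F₁] [NormedSpace ℝ F₁] [NormedAddCommGroup F₂]
  [NormedSpace ℝ F₂]

lemma dz_bilin (X : F₁ →L[ℝ] F₂ →L[ℝ] F) {a : ℝ × Z → F₁} {b : ℝ × Z → F₂}
    (ha : ContDiff ℝ ∞ a) (hb : ContDiff ℝ ∞ b) (e : Z) :
    dz e (fun p => X (a p) (b p)) = fun p => X (dz e a p) (b p) + X (a p) (dz e b p) := by
  ext p
  unfold dz
  have h := X.hasFDerivAt_of_bilinear (diff_of ha p).hasFDerivAt (diff_of hb p).hasFDerivAt
  rw [h.fderiv]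
  simp only [add_apply, ContinuousLinearMap.precompR_apply, ContinuousLinearMap.precompL_apply]
  rw [add_comm]
  rfl

lemma fderiv_dz {g : ℝ × Z → F} (hg : ContDiff ℝ ∞ g) {V : ℝ × Z → ℝ × Z}
    (hV : ContDiff ℝ ∞ V) (e : Z) (p : ℝ × Z) :
    fderiv ℝ (dz e g) p (V p)
      = dz e (fun p => fderiv ℝ g p (V p)) p - fderiv ℝ g p (dz e V p) := by
  have hs' : ContDiff ℝ ∞ (fderiv ℝ g) := hg.fderiv_right (m := ∞) (by simp)
  have h3 : HasFDerivAt (fun y => fderiv ℝ g y (0, e))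
      ((ContinuousLinearMap.apply ℝ F ((0, e) : ℝ × Z)).comp (fderiv ℝ (fderiv ℝ g) p)) p :=
    (ContinuousLinearMap.apply ℝ F ((0, e) : ℝ × Z)).hasFDerivAt.comp p
      ((diff_of hs') p).hasFDerivAt
  have h4 : fderiv ℝ (dz e g) p (V p) = fderiv ℝ (fderiv ℝ g) p (V p) (0, e) := by
    change fderiv ℝ (fun y => fderiv ℝ g y (0, e)) p (V p) = _
    rw [h3.fderiv]
    rfl
  have h5 : dz e (fun p => fderiv ℝ g p (V p)) p
      = fderiv ℝ (fderiv ℝ g) p (0, e) (V p) + fderiv ℝ g p (dz e V p) := by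
    unfold dz
    have h6 : HasFDerivAt (fun p => fderiv ℝ g p (V p)) _ p :=
      ((diff_of hs') p).hasFDerivAt.clm_apply ((diff_of hV) p).hasFDerivAt
    rw [h6.fderiv]
    simp only [add_apply, ContinuousLinearMap.comp_apply, ContinuousLinearMap.flip_apply]
    rw [add_comm]
  have h7 : fderiv ℝ (fderiv ℝ g) p (V p) (0, e) = fderiv ℝ (fderiv ℝ g) p (0, e) (V p) := by
    have := (hg.contDiffAt (x := p)).isSymmSndFDerivAt (n := ∞)
      (by rw [minSmoothness_of_isRCLikeNormedField]; exact ENat.LEInfty.out)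
    exact this (V p) (0, e)
  rw [h4, h5, h7]
  abel

end Generic

section Phys

/-- The cross product as a linear map in both arguments. -/
noncomputable def crossM : E3 →ₗ[ℝ] E3 →ₗ[ℝ] E3 :=
  LinearMap.mk₂ ℝ cross
    (fun a b c => by ext k; simp only [cross_apply, PiLp.add_apply]; ring)
    (fun r a b => by ext k; simp only [cross_apply, PiLp.smul_apply, smul_eq_mul]; ring)
    (fun a b c => by ext k; simp only [cross_apply, PiLp.add_apply]; ring)
    (fun r a b => by ext k; simp only [cross_apply, PiLp.smul_apply, smul_eq_mul]; ring)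

/-- The cross product as a bilinear map. -/
noncomputable def crossL : E3 →L[ℝ] E3 →L[ℝ] E3 :=
  LinearMap.mkContinuous₂ crossM 1 (fun a b => by
    rw [one_mul]
    exact norm_cross_le a b)

lemma crossL_apply (a b : E3) : crossL a b = cross a b := rfl

lemma norm_crossL_le (a b : E3) : ‖crossL a b‖ ≤ ‖a‖ * ‖b‖ := norm_cross_le a b

lemma contDiff_q_infty : ContDiff ℝ ∞ q := by
  unfold q
  refine ContDiff.sqrt ?_ (fun v => by positivity)
  exact contDiff_const.add (contDiff_norm_sq ℝ)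

lemma contDiff_u_infty : ContDiff ℝ ∞ u := by
  unfold u
  exact (contDiff_q_infty.inv (fun v => (q_pos v).ne')).smul contDiff_id

lemma q_inv_le_one (v : E3) : (q v)⁻¹ ≤ 1 := inv_le_one_of_one_le₀ (one_le_q v)

lemma norm_fderiv_u_le (v b : E3) : ‖fderiv ℝ u v b‖ ≤ ‖b‖ := by
  rw [fderiv_u_apply]
  refine (norm_acc_le v b).trans ?_
  have h := mul_le_mul_of_nonneg_right (q_inv_le_one v) (norm_nonneg b)
  linarith only [h]

lemma norm_u_le_one (v : E3) : ‖u v‖ ≤ 1 := (norm_u_lt_one v).le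

lemma norm_d2u_le (v b b' : E3) :
    ‖fderiv ℝ (fun w => fderiv ℝ u w b) v b'‖ ≤ 3 * ‖b‖ * ‖b'‖ := by
  have hl : HasDerivAt (fun r : ℝ => v + r • b') b' 0 := by
    have := ((hasDerivAt_id (0 : ℝ)).smul_const b').const_add v
    simpa using this
  have hv0 : v + (0 : ℝ) • b' = v := by simp
  have hq : HasDerivAt (fun r : ℝ => q (v + r • b')) ⟪u v, b'⟫ 0 := by
    have h := hasFDerivAt_qq v
    rw [← hv0] at h
    have h2 := h.comp_hasDerivAt (0 : ℝ) hl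
    rw [hv0] at h2
    refine h2.congr_deriv ?_
    simp [u, real_inner_smul_left]
  have hu : HasDerivAt (fun r : ℝ => u (v + r • b')) (acc v b') 0 := by
    have h : HasFDerivAt u (fderiv ℝ u v) v := ((diff_of contDiff_u_infty) v).hasFDerivAt
    rw [← hv0] at h
    have h2 := h.comp_hasDerivAt (0 : ℝ) hl
    rw [hv0] at h2
    refine h2.congr_deriv ?_
    exact fderiv_u_apply v b'
  have hqi : HasDerivAt (fun r : ℝ => (q (v + r • b'))⁻¹) (-⟪u v, b'⟫ / q v ^ 2) 0 := by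
    have h := hq.inv (by simpa using (q_pos v).ne')
    exact h.congr_deriv (by rw [hv0])
  have hin : HasDerivAt (fun r : ℝ => ⟪u (v + r • b'), b⟫) ⟪acc v b', b⟫ 0 := by
    have h := hu.inner ℝ (hasDerivAt_const (0 : ℝ) b)
    simpa using h
  have hall : HasDerivAt
      (fun r : ℝ => (q (v + r • b'))⁻¹ • (b - ⟪u (v + r • b'), b⟫ • u (v + r • b')))
      ((q v)⁻¹ • (-(⟪u v, b⟫ • acc v b' + ⟪acc v b', b⟫ • u v))
        + (-⟪u v, b'⟫ / q v ^ 2) • (b - ⟪u v, b⟫ • u v)) 0 := by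
    have h := hqi.smul ((hin.smul hu).const_sub b)
    exact h.congr_deriv (by simp only [hv0, Pi.smul_apply'])
  have hL : HasDerivAt (fun r : ℝ => fderiv ℝ u (v + r • b') b)
      (fderiv ℝ (fun w => fderiv ℝ u w b) v b') 0 := by
    have hs : ContDiff ℝ ∞ (fun w => fderiv ℝ u w b) :=
      (contDiff_u_infty.fderiv_right (m := ∞) (by simp)).clm_apply contDiff_const
    have h := ((diff_of hs) v).hasFDerivAt
    rw [← hv0] at h
    have h2 := h.comp_hasDerivAt (0 : ℝ) hl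
    rw [hv0] at h2
    exact h2
  have hE : (fun r : ℝ => fderiv ℝ u (v + r • b') b)
      = fun r : ℝ => (q (v + r • b'))⁻¹ • (b - ⟪u (v + r • b'), b⟫ • u (v + r • b')) := by
    ext1 r
    rw [fderiv_u_apply]
    rfl
  rw [hE] at hL
  rw [hL.unique hall]
  have hq1 := q_inv_le_one v
  have hq0 : 0 < (q v)⁻¹ := inv_pos.2 (q_pos v)
  have ha : ‖acc v b'‖ ≤ ‖b'‖ := by rw [← fderiv_u_apply]; exact norm_fderiv_u_le v b'
  have ha' : ‖acc v b‖ ≤ ‖b‖ := by rw [← fderiv_u_apply]; exact norm_fderiv_u_le v b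
  have hu1 := norm_u_le_one v
  have i1 : |⟪u v, b⟫| ≤ ‖b‖ := (abs_real_inner_le_norm _ _).trans (by
    have := mul_le_mul_of_nonneg_right hu1 (norm_nonneg b); linarith only [this])
  have i2 : |⟪u v, b'⟫| ≤ ‖b'‖ := (abs_real_inner_le_norm _ _).trans (by
    have := mul_le_mul_of_nonneg_right hu1 (norm_nonneg b'); linarith only [this])
  have i3 : |⟪acc v b', b⟫| ≤ ‖b'‖ * ‖b‖ := (abs_real_inner_le_norm _ _).trans
    (mul_le_mul_of_nonneg_right ha (norm_nonneg b))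
  have n1 : ‖(q v)⁻¹ • (-(⟪u v, b⟫ • acc v b' + ⟪acc v b', b⟫ • u v))‖ ≤ 2 * (‖b‖ * ‖b'‖) := by
    rw [norm_smul, norm_neg, Real.norm_of_nonneg hq0.le]
    have m1 : ‖⟪u v, b⟫ • acc v b'‖ ≤ ‖b‖ * ‖b'‖ := by
      rw [norm_smul, Real.norm_eq_abs]
      exact mul_le_mul i1 ha (norm_nonneg _) (norm_nonneg _)
    have m2 : ‖⟪acc v b', b⟫ • u v‖ ≤ ‖b‖ * ‖b'‖ := by
      rw [norm_smul, Real.norm_eq_abs]
      calc |⟪acc v b', b⟫| * ‖u v‖ ≤ (‖b'‖ * ‖b‖) * 1 :=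
            mul_le_mul i3 hu1 (norm_nonneg _) (by (clear * -; positivity))
        _ = ‖b‖ * ‖b'‖ := by ring
    have m3 := norm_add_le (⟪u v, b⟫ • acc v b') (⟪acc v b', b⟫ • u v)
    calc (q v)⁻¹ * ‖⟪u v, b⟫ • acc v b' + ⟪acc v b', b⟫ • u v‖
        ≤ 1 * (2 * (‖b‖ * ‖b'‖)) :=
          mul_le_mul hq1 (by linarith only [m1, m2, m3]) (norm_nonneg _) zero_le_one
      _ = 2 * (‖b‖ * ‖b'‖) := one_mul _
  have n2 : ‖(-⟪u v, b'⟫ / q v ^ 2) • (b - ⟪u v, b⟫ • u v)‖ ≤ ‖b‖ * ‖b'‖ := by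
    have e1 : (-⟪u v, b'⟫ / q v ^ 2) • (b - ⟪u v, b⟫ • u v)
        = (-⟪u v, b'⟫ * (q v)⁻¹) • acc v b := by
      unfold acc
      rw [smul_smul]
      congr 1
      (clear * -; field_simp)
    rw [e1, norm_smul, Real.norm_eq_abs, abs_mul, abs_neg, abs_of_pos hq0]
    calc |⟪u v, b'⟫| * (q v)⁻¹ * ‖acc v b‖ ≤ (‖b'‖ * 1) * ‖b‖ := by
          refine mul_le_mul (mul_le_mul i2 hq1 hq0.le (norm_nonneg _)) ha' (norm_nonneg _)
            (by (clear * -; positivity))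
      _ = ‖b‖ * ‖b'‖ := by ring
  refine (norm_add_le _ _).trans ?_
  nlinarith only [n1, n2]

/-- The force field on phase space. -/
noncomputable def Kf (E B : ℝ × E3 → E3) (y : ℝ × E3 × E3) : E3 :=
  lor (E (y.1, y.2.1)) (B (y.1, y.2.1)) y.2.2

/-- The Vlasov vector field. -/
noncomputable def Vf (E B : ℝ × E3 → E3) (y : ℝ × E3 × E3) : ℝ × E3 × E3 :=
  (1, u y.2.2, Kf E B y)

/-- The lift of a field to phase space. -/
def lf (W : ℝ × E3 → E3) (y : ℝ × E3 × E3) : E3 := W (y.1, y.2.1)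

/-- The lift of a velocity function to phase space. -/
def lv (w : E3 → E3) (y : ℝ × E3 × E3) : E3 := w y.2.2

lemma contDiff_lf {W : ℝ × E3 → E3} (hW : ContDiff ℝ ∞ W) : ContDiff ℝ ∞ (lf W) :=
  hW.comp (contDiff_fst.prodMk (contDiff_fst.comp contDiff_snd))

lemma contDiff_lv {w : E3 → E3} (hw : ContDiff ℝ ∞ w) : ContDiff ℝ ∞ (lv w) :=
  hw.comp (contDiff_snd.comp contDiff_snd)

lemma dz_lf {W : ℝ × E3 → E3} (hW : ContDiff ℝ ∞ W) (e : E3 × E3) :
    dz e (lf W) = lf (dz e.1 W) := by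
  ext1 y
  have h1 : HasFDerivAt W (fderiv ℝ W (y.1, y.2.1)) (y.1, y.2.1) :=
    ((diff_of hW) _).hasFDerivAt
  have h2 : HasFDerivAt (fun y : ℝ × E3 × E3 => (y.1, y.2.1))
      ((ContinuousLinearMap.fst ℝ ℝ (E3 × E3)).prod
        ((ContinuousLinearMap.fst ℝ E3 E3).comp (ContinuousLinearMap.snd ℝ ℝ (E3 × E3)))) y :=
    ((ContinuousLinearMap.fst ℝ ℝ (E3 × E3)).prod
        ((ContinuousLinearMap.fst ℝ E3 E3).comp
          (ContinuousLinearMap.snd ℝ ℝ (E3 × E3)))).hasFDerivAt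
  have h3 := h1.comp y h2
  unfold dz
  change fderiv ℝ (W ∘ fun y : ℝ × E3 × E3 => (y.1, y.2.1)) y (0, e) = _
  rw [h3.fderiv]
  rfl

lemma dz_lv {w : E3 → E3} (hw : ContDiff ℝ ∞ w) (e : E3 × E3) :
    dz e (lv w) = lv (fun v => fderiv ℝ w v e.2) := by
  ext1 y
  have h1 : HasFDerivAt w (fderiv ℝ w y.2.2) y.2.2 := ((diff_of hw) _).hasFDerivAt
  have h2 : HasFDerivAt (fun y : ℝ × E3 × E3 => y.2.2)
      ((ContinuousLinearMap.snd ℝ E3 E3).comp (ContinuousLinearMap.snd ℝ ℝ (E3 × E3))) y :=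
    ((ContinuousLinearMap.snd ℝ E3 E3).comp (ContinuousLinearMap.snd ℝ ℝ (E3 × E3))).hasFDerivAt
  have h3 := h1.comp y h2
  unfold dz
  change fderiv ℝ (w ∘ fun y : ℝ × E3 × E3 => y.2.2) y (0, e) = _
  rw [h3.fderiv]
  rfl

lemma Kf_eq (E B : ℝ × E3 → E3) : Kf E B = fun y => lf E y + crossL (lv u y) (lf B y) := rfl

lemma contDiff_Kf {E B : ℝ × E3 → E3} (hE : ContDiff ℝ ∞ E) (hB : ContDiff ℝ ∞ B) :
    ContDiff ℝ ∞ (Kf E B) := by
  rw [Kf_eq]
  refine (contDiff_lf hE).add ?_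
  exact (crossL.contDiff.comp (contDiff_lv contDiff_u_infty)).clm_apply (contDiff_lf hB)

lemma contDiff_Vf {E B : ℝ × E3 → E3} (hE : ContDiff ℝ ∞ E) (hB : ContDiff ℝ ∞ B) :
    ContDiff ℝ ∞ (Vf E B) :=
  contDiff_const.prodMk ((contDiff_lv contDiff_u_infty).prodMk (contDiff_Kf hE hB))

lemma contDiff_du (b : E3) : ContDiff ℝ ∞ (fun v => fderiv ℝ u v b) :=
  (contDiff_u_infty.fderiv_right (m := ∞) (by simp)).clm_apply contDiff_const

lemma contDiff_cross {a b : ℝ × E3 × E3 → E3} (ha : ContDiff ℝ ∞ a) (hb : ContDiff ℝ ∞ b) :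
    ContDiff ℝ ∞ (fun y => crossL (a y) (b y)) :=
  (crossL.contDiff.comp ha).clm_apply hb

lemma dz_Kf {E B : ℝ × E3 → E3} (hE : ContDiff ℝ ∞ E) (hB : ContDiff ℝ ∞ B) (e : E3 × E3) :
    dz e (Kf E B) = fun y => lf (dz e.1 E) y
      + (crossL (lv (fun v => fderiv ℝ u v e.2) y) (lf B y)
        + crossL (lv u y) (lf (dz e.1 B) y)) := by
  rw [Kf_eq, dz_add (contDiff_lf hE) (contDiff_cross (contDiff_lv contDiff_u_infty)
    (contDiff_lf hB)), dz_lf hE, dz_bilin crossL (contDiff_lv contDiff_u_infty) (contDiff_lf hB),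
    dz_lf hB, dz_lv contDiff_u_infty]

lemma dz_dz_Kf {E B : ℝ × E3 → E3} (hE : ContDiff ℝ ∞ E) (hB : ContDiff ℝ ∞ B)
    (e e' : E3 × E3) :
    dz e' (dz e (Kf E B)) = fun y => lf (dz e'.1 (dz e.1 E)) y
      + ((crossL (lv (fun v => fderiv ℝ (fun w => fderiv ℝ u w e.2) v e'.2) y) (lf B y)
          + crossL (lv (fun v => fderiv ℝ u v e.2) y) (lf (dz e'.1 B) y))
        + (crossL (lv (fun v => fderiv ℝ u v e'.2) y) (lf (dz e.1 B) y)
          + crossL (lv u y) (lf (dz e'.1 (dz e.1 B)) y))) := by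
  have c1 := contDiff_lf (contDiff_dz hE e.1)
  have c2 := contDiff_lf (contDiff_dz hB e.1)
  have c3 := contDiff_lv (contDiff_du e.2)
  have c4 := contDiff_lf hB
  have c5 := contDiff_lv contDiff_u_infty
  rw [dz_Kf hE hB, dz_add c1 ((contDiff_cross c3 c4).add (contDiff_cross c5 c2)),
    dz_add (contDiff_cross c3 c4) (contDiff_cross c5 c2), dz_bilin crossL c3 c4,
    dz_bilin crossL c5 c2, dz_lf (contDiff_dz hE e.1), dz_lf (contDiff_dz hB e.1),
    dz_lf hB, dz_lv (contDiff_du e.2), dz_lv contDiff_u_infty]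

end Phys

end Vale.Agent.P107.LE.Hess
end
end
end

section

section

attribute [-instance] ProperSMul.toContinuousSMul IsTopologicalTorsor.toContinuousSMul
  IdemSemiring.toCanonicallyOrderedAdd IdemSemiring.toMulLeftMono IdemSemiring.toMulRightMono
  AddQuantale.instAddLeftMono AddQuantale.instAddRightMono Quantale.instMulLeftMono
  Quantale.instMulRightMono FiniteDimensional.rclike_to_real IsScalarTower.complexToReal
  FiniteDimensional.complexToReal

section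

/-!
Bounds for the second derivatives of the force field, of the flux and of the transport
equation.
-/

open MeasureTheory Set Filter Topology
open scoped RealInnerProductSpace ENNReal NNReal ContDiff

namespace Vale.Agent.P107.LE.Hess

section SDbounds

variable {F : Type*} [NormedAddCommGroup F] [NormedSpace ℝ F]

lemma sd_bound {g : ℝ × E3 × E3 → F} (h : SD g) (T : ℝ) :
    ∃ C : ℝ, 0 ≤ C ∧ ∀ p : ℝ × E3 × E3, |p.1| ≤ T → ‖g p‖ ≤ C := by
  obtain ⟨R, hR⟩ := h.supp T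
  have hc : IsCompact (Icc (-T) T ×ˢ (Metric.closedBall (0 : E3) R ×ˢ
      Metric.closedBall (0 : E3) R)) :=
    isCompact_Icc.prod ((isCompact_closedBall _ _).prod (isCompact_closedBall _ _))
  obtain ⟨C, hC⟩ := hc.exists_bound_of_continuousOn (h.smooth.continuous.continuousOn)
  refine ⟨max C 0, le_max_right _ _, fun p hp => ?_⟩
  by_cases h0 : g p = 0
  · rw [h0, norm_zero]
    exact le_max_right _ _
  · have h1 := hR p.1 p.2.1 p.2.2 hp h0
    refine (hC p ⟨abs_le.1 hp, ?_, ?_⟩).trans (le_max_left _ _)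
    · exact mem_closedBall_zero_iff.2 h1.1
    · exact mem_closedBall_zero_iff.2 h1.2

lemma sd_fderiv {g : ℝ × E3 × E3 → F} (h : SD g) : SD (fderiv ℝ g) where
  smooth := h.smooth.fderiv_right (m := ∞) (by simp)
  supp := by
    intro T
    obtain ⟨R, hR⟩ := h.supp (T + 1)
    refine ⟨R, fun t x v ht hne => ?_⟩
    by_contra hcon
    apply hne
    have hU : IsOpen {p : ℝ × E3 × E3 | |p.1| < T + 1 ∧ ¬ (‖p.2.1‖ ≤ R ∧ ‖p.2.2‖ ≤ R)} := by
      have ho : IsOpen {p : ℝ × E3 × E3 | |p.1| < T + 1} :=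
        isOpen_lt (by fun_prop) continuous_const
      refine ho.inter ?_
      have hcl1 : IsClosed {p : ℝ × E3 × E3 | ‖p.2.1‖ ≤ R} :=
        isClosed_le (by fun_prop) continuous_const
      have hcl2 : IsClosed {p : ℝ × E3 × E3 | ‖p.2.2‖ ≤ R} :=
        isClosed_le (by fun_prop) continuous_const
      exact (hcl1.inter hcl2).isOpen_compl
    have h0 : g =ᶠ[𝓝 (t, x, v)] fun _ => (0 : F) := by
      filter_upwards [hU.mem_nhds (show (t, x, v) ∈ _ from ⟨by simp only; linarith only [ht], hcon⟩)]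
        with p hp
      by_contra hgp
      exact hp.2 (hR p.1 p.2.1 p.2.2 hp.1.le hgp)
    rw [h0.fderiv_eq]
    simp

end SDbounds

section Prod

variable {Z F₁ F₂ : Type*} [NormedAddCommGroup Z] [NormedSpace ℝ Z] [NormedAddCommGroup F₁]
  [NormedSpace ℝ F₁] [NormedAddCommGroup F₂] [NormedSpace ℝ F₂]

lemma dz_prodMk {a : ℝ × Z → F₁} {b : ℝ × Z → F₂} (ha : ContDiff ℝ ∞ a) (hb : ContDiff ℝ ∞ b)
    (e : Z) : dz e (fun p => (a p, b p)) = fun p => (dz e a p, dz e b p) := by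
  ext1 p
  unfold dz
  have h := (diff_of ha p).hasFDerivAt.prodMk (diff_of hb p).hasFDerivAt
  rw [h.fderiv]
  rfl

lemma dz_const (c : F₁) (e : Z) : dz e (fun _ : ℝ × Z => c) = fun _ => 0 := by
  ext1 p
  unfold dz
  simp

end Prod

section Kbounds

variable {E B : ℝ × E3 → E3}

lemma norm_Kf_le {t : ℝ} {x v : E3} {M : ℝ} (h : ‖E (t, x)‖ + ‖B (t, x)‖ ≤ M) :
    ‖Kf E B (t, x, v)‖ ≤ M := (norm_lor_le _ _ _).trans h

lemma norm_dz_Kf_le (hE : ContDiff ℝ ∞ E) (hB : ContDiff ℝ ∞ B) {t : ℝ} {x v : E3} {M : ℝ}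
    (h0 : ‖E (t, x)‖ + ‖B (t, x)‖ ≤ M) (h1 : ‖fderiv ℝ E (t, x)‖ + ‖fderiv ℝ B (t, x)‖ ≤ M)
    {e : E3 × E3} (he : ‖e‖ ≤ 1) : ‖dz e (Kf E B) (t, x, v)‖ ≤ 2 * M := by
  have he1 : ‖e.1‖ ≤ 1 := (norm_fst_le e).trans he
  have he2 : ‖e.2‖ ≤ 1 := (norm_snd_le e).trans he
  rw [dz_Kf hE hB]
  simp only [lf, lv]
  have n1 : ‖dz e.1 E (t, x)‖ ≤ ‖fderiv ℝ E (t, x)‖ :=
    (norm_dz_le E e.1 (t, x)).trans (mul_le_of_le_one_right (norm_nonneg _) he1)
  have n2 : ‖dz e.1 B (t, x)‖ ≤ ‖fderiv ℝ B (t, x)‖ :=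
    (norm_dz_le B e.1 (t, x)).trans (mul_le_of_le_one_right (norm_nonneg _) he1)
  have n3 : ‖crossL (fderiv ℝ u v e.2) (B (t, x))‖ ≤ ‖B (t, x)‖ := by
    refine (norm_crossL_le _ _).trans ?_
    exact mul_le_of_le_one_left (norm_nonneg _) ((norm_fderiv_u_le v e.2).trans he2)
  have n4 : ‖crossL (u v) (dz e.1 B (t, x))‖ ≤ ‖dz e.1 B (t, x)‖ := by
    refine (norm_crossL_le _ _).trans ?_
    exact mul_le_of_le_one_left (norm_nonneg _) (norm_u_le_one v)
  have n5 := norm_add_le (dz e.1 E (t, x))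
    (crossL (fderiv ℝ u v e.2) (B (t, x)) + crossL (u v) (dz e.1 B (t, x)))
  have n6 := norm_add_le (crossL (fderiv ℝ u v e.2) (B (t, x)))
    (crossL (u v) (dz e.1 B (t, x)))
  have n7 := norm_nonneg (E (t, x))
  linarith only [h0, h1, n1, n2, n3, n4, n5, n6, n7]

lemma norm_dz_dz_Kf_le (hE : ContDiff ℝ ∞ E) (hB : ContDiff ℝ ∞ B) {t : ℝ} {x v : E3}
    {M S : ℝ} (h0 : ‖E (t, x)‖ + ‖B (t, x)‖ ≤ M)
    (h1 : ‖fderiv ℝ E (t, x)‖ + ‖fderiv ℝ B (t, x)‖ ≤ M)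
    (h2 : ‖iteratedFDeriv ℝ 2 (fun y => E (t, y)) x‖ ≤ S)
    (h3 : ‖iteratedFDeriv ℝ 2 (fun y => B (t, y)) x‖ ≤ S)
    {e e' : E3 × E3} (he : ‖e‖ ≤ 1) (he' : ‖e'‖ ≤ 1) :
    ‖dz e' (dz e (Kf E B)) (t, x, v)‖ ≤ 2 * S + 5 * M := by
  have he1 : ‖e.1‖ ≤ 1 := (norm_fst_le e).trans he
  have he2 : ‖e.2‖ ≤ 1 := (norm_snd_le e).trans he
  have he1' : ‖e'.1‖ ≤ 1 := (norm_fst_le e').trans he'
  have he2' : ‖e'.2‖ ≤ 1 := (norm_snd_le e').trans he'
  rw [dz_dz_Kf hE hB]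
  simp only [lf, lv]
  have hess : ∀ W : ℝ × E3 → E3, ContDiff ℝ ∞ W →
      ‖dz e'.1 (dz e.1 W) (t, x)‖ ≤ ‖iteratedFDeriv ℝ 2 (fun y => W (t, y)) x‖ := by
    intro W hW
    refine (norm_dz_dz_le hW t x e.1 e'.1).trans ?_
    calc ‖iteratedFDeriv ℝ 2 (fun y => W (t, y)) x‖ * ‖e'.1‖ * ‖e.1‖
        ≤ ‖iteratedFDeriv ℝ 2 (fun y => W (t, y)) x‖ * 1 * 1 := by (clear * - he1 he1'; gcongr)
      _ = ‖iteratedFDeriv ℝ 2 (fun y => W (t, y)) x‖ := by ring
  have n1 : ‖dz e'.1 (dz e.1 E) (t, x)‖ ≤ S := (hess E hE).trans h2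
  have n2 : ‖crossL (fderiv ℝ (fun w => fderiv ℝ u w e.2) v e'.2) (B (t, x))‖
      ≤ 3 * ‖B (t, x)‖ := by
    refine (norm_crossL_le _ _).trans ?_
    refine mul_le_mul_of_nonneg_right ?_ (norm_nonneg _)
    refine (norm_d2u_le v e.2 e'.2).trans ?_
    calc 3 * ‖e.2‖ * ‖e'.2‖ ≤ 3 * 1 * 1 := by (clear * - he2 he2'; gcongr)
      _ = 3 := by norm_num
  have n3 : ‖crossL (fderiv ℝ u v e.2) (dz e'.1 B (t, x))‖ ≤ ‖fderiv ℝ B (t, x)‖ := by
    refine (norm_crossL_le _ _).trans ?_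
    have a1 : ‖fderiv ℝ u v e.2‖ ≤ 1 := (norm_fderiv_u_le v e.2).trans he2
    have a2 : ‖dz e'.1 B (t, x)‖ ≤ ‖fderiv ℝ B (t, x)‖ :=
      (norm_dz_le B e'.1 (t, x)).trans (mul_le_of_le_one_right (norm_nonneg _) he1')
    exact (mul_le_of_le_one_left (norm_nonneg _) a1).trans a2
  have n4 : ‖crossL (fderiv ℝ u v e'.2) (dz e.1 B (t, x))‖ ≤ ‖fderiv ℝ B (t, x)‖ := by
    refine (norm_crossL_le _ _).trans ?_
    have a1 : ‖fderiv ℝ u v e'.2‖ ≤ 1 := (norm_fderiv_u_le v e'.2).trans he2'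
    have a2 : ‖dz e.1 B (t, x)‖ ≤ ‖fderiv ℝ B (t, x)‖ :=
      (norm_dz_le B e.1 (t, x)).trans (mul_le_of_le_one_right (norm_nonneg _) he1)
    exact (mul_le_of_le_one_left (norm_nonneg _) a1).trans a2
  have n5 : ‖crossL (u v) (dz e'.1 (dz e.1 B) (t, x))‖ ≤ S := by
    refine (norm_crossL_le _ _).trans ?_
    exact (mul_le_of_le_one_left (norm_nonneg _) (norm_u_le_one v)).trans
      ((hess B hB).trans h3)
  have hEn := norm_nonneg (E (t, x))
  have hEn' := norm_nonneg (fderiv ℝ E (t, x))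
  refine (norm_add_le _ _).trans ?_
  refine (add_le_add n1 ((norm_add_le _ _).trans (add_le_add
    ((norm_add_le _ _).trans (add_le_add n2 n3)) ((norm_add_le _ _).trans (add_le_add n4 n5))))).trans ?_
  linarith only [h0, h1, hEn, hEn']

lemma dz_Vf (hE : ContDiff ℝ ∞ E) (hB : ContDiff ℝ ∞ B) (e : E3 × E3) :
    dz e (Vf E B) = fun y => ((0 : ℝ), lv (fun v => fderiv ℝ u v e.2) y, dz e (Kf E B) y) := by
  have h : Vf E B = fun y => ((1 : ℝ), (lv u y, Kf E B y)) := rfl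
  rw [h, dz_prodMk contDiff_const ((contDiff_lv contDiff_u_infty).prodMk (contDiff_Kf hE hB)),
    dz_prodMk (contDiff_lv contDiff_u_infty) (contDiff_Kf hE hB), dz_const,
    dz_lv contDiff_u_infty]

lemma dz_dz_Vf (hE : ContDiff ℝ ∞ E) (hB : ContDiff ℝ ∞ B) (e e' : E3 × E3) :
    dz e' (dz e (Vf E B)) = fun y => ((0 : ℝ),
      lv (fun v => fderiv ℝ (fun w => fderiv ℝ u w e.2) v e'.2) y,
      dz e' (dz e (Kf E B)) y) := by
  have hd := contDiff_dz (contDiff_Kf hE hB) e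
  rw [dz_Vf hE hB, dz_prodMk contDiff_const ((contDiff_lv (contDiff_du e.2)).prodMk hd),
    dz_prodMk (contDiff_lv (contDiff_du e.2)) hd, dz_const, dz_lv (contDiff_du e.2)]

end Kbounds

section Second

variable {E B : ℝ × E3 → E3} {f : ℝ × E3 × E3 → ℝ}

lemma abs_dz_dz_le (hf : ContDiff ℝ ∞ f) {t : ℝ} {z : E3 × E3} {S a b : ℝ}
    (h : ‖iteratedFDeriv ℝ 2 (fun y => f (t, y)) z‖ ≤ S) {e e' : E3 × E3} (he : ‖e‖ ≤ a)
    (he' : ‖e'‖ ≤ b) : |dz e' (dz e f) (t, z)| ≤ S * b * a := by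
  have h1 := norm_dz_dz_le hf t z e e'
  rw [Real.norm_eq_abs] at h1
  refine h1.trans ?_
  have hS : 0 ≤ S := (norm_nonneg _).trans h
  have ha : 0 ≤ a := (norm_nonneg _).trans he
  have hb : 0 ≤ b := (norm_nonneg _).trans he'
  gcongr

/-- The source of the transport equation for the second derivatives. -/
lemma source_bound (hE : ContDiff ℝ ∞ E) (hB : ContDiff ℝ ∞ B) (hf : ContDiff ℝ ∞ f)
    (hV : ∀ p, fderiv ℝ f p (Vf E B p) = 0) {t : ℝ} {x v : E3} {M S : ℝ} (hM : 0 ≤ M)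
    (h0 : ‖E (t, x)‖ + ‖B (t, x)‖ ≤ M)
    (h1 : ‖fderiv ℝ E (t, x)‖ + ‖fderiv ℝ B (t, x)‖ ≤ M)
    (h2 : ‖iteratedFDeriv ℝ 2 (fun y => E (t, y)) x‖ ≤ S)
    (h3 : ‖iteratedFDeriv ℝ 2 (fun y => B (t, y)) x‖ ≤ S)
    (h4 : ‖iteratedFDeriv ℝ 2 (fun y => f (t, y)) (x, v)‖ ≤ S)
    (h5 : ‖fderiv ℝ f (t, x, v)‖ ≤ M)
    {e e' : E3 × E3} (he : ‖e‖ ≤ 1) (he' : ‖e'‖ ≤ 1) :
    |fderiv ℝ (dz e' (dz e f)) (t, x, v) (Vf E B (t, x, v))|
      ≤ (5 * M ^ 2 + 3 * M) + (6 * M + 2) * S := by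
  have hS : 0 ≤ S := (norm_nonneg _).trans h2
  have cV := contDiff_Vf hE hB
  have cf := contDiff_dz hf e
  set p : ℝ × E3 × E3 := (t, x, v) with hp
  have e1 : fderiv ℝ (dz e' (dz e f)) p (Vf E B p)
      = dz e' (fun p => fderiv ℝ (dz e f) p (Vf E B p)) p
        - fderiv ℝ (dz e f) p (dz e' (Vf E B) p) := fderiv_dz cf cV e' p
  have e2 : (fun p => fderiv ℝ (dz e f) p (Vf E B p))
      = fun p => - fderiv ℝ f p (dz e (Vf E B) p) := by
    ext1 y
    rw [fderiv_dz hf cV e y]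
    have : (fun p => fderiv ℝ f p (Vf E B p)) = fun _ => (0 : ℝ) := by
      ext1 y; exact hV y
    rw [this, dz_const]
    simp
  have hs' : ContDiff ℝ ∞ (fderiv ℝ f) := hf.fderiv_right (m := ∞) (by simp)
  have cW := contDiff_dz cV e
  have e3 : dz e' (fun p => - fderiv ℝ f p (dz e (Vf E B) p)) p
      = - (fderiv ℝ (fderiv ℝ f) p (0, e') (dz e (Vf E B) p)
        + fderiv ℝ f p (dz e' (dz e (Vf E B)) p)) := by
    unfold dz
    have h6 : HasFDerivAt (fun p => - fderiv ℝ f p (dz e (Vf E B) p)) _ p :=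
      (((diff_of hs') p).hasFDerivAt.clm_apply ((diff_of cW) p).hasFDerivAt).neg
    have h7 : (fun p => - fderiv ℝ f p (fderiv ℝ (Vf E B) p (0, e)))
      = fun p => - fderiv ℝ f p (dz e (Vf E B) p) := rfl
    rw [h7, h6.fderiv]
    simp only [neg_apply, add_apply, ContinuousLinearMap.comp_apply,
      ContinuousLinearMap.flip_apply]
    rw [add_comm]
    rfl
  have e4 : ∀ w : E3 × E3, fderiv ℝ (fderiv ℝ f) p (0, e') (0, w) = dz e' (dz w f) p := by
    intro w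
    have h3 : HasFDerivAt (fun y => fderiv ℝ f y (0, w))
        ((ContinuousLinearMap.apply ℝ ℝ ((0, w) : ℝ × E3 × E3)).comp
          (fderiv ℝ (fderiv ℝ f) p)) p :=
      (ContinuousLinearMap.apply ℝ ℝ ((0, w) : ℝ × E3 × E3)).hasFDerivAt.comp p
        ((diff_of hs') p).hasFDerivAt
    change _ = fderiv ℝ (fun y => fderiv ℝ f y (0, w)) p (0, e')
    rw [h3.fderiv]
    rfl
  -- the three directions
  have dV : ∀ e : E3 × E3, ‖e‖ ≤ 1 → ∃ w : E3 × E3, dz e (Vf E B) p = (0, w) ∧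
      ‖w‖ ≤ 2 * M + 1 := by
    intro e he
    refine ⟨(fderiv ℝ u v e.2, dz e (Kf E B) p), by rw [dz_Vf hE hB]; rfl, ?_⟩
    refine norm_prod_le_iff.2 ⟨?_, ?_⟩
    · have := (norm_fderiv_u_le v e.2).trans ((norm_snd_le e).trans he)
      simp only
      linarith only [hM, this]
    · have := norm_dz_Kf_le hE hB h0 h1 he (v := v)
      simp only
      linarith only [this]
  have ddV : ∃ w : E3 × E3, dz e' (dz e (Vf E B)) p = (0, w) ∧
      ‖w‖ ≤ 2 * S + 5 * M + 3 := by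
    refine ⟨(fderiv ℝ (fun w => fderiv ℝ u w e.2) v e'.2, dz e' (dz e (Kf E B)) p),
      by rw [dz_dz_Vf hE hB]; rfl, ?_⟩
    refine norm_prod_le_iff.2 ⟨?_, ?_⟩
    · have a1 := norm_d2u_le v e.2 e'.2
      have a2 : 3 * ‖e.2‖ * ‖e'.2‖ ≤ 3 * 1 * 1 := by
        have b1 := (norm_snd_le e).trans he
        have b2 := (norm_snd_le e').trans he'
        (clear * - b1 b2; gcongr)
      simp only
      linarith only [hM, hS, a1, a2]
    · have := norm_dz_dz_Kf_le hE hB h0 h1 h2 h3 he he' (v := v)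
      simp only
      linarith only [this]
  obtain ⟨w, hw, hwn⟩ := dV e he
  obtain ⟨w', hw', hwn'⟩ := dV e' he'
  obtain ⟨w'', hw'', hwn''⟩ := ddV
  rw [e1, e2, e3, hw, hw', hw'', e4 w]
  have b1 : |dz e' (dz w f) p| ≤ S * 1 * (2 * M + 1) := abs_dz_dz_le hf h4 hwn he'
  have b2 : |fderiv ℝ (dz e f) p (0, w')| ≤ S * (2 * M + 1) * 1 :=
    abs_dz_dz_le hf h4 he hwn'
  have b3 : |fderiv ℝ f p (0, w'')| ≤ M * (2 * S + 5 * M + 3) := by
    have := (fderiv ℝ f p).le_opNorm (0, w'')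
    rw [norm_zero_prod, Real.norm_eq_abs] at this
    exact this.trans (mul_le_mul h5 hwn'' (norm_nonneg _) hM)
  have b4 : |-(dz e' (dz w f) p + fderiv ℝ f p (0, w'')) - fderiv ℝ (dz e f) p (0, w')|
      ≤ |dz e' (dz w f) p| + |fderiv ℝ f p (0, w'')| + |fderiv ℝ (dz e f) p (0, w')| := by
    refine (abs_sub _ _).trans ?_
    rw [abs_neg]
    exact add_le_add (abs_add_le _ _) le_rfl
  refine b4.trans ?_
  nlinarith only [b1, b2, b3]

/-- The second derivatives of the flux. -/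
lemma flux_bound (hE : ContDiff ℝ ∞ E) (hB : ContDiff ℝ ∞ B) (hf : ContDiff ℝ ∞ f)
    {t : ℝ} {x v : E3} {M S : ℝ} (hM : 0 ≤ M)
    (h0 : ‖E (t, x)‖ + ‖B (t, x)‖ ≤ M)
    (h1 : ‖fderiv ℝ E (t, x)‖ + ‖fderiv ℝ B (t, x)‖ ≤ M)
    (h2 : ‖iteratedFDeriv ℝ 2 (fun y => E (t, y)) x‖ ≤ S)
    (h3 : ‖iteratedFDeriv ℝ 2 (fun y => B (t, y)) x‖ ≤ S)
    (h4 : ‖iteratedFDeriv ℝ 2 (fun y => f (t, y)) (x, v)‖ ≤ S)
    (h5 : ‖fderiv ℝ f (t, x, v)‖ ≤ M) (h6 : |f (t, x, v)| ≤ M)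
    {e e' : E3 × E3} (he : ‖e‖ ≤ 1) (he' : ‖e'‖ ≤ 1) :
    ‖dz e' (dz e (flx E B f)) (t, x, v)‖ ≤ 9 * M ^ 2 + 3 * M * S := by
  have hS : 0 ≤ S := (norm_nonneg _).trans h2
  have cK := contDiff_Kf hE hB
  set X : ℝ →L[ℝ] E3 →L[ℝ] E3 := ContinuousLinearMap.lsmul ℝ ℝ with hX
  have hflx : flx E B f = fun y => X (f y) (Kf E B y) := rfl
  have cfe := contDiff_dz hf e
  have cKe := contDiff_dz cK e
  have e1 : dz e' (dz e (flx E B f)) = fun y =>
      (X (dz e' (dz e f) y) (Kf E B y) + X (dz e f y) (dz e' (Kf E B) y))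
      + (X (dz e' f y) (dz e (Kf E B) y) + X (f y) (dz e' (dz e (Kf E B)) y)) := by
    have c1 : ContDiff ℝ ∞ (fun p => X (dz e f p) (Kf E B p)) :=
      (X.contDiff.comp cfe).clm_apply cK
    have c2 : ContDiff ℝ ∞ (fun p => X (f p) (dz e (Kf E B) p)) :=
      (X.contDiff.comp hf).clm_apply cKe
    rw [hflx, dz_bilin X hf cK, dz_add c1 c2, dz_bilin X cfe cK, dz_bilin X hf cKe]
  rw [e1]
  simp only [hX, ContinuousLinearMap.lsmul_apply]
  set p : ℝ × E3 × E3 := (t, x, v) with hp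
  have a1 : ‖dz e' (dz e f) p • Kf E B p‖ ≤ S * M := by
    rw [norm_smul, Real.norm_eq_abs]
    have := abs_dz_dz_le hf h4 he he'
    rw [mul_one, mul_one] at this
    exact mul_le_mul this (norm_Kf_le h0) (norm_nonneg _) hS
  have hde : ∀ e : E3 × E3, ‖e‖ ≤ 1 → |dz e f p| ≤ M := by
    intro e he
    have := norm_dz_le f e p
    rw [Real.norm_eq_abs] at this
    exact this.trans ((mul_le_of_le_one_right (norm_nonneg _) he).trans h5)
  have a2 : ‖dz e f p • dz e' (Kf E B) p‖ ≤ M * (2 * M) := by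
    rw [norm_smul, Real.norm_eq_abs]
    exact mul_le_mul (hde e he) (norm_dz_Kf_le hE hB h0 h1 he') (norm_nonneg _) hM
  have a3 : ‖dz e' f p • dz e (Kf E B) p‖ ≤ M * (2 * M) := by
    rw [norm_smul, Real.norm_eq_abs]
    exact mul_le_mul (hde e' he') (norm_dz_Kf_le hE hB h0 h1 he) (norm_nonneg _) hM
  have a4 : ‖f p • dz e' (dz e (Kf E B)) p‖ ≤ M * (2 * S + 5 * M) := by
    rw [norm_smul, Real.norm_eq_abs]
    exact mul_le_mul h6 (norm_dz_dz_Kf_le hE hB h0 h1 h2 h3 he he') (norm_nonneg _) hM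
  refine (norm_add_le _ _).trans ?_
  refine (add_le_add (norm_add_le _ _) (norm_add_le _ _)).trans ?_
  nlinarith only [a1, a2, a3, a4]

end Second

end Vale.Agent.P107.LE.Hess
end
end
end

section

section

attribute [-instance] ProperSMul.toContinuousSMul IsTopologicalTorsor.toContinuousSMul
  IdemSemiring.toCanonicallyOrderedAdd IdemSemiring.toMulLeftMono IdemSemiring.toMulRightMono
  AddQuantale.instAddLeftMono AddQuantale.instAddRightMono Quantale.instMulLeftMono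
  Quantale.instMulRightMono FiniteDimensional.rclike_to_real IsScalarTower.complexToReal
  FiniteDimensional.complexToReal

section

/-!
Uniform bounds for the second derivatives of the solutions of the delayed system.
-/

open MeasureTheory Set Filter Topology
open scoped RealInnerProductSpace ENNReal NNReal ContDiff

namespace Vale.Agent.P107.LE

namespace Hess

lemma dz_zero_of_early {F : Type*} [NormedAddCommGroup F] [NormedSpace ℝ F]
    {g : ℝ × E3 × E3 → F} (hg : ContDiff ℝ ∞ g) {t : ℝ} {P : ℝ}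
    (h : ∀ x v, P < ‖v‖ → g (t, x, v) = 0) (e e' : E3 × E3) :
    ∀ x v, P < ‖v‖ → dz e' (dz e g) (t, x, v) = 0 := by
  have hU : IsOpen {z : E3 × E3 | P < ‖z.2‖} := isOpen_lt continuous_const (by fun_prop)
  have h1 : ∀ z ∈ {z : E3 × E3 | P < ‖z.2‖}, dz e g (t, z) = 0 :=
    dz_eq_zero hg hU (fun z hz => h z.1 z.2 hz) e
  have h2 : ∀ z ∈ {z : E3 × E3 | P < ‖z.2‖}, dz e' (dz e g) (t, z) = 0 :=
    dz_eq_zero (contDiff_dz hg e) hU h1 e'
  intro x v hv
  exact h2 (x, v) hv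

lemma norm_pair {e : E3} (he : ‖e‖ = 1) : ‖((e, 0) : E3 × E3)‖ ≤ 1 := by
  simp [Prod.norm_mk, he]

lemma sf_hess {F : Type*} [NormedAddCommGroup F] [NormedSpace ℝ F] {W : ℝ × E3 → F}
    (hW : SF W) (T : ℝ) : ∃ C : ℝ, 0 ≤ C ∧ ∀ (t : ℝ) (x : E3), |t| ≤ T →
      ‖iteratedFDeriv ℝ 2 (fun y => W (t, y)) x‖ ≤ C := by
  obtain ⟨C, hC⟩ := hW.bdd 2 T
  refine ⟨max C 0, le_max_right _ _, fun t x ht => ?_⟩
  refine (norm_hess_slice_le hW.smooth t x).trans ?_
  rw [← norm_hess]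
  exact (hC (t, x) ht).trans (le_max_left _ _)

lemma sd_hess {F : Type*} [NormedAddCommGroup F] [NormedSpace ℝ F] {g : ℝ × E3 × E3 → F}
    (hg : SD g) (T : ℝ) : ∃ C : ℝ, 0 ≤ C ∧ ∀ (t : ℝ) (z : E3 × E3), |t| ≤ T →
      ‖iteratedFDeriv ℝ 2 (fun y => g (t, y)) z‖ ≤ C := by
  obtain ⟨C, hC0, hC⟩ := sd_bound (sd_fderiv (sd_fderiv hg)) T
  exact ⟨C, hC0, fun t z ht => (norm_hess_slice_le hg.smooth t z).trans (hC (t, z) ht)⟩

end Hess

open Hess

section Eps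

variable {f₀ : E3 × E3 → ℝ} {E₀ B₀ : E3 → E3} {fL : ℝ × E3 × E3 → ℝ} {EL BL : ℝ × E3 → E3}

/-- G3. Uniform second order bounds. -/
theorem hess_bound (hD : Dat f₀ E₀ B₀) (hL : Layer f₀ E₀ B₀ fL EL BL) (T P : ℝ) :
    ∃ C : ℝ, 0 ≤ C ∧ ∀ ε f E B, 0 < ε → EpsSol fL EL BL ε f E B → ∀ T' ≤ T, MB P T' f →
      ∀ t, 0 ≤ t → t ≤ T' →
        (∀ x, ‖iteratedFDeriv ℝ 2 (fun y => E (t, y)) x‖
          + ‖iteratedFDeriv ℝ 2 (fun y => B (t, y)) x‖ ≤ C) ∧
        ∀ z, ‖iteratedFDeriv ℝ 2 (fun y => f (t, y)) z‖ ≤ C := by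
  obtain ⟨Cf, hCf0, hfL, hfe⟩ := EpsSol.sup_f hD hL
  obtain ⟨Cs, hCs0, hCs⟩ := sup_bound hD hL T P
  obtain ⟨Cg, hCg0, hCg⟩ := grad_bound hD hL T P
  obtain ⟨R, hR⟩ := hL.sd.supp |T|
  obtain ⟨Cl, hCl0, hlin⟩ := linear_bound T (max P R)
  have sE₀ := sup_SB_SF hD.sE
  have sB₀ := sup_SB_SF hD.sB
  have sflL := SD.flx sE₀ sB₀ hL.sd
  obtain ⟨L1, hL10, hL1⟩ := sd_hess hL.sd |T|
  obtain ⟨L2, hL20, hL2⟩ := sd_hess sflL |T|
  obtain ⟨L3, hL30, hL3⟩ := sf_hess hL.sE |T|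
  obtain ⟨L4, hL40, hL4⟩ := sf_hess hL.sB |T|
  set M : ℝ := Cf + 2 * Cs + 2 * Cg with hM
  have hM0 : 0 ≤ M := by (clear * - Cf hCf0 Cs hCs0 Cg hCg0; positivity)
  set L : ℝ := L1 + L2 + L3 + L4 with hLd
  have hL0 : 0 ≤ L := by (clear * - L1 hL10 L2 hL20 L3 hL30 L4 hL40; positivity)
  set A0 : ℝ := L + 9 * M ^ 2 with hA0
  set A1 : ℝ := 1 + 3 * M with hA1
  set b0 : ℝ := 5 * M ^ 2 + 3 * M with hb0
  set b1 : ℝ := 6 * M + 2 with hb1
  have hA00 : 0 ≤ A0 := by (clear * - L1 hL10 L2 hL20 L3 hL30 L4 hL40 M L; positivity)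
  have hA10 : 0 ≤ A1 := by (clear * - Cf hCf0 Cs hCs0 Cg hCg0 M; positivity)
  have hb00 : 0 ≤ b0 := by (clear * - Cf hCf0 Cs hCs0 Cg hCg0 M; positivity)
  have hb10 : 0 ≤ b1 := by (clear * - Cf hCf0 Cs hCs0 Cg hCg0 M; positivity)
  set C : ℝ := L + (2 * Cl * A0 + b0) * |T| + (2 * Cl * A1 + b1) with hC
  have hC0 : 0 ≤ C := by (clear * - T Cf hCf0 Cs hCs0 Cg hCg0 Cl hCl0 L1 hL10 L2 hL20 L3 hL30 L4 hL40 M L A0 A1 b0 b1; positivity)
  refine ⟨C * Real.exp (C * |T|), by (clear * - Cf hCf0 Cs hCs0 Cg hCg0 Cl hCl0 L1 hL10 L2 hL20 L3 hL30 L4 hL40 M L A0 A1 b0 b1; positivity), ?_⟩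
  intro ε f E B hε h T' hT' hMBf t₀ ht₀ ht₀T'
  have hT'0 : 0 ≤ T' := ht₀.trans ht₀T'
  have hT'T : T' ≤ |T| := hT'.trans (le_abs_self T)
  have hlate := EpsSol.lateSys hD hL hε h
  -- the running supremum
  set φ : ℝ × E3 × E3 → ℝ := fun r => ‖iteratedFDeriv ℝ 2 (fun y => E (r.1, y)) r.2.1‖
    + ‖iteratedFDeriv ℝ 2 (fun y => B (r.1, y)) r.2.1‖
    + ‖iteratedFDeriv ℝ 2 (fun y => f (r.1, y)) r.2‖ with hφ
  have hφ0 : ∀ r, 0 ≤ φ r := fun r => by (clear * - f E B; positivity)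
  set St : ℝ → Set ℝ := fun s => {y | ∃ r : ℝ × E3 × E3, 0 ≤ r.1 ∧ r.1 ≤ max s 0 ∧ y = φ r}
    with hSt
  have hbdd : ∀ s, BddAbove (St s) := by
    intro s
    obtain ⟨c1, _, hc1⟩ := sf_hess h.sE (max s 0)
    obtain ⟨c2, _, hc2⟩ := sf_hess h.sB (max s 0)
    obtain ⟨c3, _, hc3⟩ := sd_hess h.sd (max s 0)
    refine ⟨c1 + c2 + c3, ?_⟩
    rintro y ⟨r, hr0, hr1, rfl⟩
    have hr : |r.1| ≤ max s 0 := by rw [abs_of_nonneg hr0]; exact hr1
    exact add_le_add (add_le_add (hc1 r.1 r.2.1 hr) (hc2 r.1 r.2.1 hr)) (hc3 r.1 r.2 hr)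
  have hne : ∀ s, (St s).Nonempty := fun s => ⟨_, (0, 0, 0), le_rfl, le_max_right _ _, rfl⟩
  set S : ℝ → ℝ := fun s => sSup (St s) with hS
  have hSle : ∀ s (r : ℝ × E3 × E3), 0 ≤ r.1 → r.1 ≤ max s 0 → φ r ≤ S s :=
    fun s r h1 h2 => le_csSup (hbdd s) ⟨r, h1, h2, rfl⟩
  have hSmono : Monotone S := by
    intro s s' hss
    refine csSup_le_csSup (hbdd s') (hne s) ?_
    rintro y ⟨r, h1, h2, rfl⟩
    exact ⟨r, h1, h2.trans (max_le_max_right _ hss), rfl⟩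
  have hS0 : ∀ s, 0 ≤ S s := fun s => (hφ0 (0, 0, 0)).trans
    (hSle s (0, 0, 0) le_rfl (le_max_right _ _))
  have hSint : ∀ a b : ℝ, IntervalIntegrable S volume a b := fun a b =>
    hSmono.intervalIntegrable
  -- bounds of the delayed fields
  have dE := dl_SF hε h.sE
  have dB := dl_SF hε h.sB
  have hfields : ∀ s, 0 ≤ s → s ≤ T' → ∀ x : E3,
      ‖dl ε E (s, x)‖ + ‖dl ε B (s, x)‖ ≤ M ∧
      ‖fderiv ℝ (dl ε E) (s, x)‖ + ‖fderiv ℝ (dl ε B) (s, x)‖ ≤ M ∧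
      ‖iteratedFDeriv ℝ 2 (fun y => dl ε E (s, y)) x‖ ≤ S s ∧
      ‖iteratedFDeriv ℝ 2 (fun y => dl ε B (s, y)) x‖ ≤ S s := by
    intro s hs0 hsT x
    have hmax : max s 0 = s := max_eq_left hs0
    have hb : ∀ r : ℝ × E3, 0 ≤ r.1 → r.1 ≤ max s 0 → ‖E r‖ + ‖B r‖ ≤ Cs := by
      intro r hr0 hr1
      rw [hmax] at hr1
      exact hCs ε f E B hε h T' hT' hMBf r.1 r.2 hr0 (hr1.trans hsT)
    have hg : ∀ r : ℝ × E3, 0 ≤ r.1 → r.1 ≤ max s 0 →
        ‖fderiv ℝ E r‖ + ‖fderiv ℝ B r‖ ≤ Cg := by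
      intro r hr0 hr1
      rw [hmax] at hr1
      exact (hCg ε f E B hε h T' hT' hMBf r.1 hr0 (hr1.trans hsT)).1 r.2
    have a1 : ‖dl ε E (s, x)‖ ≤ Cs := dl_bound hε h.sE (p := (s, x)) (fun r hr0 hr1 =>
      (le_add_of_nonneg_right (norm_nonneg _)).trans (hb r hr0 hr1))
    have a2 : ‖dl ε B (s, x)‖ ≤ Cs := dl_bound hε h.sB (p := (s, x)) (fun r hr0 hr1 =>
      (le_add_of_nonneg_left (norm_nonneg _)).trans (hb r hr0 hr1))
    have a3 : ‖fderiv ℝ (dl ε E) (s, x)‖ ≤ Cg :=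
      dl_fderiv_bound hε h.sE (p := (s, x)) (fun r hr0 hr1 =>
        (le_add_of_nonneg_right (norm_nonneg _)).trans (hg r hr0 hr1))
    have a4 : ‖fderiv ℝ (dl ε B) (s, x)‖ ≤ Cg :=
      dl_fderiv_bound hε h.sB (p := (s, x)) (fun r hr0 hr1 =>
        (le_add_of_nonneg_left (norm_nonneg _)).trans (hg r hr0 hr1))
    refine ⟨by linarith only [hCf0, hCg0, a1, a2], by linarith only [hCf0, hCs0, a3, a4], ?_, ?_⟩
    · refine dl_hess_bound hε h.sE (t := s) (fun r hr0 hr1 y => ?_) x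
      have h1 := hSle s (r, y, 0) hr0 hr1
      have h2 : ‖iteratedFDeriv ℝ 2 (fun y => E (r, y)) y‖ ≤ φ (r, y, 0) := by
        simp only [hφ]
        have := norm_nonneg (iteratedFDeriv ℝ 2 (fun y => B (r, y)) y)
        have := norm_nonneg (iteratedFDeriv ℝ 2 (fun z => f (r, z)) (y, 0))
        linarith
      exact h2.trans h1
    · refine dl_hess_bound hε h.sB (t := s) (fun r hr0 hr1 y => ?_) x
      have h1 := hSle s (r, y, 0) hr0 hr1
      have h2 : ‖iteratedFDeriv ℝ 2 (fun y => B (r, y)) y‖ ≤ φ (r, y, 0) := by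
        simp only [hφ]
        have := norm_nonneg (iteratedFDeriv ℝ 2 (fun y => E (r, y)) y)
        have := norm_nonneg (iteratedFDeriv ℝ 2 (fun z => f (r, z)) (y, 0))
        linarith
      exact h2.trans h1
  have hfH : ∀ s, 0 ≤ s → ∀ z : E3 × E3, ‖iteratedFDeriv ℝ 2 (fun y => f (s, y)) z‖ ≤ S s := by
    intro s hs z
    have h1 := hSle s (s, z) hs (le_max_left _ _)
    refine le_trans ?_ h1
    simp only [hφ]
    have := norm_nonneg (iteratedFDeriv ℝ 2 (fun y => E (s, y)) z.1)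
    have := norm_nonneg (iteratedFDeriv ℝ 2 (fun y => B (s, y)) z.1)
    linarith
  have hf1 : ∀ s, 0 ≤ s → s ≤ T' → ∀ z : E3 × E3, ‖fderiv ℝ f (s, z)‖ ≤ M := by
    intro s hs0 hsT z
    have := (hCg ε f E B hε h T' hT' hMBf s hs0 hsT).2 z
    linarith only [hCf0, hCs0, hCg0, this]
  have hf0 : ∀ p, |f p| ≤ M := by
    intro p
    have := hfe ε f E B hε h p
    linarith only [hCs0, hCg0, this]
  have hint : ∀ (c d t : ℝ), ∫ s in (0 : ℝ)..t, (c + d * S s)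
      = c * t + d * ∫ s in (0 : ℝ)..t, S s := by
    intro c d t
    rw [intervalIntegral.integral_add intervalIntegrable_const ((hSint 0 t).const_mul d),
      intervalIntegral.integral_const, intervalIntegral.integral_const_mul, smul_eq_mul,
      sub_zero, mul_comm]
  have hTle : ∀ s, s ≤ T' → 0 ≤ s → |s| ≤ |T| := fun s h1 h2 => by
    rw [abs_of_nonneg h2]; exact h1.trans hT'T
  -- the fields
  have hEB : ∀ t x, 0 ≤ t → t ≤ T' → ∀ e e' : E3, ‖e‖ = 1 → ‖e'‖ = 1 →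
      ‖dz e' (dz e (fun p => E p - EL p)) (t, x)‖ + ‖dz e' (dz e (fun p => B p - BL p)) (t, x)‖
        ≤ Cl * (A0 * t + A1 * ∫ s in (0 : ℝ)..t, S s) := by
    intro t x ht0 htT e e' he he'
    have hl2 := (hlate.dir e).dir e'
    rw [← hint A0 A1 t]
    refine hlin _ _ _ _ hl2 T' hT' ?_ (fun s => A0 + A1 * S s) ?_ ?_ t x ht0 htT
    · -- support
      intro s x v hs hv
      rcases le_or_gt s 0 with hs0 | hs0
      · obtain ⟨η, hη, hl⟩ := hl2.late
        exact (hl s (hs0.trans hη.le)).1 (x, v)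
      · have key : ∀ x v, max P R < ‖v‖ → f (s, x, v) = 0 ∧ fL (s, x, v) = 0 := by
          intro x v hv
          constructor
          · by_contra hcon
            exact absurd (hMBf s x v hs0.le hs hcon)
              (not_le.mpr ((le_max_left _ _).trans_lt hv))
          · by_contra hcon
            have := (hR s x v (hTle s hs hs0.le) hcon).2
            exact absurd this (not_le.mpr ((le_max_right _ _).trans_lt hv))
        constructor
        · refine dz_zero_of_early hlate.sg.smooth (fun x v hv => ?_) (e, 0) (e', 0) x v hv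
          rw [(key x v hv).1, (key x v hv).2, sub_zero]
        · refine dz_zero_of_early hlate.sH.smooth (fun x v hv => ?_) (e, 0) (e', 0) x v hv
          show f (s, x, v) • lor (dl ε E (s, x)) (dl ε B (s, x)) v
            - fL (s, x, v) • lor (E₀ x) (B₀ x) v = 0
          rw [(key x v hv).1, (key x v hv).2, zero_smul, zero_smul, sub_zero]
    · intro s s' hss
      exact add_le_add le_rfl (mul_le_mul_of_nonneg_left (hSmono hss) hA10)
    · -- bound of the sources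
      intro s z hs
      rcases le_or_gt s 0 with hs0 | hs0
      · obtain ⟨η, hη, hl⟩ := hl2.late
        have h1 := (hl s (hs0.trans hη.le)).1 z
        rw [h1.1, h1.2, abs_zero, norm_zero, add_zero]
        exact add_nonneg hA00 (mul_nonneg hA10 (hS0 s))
      · obtain ⟨x, v⟩ := z
        obtain ⟨k1, k2, k3, k4⟩ := hfields s hs0.le hs x
        have g1 : dz (e', 0) (dz (e, 0) (fun y => f y - fL y)) (s, x, v)
            = dz (e', 0) (dz (e, 0) f) (s, x, v) - dz (e', 0) (dz (e, 0) fL) (s, x, v) := by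
          rw [dz_sub h.sd.smooth hL.sd.smooth,
            dz_sub (contDiff_dz h.sd.smooth _) (contDiff_dz hL.sd.smooth _)]
        have sfl := SD.flx dE dB h.sd
        have g2 : dz (e', 0) (dz (e, 0) (fun y => flx (dl ε E) (dl ε B) f y
              - flx (fun p => E₀ p.2) (fun p => B₀ p.2) fL y)) (s, x, v)
            = dz (e', 0) (dz (e, 0) (flx (dl ε E) (dl ε B) f)) (s, x, v)
              - dz (e', 0) (dz (e, 0) (flx (fun p => E₀ p.2) (fun p => B₀ p.2) fL))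
                (s, x, v) := by
          rw [dz_sub sfl.smooth sflL.smooth,
            dz_sub (contDiff_dz sfl.smooth _) (contDiff_dz sflL.smooth _)]
        have m1 : |dz (e', 0) (dz (e, 0) f) (s, x, v)| ≤ S s * 1 * 1 :=
          abs_dz_dz_le h.sd.smooth (hfH s hs0.le (x, v)) (norm_pair he) (norm_pair he')
        have m2 : |dz (e', 0) (dz (e, 0) fL) (s, x, v)| ≤ L1 * 1 * 1 :=
          abs_dz_dz_le hL.sd.smooth (hL1 s (x, v) (hTle s hs hs0.le)) (norm_pair he)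
            (norm_pair he')
        have m3 := flux_bound dE.smooth dB.smooth h.sd.smooth hM0 k1 k2 k3 k4
          (hfH s hs0.le (x, v)) (hf1 s hs0.le hs (x, v)) (hf0 (s, x, v)) (norm_pair he)
          (norm_pair he')
        have m4 : ‖dz (e', 0) (dz (e, 0) (flx (fun p => E₀ p.2) (fun p => B₀ p.2) fL))
            (s, x, v)‖ ≤ L2 := by
          refine (norm_dz_dz_le sflL.smooth s (x, v) (e, 0) (e', 0)).trans ?_
          have n1 := hL2 s (x, v) (hTle s hs hs0.le)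
          have n2 := norm_pair he
          have n3 := norm_pair he'
          calc ‖iteratedFDeriv ℝ 2 (fun y => flx (fun p => E₀ p.2) (fun p => B₀ p.2) fL (s, y))
                (x, v)‖ * ‖((e', 0) : E3 × E3)‖ * ‖((e, 0) : E3 × E3)‖ ≤ L2 * 1 * 1 := by
                (clear * - hL20 n1 n2 n3; gcongr)
            _ = L2 := by ring
        show |dz (e', 0) (dz (e, 0) (fun y => f y - fL y)) (s, x, v)|
          + ‖dz (e', 0) (dz (e, 0) (fun y => flx (dl ε E) (dl ε B) f y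
              - flx (fun p => E₀ p.2) (fun p => B₀ p.2) fL y)) (s, x, v)‖ ≤ A0 + A1 * S s
        rw [g1, g2]
        have q1 := abs_sub (dz (e', 0) (dz (e, 0) f) (s, x, v))
          (dz (e', 0) (dz (e, 0) fL) (s, x, v))
        have q2 := norm_sub_le (dz (e', 0) (dz (e, 0) (flx (dl ε E) (dl ε B) f)) (s, x, v))
          (dz (e', 0) (dz (e, 0) (flx (fun p => E₀ p.2) (fun p => B₀ p.2) fL)) (s, x, v))
        rw [hA0, hA1]
        linarith only [hL30, hL40, m1, m2, m3, m4, q1, q2]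
  set I : ℝ → ℝ := fun t => ∫ s in (0 : ℝ)..t, S s with hI
  have hI0 : ∀ t, 0 ≤ t → 0 ≤ I t := fun t ht =>
    intervalIntegral.integral_nonneg ht (fun s _ => hS0 s)
  have hEh : ∀ t x, 0 ≤ t → t ≤ T' → ‖iteratedFDeriv ℝ 2 (fun y => E (t, y)) x‖
      ≤ L3 + Cl * (A0 * t + A1 * I t) := by
    intro t x ht0 htT
    have hc0 : 0 ≤ Cl * (A0 * t + A1 * I t) :=
      mul_nonneg hCl0 (add_nonneg (mul_nonneg hA00 ht0) (mul_nonneg hA10 (hI0 t ht0)))
    refine norm_hess_le h.sE.smooth t x (add_nonneg hL30 hc0) fun e e' he he' => ?_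
    have h1 := hEB t x ht0 htT e e' he he'
    have h2 : dz e' (dz e (fun p => E p - EL p)) (t, x)
        = dz e' (dz e E) (t, x) - dz e' (dz e EL) (t, x) := by
      rw [dz_sub h.sE.smooth hL.sE.smooth,
        dz_sub (contDiff_dz h.sE.smooth _) (contDiff_dz hL.sE.smooth _)]
    rw [h2] at h1
    have h3 : ‖dz e' (dz e EL) (t, x)‖ ≤ L3 := by
      refine (norm_dz_dz_le hL.sE.smooth t x e e').trans ?_
      rw [he, he', mul_one, mul_one]
      exact hL3 t x (hTle t htT ht0)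
    have h4 := norm_nonneg (dz e' (dz e (fun p => B p - BL p)) (t, x))
    have h5 := norm_sub_norm_le (dz e' (dz e E) (t, x)) (dz e' (dz e EL) (t, x))
    linarith only [h1, h3, h4, h5]
  have hBh : ∀ t x, 0 ≤ t → t ≤ T' → ‖iteratedFDeriv ℝ 2 (fun y => B (t, y)) x‖
      ≤ L4 + Cl * (A0 * t + A1 * I t) := by
    intro t x ht0 htT
    have hc0 : 0 ≤ Cl * (A0 * t + A1 * I t) :=
      mul_nonneg hCl0 (add_nonneg (mul_nonneg hA00 ht0) (mul_nonneg hA10 (hI0 t ht0)))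
    refine norm_hess_le h.sB.smooth t x (add_nonneg hL40 hc0) fun e e' he he' => ?_
    have h1 := hEB t x ht0 htT e e' he he'
    have h2 : dz e' (dz e (fun p => B p - BL p)) (t, x)
        = dz e' (dz e B) (t, x) - dz e' (dz e BL) (t, x) := by
      rw [dz_sub h.sB.smooth hL.sB.smooth,
        dz_sub (contDiff_dz h.sB.smooth _) (contDiff_dz hL.sB.smooth _)]
    rw [h2] at h1
    have h3 : ‖dz e' (dz e BL) (t, x)‖ ≤ L4 := by
      refine (norm_dz_dz_le hL.sB.smooth t x e e').trans ?_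
      rw [he, he', mul_one, mul_one]
      exact hL4 t x (hTle t htT ht0)
    have h4 := norm_nonneg (dz e' (dz e (fun p => E p - EL p)) (t, x))
    have h5 := norm_sub_norm_le (dz e' (dz e B) (t, x)) (dz e' (dz e BL) (t, x))
    linarith only [h1, h3, h4, h5]
  -- the density
  have hV : ∀ p, fderiv ℝ f p (Vf (dl ε E) (dl ε B) p) = 0 := fun p => h.vl p.1 p.2.1 p.2.2
  have hFh : ∀ t z, 0 ≤ t → t ≤ T' → ‖iteratedFDeriv ℝ 2 (fun y => f (t, y)) z‖
      ≤ L1 + (b0 * t + b1 * I t) := by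
    intro t z ht0 htT
    have hc0 : 0 ≤ b0 * t + b1 * I t :=
      add_nonneg (mul_nonneg hb00 ht0) (mul_nonneg hb10 (hI0 t ht0))
    refine norm_hess_le h.sd.smooth t z (add_nonneg hL10 hc0) fun e e' he he' => ?_
    rw [Real.norm_eq_abs]
    have hg : ContDiff ℝ ∞ (dz e' (dz e f)) := contDiff_dz (contDiff_dz h.sd.smooth e) e'
    have h1 := transport_bound dE dB (g := dz e' (dz e f))
      (h := fun p => fderiv ℝ (dz e' (dz e f)) p (Vf (dl ε E) (dl ε B) p))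
      (hg.of_le (by simp)) (T := T') (a := L1) (b := fun s => b0 + b1 * S s) ?_ ?_ ?_ ?_
      t ht0 htT z
    · rw [hint b0 b1 t] at h1
      exact h1
    · intro s s' hss
      exact add_le_add le_rfl (mul_le_mul_of_nonneg_left (hSmono hss) hb10)
    · intro s x v _ _
      rfl
    · intro z
      have e0 : (fun y => f (0, y)) = fun y => fL (0, y) := by
        ext1 y
        exact h.agf 0 hε.le y
      have e1 := norm_dz_dz_le h.sd.smooth 0 z e e'
      rw [e0, Real.norm_eq_abs, he, he', mul_one, mul_one] at e1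
      exact e1.trans (hL1 0 z (by simp))
    · intro s z hs0 hsT
      obtain ⟨x, v⟩ := z
      obtain ⟨k1, k2, k3, k4⟩ := hfields s hs0 hsT x
      exact source_bound dE.smooth dB.smooth h.sd.smooth hV hM0 k1 k2 k3 k4
        (hfH s hs0 (x, v)) (hf1 s hs0 hsT (x, v)) he.le he'.le
  -- Gronwall
  have hgron : ∀ t ∈ Icc 0 T', S t ≤ C + C * ∫ s in (0 : ℝ)..t, S s := by
    intro t ht
    refine csSup_le (hne t) ?_
    rintro y ⟨r, hr0, hr1, rfl⟩
    rw [max_eq_left ht.1] at hr1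
    have hrT : r.1 ≤ T' := hr1.trans ht.2
    have a1 := hEh r.1 r.2.1 hr0 hrT
    have a2 := hBh r.1 r.2.1 hr0 hrT
    have a3 := hFh r.1 r.2 hr0 hrT
    have hIle : I r.1 ≤ I t := by
      have : I t = I r.1 + ∫ s in r.1..t, S s :=
        (intervalIntegral.integral_add_adjacent_intervals (hSint _ _) (hSint _ _)).symm
      rw [this]
      exact le_add_of_nonneg_right (intervalIntegral.integral_nonneg hr1 (fun s _ => hS0 s))
    have hIt := hI0 t ht.1
    have hrTT : r.1 ≤ |T| := hrT.trans hT'T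
    have hc1 : 0 ≤ 2 * Cl * A0 + b0 := by (clear * - Cf hCf0 Cs hCs0 Cg hCg0 hCl0 L1 hL10 L2 hL20 L3 hL30 L4 hL40 M L; positivity)
    have hc2 : 0 ≤ 2 * Cl * A1 + b1 := by (clear * - Cf hCf0 Cs hCs0 Cg hCg0 hCl0 M; positivity)
    have b1' : (2 * Cl * A0 + b0) * r.1 ≤ (2 * Cl * A0 + b0) * |T| :=
      mul_le_mul_of_nonneg_left hrTT hc1
    have b2' : (2 * Cl * A1 + b1) * I r.1 ≤ (2 * Cl * A1 + b1) * I t :=
      mul_le_mul_of_nonneg_left hIle hc2
    have b3' : (2 * Cl * A1 + b1) * I t ≤ C * I t := by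
      refine mul_le_mul_of_nonneg_right ?_ hIt
      have : 0 ≤ L + (2 * Cl * A0 + b0) * |T| := by (clear * - Cf hCf0 Cs hCs0 Cg hCg0 hCl0 L1 hL10 L2 hL20 L3 hL30 L4 hL40 M; positivity)
      linarith only [this]
    show φ r ≤ C + C * I t
    simp only [hφ]
    have : L3 + Cl * (A0 * r.1 + A1 * I r.1) + (L4 + Cl * (A0 * r.1 + A1 * I r.1))
        + (L1 + (b0 * r.1 + b1 * I r.1))
        = (L1 + L3 + L4) + (2 * Cl * A0 + b0) * r.1 + (2 * Cl * A1 + b1) * I r.1 := by ring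
    have hLL : L1 + L3 + L4 ≤ L := by linarith only [hL20]
    linarith only [hL20, a1, a2, a3, hc2, b1', b2', b3']
  have hfin := gronwall_monotone hC0 (hSmono.monotoneOn _) (fun t _ => hS0 t) hgron t₀ ⟨ht₀, ht₀T'⟩
  have hexp : C * Real.exp (C * t₀) ≤ C * Real.exp (C * |T|) := by
    refine mul_le_mul_of_nonneg_left (Real.exp_le_exp.2 ?_) hC0
    exact mul_le_mul_of_nonneg_left (ht₀T'.trans hT'T) hC0
  refine ⟨fun x => ?_, fun z => ?_⟩
  · have h1 := hSle t₀ (t₀, x, 0) ht₀ (le_max_left _ _)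
    simp only [hφ] at h1
    have := norm_nonneg (iteratedFDeriv ℝ 2 (fun z => f (t₀, z)) (x, 0))
    linarith only [hfin, hexp, h1, this]
  · exact ((hfH t₀ ht₀ z).trans hfin).trans hexp

end Eps

end Vale.Agent.P107.LE
end
end
end

section

section

attribute [-instance] ProperSMul.toContinuousSMul IsTopologicalTorsor.toContinuousSMul
  IdemSemiring.toCanonicallyOrderedAdd IdemSemiring.toMulLeftMono IdemSemiring.toMulRightMono
  AddQuantale.instAddLeftMono AddQuantale.instAddRightMono Quantale.instMulLeftMono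
  Quantale.instMulRightMono FiniteDimensional.rclike_to_real IsScalarTower.complexToReal
  FiniteDimensional.complexToReal

section

/-!
Convergence of the delayed system: the difference of two solutions, closeness of level sets,
closeness of the first derivatives.
-/

open MeasureTheory Set Filter Topology
open scoped RealInnerProductSpace ENNReal NNReal ContDiff

namespace Vale.Agent.P107.LE

lemma df_two_le_infty : (2 : WithTop ℕ∞) ≤ ((⊤ : ℕ∞) : WithTop ℕ∞) := by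
  have h : ((2 : ℕ∞) : WithTop ℕ∞) ≤ ((⊤ : ℕ∞) : WithTop ℕ∞) := WithTop.coe_le_coe.2 le_top
  exact h

section Slices

variable {X F : Type*} [NormedAddCommGroup X] [NormedSpace ℝ X] [NormedAddCommGroup F]
  [NormedSpace ℝ F]

/-- The operator norm on a product with the time axis. -/
lemma df_opNorm_time_space_le (L : ℝ × X →L[ℝ] F) :
    ‖L‖ ≤ ‖L (1, 0)‖ + ‖L.comp (ContinuousLinearMap.inr ℝ ℝ X)‖ := by
  refine L.opNorm_le_bound (by positivity) ?_
  rintro ⟨s, y⟩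
  have h1 : ((s, y) : ℝ × X) = s • (1, 0) + ContinuousLinearMap.inr ℝ ℝ X y := by simp
  have h2 : L (s, y) = s • L (1, 0) + L.comp (ContinuousLinearMap.inr ℝ ℝ X) y := by
    conv_lhs => rw [h1]
    rw [map_add, map_smul]
    rfl
  rw [h2]
  refine (norm_add_le _ _).trans ?_
  rw [norm_smul]
  have h3 := (L.comp (ContinuousLinearMap.inr ℝ ℝ X)).le_opNorm y
  have h4 : ‖s‖ ≤ ‖((s, y) : ℝ × X)‖ := norm_fst_le (s, y)
  have h5 : ‖y‖ ≤ ‖((s, y) : ℝ × X)‖ := norm_snd_le (s, y)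
  have h6 := mul_le_mul_of_nonneg_right h4 (norm_nonneg (L (1, 0)))
  have h7 := mul_le_mul_of_nonneg_left h5
    (norm_nonneg (L.comp (ContinuousLinearMap.inr ℝ ℝ X)))
  linarith only [h3, h6, h7]

lemma df_fderiv_space_slice {W : ℝ × X → F} (hW : Differentiable ℝ W) (t : ℝ) (x : X) :
    fderiv ℝ (fun y => W (t, y)) x
      = (fderiv ℝ W (t, x)).comp (ContinuousLinearMap.inr ℝ ℝ X) := by
  have h1 : HasFDerivAt (fun y : X => ((t, y) : ℝ × X)) (ContinuousLinearMap.inr ℝ ℝ X) x :=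
    hasFDerivAt_prodMk_right t x
  exact ((hW (t, x)).hasFDerivAt.comp x h1).fderiv

/-- The difference of the space derivatives, by interpolation. -/
lemma df_space_deriv_sub_le {W W' : ℝ × X → F} (hW : ContDiff ℝ ∞ W) (hW' : ContDiff ℝ ∞ W')
    {t a b : ℝ} (h0 : ∀ x, ‖W (t, x) - W' (t, x)‖ ≤ a)
    (h2 : ∀ x, ‖iteratedFDeriv ℝ 2 (fun y => W (t, y)) x‖ ≤ b)
    (h2' : ∀ x, ‖iteratedFDeriv ℝ 2 (fun y => W' (t, y)) x‖ ≤ b) (x : X) :
    ‖(fderiv ℝ W (t, x) - fderiv ℝ W' (t, x)).comp (ContinuousLinearMap.inr ℝ ℝ X)‖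
      ≤ 2 * Real.sqrt (a * (2 * b)) := by
  have hs : ContDiff ℝ ∞ (fun y => W (t, y)) := hW.comp (contDiff_prodMk_right t)
  have hs' : ContDiff ℝ ∞ (fun y => W' (t, y)) := hW'.comp (contDiff_prodMk_right t)
  have hd : Differentiable ℝ (fun y => W (t, y)) := hs.differentiable (by simp)
  have hd' : Differentiable ℝ (fun y => W' (t, y)) := hs'.differentiable (by simp)
  have h3 := interp (h := fun y => W (t, y) - W' (t, y)) ((hs.sub hs').of_le df_two_le_infty)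
    (a := a) (b := 2 * b) h0 (by
      intro y
      have e1 : iteratedFDeriv ℝ 2 (fun y => W (t, y) - W' (t, y)) y
          = iteratedFDeriv ℝ 2 (fun y => W (t, y)) y
            - iteratedFDeriv ℝ 2 (fun y => W' (t, y)) y := by
        have := iteratedFDeriv_sub_apply (𝕜 := ℝ) (i := 2) (x := y)
          (f := fun y => W (t, y)) (g := fun y => W' (t, y))
          ((hs.of_le df_two_le_infty).contDiffAt) ((hs'.of_le df_two_le_infty).contDiffAt)
        exact this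
      rw [e1]
      refine (norm_sub_le _ _).trans ?_
      have := h2 y
      have := h2' y
      linarith) x
  have h4 : fderiv ℝ (fun y => W (t, y) - W' (t, y)) x
      = (fderiv ℝ W (t, x) - fderiv ℝ W' (t, x)).comp (ContinuousLinearMap.inr ℝ ℝ X) := by
    rw [fderiv_fun_sub (hd x) (hd' x), df_fderiv_space_slice (hW.differentiable (by simp)),
      df_fderiv_space_slice (hW'.differentiable (by simp)), ContinuousLinearMap.sub_comp]
  rwa [h4] at h3

end Slices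

lemma df_fderiv_coord_apply {X : Type*} [NormedAddCommGroup X] [NormedSpace ℝ X] {W : X → E3}
    {p : X} (h : DifferentiableAt ℝ W p) (i : Fin 3) (e : X) :
    fderiv ℝ (fun y => W y i) p e = fderiv ℝ W p e i := by
  have h1 : HasFDerivAt (fun y => W y i)
      ((EuclideanSpace.proj i : E3 →L[ℝ] ℝ).comp (fderiv ℝ W p)) p :=
    (EuclideanSpace.proj i : E3 →L[ℝ] ℝ).hasFDerivAt.comp p h.hasFDerivAt
  rw [h1.fderiv]
  rfl

lemma df_norm_le_sum_abs (w : E3) : ‖w‖ ≤ ∑ i, |w i| := by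
  have h : ‖w‖ ^ 2 ≤ (∑ i, |w i|) ^ 2 := by
    rw [EuclideanSpace.norm_sq_eq]
    simp only [Real.norm_eq_abs, Fin.sum_univ_three]
    nlinarith only [mul_nonneg (abs_nonneg (w 0)) (abs_nonneg (w 1)), mul_nonneg (abs_nonneg (w 0)) (abs_nonneg (w 2)), mul_nonneg (abs_nonneg (w 1)) (abs_nonneg (w 2))]
  exact le_of_sq_le_sq h (Finset.sum_nonneg fun i _ => abs_nonneg _)

lemma df_abs_coord_le_norm (w : E3) (i : Fin 3) : |w i| ≤ ‖w‖ := by
  have := PiLp.norm_apply_le w i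
  simpa using this

lemma df_norm_comp_inr_apply_le {L : ℝ × E3 →L[ℝ] E3} {σ : ℝ}
    (h : ‖L.comp (ContinuousLinearMap.inr ℝ ℝ E3)‖ ≤ σ) (l k : Fin 3) :
    |L (0, ee l) k| ≤ σ := by
  have h1 : ‖L.comp (ContinuousLinearMap.inr ℝ ℝ E3) (ee l)‖ ≤ σ * ‖ee l‖ :=
    (ContinuousLinearMap.le_opNorm _ _).trans (mul_le_mul_of_nonneg_right h (norm_nonneg _))
  have h2 : ‖ee l‖ = 1 := by simp
  rw [h2, mul_one] at h1
  exact (df_abs_coord_le_norm _ k).trans h1

/-- The time derivative of a field controlled by the curl of the other field. -/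
lemma df_time_deriv_sub_le {E E' B B' : ℝ × E3 → E3} {p : ℝ × E3} {s σ J : ℝ} (hs : |s| ≤ 1)
    {c c' : Fin 3 → ℝ}
    (hE : ∀ i : Fin 3, fderiv ℝ E p (1, 0) i
      = s * (fderiv ℝ B p (0, ee (i + 1)) (i + 2) - fderiv ℝ B p (0, ee (i + 2)) (i + 1)) - c i)
    (hE' : ∀ i : Fin 3, fderiv ℝ E' p (1, 0) i
      = s * (fderiv ℝ B' p (0, ee (i + 1)) (i + 2) - fderiv ℝ B' p (0, ee (i + 2)) (i + 1))
        - c' i)
    (hc : ∀ i, |c i - c' i| ≤ J)
    (hB : ‖(fderiv ℝ B p - fderiv ℝ B' p).comp (ContinuousLinearMap.inr ℝ ℝ E3)‖ ≤ σ) :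
    ‖(fderiv ℝ E p - fderiv ℝ E' p) (1, 0)‖ ≤ 3 * (2 * σ + J) := by
  refine (df_norm_le_sum_abs _).trans ?_
  have h : ∀ i : Fin 3, |(fderiv ℝ E p - fderiv ℝ E' p) (1, 0) i| ≤ 2 * σ + J := by
    intro i
    have h1 := df_norm_comp_inr_apply_le hB (i + 1) (i + 2)
    have h2 := df_norm_comp_inr_apply_le hB (i + 2) (i + 1)
    have h3 : (fderiv ℝ E p - fderiv ℝ E' p) (1, 0) i
        = s * ((fderiv ℝ B p - fderiv ℝ B' p) (0, ee (i + 1)) (i + 2)
          - (fderiv ℝ B p - fderiv ℝ B' p) (0, ee (i + 2)) (i + 1)) - (c i - c' i) := by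
      have h4 : (fderiv ℝ E p - fderiv ℝ E' p) (1, 0) i
          = fderiv ℝ E p (1, 0) i - fderiv ℝ E' p (1, 0) i := rfl
      have h5 : (fderiv ℝ B p - fderiv ℝ B' p) (0, ee (i + 1)) (i + 2)
          = fderiv ℝ B p (0, ee (i + 1)) (i + 2) - fderiv ℝ B' p (0, ee (i + 1)) (i + 2) := rfl
      have h6 : (fderiv ℝ B p - fderiv ℝ B' p) (0, ee (i + 2)) (i + 1)
          = fderiv ℝ B p (0, ee (i + 2)) (i + 1) - fderiv ℝ B' p (0, ee (i + 2)) (i + 1) := rfl
      rw [h4, h5, h6, hE, hE']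
      ring
    rw [h3]
    refine (abs_sub _ _).trans ?_
    rw [abs_mul]
    have h7 := abs_sub ((fderiv ℝ B p - fderiv ℝ B' p) (0, ee (i + 1)) (i + 2))
      ((fderiv ℝ B p - fderiv ℝ B' p) (0, ee (i + 2)) (i + 1))
    have h8 : |s| * |(fderiv ℝ B p - fderiv ℝ B' p) (0, ee (i + 1)) (i + 2)
        - (fderiv ℝ B p - fderiv ℝ B' p) (0, ee (i + 2)) (i + 1)| ≤ 1 * (2 * σ) :=
      mul_le_mul hs (by linarith only [h1, h2, h7]) (abs_nonneg _) zero_le_one
    linarith only [h8, hc i]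
  rw [Fin.sum_univ_three]
  linarith only [h 0, h 1, h 2]

lemma df_integrable_cur {f : ℝ × E3 × E3 → ℝ} (hf : SD f) (p : ℝ × E3) :
    Integrable (fun v => f (p.1, p.2, v) • u v) := by
  obtain ⟨R, hR⟩ := hf.supp |p.1|
  have hc : Continuous (fun v => f (p.1, p.2, v) • u v) :=
    (hf.smooth.continuous.comp (by fun_prop)).smul cont_u
  refine hc.integrable_of_hasCompactSupport
    (HasCompactSupport.intro (isCompact_closedBall (0 : E3) R) ?_)
  intro v hv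
  have h0 : f (p.1, p.2, v) = 0 := by
    by_contra hne
    exact hv (by simpa using (hR p.1 p.2 v le_rfl hne).2)
  simp [h0]

/-- Difference of the currents. -/
lemma df_curD_sub_le {f f' : ℝ × E3 × E3 → ℝ} (hf : SD f) (hf' : SD f') {p : ℝ × E3} {P a : ℝ}
    (h0 : ∀ v, f (p.1, p.2, v) ≠ 0 → ‖v‖ ≤ P) (h0' : ∀ v, f' (p.1, p.2, v) ≠ 0 → ‖v‖ ≤ P)
    (ha : ∀ v, |f (p.1, p.2, v) - f' (p.1, p.2, v)| ≤ a) :
    ‖curD f p - curD f' p‖ ≤ a * volume.real (Metric.closedBall (0 : E3) P) := by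
  unfold curD
  rw [← integral_sub (df_integrable_cur hf p) (df_integrable_cur hf' p)]
  have h1 : ∀ v ∉ Metric.closedBall (0 : E3) P,
      f (p.1, p.2, v) • u v - f' (p.1, p.2, v) • u v = 0 := by
    intro v hv
    have e1 : f (p.1, p.2, v) = 0 := by
      by_contra hne
      exact hv (by simpa using h0 v hne)
    have e2 : f' (p.1, p.2, v) = 0 := by
      by_contra hne
      exact hv (by simpa using h0' v hne)
    simp [e1, e2]
  rw [← setIntegral_eq_integral_of_forall_compl_eq_zero h1]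
  refine norm_setIntegral_le_of_norm_le_const measure_closedBall_lt_top ?_
  intro v _
  rw [← sub_smul, norm_smul, Real.norm_eq_abs]
  have := norm_u_lt_one v
  nlinarith only [this, ha v, abs_nonneg (f (p.1, p.2, v) - f' (p.1, p.2, v))]

/-- The time derivative of the density from the Vlasov equation. -/
lemma df_vlasov_time_sub_le {f f' : ℝ × E3 × E3 → ℝ} {t : ℝ} {x v K K' : E3} {σ Cg Ck κ : ℝ}
    (h : fderiv ℝ f (t, x, v) (1, u v, K) = 0) (h' : fderiv ℝ f' (t, x, v) (1, u v, K') = 0)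
    (hσ : ‖(fderiv ℝ f (t, x, v) - fderiv ℝ f' (t, x, v)).comp
      (ContinuousLinearMap.inr ℝ ℝ (E3 × E3))‖ ≤ σ)
    (hCg : ‖fderiv ℝ f' (t, x, v)‖ ≤ Cg) (hK : ‖K‖ ≤ Ck) (hκ : ‖K - K'‖ ≤ κ) :
    ‖(fderiv ℝ f (t, x, v) - fderiv ℝ f' (t, x, v)) (1, 0)‖ ≤ σ * (1 + Ck) + Cg * κ := by
  have h1 : ((1, u v, K) : ℝ × E3 × E3) = (1, 0) + (0, u v, K) := by simp
  have h2 : ((1, u v, K') : ℝ × E3 × E3) = (1, 0) + (0, u v, K) - (0, 0, K - K') := by simp
  have h3 : fderiv ℝ f (t, x, v) (1, 0) = - fderiv ℝ f (t, x, v) (0, u v, K) := by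
    rw [h1, map_add] at h
    linarith only [h]
  have h4 : fderiv ℝ f' (t, x, v) (1, 0)
      = - fderiv ℝ f' (t, x, v) (0, u v, K) + fderiv ℝ f' (t, x, v) (0, 0, K - K') := by
    rw [h2, map_sub, map_add] at h'
    linarith only [h']
  have h5 : (fderiv ℝ f (t, x, v) - fderiv ℝ f' (t, x, v)) (1, 0)
      = - (fderiv ℝ f (t, x, v) - fderiv ℝ f' (t, x, v)).comp
          (ContinuousLinearMap.inr ℝ ℝ (E3 × E3)) (u v, K)
        - fderiv ℝ f' (t, x, v) (0, 0, K - K') := by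
    show fderiv ℝ f (t, x, v) (1, 0) - fderiv ℝ f' (t, x, v) (1, 0)
      = - (fderiv ℝ f (t, x, v) (0, u v, K) - fderiv ℝ f' (t, x, v) (0, u v, K))
        - fderiv ℝ f' (t, x, v) (0, 0, K - K')
    rw [h3, h4]
    ring
  rw [h5]
  refine (norm_sub_le _ _).trans ?_
  rw [norm_neg]
  have hCk : 0 ≤ Ck := (norm_nonneg K).trans hK
  have hσ0 : 0 ≤ σ := (norm_nonneg _).trans hσ
  have hCg0 : 0 ≤ Cg := (norm_nonneg _).trans hCg
  have h6 : ‖((u v, K) : E3 × E3)‖ ≤ 1 + Ck := by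
    rw [Prod.norm_def]
    refine max_le ?_ ?_
    · have := norm_u_lt_one v
      show ‖u v‖ ≤ 1 + Ck
      linarith only [hCk, this]
    · show ‖K‖ ≤ 1 + Ck
      linarith only [hK]
  have h7 : ‖((0, 0, K - K') : ℝ × E3 × E3)‖ ≤ κ := by
    have : ‖((0, 0, K - K') : ℝ × E3 × E3)‖ = ‖K - K'‖ := by simp [Prod.norm_def]
    rw [this]
    exact hκ
  have h8 := (ContinuousLinearMap.le_opNorm ((fderiv ℝ f (t, x, v) - fderiv ℝ f' (t, x, v)).comp
          (ContinuousLinearMap.inr ℝ ℝ (E3 × E3))) (u v, K)).trans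
    (mul_le_mul hσ h6 (norm_nonneg _) hσ0)
  have h9 := (ContinuousLinearMap.le_opNorm (fderiv ℝ f' (t, x, v)) (0, 0, K - K')).trans
    (mul_le_mul hCg h7 (norm_nonneg _) hCg0)
  linarith only [h8, h9]

/-! ### Algebra of the Lorentz force -/

lemma df_cross_sub_right (a b b' : E3) : cross a b - cross a b' = cross a (b - b') := by
  ext i
  fin_cases i <;> simp [cross] <;> ring

lemma df_norm_lor_le (e b v : E3) : ‖lor e b v‖ ≤ ‖e‖ + ‖b‖ := by
  unfold lor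
  refine (norm_add_le _ _).trans ?_
  have h1 := norm_cross_le (u v) b
  have h2 := norm_u_lt_one v
  nlinarith only [h1, h2, norm_nonneg b]

lemma df_norm_lor_sub_le (e b e' b' v : E3) :
    ‖lor e b v - lor e' b' v‖ ≤ ‖e - e'‖ + ‖b - b'‖ := by
  have h : lor e b v - lor e' b' v = lor (e - e') (b - b') v := by
    unfold lor
    rw [← df_cross_sub_right]
    abel
  rw [h]
  exact df_norm_lor_le _ _ _

/-- Closeness of delayed fields. -/
lemma df_dl_sub_le {ε ε' : ℝ} (hε : 0 < ε) (hε' : 0 < ε') {W W' : ℝ × E3 → E3} (hW : SF W)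
    (hW' : SF W') {p : ℝ × E3} (hp : 0 ≤ p.1) {C : ℝ}
    (h : ∀ r : ℝ × E3, 0 ≤ r.1 → r.1 ≤ p.1 → ‖fderiv ℝ W r‖ ≤ C)
    (h' : ∀ r : ℝ × E3, 0 ≤ r.1 → r.1 ≤ p.1 → ‖fderiv ℝ W' r‖ ≤ C) :
    ‖dl ε W p - dl ε' W' p‖ ≤ 2 * C * (ε + ε') + ‖W p - W' p‖ := by
  have h1 := dl_close hε hW hp h
  have h2 := dl_close hε' hW' hp h'
  have h3 : dl ε W p - dl ε' W' p = (dl ε W p - W p) + (W p - W' p) - (dl ε' W' p - W' p) := by
    abel
  rw [h3]
  refine (norm_sub_le _ _).trans ?_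
  have := norm_add_le (dl ε W p - W p) (W p - W' p)
  linarith only [h1, h2, this]

/-- A monotone majorant of a bounded function of time and space. -/
lemma df_exists_mono_majorant {T' M : ℝ} (hM : 0 ≤ M) {φ : ℝ × E3 → ℝ}
    (hφ : ∀ s x, 0 ≤ s → s ≤ T' → φ (s, x) ≤ M) :
    ∃ D : ℝ → ℝ, Monotone D ∧ (∀ t, 0 ≤ D t) ∧ (∀ s x, 0 ≤ s → s ≤ T' → φ (s, x) ≤ D s) ∧
      ∀ t c, 0 ≤ c → (∀ s x, 0 ≤ s → s ≤ t → s ≤ T' → φ (s, x) ≤ c) → D t ≤ c := by
  classical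
  set S : ℝ → Set ℝ := fun t =>
    insert 0 {r | ∃ s x, 0 ≤ s ∧ s ≤ t ∧ s ≤ T' ∧ r = φ (s, x)} with hS
  have hbd : ∀ t, BddAbove (S t) := by
    intro t
    refine ⟨M, ?_⟩
    rintro r (rfl | ⟨s, x, h0, h1, h2, rfl⟩)
    · exact hM
    · exact hφ s x h0 h2
  refine ⟨fun t => sSup (S t), ?_, ?_, ?_, ?_⟩
  · intro t t' htt'
    refine csSup_le_csSup (hbd t') ⟨0, Or.inl rfl⟩ ?_
    rintro r (rfl | ⟨s, x, h0, h1, h2, rfl⟩)
    · exact Or.inl rfl
    · exact Or.inr ⟨s, x, h0, h1.trans htt', h2, rfl⟩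
  · intro t
    exact le_csSup (hbd t) (Or.inl rfl)
  · intro s x h0 h1
    exact le_csSup (hbd s) (Or.inr ⟨s, x, h0, le_rfl, h1, rfl⟩)
  · intro t c hc h
    refine csSup_le ⟨0, Or.inl rfl⟩ ?_
    rintro r (rfl | ⟨s, x, h0, h1, h2, rfl⟩)
    · exact hc
    · exact h s x h0 h1 h2

section Eps

variable {f₀ : E3 × E3 → ℝ} {E₀ B₀ : E3 → E3} {fL : ℝ × E3 × E3 → ℝ} {EL BL : ℝ × E3 → E3}

/-- The source of the transport equation for the difference. -/
lemma df_diff_source_bound {f f' : ℝ × E3 × E3 → ℝ} {K K' : E3} {t : ℝ} {x v : E3}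
    (hf : ContDiff ℝ ∞ f) (hf' : ContDiff ℝ ∞ f')
    (h : fderiv ℝ f (t, x, v) (1, u v, K) = 0) (h' : fderiv ℝ f' (t, x, v) (1, u v, K') = 0)
    {C : ℝ} (hC : ‖fderiv ℝ f' (t, x, v)‖ ≤ C) :
    |fderiv ℝ (fun y => f y - f' y) (t, x, v) (1, u v, K)| ≤ C * ‖K - K'‖ := by
  have hd : DifferentiableAt ℝ f (t, x, v) := (hf.differentiable (by simp)) _
  have hd' : DifferentiableAt ℝ f' (t, x, v) := (hf'.differentiable (by simp)) _
  have h1 : fderiv ℝ (fun y => f y - f' y) (t, x, v) (1, u v, K)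
      = - fderiv ℝ f' (t, x, v) (0, 0, K - K') := by
    rw [fderiv_fun_sub hd hd']
    have h2 : ((1, u v, K) : ℝ × E3 × E3) = (1, u v, K') + (0, 0, K - K') := by simp
    have h3 : fderiv ℝ f' (t, x, v) (1, u v, K) = fderiv ℝ f' (t, x, v) (0, 0, K - K') := by
      rw [h2, map_add, h', zero_add]
    show fderiv ℝ f (t, x, v) (1, u v, K) - fderiv ℝ f' (t, x, v) (1, u v, K) = _
    rw [h, h3, zero_sub]
  rw [h1, abs_neg, ← Real.norm_eq_abs]
  refine ((fderiv ℝ f' (t, x, v)).le_opNorm _).trans ?_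
  have h4 : ‖((0, 0, K - K') : ℝ × E3 × E3)‖ = ‖K - K'‖ := by
    simp [Prod.norm_def]
  rw [h4]
  exact mul_le_mul_of_nonneg_right hC (norm_nonneg _)

/-- C1. Difference of two solutions. -/
theorem diff_bound (hD : Dat f₀ E₀ B₀) (hL : Layer f₀ E₀ B₀ fL EL BL) (T P : ℝ) :
    ∃ C : ℝ, 0 ≤ C ∧ ∀ ε ε' f E B f' E' B', 0 < ε → 0 < ε' → EpsSol fL EL BL ε f E B →
      EpsSol fL EL BL ε' f' E' B' → ∀ T' ≤ T, MB P T' f → MB P T' f' →
      ∀ t, 0 ≤ t → t ≤ T' →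
        (∀ x, ‖E (t, x) - E' (t, x)‖ + ‖B (t, x) - B' (t, x)‖ ≤ C * (ε + ε')) ∧
        ∀ z, |f (t, z) - f' (t, z)| ≤ C * (ε + ε') := by
  obtain ⟨Cf, hCf0, -, hCf⟩ := EpsSol.sup_f hD hL
  obtain ⟨Cs, hCs0, hCs⟩ := sup_bound hD hL T P
  obtain ⟨Cg, hCg0, hCg⟩ := grad_bound hD hL T P
  obtain ⟨Cl, hCl0, hCl⟩ := linear_bound T P
  set M : ℝ := (1 + 2 * Cs) * (|T| * Cg) + Cf with hM
  have hM0 : 0 ≤ M := by positivity
  set Q : ℝ := max (4 * Cg) (Cl * M) with hQ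
  have hQ0 : 0 ≤ Q := le_max_of_le_left (by positivity)
  refine ⟨Q * Real.exp (Q * |T|) * (1 + |T| * Cg), by (clear * - hCg0 Cl M; positivity), ?_⟩
  intro ε ε' f E B f' E' B' hε hε' h h' T' hT' hP hP' t ht0 htT'
  have hee : 0 < ε + ε' := by positivity
  have hT0 : 0 ≤ T := ht0.trans (htT'.trans hT')
  have habsT : |T| = T := abs_of_nonneg hT0
  -- field bounds
  have hEs := hCs ε f E B hε h T' hT' hP
  have hEs' := hCs ε' f' E' B' hε' h' T' hT' hP'
  have hEg := hCg ε f E B hε h T' hT' hP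
  have hEg' := hCg ε' f' E' B' hε' h' T' hT' hP'
  obtain ⟨D, hDm, hD0, hDle, hDc⟩ := df_exists_mono_majorant (T' := T') (M := 2 * Cs)
    (by positivity) (φ := fun p => ‖E p - E' p‖ + ‖B p - B' p‖) (by
      intro s x hs0 hs1
      have h1 := hEs s x hs0 hs1
      have h2 := hEs' s x hs0 hs1
      have h3 := norm_sub_le (E (s, x)) (E' (s, x))
      have h4 := norm_sub_le (B (s, x)) (B' (s, x))
      linarith only [h1, h2, h3, h4])
  set κ : ℝ → ℝ := fun s => 4 * Cg * (ε + ε') + D s with hκ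
  have hκm : Monotone κ := fun a b hab => by
    simp only [hκ]
    linarith only [hDm hab]
  have hκ0 : ∀ s, 0 ≤ κ s := fun s => by
    simp only [hκ]
    have := hD0 s
    (clear * - hCg0 hε hε' this; positivity)
  -- forces
  have hK : ∀ s x, 0 ≤ s → s ≤ T' → ‖dl ε E (s, x)‖ + ‖dl ε B (s, x)‖ ≤ 2 * Cs := by
    intro s x hs0 hs1
    have h1 : ‖dl ε E (s, x)‖ ≤ Cs := dl_bound hε h.sE (by
      rintro ⟨r, y⟩ hr0 hr1
      have hr1' : r ≤ T' := by simpa [max_eq_left hs0] using hr1.trans (by simpa [max_eq_left hs0] using hs1)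
      have := hEs r y hr0 hr1'
      linarith only [this, norm_nonneg (B (r, y))])
    have h2 : ‖dl ε B (s, x)‖ ≤ Cs := dl_bound hε h.sB (by
      rintro ⟨r, y⟩ hr0 hr1
      have hr1' : r ≤ T' := by simpa [max_eq_left hs0] using hr1.trans (by simpa [max_eq_left hs0] using hs1)
      have := hEs r y hr0 hr1'
      linarith only [this, norm_nonneg (E (r, y))])
    linarith only [h1, h2]
  have hKK : ∀ s x, 0 ≤ s → s ≤ T' →
      ‖dl ε E (s, x) - dl ε' E' (s, x)‖ + ‖dl ε B (s, x) - dl ε' B' (s, x)‖ ≤ κ s := by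
    intro s x hs0 hs1
    have h1 := df_dl_sub_le hε hε' h.sE h'.sE (p := (s, x)) hs0 (C := Cg) (by
      rintro ⟨r, y⟩ hr0 hr1
      have := (hEg r hr0 (le_trans hr1 hs1)).1 y
      linarith only [this, norm_nonneg (fderiv ℝ B (r, y))]) (by
      rintro ⟨r, y⟩ hr0 hr1
      have := (hEg' r hr0 (le_trans hr1 hs1)).1 y
      linarith only [this, norm_nonneg (fderiv ℝ B' (r, y))])
    have h2 := df_dl_sub_le hε hε' h.sB h'.sB (p := (s, x)) hs0 (C := Cg) (by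
      rintro ⟨r, y⟩ hr0 hr1
      have := (hEg r hr0 (le_trans hr1 hs1)).1 y
      linarith only [this, norm_nonneg (fderiv ℝ E (r, y))]) (by
      rintro ⟨r, y⟩ hr0 hr1
      have := (hEg' r hr0 (le_trans hr1 hs1)).1 y
      linarith only [this, norm_nonneg (fderiv ℝ E' (r, y))])
    have h3 := hDle s x hs0 hs1
    simp only [hκ]
    linarith only [h1, h2, h3]
  -- the density difference
  have hff : ∀ s z, 0 ≤ s → s ≤ T' → |f (s, z) - f' (s, z)| ≤ |T| * Cg * κ s := by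
    intro s z hs0 hs1
    have h1 := transport_bound (E := dl ε E) (B := dl ε B) (dl_SF hε h.sE) (dl_SF hε h.sB)
      (g := fun y => f y - f' y)
      (h := fun y => fderiv ℝ (fun y => f y - f' y) y
        (1, u y.2.2, lor (dl ε E (y.1, y.2.1)) (dl ε B (y.1, y.2.1)) y.2.2))
      ((h.sd.smooth.sub h'.sd.smooth).of_le (by simp)) (T := T') (a := 0)
      (b := fun r => Cg * κ r) (fun a b hab => mul_le_mul_of_nonneg_left (hκm hab) hCg0)
      (fun t x v _ _ => rfl)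
      (fun z => by
        have e1 := h.agf 0 hε.le z
        have e2 := h'.agf 0 hε'.le z
        simp [e1, e2])
      (by
        rintro r ⟨x, v⟩ hr0 hr1
        refine (df_diff_source_bound h.sd.smooth h'.sd.smooth (h.vl r x v) (h'.vl r x v)
          ((hEg' r hr0 hr1).2 (x, v))).trans ?_
        refine mul_le_mul_of_nonneg_left ?_ hCg0
        exact (df_norm_lor_sub_le _ _ _ _ _).trans (hKK r x hr0 hr1)) s hs0 hs1 z
    refine h1.trans ?_
    rw [zero_add]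
    have hmi : Monotone (fun r => Cg * κ r) :=
      fun a b hab => mul_le_mul_of_nonneg_left (hκm hab) hCg0
    have h2 : ∫ r in (0 : ℝ)..s, Cg * κ r ≤ ∫ r in (0 : ℝ)..s, Cg * κ s := by
      refine intervalIntegral.integral_mono_on hs0 hmi.intervalIntegrable
        intervalIntegrable_const ?_
      intro r hr
      exact hmi hr.2
    refine h2.trans ?_
    rw [intervalIntegral.integral_const, smul_eq_mul, sub_zero, habsT]
    have : s ≤ T := hs1.trans hT'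
    have h3 : 0 ≤ Cg * κ s := mul_nonneg hCg0 (hκ0 s)
    nlinarith only [hT', hs1, h3]
  -- the fields
  have hls := EpsSol.lateSys₂ hD hL hε hε' h h'
  obtain ⟨η, hη, hlate⟩ := hls.late
  have hlin := hCl _ _ _ _ hls T' hT' (by
    intro s x v hs hv
    rcases le_or_gt s η with h1 | h1
    · exact (hlate s h1).1 (x, v)
    · have hs0 : 0 ≤ s := hη.le.trans h1.le
      have e1 : f (s, x, v) = 0 := by
        by_contra hne
        exact absurd (hP s x v hs0 hs hne) (not_le.2 hv)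
      have e2 : f' (s, x, v) = 0 := by
        by_contra hne
        exact absurd (hP' s x v hs0 hs hne) (not_le.2 hv)
      simp [e1, e2, flx]) (fun s => M * κ s)
    (fun a b hab => mul_le_mul_of_nonneg_left (hκm hab) hM0) (by
    rintro s ⟨x, v⟩ hs
    rcases le_or_gt s η with h1 | h1
    · have h2 := (hlate s h1).1 (x, v)
      rw [h2.1, h2.2]
      simp only [abs_zero, norm_zero, add_zero]
      exact mul_nonneg hM0 (hκ0 s)
    · have hs0 : 0 ≤ s := hη.le.trans h1.le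
      have e1 := hff s (x, v) hs0 hs
      have e2 : ‖flx (dl ε E) (dl ε B) f (s, x, v) - flx (dl ε' E') (dl ε' B') f' (s, x, v)‖
          ≤ 2 * Cs * |f (s, x, v) - f' (s, x, v)| + Cf * κ s := by
        have e3 : flx (dl ε E) (dl ε B) f (s, x, v) - flx (dl ε' E') (dl ε' B') f' (s, x, v)
            = (f (s, x, v) - f' (s, x, v)) • lor (dl ε E (s, x)) (dl ε B (s, x)) v
              + f' (s, x, v) • (lor (dl ε E (s, x)) (dl ε B (s, x)) v
                - lor (dl ε' E' (s, x)) (dl ε' B' (s, x)) v) := by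
          simp only [flx]
          rw [sub_smul, smul_sub]
          abel
        rw [e3]
        refine (norm_add_le _ _).trans ?_
        rw [norm_smul, norm_smul, Real.norm_eq_abs, Real.norm_eq_abs]
        have e4 := (df_norm_lor_le (dl ε E (s, x)) (dl ε B (s, x)) v).trans (hK s x hs0 hs)
        have e5 := (df_norm_lor_sub_le (dl ε E (s, x)) (dl ε B (s, x)) (dl ε' E' (s, x))
          (dl ε' B' (s, x)) v).trans (hKK s x hs0 hs)
        have e6 := hCf ε' f' E' B' hε' h' (s, x, v)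
        have e7 := mul_le_mul_of_nonneg_left e4 (abs_nonneg (f (s, x, v) - f' (s, x, v)))
        have e8 := mul_le_mul e6 e5 (norm_nonneg _) hCf0
        linarith only [e7, e8]
      have e9 : 0 ≤ 1 + 2 * Cs := by positivity
      have e10 := mul_le_mul_of_nonneg_left e1 e9
      calc |f (s, x, v) - f' (s, x, v)| + ‖flx (dl ε E) (dl ε B) f (s, x, v)
            - flx (dl ε' E') (dl ε' B') f' (s, x, v)‖
          ≤ (1 + 2 * Cs) * |f (s, x, v) - f' (s, x, v)| + Cf * κ s := by linarith only [e2]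
        _ ≤ (1 + 2 * Cs) * (|T| * Cg * κ s) + Cf * κ s := by linarith only [e10]
        _ = M * κ s := by rw [hM]; ring)
  -- Gronwall
  have hMi : Monotone (fun s => M * κ s) :=
    fun a b hab => mul_le_mul_of_nonneg_left (hκm hab) hM0
  have hDint : ∀ r ∈ Icc 0 T', D r ≤ Cl * ∫ s in (0 : ℝ)..r, M * κ s := by
    intro r hr
    refine hDc r _ ?_ ?_
    · refine mul_nonneg hCl0 (intervalIntegral.integral_nonneg hr.1 ?_)
      intro s _
      exact mul_nonneg hM0 (hκ0 s)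
    · intro s x hs0 hs1 hs2
      refine (hlin s x hs0 hs2).trans (mul_le_mul_of_nonneg_left ?_ hCl0)
      refine intervalIntegral.integral_mono_interval le_rfl hs0 hs1 ?_
        hMi.intervalIntegrable
      exact Filter.Eventually.of_forall fun s => mul_nonneg hM0 (hκ0 s)
  have hG := gronwall_monotone (A := fun s => κ s / (ε + ε')) (C := Q) (T := T') hQ0
    (fun a _ b _ hab => div_le_div_of_nonneg_right (hκm hab) hee.le)
    (fun r _ => div_nonneg (hκ0 r) hee.le) (by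
      intro r hr
      have h1 := hDint r hr
      have h2 : ∫ s in (0 : ℝ)..r, κ s / (ε + ε') = (∫ s in (0 : ℝ)..r, κ s) / (ε + ε') :=
        intervalIntegral.integral_div _ _
      rw [intervalIntegral.integral_const_mul] at h1
      have h3 : 0 ≤ ∫ s in (0 : ℝ)..r, κ s :=
        intervalIntegral.integral_nonneg hr.1 fun s _ => hκ0 s
      rw [h2, div_le_iff₀ hee, add_mul, mul_assoc Q (_ / _), div_mul_cancel₀ _ hee.ne']
      have h4 : Cl * M ≤ Q := le_max_right _ _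
      have h5 : 4 * Cg ≤ Q := le_max_left _ _
      have h6 := mul_le_mul_of_nonneg_right h4 h3
      have h7 := mul_le_mul_of_nonneg_right h5 hee.le
      show 4 * Cg * (ε + ε') + D r ≤ _
      nlinarith only [h1, h6, h7]) t ⟨ht0, htT'⟩
  have hκt : κ t ≤ Q * Real.exp (Q * |T|) * (ε + ε') := by
    rw [div_le_iff₀ hee] at hG
    refine hG.trans ?_
    have h1 : Q * t ≤ Q * |T| := by
      rw [habsT]
      exact mul_le_mul_of_nonneg_left (htT'.trans hT') hQ0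
    have h2 := Real.exp_le_exp.2 h1
    have h3 := mul_le_mul_of_nonneg_left h2 hQ0
    exact mul_le_mul_of_nonneg_right h3 hee.le
  have hX0 : 0 ≤ Q * Real.exp (Q * |T|) * (ε + ε') := by (clear * - Cg hCg0 Cl M hε hε'; positivity)
  have hTC : 0 ≤ |T| * Cg := by (clear * - hCg0; positivity)
  constructor
  · intro x
    have h1 := hDle t x ht0 htT'
    have h2 : D t ≤ κ t := by
      simp only [hκ]
      have : 0 ≤ 4 * Cg * (ε + ε') := by (clear * - hCg0 hε hε'; positivity)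
      linarith only [this]
    calc _ ≤ κ t := h1.trans h2
      _ ≤ Q * Real.exp (Q * |T|) * (ε + ε') := hκt
      _ ≤ Q * Real.exp (Q * |T|) * (1 + |T| * Cg) * (ε + ε') := by nlinarith only [hX0, hTC]
  · intro z
    calc _ ≤ |T| * Cg * κ t := hff t z ht0 htT'
      _ ≤ |T| * Cg * (Q * Real.exp (Q * |T|) * (ε + ε')) := mul_le_mul_of_nonneg_left hκt hTC
      _ ≤ Q * Real.exp (Q * |T|) * (1 + |T| * Cg) * (ε + ε') := by nlinarith only [hX0]

/-- C2. Closeness of level sets. -/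
theorem eps_level_close (hD : Dat f₀ E₀ B₀) (hL : Layer f₀ E₀ B₀ fL EL BL) (T P : ℝ) :
    ∃ C : ℝ, 0 ≤ C ∧ ∀ ε ε' f E B f' E' B', 0 < ε → 0 < ε' → EpsSol fL EL BL ε f E B →
      EpsSol fL EL BL ε' f' E' B' → ∀ T' ≤ T, MB P T' f → MB P T' f' →
      ∀ t x v, 0 ≤ t → t ≤ T' → ∃ x' v', f' (t, x', v') = f (t, x, v) ∧
        ‖x' - x‖ ≤ C * (ε + ε') ∧ ‖v' - v‖ ≤ C * (ε + ε') := by
  obtain ⟨Cs, hCs0, hCs⟩ := sup_bound hD hL T P
  obtain ⟨Cg, hCg0, hCg⟩ := grad_bound hD hL T P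
  obtain ⟨Cd, hCd0, hCd⟩ := diff_bound hD hL T P
  obtain ⟨Cc, hCc0, hCc⟩ := level_close T (2 * Cg + Cs)
  refine ⟨Cc * (4 * Cg + Cd), by positivity, ?_⟩
  intro ε ε' f E B f' E' B' hε hε' h h' T' hT' hP hP' t x v ht0 htT'
  have hee : 0 < ε + ε' := by positivity
  have hEs := hCs ε f E B hε h T' hT' hP
  have hEg := hCg ε f E B hε h T' hT' hP
  have hEg' := hCg ε' f' E' B' hε' h' T' hT' hP'
  have hdd := hCd ε ε' f E B f' E' B' hε hε' h h' T' hT' hP hP'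
  obtain ⟨x', v', h1, h2, h3⟩ := hCc (dl ε E) (dl ε B) (dl ε' E') (dl ε' B') (dl_SF hε h.sE)
    (dl_SF hε h.sB) (dl_SF hε' h'.sE) (dl_SF hε' h'.sB) f f' (h.sd.smooth.of_le (by simp))
    (h'.sd.smooth.of_le (by simp)) h.vl h'.vl (fun z => by
      rw [h.agf 0 hε.le z, h'.agf 0 hε'.le z]) T' ((4 * Cg + Cd) * (ε + ε')) hT' (by (clear * - hCg0 hCd0 hε hε'; positivity))
    (by
      rintro ⟨s, y⟩ hs0 hs1
      simp only at hs0 hs1
      have hm : max s 0 = s := max_eq_left hs0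
      constructor
      · have e1 : ‖fderiv ℝ (dl ε E) (s, y)‖ ≤ Cg := dl_fderiv_bound hε h.sE (by
          rintro ⟨r, w⟩ hr0 hr1
          simp only [hm] at hr1
          have := (hEg r hr0 (le_trans hr1 hs1)).1 w
          linarith only [this, norm_nonneg (fderiv ℝ B (r, w))])
        have e2 : ‖fderiv ℝ (dl ε B) (s, y)‖ ≤ Cg := dl_fderiv_bound hε h.sB (by
          rintro ⟨r, w⟩ hr0 hr1
          simp only [hm] at hr1
          have := (hEg r hr0 (le_trans hr1 hs1)).1 w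
          linarith only [this, norm_nonneg (fderiv ℝ E (r, w))])
        have e3 : ‖dl ε B (s, y)‖ ≤ Cs := dl_bound hε h.sB (by
          rintro ⟨r, w⟩ hr0 hr1
          simp only [hm] at hr1
          have := hEs r w hr0 (le_trans hr1 hs1)
          linarith only [this, norm_nonneg (E (r, w))])
        linarith only [e1, e2, e3]
      · have e1 := df_dl_sub_le hε hε' h.sE h'.sE (p := (s, y)) hs0 (C := Cg) (by
          rintro ⟨r, w⟩ hr0 hr1
          have := (hEg r hr0 (le_trans hr1 hs1)).1 w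
          linarith only [this, norm_nonneg (fderiv ℝ B (r, w))]) (by
          rintro ⟨r, w⟩ hr0 hr1
          have := (hEg' r hr0 (le_trans hr1 hs1)).1 w
          linarith only [this, norm_nonneg (fderiv ℝ B' (r, w))])
        have e2 := df_dl_sub_le hε hε' h.sB h'.sB (p := (s, y)) hs0 (C := Cg) (by
          rintro ⟨r, w⟩ hr0 hr1
          have := (hEg r hr0 (le_trans hr1 hs1)).1 w
          linarith only [this, norm_nonneg (fderiv ℝ E (r, w))]) (by
          rintro ⟨r, w⟩ hr0 hr1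
          have := (hEg' r hr0 (le_trans hr1 hs1)).1 w
          linarith only [this, norm_nonneg (fderiv ℝ E' (r, w))])
        have e3 := (hdd s hs0 hs1).1 y
        linarith only [e1, e2, e3]) t x v ht0 htT'
  refine ⟨x', v', h1, ?_, ?_⟩
  · rw [mul_assoc]
    exact h2
  · rw [mul_assoc]
    exact h3

/-- C3. `C¹` closeness: for every `η` the derivatives are `η`-close if `ε, ε'` are small. -/
theorem diff_fderiv (hD : Dat f₀ E₀ B₀) (hL : Layer f₀ E₀ B₀ fL EL BL) (T P : ℝ) {η : ℝ}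
    (hη : 0 < η) : ∃ ε₀ : ℝ, 0 < ε₀ ∧ ∀ ε ε' f E B f' E' B', 0 < ε → 0 < ε' → ε ≤ ε₀ →
      ε' ≤ ε₀ → EpsSol fL EL BL ε f E B → EpsSol fL EL BL ε' f' E' B' → ∀ T' ≤ T, MB P T' f →
      MB P T' f' → ∀ t, 0 ≤ t → t ≤ T' →
        (∀ x, ‖fderiv ℝ E (t, x) - fderiv ℝ E' (t, x)‖ ≤ η ∧
          ‖fderiv ℝ B (t, x) - fderiv ℝ B' (t, x)‖ ≤ η) ∧
        ∀ z, ‖fderiv ℝ f (t, z) - fderiv ℝ f' (t, z)‖ ≤ η := by
  obtain ⟨Cs, hCs0, hCs⟩ := sup_bound hD hL T P
  obtain ⟨Cg, hCg0, hCg⟩ := grad_bound hD hL T P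
  obtain ⟨Ch, hCh0, hCh⟩ := hess_bound hD hL T P
  obtain ⟨Cd, hCd0, hCd⟩ := diff_bound hD hL T P
  set V : ℝ := volume.real (Metric.closedBall (0 : E3) P) with hV
  have hV0 : 0 ≤ V := measureReal_nonneg
  -- the modulus
  set σ : ℝ → ℝ := fun s => 2 * Real.sqrt (Cd * s * (2 * Ch)) with hσ
  set Φ : ℝ → ℝ := fun s => σ s * (7 + (1 + 2 * Cs)) + 3 * (Cd * s * V)
    + Cg * ((4 * Cg + Cd) * s) with hΦ
  have hΦc : Continuous Φ := by
    simp only [hΦ, hσ]
    fun_prop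
  have hΦ0 : Φ 0 = 0 := by simp [hΦ, hσ]
  obtain ⟨δ, hδ, hδ'⟩ := Metric.continuousAt_iff.1 (hΦc.continuousAt (x := 0)) η hη
  refine ⟨δ / 3, by positivity, ?_⟩
  intro ε ε' f E B f' E' B' hε hε' hε₀ hε₀' h h' T' hT' hP hP' t ht0 htT'
  have hee : 0 < ε + ε' := by positivity
  set s : ℝ := ε + ε' with hs
  have hΦs : Φ s ≤ η := by
    have h1 : dist s 0 < δ := by
      rw [dist_zero_right, Real.norm_eq_abs, abs_of_pos hee]
      linarith only [hε, hε₀, hε₀']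
    have h2 := hδ' h1
    rw [hΦ0, dist_zero_right, Real.norm_eq_abs] at h2
    exact (le_abs_self _).trans h2.le
  have hσ0 : 0 ≤ σ s := by (clear * - Ch Cd; positivity)
  have hEs := hCs ε f E B hε h T' hT' hP
  have hEg := hCg ε f E B hε h T' hT' hP
  have hEg' := hCg ε' f' E' B' hε' h' T' hT' hP'
  have hEh := hCh ε f E B hε h T' hT' hP t ht0 htT'
  have hEh' := hCh ε' f' E' B' hε' h' T' hT' hP' t ht0 htT'
  have hdd := hCd ε ε' f E B f' E' B' hε hε' h h' T' hT' hP hP' t ht0 htT'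
  -- space derivatives
  have hsE : ∀ x, ‖(fderiv ℝ E (t, x) - fderiv ℝ E' (t, x)).comp
      (ContinuousLinearMap.inr ℝ ℝ E3)‖ ≤ σ s := fun x =>
    df_space_deriv_sub_le h.sE.smooth h'.sE.smooth (a := Cd * s) (b := Ch)
      (fun y => by linarith only [hdd.1 y, norm_nonneg (B (t, y) - B' (t, y))])
      (fun y => by
        linarith only [hEh.1 y, norm_nonneg (iteratedFDeriv ℝ 2 (fun y => B (t, y)) y)])
      (fun y => by
        linarith only [hEh'.1 y, norm_nonneg (iteratedFDeriv ℝ 2 (fun y => B' (t, y)) y)]) x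
  have hsB : ∀ x, ‖(fderiv ℝ B (t, x) - fderiv ℝ B' (t, x)).comp
      (ContinuousLinearMap.inr ℝ ℝ E3)‖ ≤ σ s := fun x =>
    df_space_deriv_sub_le h.sB.smooth h'.sB.smooth (a := Cd * s) (b := Ch)
      (fun y => by linarith only [hdd.1 y, norm_nonneg (E (t, y) - E' (t, y))])
      (fun y => by
        linarith only [hEh.1 y, norm_nonneg (iteratedFDeriv ℝ 2 (fun y => E (t, y)) y)])
      (fun y => by
        linarith only [hEh'.1 y, norm_nonneg (iteratedFDeriv ℝ 2 (fun y => E' (t, y)) y)]) x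
  have hsf : ∀ z, ‖(fderiv ℝ f (t, z) - fderiv ℝ f' (t, z)).comp
      (ContinuousLinearMap.inr ℝ ℝ (E3 × E3))‖ ≤ σ s := fun z =>
    df_space_deriv_sub_le h.sd.smooth h'.sd.smooth (a := Cd * s) (b := Ch)
      (fun y => hdd.2 y) (fun y => hEh.2 y) (fun y => hEh'.2 y) z
  -- components of the Maxwell equations
  have cE : ∀ {W : ℝ × E3 → E3}, SF W → ∀ (p : ℝ × E3) (i : Fin 3),
      ptd (fun y => W y i) p = fderiv ℝ W p (1, 0) i := fun hW p i =>
    df_fderiv_coord_apply ((hW.smooth.differentiable (by simp)) p) i _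
  have cX : ∀ {W : ℝ × E3 → E3}, SF W → ∀ (e : E3) (p : ℝ × E3) (i : Fin 3),
      pxd e (fun y => W y i) p = fderiv ℝ W p (0, e) i := fun hW e p i =>
    df_fderiv_coord_apply ((hW.smooth.differentiable (by simp)) p) i _
  have hcur : ∀ x, ‖curD f (t, x) - curD f' (t, x)‖ ≤ Cd * s * V := fun x =>
    df_curD_sub_le h.sd h'.sd (fun v hv => hP t x v ht0 htT' hv)
      (fun v hv => hP' t x v ht0 htT' hv) (fun v => hdd.2 (x, v))
  have htE : ∀ x, ‖(fderiv ℝ E (t, x) - fderiv ℝ E' (t, x)) (1, 0)‖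
      ≤ 3 * (2 * σ s + Cd * s * V) := fun x =>
    df_time_deriv_sub_le (s := 1) (by simp) (c := fun i => curD f (t, x) i)
      (c' := fun i => curD f' (t, x) i)
      (fun i => by
        have := h.mx.ampere (t, x) ht0 i
        rw [cE h.sE, cX h.sB, cX h.sB] at this
        rw [this]
        ring)
      (fun i => by
        have := h'.mx.ampere (t, x) ht0 i
        rw [cE h'.sE, cX h'.sB, cX h'.sB] at this
        rw [this]
        ring)
      (fun i => (df_abs_coord_le_norm (curD f (t, x) - curD f' (t, x)) i).trans (hcur x))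
      (hsB x)
  have htB : ∀ x, ‖(fderiv ℝ B (t, x) - fderiv ℝ B' (t, x)) (1, 0)‖
      ≤ 3 * (2 * σ s + 0) := fun x =>
    df_time_deriv_sub_le (s := -1) (by simp) (c := fun _ => 0)
      (c' := fun _ => 0)
      (fun i => by
        have := h.mx.faraday (t, x) ht0 i
        rw [cE h.sB, cX h.sE, cX h.sE] at this
        rw [this]
        ring)
      (fun i => by
        have := h'.mx.faraday (t, x) ht0 i
        rw [cE h'.sB, cX h'.sE, cX h'.sE] at this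
        rw [this]
        ring)
      (fun i => by simp) (hsE x)
  have hT1 : 0 ≤ Cd * s * V := by (clear * - P hCd0 ε ε' hε hε'; positivity)
  have hT2 : 0 ≤ Cg * ((4 * Cg + Cd) * s) := by (clear * - hCg0 hCd0 ε ε' hε hε'; positivity)
  have hT3 : 0 ≤ σ s * (2 * Cs) := by (clear * - hCs0 Ch Cd; positivity)
  refine ⟨fun x => ⟨?_, ?_⟩, ?_⟩
  · refine (df_opNorm_time_space_le _).trans (le_trans ?_ hΦs)
    have h1 := htE x
    have h2 := hsE x
    simp only [hΦ]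
    nlinarith only [hσ0, hT2, hT3, h1, h2]
  · refine (df_opNorm_time_space_le _).trans (le_trans ?_ hΦs)
    have h1 := htB x
    have h2 := hsB x
    simp only [hΦ]
    nlinarith only [hσ0, hT1, hT2, hT3, h1, h2]
  · rintro ⟨x, v⟩
    refine (df_opNorm_time_space_le _).trans (le_trans ?_ hΦs)
    have hm : max t 0 = t := max_eq_left ht0
    have e1 : ‖dl ε E (t, x)‖ ≤ Cs := dl_bound hε h.sE (by
      rintro ⟨r, w⟩ hr0 hr1
      simp only [hm] at hr1
      have := hEs r w hr0 (le_trans hr1 htT')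
      linarith only [this, norm_nonneg (B (r, w))])
    have e2 : ‖dl ε B (t, x)‖ ≤ Cs := dl_bound hε h.sB (by
      rintro ⟨r, w⟩ hr0 hr1
      simp only [hm] at hr1
      have := hEs r w hr0 (le_trans hr1 htT')
      linarith only [this, norm_nonneg (E (r, w))])
    have e3 := df_dl_sub_le hε hε' h.sE h'.sE (p := (t, x)) ht0 (C := Cg) (by
      rintro ⟨r, w⟩ hr0 hr1
      have := (hEg r hr0 (le_trans hr1 htT')).1 w
      linarith only [this, norm_nonneg (fderiv ℝ B (r, w))]) (by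
      rintro ⟨r, w⟩ hr0 hr1
      have := (hEg' r hr0 (le_trans hr1 htT')).1 w
      linarith only [this, norm_nonneg (fderiv ℝ B' (r, w))])
    have e4 := df_dl_sub_le hε hε' h.sB h'.sB (p := (t, x)) ht0 (C := Cg) (by
      rintro ⟨r, w⟩ hr0 hr1
      have := (hEg r hr0 (le_trans hr1 htT')).1 w
      linarith only [this, norm_nonneg (fderiv ℝ E (r, w))]) (by
      rintro ⟨r, w⟩ hr0 hr1
      have := (hEg' r hr0 (le_trans hr1 htT')).1 w
      linarith only [this, norm_nonneg (fderiv ℝ E' (r, w))])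
    have e5 := hdd.1 x
    have e6 := df_vlasov_time_sub_le (h.vl t x v) (h'.vl t x v) (hsf (x, v))
      ((hEg' t ht0 htT').2 (x, v)) (Ck := 2 * Cs) (κ := (4 * Cg + Cd) * s)
      ((df_norm_lor_le _ _ _).trans (by linarith only [e1, e2]))
      ((df_norm_lor_sub_le _ _ _ _ _).trans (by linarith only [e3, e4, e5]))
    have e7 := hsf (x, v)
    simp only [hΦ]
    nlinarith only [hσ0, hT1, e6, e7]

end Eps

end Vale.Agent.P107.LE
end
end
end

section

section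

attribute [-instance] ProperSMul.toContinuousSMul IsTopologicalTorsor.toContinuousSMul
  IdemSemiring.toCanonicallyOrderedAdd IdemSemiring.toMulLeftMono IdemSemiring.toMulRightMono
  AddQuantale.instAddLeftMono AddQuantale.instAddRightMono Quantale.instMulLeftMono
  Quantale.instMulRightMono FiniteDimensional.rclike_to_real IsScalarTower.complexToReal
  FiniteDimensional.complexToReal

section

/-!
The fields stay in `L²` (propagation of the tails by an energy estimate outside of a light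
cone, and continuity in `L²`).
-/

open MeasureTheory Set Filter Topology
open scoped RealInnerProductSpace ENNReal NNReal ContDiff

namespace Vale.Agent.P107.LE

namespace L2

/-! ### The weight -/

/-- A smooth step. -/
noncomputable abbrev Th (y : ℝ) : ℝ := Real.smoothTransition y

lemma contDiff_Th : ContDiff ℝ 1 Th := Real.smoothTransition.contDiff

lemma hasDerivAt_Th (y : ℝ) : HasDerivAt Th (deriv Th y) y :=
  ((contDiff_Th.differentiable (by norm_num)).differentiableAt).hasDerivAt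

lemma continuous_dTh : Continuous (deriv Th) := contDiff_Th.continuous_deriv le_rfl

lemma dTh_nonneg (y : ℝ) : 0 ≤ deriv Th y := Real.smoothTransition.monotone.deriv_nonneg

/-- The weight `θ(⟨x⟩ - r - s) θ(ρ - ⟨x⟩ - s)`. -/
noncomputable def wt (r ρ s : ℝ) (x : E3) : ℝ := Th (q x - r - s) * Th (ρ - q x - s)

/-- The modulus of the derivatives of the weight. -/
noncomputable def dw (r ρ s : ℝ) (x : E3) : ℝ :=
  deriv Th (q x - r - s) * Th (ρ - q x - s) + Th (q x - r - s) * deriv Th (ρ - q x - s)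

variable {r ρ s : ℝ} {x : E3}

lemma wt_nonneg : 0 ≤ wt r ρ s x :=
  mul_nonneg (Real.smoothTransition.nonneg _) (Real.smoothTransition.nonneg _)

lemma wt_le_one : wt r ρ s x ≤ 1 :=
  mul_le_one₀ (Real.smoothTransition.le_one _) (Real.smoothTransition.nonneg _)
    (Real.smoothTransition.le_one _)

lemma dw_nonneg : 0 ≤ dw r ρ s x :=
  add_nonneg (mul_nonneg (dTh_nonneg _) (Real.smoothTransition.nonneg _))
    (mul_nonneg (Real.smoothTransition.nonneg _) (dTh_nonneg _))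

lemma norm_le_q (x : E3) : ‖x‖ ≤ q x := by
  unfold q
  apply Real.le_sqrt_of_sq_le
  linarith

lemma Th_zero {y : ℝ} (hy : y ≤ 0) : Th y = 0 := Real.smoothTransition.zero_of_nonpos hy

lemma Th_one {y : ℝ} (hy : 1 ≤ y) : Th y = 1 := Real.smoothTransition.one_of_one_le hy

lemma wt_eq_zero_out (h : ρ ≤ q x + s) : wt r ρ s x = 0 := by
  unfold wt
  rw [Th_zero (y := ρ - q x - s) (by linarith), mul_zero]

lemma wt_eq_zero_in (h : q x ≤ r + s) : wt r ρ s x = 0 := by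
  unfold wt
  rw [Th_zero (y := q x - r - s) (by linarith), zero_mul]

lemma contDiff_wt (r ρ s : ℝ) : ContDiff ℝ 1 (wt r ρ s) := by
  unfold wt
  have h1 : ContDiff ℝ 1 fun x : E3 => q x - r - s :=
    (q_contDiff.sub contDiff_const).sub contDiff_const
  have h2 : ContDiff ℝ 1 fun x : E3 => ρ - q x - s :=
    (contDiff_const.sub q_contDiff).sub contDiff_const
  exact (contDiff_Th.comp h1).mul (contDiff_Th.comp h2)

lemma continuous_wt2 (r ρ : ℝ) : Continuous fun y : ℝ × E3 => wt r ρ y.1 y.2 := by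
  unfold wt
  have h1 : Continuous fun y : ℝ × E3 => q y.2 - r - y.1 :=
    ((continuous_q.comp continuous_snd).sub continuous_const).sub continuous_fst
  have h2 : Continuous fun y : ℝ × E3 => ρ - q y.2 - y.1 :=
    (continuous_const.sub (continuous_q.comp continuous_snd)).sub continuous_fst
  exact (contDiff_Th.continuous.comp h1).mul (contDiff_Th.continuous.comp h2)

lemma continuous_dw2 (r ρ : ℝ) : Continuous fun y : ℝ × E3 => dw r ρ y.1 y.2 := by
  unfold dw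
  have h1 : Continuous fun y : ℝ × E3 => q y.2 - r - y.1 :=
    ((continuous_q.comp continuous_snd).sub continuous_const).sub continuous_fst
  have h2 : Continuous fun y : ℝ × E3 => ρ - q y.2 - y.1 :=
    (continuous_const.sub (continuous_q.comp continuous_snd)).sub continuous_fst
  exact ((continuous_dTh.comp h1).mul (contDiff_Th.continuous.comp h2)).add
    ((contDiff_Th.continuous.comp h1).mul (continuous_dTh.comp h2))

lemma wt_eq_zero_of_notMem (hs : 0 ≤ s) (hx : x ∉ Metric.closedBall (0 : E3) ρ) :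
    wt r ρ s x = 0 := by
  apply wt_eq_zero_out
  rw [mem_closedBall_zero_iff, not_le] at hx
  linarith [norm_le_q x]

lemma hasCompactSupport_wt (hs : 0 ≤ s) : HasCompactSupport (wt r ρ s) :=
  HasCompactSupport.intro (isCompact_closedBall (0 : E3) ρ) fun _ hx => wt_eq_zero_of_notMem hs hx

lemma hasDerivAt_wt (r ρ s : ℝ) (x : E3) :
    HasDerivAt (fun s => wt r ρ s x) (-dw r ρ s x) s := by
  unfold wt
  have h1 : HasDerivAt (fun s => q x - r - s) (-1) s := by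
    simpa using (hasDerivAt_id s).const_sub (q x - r)
  have h2 : HasDerivAt (fun s => ρ - q x - s) (-1) s := by
    simpa using (hasDerivAt_id s).const_sub (ρ - q x)
  have h3 := (hasDerivAt_Th (q x - r - s)).comp s h1
  have h4 := (hasDerivAt_Th (ρ - q x - s)).comp s h2
  refine (h3.mul h4).congr_deriv ?_
  simp only [Function.comp_apply]
  unfold dw
  ring

lemma fderiv_wt (r ρ s : ℝ) (x y : E3) :
    fderiv ℝ (wt r ρ s) x y
      = (deriv Th (q x - r - s) * Th (ρ - q x - s) - Th (q x - r - s) * deriv Th (ρ - q x - s))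
        * ⟪u x, y⟫ := by
  have h0 := hasFDerivAt_q x
  have h1 : HasFDerivAt (fun x => q x - r - s) ((q x)⁻¹ • innerSL ℝ x) x :=
    (h0.sub_const r).sub_const s
  have h2 : HasFDerivAt (fun x => ρ - q x - s) (-((q x)⁻¹ • innerSL ℝ x)) x :=
    (h0.const_sub ρ).sub_const s
  have h3 := (hasDerivAt_Th (q x - r - s)).comp_hasFDerivAt x h1
  have h4 := (hasDerivAt_Th (ρ - q x - s)).comp_hasFDerivAt x h2
  have h5 : HasFDerivAt (wt r ρ s) _ x := h3.mul h4
  rw [h5.fderiv]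
  have h6 : ⟪u x, y⟫ = (q x)⁻¹ * ⟪x, y⟫ := by
    unfold u
    rw [real_inner_smul_left]
  rw [h6]
  simp only [Function.comp_apply, add_apply, smul_apply, neg_apply, innerSL_apply_apply,
    smul_eq_mul]
  ring

lemma abs_fderiv_wt_le (r ρ s : ℝ) (x y : E3) : fderiv ℝ (wt r ρ s) x y ≤ dw r ρ s x * ‖y‖ := by
  rw [fderiv_wt]
  refine (le_abs_self _).trans ?_
  rw [abs_mul]
  have h1 : |⟪u x, y⟫| ≤ ‖y‖ := by
    refine (abs_real_inner_le_norm _ _).trans ?_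
    have := (norm_u_lt_one x).le
    exact mul_le_of_le_one_left (norm_nonneg _) this
  have h2 : |deriv Th (q x - r - s) * Th (ρ - q x - s)
      - Th (q x - r - s) * deriv Th (ρ - q x - s)| ≤ dw r ρ s x := by
    unfold dw
    refine (abs_sub _ _).trans ?_
    rw [abs_of_nonneg (mul_nonneg (dTh_nonneg _) (Real.smoothTransition.nonneg _)),
      abs_of_nonneg (mul_nonneg (Real.smoothTransition.nonneg _) (dTh_nonneg _))]
  exact mul_le_mul h2 h1 (abs_nonneg _) dw_nonneg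

/-! ### The energy outside of a cone -/

section main

variable {T : ℝ} {f : ℝ → E3 → E3 → ℝ} {E B : ℝ → E3 → E3}

lemma slice (hE : ContDiffOn ℝ 1 (fun z : ℝ × E3 => E z.1 z.2) (Ico 0 T ×ˢ univ)) {t : ℝ}
    (ht : t ∈ Ico 0 T) : ContDiff ℝ 1 (E t) := by
  have h1 : ContDiffOn ℝ 1 (fun z : E3 => E t z) univ :=
    hE.comp (f := fun z : E3 => (t, z)) (by fun_prop) (fun z _ => ⟨ht, mem_univ _⟩)
  exact contDiffOn_univ.1 h1

lemma ampere_fderiv (hE : ContDiffOn ℝ 1 (fun z : ℝ × E3 => E z.1 z.2) (Ico 0 T ×ˢ univ))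
    (ampere : ∀ t ∈ Ico 0 T, ∀ x,
      derivWithin (fun s => E s x) (Ico 0 T) t - curl (B t) x = - cur f t x) {t : ℝ}
    (ht : t ∈ Ioo 0 T) (x : E3) :
    fderiv ℝ (fun y : ℝ × E3 => E y.1 y.2) (t, x) (1, 0) = curl (B t) x - cur f t x := by
  have h1 := ampere t (Ioo_subset_Ico_self ht) x
  have h2 : HasDerivAt (fun s => E s x)
      (fderiv ℝ (fun y : ℝ × E3 => E y.1 y.2) (t, x) (1, 0)) t := hasDerivAt_of_slab hE ht x
  rw [derivWithin_of_mem_nhds (Ico_mem_nhds ht.1 ht.2), h2.deriv, sub_eq_iff_eq_add] at h1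
  rw [h1]
  abel

lemma faraday_fderiv (hB : ContDiffOn ℝ 1 (fun z : ℝ × E3 => B z.1 z.2) (Ico 0 T ×ˢ univ))
    (faraday : ∀ t ∈ Ico 0 T, ∀ x,
      derivWithin (fun s => B s x) (Ico 0 T) t + curl (E t) x = 0) {t : ℝ}
    (ht : t ∈ Ioo 0 T) (x : E3) :
    fderiv ℝ (fun y : ℝ × E3 => B y.1 y.2) (t, x) (1, 0) = - curl (E t) x := by
  have h1 := faraday t (Ioo_subset_Ico_self ht) x
  have h2 : HasDerivAt (fun s => B s x)
      (fderiv ℝ (fun y : ℝ × E3 => B y.1 y.2) (t, x) (1, 0)) t := hasDerivAt_of_slab hB ht x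
  rw [derivWithin_of_mem_nhds (Ico_mem_nhds ht.1 ht.2), h2.deriv] at h1
  exact eq_neg_of_add_eq_zero_left h1

/-- The energy density. -/
noncomputable def en (E B : ℝ → E3 → E3) (s : ℝ) (x : E3) : ℝ := (‖E s x‖ ^ 2 + ‖B s x‖ ^ 2) / 2

lemma en_nonneg (E B : ℝ → E3 → E3) (s : ℝ) (x : E3) : 0 ≤ en E B s x := by
  unfold en
  positivity

/-- The energy outside of the cone. -/
noncomputable def Ph (r ρ : ℝ) (E B : ℝ → E3 → E3) (s : ℝ) : ℝ := ∫ x, wt r ρ s x * en E B s x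

lemma cur_eq_zero {R t₁ : ℝ} (hR : ∀ s ∈ Icc 0 t₁, ∀ x v, f s x v ≠ 0 → ‖x‖ ≤ R ∧ ‖v‖ ≤ R)
    {s : ℝ} (hs : s ∈ Icc 0 t₁) {x : E3} (hx : R < ‖x‖) : cur f s x = 0 := by
  unfold cur
  have : ∀ v, f s x v • u v = 0 := by
    intro v
    by_contra hne
    have h1 : f s x v ≠ 0 := fun h => hne (by rw [h, zero_smul])
    exact absurd (hR s hs x v h1).1 (not_le.2 hx)
  simp [this]

lemma hasDerivAt_Ph (hE : ContDiffOn ℝ 1 (fun z : ℝ × E3 => E z.1 z.2) (Ico 0 T ×ˢ univ))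
    (hB : ContDiffOn ℝ 1 (fun z : ℝ × E3 => B z.1 z.2) (Ico 0 T ×ˢ univ)) (r ρ : ℝ) {t : ℝ}
    (ht : t ∈ Ioo 0 T) :
    HasDerivAt (Ph r ρ E B)
      (∫ x, (-dw r ρ t x * en E B t x + wt r ρ t x *
        (⟪E t x, fderiv ℝ (fun y : ℝ × E3 => E y.1 y.2) (t, x) (1, 0)⟫
          + ⟪B t x, fderiv ℝ (fun y : ℝ × E3 => B y.1 y.2) (t, x) (1, 0)⟫))) t := by
  refine hasDerivAt_integral_of_compact (μ := (volume : Measure E3)) (a := 0) (b := T)
    (F := fun s x => wt r ρ s x * en E B s x)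
    (F' := fun s x => -dw r ρ s x * en E B s x + wt r ρ s x *
        (⟪E s x, fderiv ℝ (fun y : ℝ × E3 => E y.1 y.2) (s, x) (1, 0)⟫
          + ⟪B s x, fderiv ℝ (fun y : ℝ × E3 => B y.1 y.2) (s, x) (1, 0)⟫))
    (isCompact_closedBall (0 : E3) ρ) ?_ ?_ ?_ ?_ ht
  · intro s hs x hx
    show wt r ρ s x * _ = 0
    rw [wt_eq_zero_of_notMem hs.1.le hx, zero_mul]
  · intro s hs x
    have h1 := (hasDerivAt_of_slab hE hs x).norm_sq
    have h2 := (hasDerivAt_of_slab hB hs x).norm_sq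
    refine ((hasDerivAt_wt r ρ s x).mul ((h1.add h2).div_const 2)).congr_deriv ?_
    unfold en
    simp only [Pi.add_apply]
    ring
  · intro s hs
    have h1 := (slice hE (Ioo_subset_Ico_self hs)).continuous
    have h2 := (slice hB (Ioo_subset_Ico_self hs)).continuous
    unfold en
    exact (contDiff_wt r ρ s).continuous.mul (((h1.norm.pow 2).add (h2.norm.pow 2)).div_const 2)
  · have h1 : ContinuousOn (fun y : ℝ × E3 => E y.1 y.2) (Ioo 0 T ×ˢ univ) :=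
      hE.continuousOn.mono (prod_mono Ioo_subset_Ico_self (subset_refl _))
    have h2 : ContinuousOn (fun y : ℝ × E3 => B y.1 y.2) (Ioo 0 T ×ˢ univ) :=
      hB.continuousOn.mono (prod_mono Ioo_subset_Ico_self (subset_refl _))
    have h3 : ContinuousOn (fun y : ℝ × E3 => en E B y.1 y.2) (Ioo 0 T ×ˢ univ) := by
      unfold en
      exact ((h1.norm.pow 2).add (h2.norm.pow 2)).div_const 2
    exact ((continuous_dw2 r ρ).continuousOn.neg.mul h3).add
      ((continuous_wt2 r ρ).continuousOn.mul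
        ((h1.inner (continuousOn_fderiv_of_slab hE)).add
          (h2.inner (continuousOn_fderiv_of_slab hB))))

lemma continuousOn_Ph (hE : ContDiffOn ℝ 1 (fun z : ℝ × E3 => E z.1 z.2) (Ico 0 T ×ˢ univ))
    (hB : ContDiffOn ℝ 1 (fun z : ℝ × E3 => B z.1 z.2) (Ico 0 T ×ˢ univ)) (r ρ : ℝ) :
    ContinuousOn (Ph r ρ E B) (Ico 0 T) := by
  unfold Ph
  refine continuousOn_integral_of_compact_support (isCompact_closedBall (0 : E3) ρ) ?_ ?_
  · refine (continuous_wt2 r ρ).continuousOn.mul ?_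
    show ContinuousOn (fun y : ℝ × E3 => en E B y.1 y.2) (Ico 0 T ×ˢ univ)
    unfold en
    exact ((hE.continuousOn.norm.pow 2).add (hB.continuousOn.norm.pow 2)).div_const 2
  · intro s x hs hx
    rw [wt_eq_zero_of_notMem hs.1 hx, zero_mul]

lemma hasCompactSupport_dw (r ρ : ℝ) {t : ℝ} (ht : 0 < t) : HasCompactSupport (dw r ρ t) := by
  refine HasCompactSupport.intro (isCompact_closedBall (0 : E3) ρ) fun x hx => ?_
  have h3 : HasDerivAt (fun s => wt r ρ s x) 0 t := by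
    refine (hasDerivAt_const t (0 : ℝ)).congr_of_eventuallyEq ?_
    filter_upwards [Ioi_mem_nhds ht] with s hs
    exact wt_eq_zero_of_notMem (le_of_lt hs) hx
  have := (hasDerivAt_wt r ρ t x).unique h3
  linarith only [this]

/-- The current does not contribute. -/
lemma no_current (hE : ContDiffOn ℝ 1 (fun z : ℝ × E3 => E z.1 z.2) (Ico 0 T ×ˢ univ))
    (hB : ContDiffOn ℝ 1 (fun z : ℝ × E3 => B z.1 z.2) (Ico 0 T ×ˢ univ))
    (ampere : ∀ t ∈ Ico 0 T, ∀ x,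
      derivWithin (fun s => E s x) (Ico 0 T) t - curl (B t) x = - cur f t x)
    (faraday : ∀ t ∈ Ico 0 T, ∀ x,
      derivWithin (fun s => B s x) (Ico 0 T) t + curl (E t) x = 0)
    {R t₁ : ℝ} (hR : ∀ s ∈ Icc 0 t₁, ∀ x v, f s x v ≠ 0 → ‖x‖ ≤ R ∧ ‖v‖ ≤ R)
    {r : ℝ} (hr : R + 1 ≤ r) (ρ : ℝ) {t : ℝ} (ht : t ∈ Ioo 0 T) (ht1 : t ≤ t₁) (x : E3) :
    wt r ρ t x * (⟪E t x, fderiv ℝ (fun y : ℝ × E3 => E y.1 y.2) (t, x) (1, 0)⟫
          + ⟪B t x, fderiv ℝ (fun y : ℝ × E3 => B y.1 y.2) (t, x) (1, 0)⟫)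
      = wt r ρ t x * (⟪E t x, curl (B t) x⟫ - ⟪B t x, curl (E t) x⟫) := by
  rw [ampere_fderiv hE ampere ht, faraday_fderiv hB faraday ht]
  by_cases hx : q x ≤ r + t
  · rw [wt_eq_zero_in hx, zero_mul, zero_mul]
  · push Not at hx
    have h3 : R < ‖x‖ := by
      have := q_le_one_add_norm x
      linarith only [hr, hx, this, ht.1]
    rw [cur_eq_zero hR ⟨ht.1.le, ht1⟩ h3, sub_zero, inner_neg_right]
    ring

lemma integral_flux_nonpos {F H : E3 → E3} (hF : ContDiff ℝ 1 F) (hH : ContDiff ℝ 1 H)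
    {χ δ : E3 → ℝ} (hχ : ContDiff ℝ 1 χ) (hc : HasCompactSupport χ) (hδ : Continuous δ)
    (hcd : HasCompactSupport δ) (hδ0 : ∀ x, 0 ≤ δ x)
    (hd : ∀ x y, fderiv ℝ χ x y ≤ δ x * ‖y‖) :
    ∫ x, (-δ x * ((‖F x‖ ^ 2 + ‖H x‖ ^ 2) / 2)
      + χ x * (⟪F x, curl H x⟫ - ⟪H x, curl F x⟫)) ≤ 0 := by
  have hen : Continuous fun x => (‖F x‖ ^ 2 + ‖H x‖ ^ 2) / 2 :=
    ((hF.continuous.norm.pow 2).add (hH.continuous.norm.pow 2)).div_const 2
  have i1 : Integrable fun x => -δ x * ((‖F x‖ ^ 2 + ‖H x‖ ^ 2) / 2) :=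
    (hδ.neg.mul hen).integrable_of_hasCompactSupport (HasCompactSupport.mul_right hcd.neg)
  have i2 : Integrable fun x => χ x * (⟪F x, curl H x⟫ - ⟪H x, curl F x⟫) :=
    (hχ.continuous.mul
      ((hF.continuous.inner (continuous_curl hH)).sub
        (hH.continuous.inner (continuous_curl hF)))).integrable_of_hasCompactSupport
      (HasCompactSupport.mul_right hc)
  have i3 : Integrable fun x => fderiv ℝ χ x (cross (F x) (H x)) := by
    refine Continuous.integrable_of_hasCompactSupport ?_ ?_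
    · exact (hχ.continuous_fderiv (by norm_num)).clm_apply (contDiff_cross hF hH).continuous
    · refine HasCompactSupport.intro (hc.fderiv (𝕜 := ℝ)) fun x hx => ?_
      rw [image_eq_zero_of_notMem_tsupport hx]
      simp
  rw [integral_add i1 i2, maxwell_ibp hχ hc hF hH, ← integral_add i1 i3]
  refine integral_nonpos fun x => ?_
  have h4 := hd x (cross (F x) (H x))
  have h5 : ‖cross (F x) (H x)‖ ≤ (‖F x‖ ^ 2 + ‖H x‖ ^ 2) / 2 := by
    refine (norm_cross_le _ _).trans ?_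
    nlinarith only [sq_nonneg (‖F x‖ - ‖H x‖)]
  have h6 : δ x * ‖cross (F x) (H x)‖ ≤ δ x * ((‖F x‖ ^ 2 + ‖H x‖ ^ 2) / 2) :=
    mul_le_mul_of_nonneg_left h5 (hδ0 x)
  show -δ x * ((‖F x‖ ^ 2 + ‖H x‖ ^ 2) / 2) + fderiv ℝ χ x (cross (F x) (H x)) ≤ 0
  linarith only [h4, h6]

lemma deriv_Ph_nonpos (hE : ContDiffOn ℝ 1 (fun z : ℝ × E3 => E z.1 z.2) (Ico 0 T ×ˢ univ))
    (hB : ContDiffOn ℝ 1 (fun z : ℝ × E3 => B z.1 z.2) (Ico 0 T ×ˢ univ))
    (ampere : ∀ t ∈ Ico 0 T, ∀ x,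
      derivWithin (fun s => E s x) (Ico 0 T) t - curl (B t) x = - cur f t x)
    (faraday : ∀ t ∈ Ico 0 T, ∀ x,
      derivWithin (fun s => B s x) (Ico 0 T) t + curl (E t) x = 0)
    {R t₁ : ℝ} (hR : ∀ s ∈ Icc 0 t₁, ∀ x v, f s x v ≠ 0 → ‖x‖ ≤ R ∧ ‖v‖ ≤ R)
    {r : ℝ} (hr : R + 1 ≤ r) (ρ : ℝ) {t : ℝ} (ht : t ∈ Ioo 0 T) (ht1 : t ≤ t₁) :
    ∃ d ≤ 0, HasDerivAt (Ph r ρ E B) d t := by
  refine ⟨_, ?_, hasDerivAt_Ph hE hB r ρ ht⟩
  have ht' : t ∈ Ico 0 T := Ioo_subset_Ico_self ht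
  have h1 := integral_flux_nonpos (slice hE ht') (slice hB ht') (contDiff_wt r ρ t)
    (hasCompactSupport_wt ht.1.le)
    ((continuous_dw2 r ρ).comp (by fun_prop : Continuous fun x : E3 => (t, x)))
    (hasCompactSupport_dw r ρ ht.1) (fun _ => dw_nonneg) (abs_fderiv_wt_le r ρ t)
  refine le_trans (le_of_eq ?_) h1
  congr 1
  ext x
  rw [no_current hE hB ampere faraday hR hr ρ ht ht1]
  rfl

lemma Ph_le (hE : ContDiffOn ℝ 1 (fun z : ℝ × E3 => E z.1 z.2) (Ico 0 T ×ˢ univ))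
    (hB : ContDiffOn ℝ 1 (fun z : ℝ × E3 => B z.1 z.2) (Ico 0 T ×ˢ univ))
    (ampere : ∀ t ∈ Ico 0 T, ∀ x,
      derivWithin (fun s => E s x) (Ico 0 T) t - curl (B t) x = - cur f t x)
    (faraday : ∀ t ∈ Ico 0 T, ∀ x,
      derivWithin (fun s => B s x) (Ico 0 T) t + curl (E t) x = 0)
    {R t₁ : ℝ} (hR : ∀ s ∈ Icc 0 t₁, ∀ x v, f s x v ≠ 0 → ‖x‖ ≤ R ∧ ‖v‖ ≤ R)
    (ht₁ : t₁ ∈ Ico 0 T)
    {r : ℝ} (hr : R + 1 ≤ r) (ρ : ℝ) {t : ℝ} (ht : t ∈ Icc 0 t₁) :
    Ph r ρ E B t ≤ Ph r ρ E B 0 := by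
  have hsub : Icc 0 t₁ ⊆ Ico 0 T := Icc_subset_Ico_right ht₁.2
  have h1 : AntitoneOn (Ph r ρ E B) (Icc 0 t₁) := by
    have hd : ∀ s ∈ interior (Icc 0 t₁), ∃ d ≤ 0, HasDerivAt (Ph r ρ E B) d s := by
      intro s hs
      rw [interior_Icc] at hs
      exact deriv_Ph_nonpos hE hB ampere faraday hR hr ρ ⟨hs.1, hs.2.trans ht₁.2⟩ hs.2.le
    refine antitoneOn_of_deriv_nonpos (convex_Icc _ _) ((continuousOn_Ph hE hB r ρ).mono hsub)
      (fun s hs => ?_) (fun s hs => ?_)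
    · obtain ⟨d, _, hd'⟩ := hd s hs
      exact hd'.differentiableAt.differentiableWithinAt
    · obtain ⟨d, hd0, hd'⟩ := hd s hs
      rw [hd'.deriv]
      exact hd0
  exact h1 ⟨le_rfl, ht₁.1⟩ ht ht.1

lemma integrable_wt_en (hE : ContDiffOn ℝ 1 (fun z : ℝ × E3 => E z.1 z.2) (Ico 0 T ×ˢ univ))
    (hB : ContDiffOn ℝ 1 (fun z : ℝ × E3 => B z.1 z.2) (Ico 0 T ×ˢ univ)) (r ρ : ℝ) {s : ℝ}
    (hs : s ∈ Ico 0 T) : Integrable fun x => wt r ρ s x * en E B s x := by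
  have h1 := (slice hE hs).continuous
  have h2 := (slice hB hs).continuous
  have h3 : Continuous (en E B s) := ((h1.norm.pow 2).add (h2.norm.pow 2)).div_const 2
  exact ((contDiff_wt r ρ s).continuous.mul h3).integrable_of_hasCompactSupport
    (HasCompactSupport.mul_right (hasCompactSupport_wt hs.1))

lemma tail_le (hE : ContDiffOn ℝ 1 (fun z : ℝ × E3 => E z.1 z.2) (Ico 0 T ×ˢ univ))
    (hB : ContDiffOn ℝ 1 (fun z : ℝ × E3 => B z.1 z.2) (Ico 0 T ×ˢ univ))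
    (ampere : ∀ t ∈ Ico 0 T, ∀ x,
      derivWithin (fun s => E s x) (Ico 0 T) t - curl (B t) x = - cur f t x)
    (faraday : ∀ t ∈ Ico 0 T, ∀ x,
      derivWithin (fun s => B s x) (Ico 0 T) t + curl (E t) x = 0)
    {R t₁ : ℝ} (hR : ∀ s ∈ Icc 0 t₁, ∀ x v, f s x v ≠ 0 → ‖x‖ ≤ R ∧ ‖v‖ ≤ R)
    (ht₁ : t₁ ∈ Ico 0 T) {r : ℝ} (hr : R + 1 ≤ r) {s : ℝ} (hs : s ∈ Icc 0 t₁) :
    ∫⁻ x, ENNReal.ofReal (Th (q x - r - s) * en E B s x)
      ≤ ∫⁻ x in {x : E3 | r < q x}, ENNReal.ofReal (en E B 0 x) := by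
  have hsT : s ∈ Ico 0 T := Icc_subset_Ico_right ht₁.2 hs
  have h0T : (0 : ℝ) ∈ Ico 0 T := ⟨le_rfl, ht₁.1.trans_lt ht₁.2⟩
  have hmeas : MeasurableSet {x : E3 | r < q x} :=
    measurableSet_lt measurable_const continuous_q.measurable
  have h1 : ∀ n : ℕ, ∫⁻ x, ENNReal.ofReal (wt r n s x * en E B s x)
      ≤ ∫⁻ x in {x : E3 | r < q x}, ENNReal.ofReal (en E B 0 x) := by
    intro n
    rw [← ofReal_integral_eq_lintegral_ofReal (integrable_wt_en hE hB r n hsT)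
      (ae_of_all _ fun x => mul_nonneg wt_nonneg (en_nonneg _ _ _ _))]
    refine (ENNReal.ofReal_le_ofReal (Ph_le hE hB ampere faraday hR ht₁ hr n hs)).trans ?_
    unfold Ph
    rw [ofReal_integral_eq_lintegral_ofReal (integrable_wt_en hE hB r n h0T)
      (ae_of_all _ fun x => mul_nonneg wt_nonneg (en_nonneg _ _ _ _)),
      ← lintegral_indicator hmeas]
    refine lintegral_mono fun x => ?_
    by_cases hx : r < q x
    · rw [indicator_of_mem (show x ∈ {x : E3 | r < q x} from hx)]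
      exact ENNReal.ofReal_le_ofReal (mul_le_of_le_one_left (en_nonneg _ _ _ _) wt_le_one)
    · rw [indicator_of_notMem (show x ∉ {x : E3 | r < q x} from hx)]
      push Not at hx
      rw [wt_eq_zero_in (by linarith only [hx]), zero_mul, ENNReal.ofReal_zero]
  have h2 : ∀ x, liminf (fun n : ℕ => ENNReal.ofReal (wt r n s x * en E B s x)) atTop
      = ENNReal.ofReal (Th (q x - r - s) * en E B s x) := by
    intro x
    refine Tendsto.liminf_eq ?_
    refine tendsto_const_nhds.congr' ?_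
    obtain ⟨N, hN⟩ := exists_nat_ge (q x + s + 1)
    filter_upwards [eventually_ge_atTop N] with n hn
    have hn' : (N : ℝ) ≤ n := by exact_mod_cast hn
    unfold wt
    rw [Th_one (y := n - q x - s) (by linarith only [hN, hn']), mul_one]
  calc ∫⁻ x, ENNReal.ofReal (Th (q x - r - s) * en E B s x)
      = ∫⁻ x, liminf (fun n : ℕ => ENNReal.ofReal (wt r n s x * en E B s x)) atTop := by
        simp_rw [h2]
    _ ≤ liminf (fun n : ℕ => ∫⁻ x, ENNReal.ofReal (wt r n s x * en E B s x)) atTop := by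
        refine lintegral_liminf_le' fun n => ?_
        exact (integrable_wt_en hE hB r n hsT).1.aemeasurable.ennreal_ofReal
    _ ≤ _ := by
        refine liminf_le_of_frequently_le' ?_
        exact Frequently.of_forall h1

lemma en_integrable (hE2 : MemLp (E 0) 2 volume) (hB2 : MemLp (B 0) 2 volume) :
    Integrable (en E B 0) := by
  unfold en
  exact ((integrable_norm_sq hE2).add (integrable_norm_sq hB2)).div_const 2

lemma tendsto_tail (hE2 : MemLp (E 0) 2 volume) (hB2 : MemLp (B 0) 2 volume) :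
    Tendsto (fun n : ℕ => ∫⁻ x in {x : E3 | (n : ℝ) < q x}, ENNReal.ofReal (en E B 0 x)) atTop
      (𝓝 0) := by
  have hi := en_integrable hE2 hB2
  have hmeas : ∀ n : ℕ, MeasurableSet {x : E3 | (n : ℝ) < q x} := fun n =>
    measurableSet_lt measurable_const continuous_q.measurable
  have h1 : Tendsto (fun n : ℕ => ∫ x in {x : E3 | (n : ℝ) < q x}, en E B 0 x) atTop
      (𝓝 (∫ x in ⋂ n : ℕ, {x : E3 | (n : ℝ) < q x}, en E B 0 x)) := by
    refine tendsto_setIntegral_of_antitone hmeas ?_ ⟨0, hi.integrableOn⟩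
    intro m n hmn x hx
    have hmn' : (m : ℝ) ≤ n := by exact_mod_cast hmn
    exact lt_of_le_of_lt hmn' hx
  have h2 : (⋂ n : ℕ, {x : E3 | (n : ℝ) < q x}) = ∅ := by
    rw [eq_empty_iff_forall_notMem]
    intro x hx
    obtain ⟨n, hn⟩ := exists_nat_ge (q x)
    have := mem_iInter.1 hx n
    exact absurd this (not_lt.2 hn)
  rw [h2, setIntegral_empty] at h1
  have h3 := (ENNReal.continuous_ofReal.tendsto 0).comp h1
  rw [ENNReal.ofReal_zero] at h3
  refine h3.congr fun n => ?_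
  simp only [Function.comp_apply]
  rw [ofReal_integral_eq_lintegral_ofReal hi.integrableOn (ae_of_all _ fun x => en_nonneg _ _ _ _)]

/-- Uniform smallness of the tails. -/
lemma exists_tail (hE : ContDiffOn ℝ 1 (fun z : ℝ × E3 => E z.1 z.2) (Ico 0 T ×ˢ univ))
    (hB : ContDiffOn ℝ 1 (fun z : ℝ × E3 => B z.1 z.2) (Ico 0 T ×ˢ univ))
    (hf : ∀ t ∈ Ico 0 T, ∃ R : ℝ, ∀ s ∈ Icc 0 t, ∀ x v, f s x v ≠ 0 → ‖x‖ ≤ R ∧ ‖v‖ ≤ R)
    (ampere : ∀ t ∈ Ico 0 T, ∀ x,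
      derivWithin (fun s => E s x) (Ico 0 T) t - curl (B t) x = - cur f t x)
    (faraday : ∀ t ∈ Ico 0 T, ∀ x,
      derivWithin (fun s => B s x) (Ico 0 T) t + curl (E t) x = 0)
    (hE2 : MemLp (E 0) 2 volume) (hB2 : MemLp (B 0) 2 volume) {t₁ : ℝ} (ht₁ : t₁ ∈ Ico 0 T)
    {δ : ℝ≥0∞} (hδ : 0 < δ) :
    ∃ ρ : ℝ, 0 < ρ ∧ ∀ s ∈ Icc 0 t₁,
      ∫⁻ x in (Metric.closedBall (0 : E3) ρ)ᶜ, ENNReal.ofReal (en E B s x) ≤ δ := by
  obtain ⟨R, hR⟩ := hf t₁ ht₁
  have h1 := (ENNReal.tendsto_nhds_zero.1 (tendsto_tail (E := E) (B := B) hE2 hB2)) δ hδ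
  obtain ⟨n, hn, hn2⟩ := (h1.and (eventually_ge_atTop ⌈max (R + 1) 0⌉₊)).exists
  have hn3 : R + 1 ≤ n := (le_max_left _ _).trans (Nat.ceil_le.1 hn2)
  refine ⟨n + t₁ + 1, by have := ht₁.1; positivity, fun s hs => ?_⟩
  refine le_trans ?_ ((tail_le hE hB ampere faraday hR ht₁ hn3 hs).trans hn)
  rw [← lintegral_indicator Metric.isClosed_closedBall.measurableSet.compl]
  refine lintegral_mono fun x => ?_
  by_cases hx : x ∈ Metric.closedBall (0 : E3) (n + t₁ + 1)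
  · rw [indicator_of_notMem (by simpa using hx)]
    exact zero_le
  · rw [indicator_of_mem (by simpa using hx)]
    rw [mem_closedBall_zero_iff, not_le] at hx
    have h3 := norm_le_q x
    rw [Th_one (y := q x - n - s) (by linarith only [hx, h3, hs.2]), one_mul]

lemma continuous_en (hE : ContDiffOn ℝ 1 (fun z : ℝ × E3 => E z.1 z.2) (Ico 0 T ×ˢ univ))
    (hB : ContDiffOn ℝ 1 (fun z : ℝ × E3 => B z.1 z.2) (Ico 0 T ×ˢ univ)) {s : ℝ}
    (hs : s ∈ Ico 0 T) : Continuous (en E B s) :=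
  (((slice hE hs).continuous.norm.pow 2).add ((slice hB hs).continuous.norm.pow 2)).div_const 2

lemma integrable_en_of (hE : ContDiffOn ℝ 1 (fun z : ℝ × E3 => E z.1 z.2) (Ico 0 T ×ˢ univ))
    (hB : ContDiffOn ℝ 1 (fun z : ℝ × E3 => B z.1 z.2) (Ico 0 T ×ˢ univ)) {s ρ : ℝ}
    (hs : s ∈ Ico 0 T)
    (h : ∫⁻ x in (Metric.closedBall (0 : E3) ρ)ᶜ, ENNReal.ofReal (en E B s x) ≤ 1) :
    Integrable (en E B s) := by
  have hc := continuous_en hE hB hs
  have h1 : IntegrableOn (en E B s) (Metric.closedBall (0 : E3) ρ) :=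
    hc.continuousOn.integrableOn_compact (isCompact_closedBall _ _)
  have h2 : IntegrableOn (en E B s) (Metric.closedBall (0 : E3) ρ)ᶜ := by
    refine (lintegral_ofReal_ne_top_iff_integrable hc.aestronglyMeasurable
      (ae_of_all _ fun x => en_nonneg _ _ _ _)).1 ?_
    exact (h.trans_lt ENNReal.one_lt_top).ne
  have h3 := h1.union h2
  rwa [union_compl_self, integrableOn_univ] at h3

lemma memLp_of_en (hF : Continuous (E s)) (hi : Integrable (en E B s)) :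
    MemLp (E s) 2 volume := by
  rw [memLp_two_iff_integrable_sq_norm hF.aestronglyMeasurable]
  refine (hi.const_mul 2).mono' (hF.norm.pow 2).aestronglyMeasurable (ae_of_all _ fun x => ?_)
  rw [Real.norm_of_nonneg (by positivity)]
  unfold en
  nlinarith only []

lemma two_mul_ofReal (y : ℝ) : (2 : ℝ≥0∞) * ENNReal.ofReal y = ENNReal.ofReal (2 * y) := by
  rw [ENNReal.ofReal_mul (by norm_num)]
  norm_num

/-- Convergence in `L²` from local uniform convergence and uniformly small tails. -/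
lemma tendsto_of_tail {F : ℝ → E3 → E3}
    (hF : ContinuousOn (fun z : ℝ × E3 => F z.1 z.2) (Ico 0 T ×ˢ univ)) {t t₁ : ℝ}
    (ht : t ∈ Ico 0 T) (htt : t < t₁)
    (htail : ∀ δ : ℝ≥0∞, 0 < δ → ∃ ρ : ℝ, 0 < ρ ∧ ∀ s ∈ Icc 0 t₁,
      ∫⁻ x in (Metric.closedBall (0 : E3) ρ)ᶜ, ENNReal.ofReal (‖F s x‖ ^ 2) ≤ δ) :
    Tendsto (fun s => eLpNorm (fun x => F s x - F t x) 2 volume) (𝓝[Ico 0 T] t) (𝓝 0) := by
  rw [ENNReal.tendsto_nhds_zero]
  intro ε hε
  -- reduce to a finite `ε`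
  wlog hεt : ε ≠ ⊤ generalizing ε
  · push Not at hεt
    exact Eventually.of_forall fun s => hεt ▸ le_top
  have hδ : 0 < ε ^ 2 / 8 := by
    refine ENNReal.div_pos (by positivity) (by norm_num)
  obtain ⟨ρ, hρ, hρ2⟩ := htail (ε ^ 2 / 8) hδ
  obtain ⟨_, _, hχ⟩ := exists_chi
  obtain ⟨χ, hχ1, hχc, hχ0, hχ01, hχb, -⟩ := hχ ρ hρ
  -- the inner part
  have hin : ContinuousOn (fun s => ∫ x, χ x * ‖F s x - F t x‖ ^ 2) (Ico 0 T) := by
    refine continuousOn_integral_of_compact_support hχc ?_ ?_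
    · refine ContinuousOn.mul (hχ1.continuous.comp continuous_snd).continuousOn ?_
      refine ContinuousOn.pow (ContinuousOn.norm (hF.sub ?_)) 2
      exact hF.comp (f := fun z : ℝ × E3 => (t, z.2)) (by fun_prop) (fun z _ => ⟨ht, mem_univ _⟩)
    · intro s x _ hx
      rw [image_eq_zero_of_notMem_tsupport hx, zero_mul]
  have hin0 : Tendsto (fun s => ENNReal.ofReal (∫ x, χ x * ‖F s x - F t x‖ ^ 2))
      (𝓝[Ico 0 T] t) (𝓝 0) := by
    have h1 := (ENNReal.continuous_ofReal.tendsto _).comp (hin t ht)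
    have h2 : ENNReal.ofReal (∫ x, χ x * ‖F t x - F t x‖ ^ 2) = 0 := by simp
    rw [h2] at h1
    exact h1
  have hfin : 0 < ε ^ 2 / 2 := ENNReal.div_pos (by positivity) (by norm_num)
  have hev := ENNReal.tendsto_nhds_zero.1 hin0 _ hfin
  have hev2 : ∀ᶠ s in 𝓝[Ico 0 T] t, s < t₁ := nhdsWithin_le_nhds (Iio_mem_nhds htt)
  filter_upwards [hev, hev2, self_mem_nhdsWithin] with s h1 h2 hs
  have hFs : Continuous (F s) := by
    have : ContinuousOn (fun x : E3 => F s x) univ :=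
      hF.comp (f := fun x : E3 => (s, x)) (by fun_prop) (fun x _ => ⟨hs, mem_univ _⟩)
    exact continuousOn_univ.1 this
  have hFt : Continuous (F t) := by
    have : ContinuousOn (fun x : E3 => F t x) univ :=
      hF.comp (f := fun x : E3 => (t, x)) (by fun_prop) (fun x _ => ⟨ht, mem_univ _⟩)
    exact continuousOn_univ.1 this
  have hs1 : s ∈ Icc 0 t₁ := ⟨hs.1, h2.le⟩
  have ht1 : t ∈ Icc 0 t₁ := ⟨ht.1, htt.le⟩
  have key : eLpNorm (fun x => F s x - F t x) 2 volume ^ 2 ≤ ε ^ 2 := by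
    rw [← lintegral_norm_sq, ← lintegral_add_compl _
      (Metric.isClosed_closedBall (x := (0 : E3)) (ε := ρ)).measurableSet]
    have a1 : ∫⁻ x in Metric.closedBall (0 : E3) ρ, ENNReal.ofReal (‖F s x - F t x‖ ^ 2)
        ≤ ε ^ 2 / 2 := by
      refine le_trans ?_ h1
      have hint : Integrable fun x => χ x * ‖F s x - F t x‖ ^ 2 :=
        (hχ1.continuous.mul ((hFs.sub hFt).norm.pow 2)).integrable_of_hasCompactSupport
          (HasCompactSupport.mul_right hχc)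
      rw [ofReal_integral_eq_lintegral_ofReal hint
        (ae_of_all _ fun x => mul_nonneg (hχ0 x) (sq_nonneg _)),
        ← lintegral_indicator Metric.isClosed_closedBall.measurableSet]
      refine lintegral_mono fun x => ?_
      by_cases hx : x ∈ Metric.closedBall (0 : E3) ρ
      · rw [indicator_of_mem hx, hχb x (by simpa using hx), one_mul]
      · rw [indicator_of_notMem hx]
        exact zero_le
    have a2 : ∫⁻ x in (Metric.closedBall (0 : E3) ρ)ᶜ, ENNReal.ofReal (‖F s x - F t x‖ ^ 2)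
        ≤ 2 * (ε ^ 2 / 8) + 2 * (ε ^ 2 / 8) := by
      calc _ ≤ ∫⁻ x in (Metric.closedBall (0 : E3) ρ)ᶜ,
            (2 * ENNReal.ofReal (‖F s x‖ ^ 2) + 2 * ENNReal.ofReal (‖F t x‖ ^ 2)) := by
            refine lintegral_mono fun x => ?_
            rw [two_mul_ofReal, two_mul_ofReal,
              ← ENNReal.ofReal_add (by (clear * -; positivity)) (by (clear * -; positivity))]
            apply ENNReal.ofReal_le_ofReal
            have e3 := norm_sub_le (F s x) (F t x)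
            have e4 : ‖F s x - F t x‖ ^ 2 ≤ (‖F s x‖ + ‖F t x‖) ^ 2 := by (clear * - e3; gcongr)
            nlinarith only [e4, sq_nonneg (‖F s x‖ - ‖F t x‖)]
        _ = 2 * (∫⁻ x in (Metric.closedBall (0 : E3) ρ)ᶜ, ENNReal.ofReal (‖F s x‖ ^ 2))
            + 2 * ∫⁻ x in (Metric.closedBall (0 : E3) ρ)ᶜ, ENNReal.ofReal (‖F t x‖ ^ 2) := by
            have m1 : Measurable fun x => ENNReal.ofReal (‖F s x‖ ^ 2) :=
              (hFs.norm.pow 2).measurable.ennreal_ofReal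
            have m2 : Measurable fun x => ENNReal.ofReal (‖F t x‖ ^ 2) :=
              (hFt.norm.pow 2).measurable.ennreal_ofReal
            rw [lintegral_add_left (m1.const_mul 2), lintegral_const_mul _ m1,
              lintegral_const_mul _ m2]
        _ ≤ _ := by
            gcongr
            · exact hρ2 s hs1
            · exact hρ2 t ht1
    refine (add_le_add a1 a2).trans (le_of_eq ?_)
    have hne : ε ^ 2 ≠ ⊤ := ENNReal.pow_ne_top hεt
    have e1 : (2 : ℝ≥0∞) * (ε ^ 2 / 8) + 2 * (ε ^ 2 / 8) = ε ^ 2 / 2 := by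
      rw [← mul_add, ← ENNReal.add_div, ← two_mul, ← mul_div_assoc, ← mul_assoc]
      norm_num
      rw [ENNReal.div_eq_div_iff (by norm_num) (by norm_num) (by norm_num) (by norm_num)]
      ring
    rw [e1, ENNReal.add_halves]
  exact (ENNReal.pow_le_pow_left_iff (by norm_num)).1 key

end main

end L2

open L2

/-- N. The fields stay in `L²`. -/
theorem l2_fields {T : ℝ} {f : ℝ → E3 → E3 → ℝ} {E B : ℝ → E3 → E3} (hT : 0 < T)
    (hE : ContDiffOn ℝ 1 (fun z : ℝ × E3 => E z.1 z.2) (Ico 0 T ×ˢ univ))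
    (hB : ContDiffOn ℝ 1 (fun z : ℝ × E3 => B z.1 z.2) (Ico 0 T ×ˢ univ))
    (hf : ∀ t ∈ Ico 0 T, ∃ R : ℝ, ∀ s ∈ Icc 0 t, ∀ x v, f s x v ≠ 0 → ‖x‖ ≤ R ∧ ‖v‖ ≤ R)
    (ampere : ∀ t ∈ Ico 0 T, ∀ x,
      derivWithin (fun s => E s x) (Ico 0 T) t - curl (B t) x = - cur f t x)
    (faraday : ∀ t ∈ Ico 0 T, ∀ x,
      derivWithin (fun s => B s x) (Ico 0 T) t + curl (E t) x = 0)
    (hE2 : MemLp (E 0) 2 volume) (hB2 : MemLp (B 0) 2 volume) :
    ∀ t ∈ Ico 0 T, MemLp (E t) 2 volume ∧ MemLp (B t) 2 volume ∧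
      Tendsto (fun s => eLpNorm (fun x => E s x - E t x) 2 volume) (𝓝[Ico 0 T] t) (𝓝 0) ∧
      Tendsto (fun s => eLpNorm (fun x => B s x - B t x) 2 volume) (𝓝[Ico 0 T] t) (𝓝 0) := by
  intro t ht
  obtain ⟨t₁, htt, ht₁T⟩ := exists_between ht.2
  have ht₁ : t₁ ∈ Ico 0 T := ⟨ht.1.trans htt.le, ht₁T⟩
  have htail : ∀ δ : ℝ≥0∞, 0 < δ → ∃ ρ : ℝ, 0 < ρ ∧ ∀ s ∈ Icc 0 t₁,
      ∫⁻ x in (Metric.closedBall (0 : E3) ρ)ᶜ, ENNReal.ofReal (en E B s x) ≤ δ :=
    fun δ hδ => exists_tail hE hB hf ampere faraday hE2 hB2 ht₁ hδ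
  obtain ⟨ρ, _, hρ⟩ := htail 1 one_pos
  have hi : Integrable (en E B t) := integrable_en_of hE hB ht (hρ t ⟨ht.1, htt.le⟩)
  have hsym : ∀ s, en B E s = en E B s := by
    intro s
    ext x
    unfold en
    rw [add_comm]
  have hpart : ∀ {F G : ℝ → E3 → E3}, (∀ s x, en F G s x = en E B s x) → ∀ δ : ℝ≥0∞, 0 < δ →
      ∃ ρ : ℝ, 0 < ρ ∧ ∀ s ∈ Icc 0 t₁,
        ∫⁻ x in (Metric.closedBall (0 : E3) ρ)ᶜ, ENNReal.ofReal (‖F s x‖ ^ 2) ≤ δ := by
    intro F G hFG δ hδ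
    have hδ' : 0 < δ / 2 := ENNReal.div_pos hδ.ne' (by norm_num)
    obtain ⟨ρ, h0, h1⟩ := htail (δ / 2) hδ'
    refine ⟨ρ, h0, fun s hs => ?_⟩
    calc _ ≤ ∫⁻ x in (Metric.closedBall (0 : E3) ρ)ᶜ, 2 * ENNReal.ofReal (en E B s x) := by
          refine lintegral_mono fun x => ?_
          rw [two_mul_ofReal, ← hFG s x]
          apply ENNReal.ofReal_le_ofReal
          unfold en
          nlinarith only []
      _ = 2 * ∫⁻ x in (Metric.closedBall (0 : E3) ρ)ᶜ, ENNReal.ofReal (en E B s x) := by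
          rw [lintegral_const_mul' _ _ (by norm_num)]
      _ ≤ 2 * (δ / 2) := by
          gcongr
          exact h1 s hs
      _ = δ := ENNReal.mul_div_cancel (by norm_num) (by norm_num)
  refine ⟨memLp_of_en (slice hE ht).continuous hi,
    memLp_of_en (E := B) (B := E) (slice hB ht).continuous (by rw [hsym]; exact hi), ?_, ?_⟩
  · exact tendsto_of_tail hE.continuousOn ht htt (hpart (G := B) fun _ _ => rfl)
  · exact tendsto_of_tail hB.continuousOn ht htt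
      (hpart (G := E) fun s x => congrFun (hsym s) x)

end Vale.Agent.P107.LE
end
end
end

section

section

attribute [-instance] ProperSMul.toContinuousSMul IsTopologicalTorsor.toContinuousSMul
  IdemSemiring.toCanonicallyOrderedAdd IdemSemiring.toMulLeftMono IdemSemiring.toMulRightMono
  AddQuantale.instAddLeftMono AddQuantale.instAddRightMono Quantale.instMulLeftMono
  Quantale.instMulRightMono FiniteDimensional.rclike_to_real IsScalarTower.complexToReal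
  FiniteDimensional.complexToReal

section

open MeasureTheory Set Filter Topology
open scoped RealInnerProductSpace ENNReal NNReal ContDiff

namespace Vale.Agent.P107.LE

variable {f₀ : E3 × E3 → ℝ} {E₀ B₀ : E3 → E3} {fL : ℝ × E3 × E3 → ℝ} {EL BL : ℝ × E3 → E3}

/-- C4. The limit. -/
theorem exists_limit (hD : Dat f₀ E₀ B₀) (hL : Layer f₀ E₀ B₀ fL EL BL)
    {f : ℕ → ℝ × E3 × E3 → ℝ} {E B : ℕ → ℝ × E3 → E3}
    (h : ∀ n : ℕ, EpsSol fL EL BL (1 / (n + 1)) (f n) (E n) (B n)) {T : ℝ} (hT : 0 < T)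
    (hb : ∀ T' < T, ∃ P : ℝ, ∀ᶠ n in atTop, MB P T' (f n)) :
    ∃ (g : ℝ → E3 → E3 → ℝ) (E' B' : ℝ → E3 → E3), IsClassicalSolution T g E' B' ∧
      (∀ x v, g 0 x v = f₀ (x, v)) ∧ E' 0 = E₀ ∧ B' 0 = B₀ ∧
      ∀ t x v, 0 ≤ t → t < T → Tendsto (fun n => f n (t, x, v)) atTop (𝓝 (g t x v)) ∧
        Tendsto (fun n => E n (t, x)) atTop (𝓝 (E' t x)) ∧
        Tendsto (fun n => B n (t, x)) atTop (𝓝 (B' t x)) := by
  obtain ⟨g, E', B', hP, h0, hE0, hB0, hlim⟩ := exists_limit_core hD hL (diff_bound hD hL)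
    (fun T P η hη => diff_fderiv hD hL T P hη) (grad_bound hD hL) (fun hε W hW => dl_SF hε hW)
    (fun hε W hW p hp C hC => dl_close hε hW hp hC)
    (fun hE hB f hf hv k t₁ t₂ h12 hk x v => supp_growth hE hB hf hv h12 hk x v) h hT hb
  have hl := l2_fields hT hP.E_contDiff hP.B_contDiff hP.compact_support hP.ampere hP.faraday
    (by rw [hE0]; exact hD.E_L2) (by rw [hB0]; exact hD.B_L2)
  refine ⟨g, E', B', ⟨hP.f_nonneg, hP.f_contDiff, hP.E_contDiff, hP.B_contDiff, hP.vlasov,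
    hP.ampere, hP.faraday, hP.gauss, hP.gauss_mag, fun t ht => (hl t ht).1,
    fun t ht => (hl t ht).2.1, fun t ht => (hl t ht).2.2.1, fun t ht => (hl t ht).2.2.2,
    hP.compact_support⟩, h0, hE0, hB0, hlim⟩

end Vale.Agent.P107.LE
end
end
end

section

section

attribute [-instance] ProperSMul.toContinuousSMul IsTopologicalTorsor.toContinuousSMul
  IdemSemiring.toCanonicallyOrderedAdd IdemSemiring.toMulLeftMono IdemSemiring.toMulRightMono
  AddQuantale.instAddLeftMono AddQuantale.instAddRightMono Quantale.instMulLeftMono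
  Quantale.instMulRightMono FiniteDimensional.rclike_to_real IsScalarTower.complexToReal
  FiniteDimensional.complexToReal

section

/-!
Momentum bounds of the limit give momentum bounds of the approximations. The closeness of the
level sets and the gradient bound enter as hypotheses; see `LE/MBLimit.lean`.
-/

open MeasureTheory Set Filter Topology
open scoped RealInnerProductSpace ENNReal NNReal ContDiff

namespace Vale.Agent.P107.LE

/-- A bound of the full derivative on the time slice gives a Lipschitz bound on the slice. -/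
theorem slice_lipschitz {f : ℝ × E3 × E3 → ℝ} (hf : ContDiff ℝ ∞ f) {t C : ℝ}
    (hC : ∀ z, ‖fderiv ℝ f (t, z)‖ ≤ C) (z w : E3 × E3) :
    |f (t, z) - f (t, w)| ≤ C * ‖z - w‖ := by
  have hconv : Convex ℝ (({t} : Set ℝ) ×ˢ (univ : Set (E3 × E3))) :=
    (convex_singleton t).prod convex_univ
  have h1 := hconv.norm_image_sub_le_of_norm_hasFDerivWithin_le (f := f) (f' := fderiv ℝ f)
    (C := C) (x := (t, w)) (y := (t, z))
    (fun p _ => ((hf.differentiable (by simp)) p).hasFDerivAt.hasFDerivWithinAt)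
    (fun p hp => by
      obtain ⟨s, y⟩ := p
      obtain ⟨rfl, -⟩ : s = t ∧ True := by simpa using hp
      exact hC y)
    (by simp) (by simp)
  rw [Real.norm_eq_abs] at h1
  refine h1.trans (le_of_eq ?_)
  congr 1
  have e1 : ((t, z) : ℝ × E3 × E3) - (t, w) = ((0 : ℝ), z - w) := by
    rw [Prod.mk_sub_mk, sub_self]
  rw [e1, Prod.norm_mk, norm_zero, max_eq_right (norm_nonneg _)]

variable {fL : ℝ × E3 × E3 → ℝ} {EL BL : ℝ × E3 → E3}

theorem MB_of_limit_aux {f : ℕ → ℝ × E3 × E3 → ℝ} {E B : ℕ → ℝ × E3 → E3}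
    (h : ∀ n : ℕ, EpsSol fL EL BL (1 / (n + 1)) (f n) (E n) (B n)) {T P : ℝ}
    (hclose : ∃ C : ℝ, 0 ≤ C ∧ ∀ ε ε' f E B f' E' B', 0 < ε → 0 < ε' →
      EpsSol fL EL BL ε f E B → EpsSol fL EL BL ε' f' E' B' → ∀ T' ≤ T, MB P T' f →
      MB P T' f' → ∀ t x v, 0 ≤ t → t ≤ T' → ∃ x' v', f' (t, x', v') = f (t, x, v) ∧
        ‖x' - x‖ ≤ C * (ε + ε') ∧ ‖v' - v‖ ≤ C * (ε + ε'))
    (hgrad : ∃ C : ℝ, 0 ≤ C ∧ ∀ ε f E B, 0 < ε → EpsSol fL EL BL ε f E B → ∀ T' ≤ T,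
      MB P T' f → ∀ t, 0 ≤ t → t ≤ T' →
        (∀ x, ‖fderiv ℝ E (t, x)‖ + ‖fderiv ℝ B (t, x)‖ ≤ C) ∧ ∀ z, ‖fderiv ℝ f (t, z)‖ ≤ C)
    (hb : ∀ᶠ n in atTop, MB P T (f n)) {g : ℝ → E3 → E3 → ℝ}
    (hg : ∀ t x v, 0 ≤ t → t ≤ T → Tendsto (fun n => f n (t, x, v)) atTop (𝓝 (g t x v)))
    {R : ℝ} (hR : ∀ t x v, 0 ≤ t → t ≤ T → g t x v ≠ 0 → ‖v‖ ≤ R) :
    ∀ᶠ n in atTop, MB (R + 1) T (f n) := by
  have hε : ∀ n : ℕ, (0 : ℝ) < 1 / (n + 1) := fun n => by positivity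
  have hε1 : ∀ n : ℕ, (1 : ℝ) / (n + 1) ≤ 1 := fun n => by
    rw [div_le_one (by positivity)]
    have : (0 : ℝ) ≤ n := Nat.cast_nonneg n
    linarith
  obtain ⟨C, hC, hclose⟩ := hclose
  obtain ⟨K, hK, hgrad⟩ := hgrad
  obtain ⟨N, hN⟩ := eventually_atTop.mp hb
  have hlim0 : Tendsto (fun n : ℕ => C * (1 / ((n : ℝ) + 1))) atTop (𝓝 0) := by
    have := tendsto_one_div_add_atTop_nhds_zero_nat (𝕜 := ℝ)
    simpa using this.const_mul C
  have hsmall : ∀ᶠ n : ℕ in atTop, C * (1 / ((n : ℝ) + 1)) < 1 :=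
    hlim0.eventually (gt_mem_nhds one_pos)
  filter_upwards [hsmall, eventually_ge_atTop N] with n hn hnN
  intro t x v ht0 ht hne
  -- points on the level sets of the other approximations
  have hpts : ∀ m : ℕ, N ≤ m → ∃ z : E3 × E3, f m (t, z) = f n (t, x, v) ∧
      ‖z.1 - x‖ ≤ C * (1 / ((n : ℝ) + 1) + 1 / ((m : ℝ) + 1)) ∧
      ‖z.2 - v‖ ≤ C * (1 / ((n : ℝ) + 1) + 1 / ((m : ℝ) + 1)) := by
    intro m hm
    obtain ⟨x', v', h1, h2, h3⟩ := hclose _ _ _ _ _ _ _ _ (hε n) (hε m) (h n) (h m) T le_rfl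
      (hN n hnN) (hN m hm) t x v ht0 ht
    exact ⟨(x', v'), h1, h2, h3⟩
  choose z hz1 hz2 hz3 using fun m : ℕ => hpts (m + N) (Nat.le_add_left _ _)
  -- compactness
  have hzb : ∀ m, z m ∈ Metric.closedBall ((x, v) : E3 × E3) (2 * C) := by
    intro m
    rw [Metric.mem_closedBall, dist_eq_norm]
    have hle : C * (1 / ((n : ℝ) + 1) + 1 / (((m + N : ℕ) : ℝ) + 1)) ≤ 2 * C := by
      have h1 := hε1 n
      have h2 := hε1 (m + N)
      nlinarith only [hC, h1, h2]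
    rw [Prod.norm_def]
    exact max_le ((hz2 m).trans hle) ((hz3 m).trans hle)
  obtain ⟨zs, -, φ, hφ, hconv⟩ :=
    (isCompact_closedBall ((x, v) : E3 × E3) (2 * C)).tendsto_subseq hzb
  -- the momentum of the limit point
  have hφN : Tendsto (fun m => φ m + N) atTop atTop :=
    (tendsto_add_atTop_nat N).comp hφ.tendsto_atTop
  have hvs : ‖zs.2 - v‖ ≤ C * (1 / ((n : ℝ) + 1)) := by
    have h1 : Tendsto (fun m => ‖(z (φ m)).2 - v‖) atTop (𝓝 ‖zs.2 - v‖) :=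
      (((continuous_snd.tendsto zs).comp hconv).sub_const v).norm
    have h2 : Tendsto (fun m : ℕ => C * (1 / ((n : ℝ) + 1) + 1 / (((φ m + N : ℕ) : ℝ) + 1)))
        atTop (𝓝 (C * (1 / ((n : ℝ) + 1) + 0))) := by
      refine Tendsto.const_mul C (Tendsto.const_add _ ?_)
      exact (tendsto_one_div_add_atTop_nhds_zero_nat (𝕜 := ℝ)).comp hφN
    have h3 := le_of_tendsto_of_tendsto' h1 h2 fun m => hz3 (φ m)
    rwa [add_zero] at h3
  -- the value of the limit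
  have hval : Tendsto (fun m => f (φ m + N) (t, zs)) atTop (𝓝 (f n (t, x, v))) := by
    have h1 : ∀ m, |f (φ m + N) (t, zs) - f n (t, x, v)| ≤ K * ‖zs - z (φ m)‖ := by
      intro m
      rw [← hz1 (φ m)]
      refine slice_lipschitz (h (φ m + N)).sd.smooth ?_ zs (z (φ m))
      exact (hgrad _ _ _ _ (hε (φ m + N)) (h (φ m + N)) T le_rfl
        (hN _ (Nat.le_add_left _ _)) t ht0 ht).2
    have h2 : Tendsto (fun m => K * ‖zs - z (φ m)‖) atTop (𝓝 0) := by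
      have : Tendsto (fun m => ‖zs - z (φ m)‖) atTop (𝓝 ‖zs - zs‖) :=
        (tendsto_const_nhds.sub hconv).norm
      rw [sub_self, norm_zero] at this
      simpa using this.const_mul K
    rw [tendsto_iff_norm_sub_tendsto_zero]
    exact squeeze_zero (fun m => norm_nonneg _) h1 h2
  have hg' : Tendsto (fun m => f (φ m + N) (t, zs)) atTop (𝓝 (g t zs.1 zs.2)) :=
    (hg t zs.1 zs.2 ht0 ht).comp hφN
  have heq := tendsto_nhds_unique hval hg'
  have hv := hR t zs.1 zs.2 ht0 ht (by rw [← heq]; exact hne)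
  have e1 : v = zs.2 - (zs.2 - v) := by abel
  calc ‖v‖ = ‖zs.2 - (zs.2 - v)‖ := by rw [← e1]
    _ ≤ ‖zs.2‖ + ‖zs.2 - v‖ := norm_sub_le _ _
    _ ≤ R + 1 := by linarith only [hn, hvs, hv]

end Vale.Agent.P107.LE
end
end
end

section

section

attribute [-instance] ProperSMul.toContinuousSMul IsTopologicalTorsor.toContinuousSMul
  IdemSemiring.toCanonicallyOrderedAdd IdemSemiring.toMulLeftMono IdemSemiring.toMulRightMono
  AddQuantale.instAddLeftMono AddQuantale.instAddRightMono Quantale.instMulLeftMono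
  Quantale.instMulRightMono FiniteDimensional.rclike_to_real IsScalarTower.complexToReal
  FiniteDimensional.complexToReal

section

/-!
Momentum bounds of the limit give momentum bounds of the approximations.
-/

open MeasureTheory Set Filter Topology
open scoped RealInnerProductSpace ENNReal NNReal ContDiff

namespace Vale.Agent.P107.LE

variable {f₀ : E3 × E3 → ℝ} {E₀ B₀ : E3 → E3} {fL : ℝ × E3 × E3 → ℝ} {EL BL : ℝ × E3 → E3}

/-- C5. Momentum bounds of the limit give momentum bounds of the approximations. -/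
theorem MB_of_limit (hD : Dat f₀ E₀ B₀) (hL : Layer f₀ E₀ B₀ fL EL BL)
    {f : ℕ → ℝ × E3 × E3 → ℝ} {E B : ℕ → ℝ × E3 → E3}
    (h : ∀ n : ℕ, EpsSol fL EL BL (1 / (n + 1)) (f n) (E n) (B n)) {T P : ℝ} (hT : 0 ≤ T)
    (hb : ∀ᶠ n in atTop, MB P T (f n)) {g : ℝ → E3 → E3 → ℝ}
    (hg : ∀ t x v, 0 ≤ t → t ≤ T → Tendsto (fun n => f n (t, x, v)) atTop (𝓝 (g t x v)))
    {R : ℝ} (hR : ∀ t x v, 0 ≤ t → t ≤ T → g t x v ≠ 0 → ‖v‖ ≤ R) :
    ∀ᶠ n in atTop, MB (R + 1) T (f n) := by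
  exact MB_of_limit_aux h (eps_level_close hD hL T P) (grad_bound hD hL T P) hb hg hR

end Vale.Agent.P107.LE
end
end
end

section

section

attribute [-instance] ProperSMul.toContinuousSMul IsTopologicalTorsor.toContinuousSMul
  IdemSemiring.toCanonicallyOrderedAdd IdemSemiring.toMulLeftMono IdemSemiring.toMulRightMono
  AddQuantale.instAddLeftMono AddQuantale.instAddRightMono Quantale.instMulLeftMono
  Quantale.instMulRightMono FiniteDimensional.rclike_to_real IsScalarTower.complexToReal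
  FiniteDimensional.complexToReal

section

/-!
Global existence from the a priori bound.
-/

open MeasureTheory Set Filter Topology
open scoped RealInnerProductSpace ENNReal NNReal ContDiff

namespace Vale.Agent.P107.LE

theorem global_existence (hA : APriori) {f₀ : E3 × E3 → ℝ} {E₀ B₀ : E3 → E3}
    (hD : Dat f₀ E₀ B₀) : ∃ (f : ℝ → E3 → E3 → ℝ) (E B : ℝ → E3 → E3),
    (∀ T, 0 < T → IsClassicalSolution T f E B) ∧ (∀ x v, f 0 x v = f₀ (x, v)) ∧
      E 0 = E₀ ∧ B 0 = B₀ := by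
  obtain ⟨fL, EL, BL, hL⟩ := exists_layer hD
  exact global_existence_aux hA hD hL (fun ε hε => exists_eps hD hL hε) (extend_MB hD hL)
    (fun f E B h T hT hb => exists_limit hD hL h hT hb)
    (fun f E B h T P hT hb g hg R hR => MB_of_limit hD hL h hT hb hg hR)

end Vale.Agent.P107.LE
end
end
end

section

section

attribute [-instance] ProperSMul.toContinuousSMul IsTopologicalTorsor.toContinuousSMul
  IdemSemiring.toCanonicallyOrderedAdd IdemSemiring.toMulLeftMono IdemSemiring.toMulRightMono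
  AddQuantale.instAddLeftMono AddQuantale.instAddRightMono Quantale.instMulLeftMono
  Quantale.instMulRightMono FiniteDimensional.rclike_to_real IsScalarTower.complexToReal
  FiniteDimensional.complexToReal

section

/-!
Velocity integral of the cone kernel.
-/

open MeasureTheory Set Filter Topology
open scoped RealInnerProductSpace ENNReal NNReal

namespace Vale.Agent.P107

end Vale.Agent.P107
end
end
end

section

section

attribute [-instance] ProperSMul.toContinuousSMul IsTopologicalTorsor.toContinuousSMul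
  IdemSemiring.toCanonicallyOrderedAdd IdemSemiring.toMulLeftMono IdemSemiring.toMulRightMono
  AddQuantale.instAddLeftMono AddQuantale.instAddRightMono Quantale.instMulLeftMono
  Quantale.instMulRightMono FiniteDimensional.rclike_to_real IsScalarTower.complexToReal
  FiniteDimensional.complexToReal

section

/-!
The momentum radius, the sup bound of the density, and the energy gain along characteristics.
-/

open MeasureTheory Set Filter Topology
open scoped RealInnerProductSpace ENNReal NNReal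

namespace Vale.Agent.P107

variable {T : ℝ} {f : ℝ → E3 → E3 → ℝ} {E B : ℝ → E3 → E3}

end Vale.Agent.P107
end
end
end

section

section

attribute [-instance] ProperSMul.toContinuousSMul IsTopologicalTorsor.toContinuousSMul
  IdemSemiring.toCanonicallyOrderedAdd IdemSemiring.toMulLeftMono IdemSemiring.toMulRightMono
  AddQuantale.instAddLeftMono AddQuantale.instAddRightMono Quantale.instMulLeftMono
  Quantale.instMulRightMono FiniteDimensional.rclike_to_real IsScalarTower.complexToReal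
  FiniteDimensional.complexToReal

section

/-!
Integration along a path of the quadratic retarded kernel.
-/

open MeasureTheory Set Filter Topology
open scoped RealInnerProductSpace ENNReal NNReal

namespace Vale.Agent.P107

end Vale.Agent.P107
end
end
end

section

section

attribute [-instance] ProperSMul.toContinuousSMul IsTopologicalTorsor.toContinuousSMul
  IdemSemiring.toCanonicallyOrderedAdd IdemSemiring.toMulLeftMono IdemSemiring.toMulRightMono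
  AddQuantale.instAddLeftMono AddQuantale.instAddRightMono Quantale.instMulLeftMono
  Quantale.instMulRightMono FiniteDimensional.rclike_to_real IsScalarTower.complexToReal
  FiniteDimensional.complexToReal

section

/-!
The main integral inequality for the particle energy.
-/

open MeasureTheory Set Filter Topology
open scoped RealInnerProductSpace ENNReal NNReal

namespace Vale.Agent.P107

variable {T : ℝ} {f : ℝ → E3 → E3 → ℝ} {E B : ℝ → E3 → E3}

end Vale.Agent.P107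
end
end
end

section

section

attribute [-instance] ProperSMul.toContinuousSMul IsTopologicalTorsor.toContinuousSMul
  IdemSemiring.toCanonicallyOrderedAdd IdemSemiring.toMulLeftMono IdemSemiring.toMulRightMono
  AddQuantale.instAddLeftMono AddQuantale.instAddRightMono Quantale.instMulLeftMono
  Quantale.instMulRightMono FiniteDimensional.rclike_to_real IsScalarTower.complexToReal
  FiniteDimensional.complexToReal

section

/-!
Gronwall argument and the abstract continuation criterion.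
-/

open MeasureTheory Set Filter Topology
open scoped RealInnerProductSpace ENNReal NNReal

namespace Vale.Agent.P107

variable {T : ℝ} {f : ℝ → E3 → E3 → ℝ} {E B : ℝ → E3 → E3}

end Vale.Agent.P107
end
end
end

section

section

attribute [-instance] ProperSMul.toContinuousSMul IsTopologicalTorsor.toContinuousSMul
  IdemSemiring.toCanonicallyOrderedAdd IdemSemiring.toMulLeftMono IdemSemiring.toMulRightMono
  AddQuantale.instAddLeftMono AddQuantale.instAddRightMono Quantale.instMulLeftMono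
  Quantale.instMulRightMono FiniteDimensional.rclike_to_real IsScalarTower.complexToReal
  FiniteDimensional.complexToReal

section

/-!
Interpolation bounds for the cone density.
-/

open MeasureTheory Set Filter Topology
open scoped RealInnerProductSpace ENNReal NNReal

namespace Vale.Agent.P107

variable {T : ℝ} {f : ℝ → E3 → E3 → ℝ} {E B : ℝ → E3 → E3}

end Vale.Agent.P107
end
end
end

section

section

attribute [-instance] ProperSMul.toContinuousSMul IsTopologicalTorsor.toContinuousSMul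
  IdemSemiring.toCanonicallyOrderedAdd IdemSemiring.toMulLeftMono IdemSemiring.toMulRightMono
  AddQuantale.instAddLeftMono AddQuantale.instAddRightMono Quantale.instMulLeftMono
  Quantale.instMulRightMono FiniteDimensional.rclike_to_real IsScalarTower.complexToReal
  FiniteDimensional.complexToReal

section

/-!
Continuation criteria in terms of the momentum radius and of moments of the density.
-/

open MeasureTheory Set Filter Topology
open scoped RealInnerProductSpace ENNReal NNReal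

namespace Vale.Agent.P107

variable {T : ℝ} {f : ℝ → E3 → E3 → ℝ} {E B : ℝ → E3 → E3}

end Vale.Agent.P107
end
end
end

section

section

attribute [-instance] ProperSMul.toContinuousSMul IsTopologicalTorsor.toContinuousSMul
  IdemSemiring.toCanonicallyOrderedAdd IdemSemiring.toMulLeftMono IdemSemiring.toMulRightMono
  AddQuantale.instAddLeftMono AddQuantale.instAddRightMono Quantale.instMulLeftMono
  Quantale.instMulRightMono FiniteDimensional.rclike_to_real IsScalarTower.complexToReal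
  FiniteDimensional.complexToReal

section

/-!
The lower bound for the blow-up rate.
-/

open MeasureTheory Set Filter Topology
open scoped RealInnerProductSpace ENNReal NNReal

namespace Vale.Agent.P107

variable {T : ℝ} {f : ℝ → E3 → E3 → ℝ} {E B : ℝ → E3 → E3}

end Vale.Agent.P107
end
end
end
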